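import Crest.Agent.IM.VM

/-! Bits, bit-sliced words, mixed radix addresses, boxes and tensor-product operators. -/

set_option autoImplicit false
open Finset

namespace Crest.Agent.IM

/-! ### bits and words -/

/-- The `j`-th bit of a list (from the top). -/
def bit (L : List Bool) (j : ℕ) : Bool := L.getD j false

theorem bit_append_left {L : List Bool} (M : List Bool) {j : ℕ} (h : j < L.length) :
    bit (L ++ M) j = bit L j := by
  simp [bit, List.getD_eq_getElem?_getD, List.getElem?_append_left h]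

theorem bit_append_right {L : List Bool} (M : List Bool) {n : ℕ} (h : L.length = n) (j : ℕ) :
    bit (L ++ M) (n + j) = bit M j := by
  subst h
  simp [bit, List.getD_eq_getElem?_getD, List.getElem?_append_right]

theorem bit_drop (L : List Bool) (n j : ℕ) : bit (L.drop n) j = bit L (n + j) := by
  simp [bit, List.getD_eq_getElem?_getD]

theorem bit_take (L : List Bool) {n j : ℕ} (h : j < n) : bit (L.take n) j = bit L j := by
  simp [bit, List.getD_eq_getElem?_getD, List.getElem?_take, h]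

theorem bit_replicate (n j : ℕ) : bit (List.replicate n false) j = false := by
  simp only [bit, List.getD_eq_getElem?_getD, List.getElem?_replicate]
  split_ifs <;> rfl

theorem bit_eq_getElem {L : List Bool} {j : ℕ} (h : j < L.length) : bit L j = L[j] := by
  simp [bit, List.getD_eq_getElem?_getD, h]

theorem ext_bit {L L' : List Bool} (h : L.length = L'.length)
    (h' : ∀ j < L.length, bit L j = bit L' j) : L = L' :=
  List.ext_getElem h fun j h1 h2 => by
    rw [← bit_eq_getElem h1, ← bit_eq_getElem h2]; exact h' j h1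

/-- The word in lane `a` of a bit-sliced array with `w` slices (least significant on top) of `M`
lanes each. -/
def wd (w M : ℕ) (L : List Bool) (a : ℕ) : ℕ :=
  ∑ β ∈ range w, (bit L (β * M + a)).toNat * 2 ^ β

/-- Lane `a` represents the integer `u` modulo `2 ^ w`. -/
def WR (w M : ℕ) (L : List Bool) (a : ℕ) (u : ℤ) : Prop :=
  (wd w M L a : ℤ) ≡ u [ZMOD 2 ^ w]

/-- Lanes `a` and `a + δ` represent the Gaussian integer `z`. -/
def CR (w M δ : ℕ) (L : List Bool) (a : ℕ) (z : ℂ) : Prop :=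
  ∃ u v : ℤ, z = u + v * Complex.I ∧ WR w M L a u ∧ WR w M L (a + δ) v

theorem wd_congr {w M M' : ℕ} {L L' : List Bool} {a a' : ℕ}
    (h : ∀ β < w, bit L' (β * M' + a') = bit L (β * M + a)) : wd w M' L' a' = wd w M L a :=
  sum_congr rfl fun β hβ => by rw [h β (mem_range.1 hβ)]

theorem WR.move {w M M' : ℕ} {L L' : List Bool} {a a' : ℕ} {u : ℤ} (hu : WR w M L a u)
    (h : ∀ β < w, bit L' (β * M' + a') = bit L (β * M + a)) : WR w M' L' a' u := by
  unfold WR; rw [wd_congr h]; exact hu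

theorem WR.of_wd (w M : ℕ) (L : List Bool) (a : ℕ) : WR w M L a (wd w M L a) := Int.ModEq.refl _

theorem WR.congr {w M : ℕ} {L : List Bool} {a : ℕ} {u v : ℤ} (hu : WR w M L a u)
    (h : u ≡ v [ZMOD 2 ^ w]) : WR w M L a v := Int.ModEq.trans hu h

theorem wd_succ (w M : ℕ) (L : List Bool) (a : ℕ) :
    wd (w + 1) M L a = wd w M L a + (bit L (w * M + a)).toNat * 2 ^ w := sum_range_succ _ _

theorem wd_lt (w M : ℕ) (L : List Bool) (a : ℕ) : wd w M L a < 2 ^ w := by
  induction w with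
  | zero => simp [wd]
  | succ w ih =>
    rw [wd_succ, pow_succ]
    have := Bool.toNat_le (bit L (w * M + a))
    nlinarith

theorem wd_add (w w' M : ℕ) (L : List Bool) (a : ℕ) :
    wd (w + w') M L a = wd w M L a + 2 ^ w * wd w' M (L.drop (w * M)) a := by
  unfold wd
  rw [sum_range_add, mul_sum]
  congr 1
  refine sum_congr rfl fun β _ => ?_
  rw [bit_drop, pow_add]
  have : (w + β) * M + a = w * M + (β * M + a) := by ring
  rw [this]; ring

theorem WR.eq_wd {w M : ℕ} {L : List Bool} {a : ℕ} {u : ℕ} (hu : WR w M L a u) (h : u < 2 ^ w) :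
    wd w M L a = u := by
  have h1 : wd w M L a ≡ u [MOD 2 ^ w] := by
    rw [← Int.natCast_modEq_iff]; push_cast; exact hu
  exact Nat.ModEq.eq_of_lt_of_lt h1 (wd_lt _ _ _ _) h

theorem wd_append_left {w M : ℕ} {L : List Bool} (L' : List Bool) {a : ℕ} (h : L.length = w * M)
    (ha : a < M) : wd w M (L ++ L') a = wd w M L a :=
  wd_congr fun β hβ => bit_append_left _ (by rw [h]; nlinarith)

theorem wd_take {w M n : ℕ} (L : List Bool) {a : ℕ} (h : w * M ≤ n) (ha : a < M) :
    wd w M (L.take n) a = wd w M L a :=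
  wd_congr fun β hβ => bit_take _ (by nlinarith)

theorem wd_replicate (w M n a : ℕ) : wd w M (List.replicate n false) a = 0 := by
  simp [wd, bit_replicate]

theorem testBit_wd {w M : ℕ} (L : List Bool) (a : ℕ) {β : ℕ} (h : β < w) :
    (wd w M L a).testBit β = bit L (β * M + a) := by
  obtain ⟨w', rfl⟩ : ∃ w', w = β + (w' + 1) := ⟨w - β - 1, by omega⟩
  rw [wd_add, add_comm, Nat.testBit_two_pow_mul_add _ (wd_lt _ _ _ _), if_neg (lt_irrefl _),
    Nat.sub_self, add_comm w' 1, wd_add, Nat.testBit_zero]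
  have : wd 1 M (L.drop (β * M)) a = (bit L (β * M + a)).toNat := by simp [wd, bit_drop]
  rw [this]
  cases bit L (β * M + a) <;> simp [Nat.add_mod]

/-- Specification of a lane-wise multiplier for `m`-bit numbers in `M` lanes. -/
def MulAt (B P : ℕ) (r mul : Prog) (m M : ℕ) (x : ℝ) : Prop :=
  ∀ X Y : List Bool, X.length = m * M → Y.length = m * M →
    ∃ Z : List Bool, Z.length = 2 * m * M ∧ Top B P r mul [m, M] (X ++ Y) Z x ∧
      ∀ a < M, wd (2 * m) M Z a = wd m M X a * wd m M Y a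

theorem MulAt.mono {B P : ℕ} {r mul : Prog} {m M : ℕ} {x y : ℝ} (h : MulAt B P r mul m M x)
    (hxy : x ≤ y) : MulAt B P r mul m M y := fun X Y hX hY =>
  let ⟨Z, h1, h2, h3⟩ := h X Y hX hY; ⟨Z, h1, h2.mono hxy, h3⟩

/-! ### mixed radix -/

/-- Product of the radices `a, …, b - 1`. -/
def pr (ns : ℕ → ℕ) (a b : ℕ) : ℕ := ∏ l ∈ Ico a b, ns l

/-- Value of the digits `a, …, b - 1` (digit `a` least significant, i.e. innermost). -/
def mr (ns : ℕ → ℕ) (a b : ℕ) (x : ℕ → ℕ) : ℕ := ∑ i ∈ Ico a b, x i * pr ns a i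

/-- Digits of a number. -/
def dig (ns : ℕ → ℕ) (a b n : ℕ) : ℕ → ℕ :=
  fun i => if a ≤ i ∧ i < b then n / pr ns a i % ns i else 0

section
variable {ns ns' : ℕ → ℕ} {a b c i : ℕ} {x y : ℕ → ℕ}

@[simp] theorem pr_self (ns : ℕ → ℕ) (a : ℕ) : pr ns a a = 1 := by simp [pr]
@[simp] theorem mr_self (ns : ℕ → ℕ) (a : ℕ) (x : ℕ → ℕ) : mr ns a a x = 0 := by simp [mr]
@[simp] theorem pr_single (ns : ℕ → ℕ) (a : ℕ) : pr ns a (a + 1) = ns a := by simp [pr]
@[simp] theorem mr_single (ns : ℕ → ℕ) (a : ℕ) (x : ℕ → ℕ) : mr ns a (a + 1) x = x a := by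
  simp [mr]

theorem pr_const (Q a b : ℕ) : pr (fun _ => Q) a b = Q ^ (b - a) := by simp [pr]

theorem pr_split (h1 : a ≤ b) (h2 : b ≤ c) : pr ns a c = pr ns b c * pr ns a b := by
  unfold pr; rw [mul_comm, prod_Ico_consecutive _ h1 h2]

theorem pr_succ (h : a ≤ b) : pr ns a (b + 1) = ns b * pr ns a b := by
  rw [pr_split h (Nat.le_succ b), pr_single]

theorem pr_pos (h : ∀ i, a ≤ i → i < b → 0 < ns i) : 0 < pr ns a b :=
  prod_pos fun i hi => h i (mem_Ico.1 hi).1 (mem_Ico.1 hi).2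

theorem pr_congr (h : ∀ i, a ≤ i → i < b → ns i = ns' i) : pr ns a b = pr ns' a b :=
  prod_congr rfl fun i hi => h i (mem_Ico.1 hi).1 (mem_Ico.1 hi).2

theorem mr_congr (h : ∀ i, a ≤ i → i < b → ns i = ns' i) (h' : ∀ i, a ≤ i → i < b → x i = y i) :
    mr ns a b x = mr ns' a b y :=
  sum_congr rfl fun i hi => by
    rw [h' i (mem_Ico.1 hi).1 (mem_Ico.1 hi).2,
      pr_congr fun l h1 h2 => h l h1 (h2.trans (mem_Ico.1 hi).2)]

theorem mr_split (h1 : a ≤ b) (h2 : b ≤ c) :
    mr ns a c x = mr ns b c x * pr ns a b + mr ns a b x := by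
  unfold mr
  rw [← sum_Ico_consecutive _ h1 h2, add_comm, sum_mul]
  congr 1
  refine sum_congr rfl fun i hi => ?_
  rw [pr_split h1 (mem_Ico.1 hi).1, mul_assoc]

theorem mr_succ (h : a ≤ b) : mr ns a (b + 1) x = x b * pr ns a b + mr ns a b x := by
  rw [mr_split h (Nat.le_succ b), mr_single]

theorem mr_lt (h : ∀ i, a ≤ i → i < b → x i < ns i) : mr ns a b x < pr ns a b := by
  rcases le_or_gt a b with hab | hab
  · induction b, hab using Nat.le_induction with
    | base => simp
    | succ b hab ih =>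
      rw [mr_succ hab, pr_succ hab]
      have h1 := ih fun i h1 h2 => h i h1 (by omega)
      have h2 := h b hab (by omega)
      nlinarith
  · simp [mr, pr, Ico_eq_empty_of_le hab.le]

theorem mr_three (h1 : a ≤ i) (h2 : i < b) :
    mr ns a b x = (mr ns (i + 1) b x * ns i + x i) * pr ns a i + mr ns a i x := by
  rw [mr_split h1 h2.le, mr_split (Nat.le_succ i) h2, mr_single, pr_single]

theorem pr_three (h1 : a ≤ i) (h2 : i < b) :
    pr ns a b = pr ns (i + 1) b * ns i * pr ns a i := by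
  rw [pr_split h1 h2.le, pr_split (Nat.le_succ i) h2, pr_single]

theorem mr_div (h1 : a ≤ b) (h2 : b ≤ c) (h : ∀ i, a ≤ i → i < b → x i < ns i) :
    mr ns a c x / pr ns a b = mr ns b c x := by
  have := mr_lt h
  rw [mr_split h1 h2, add_comm, Nat.add_mul_div_right _ _ (by omega), Nat.div_eq_of_lt this,
    zero_add]

theorem mr_mod (h1 : a ≤ b) (h2 : b ≤ c) (h : ∀ i, a ≤ i → i < b → x i < ns i) :
    mr ns a c x % pr ns a b = mr ns a b x := by
  rw [mr_split h1 h2, add_comm, Nat.add_mul_mod_self_right, Nat.mod_eq_of_lt (mr_lt h)]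

theorem mr_digit (h1 : a ≤ i) (h2 : i < b) (h : ∀ l, a ≤ l → l ≤ i → x l < ns l) :
    mr ns a b x / pr ns a i % ns i = x i := by
  rw [mr_div h1 h2.le fun l h3 h4 => h l h3 h4.le, mr_split (Nat.le_succ i) h2, mr_single,
    pr_single, add_comm, Nat.add_mul_mod_self_right, Nat.mod_eq_of_lt (h i h1 le_rfl)]

theorem dig_lt {n : ℕ} (h : 0 < ns i) : dig ns a b n i < ns i := by
  unfold dig; split_ifs
  · exact Nat.mod_lt _ h
  · exact h

theorem mr_dig {n : ℕ} (hab : a ≤ b) : mr ns a b (dig ns a b n) = n % pr ns a b := by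
  induction b, hab using Nat.le_induction with
  | base => simp [Nat.mod_one]
  | succ b hab ih =>
    rw [mr_succ hab, pr_succ hab, mul_comm (ns b), Nat.mod_mul,
      mr_congr (ns' := ns) (y := dig ns a b n) (fun _ _ _ => rfl) fun i h1 h2 => by
        simp [dig, h1, h2, Nat.lt_succ_of_lt h2], ih]
    simp [dig, hab]; ring

theorem mr_inj (hx : ∀ i, a ≤ i → i < b → x i < ns i) (hy : ∀ i, a ≤ i → i < b → y i < ns i)
    (h : mr ns a b x = mr ns a b y) (h1 : a ≤ i) (h2 : i < b) : x i = y i := by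
  rw [← mr_digit h1 h2 fun l h3 h4 => hx l h3 (by omega), h,
    mr_digit h1 h2 fun l h3 h4 => hy l h3 (by omega)]

theorem mr_update_of_not {v : ℕ} (h : ¬(a ≤ i ∧ i < b)) :
    mr ns a b (Function.update x i v) = mr ns a b x :=
  mr_congr (fun _ _ _ => rfl) fun l h1 h2 => Function.update_of_ne (by rintro rfl; tauto) _ _

theorem mr_update {v : ℕ} (h1 : a ≤ i) (h2 : i < b) :
    mr ns a b (Function.update x i v) =
      (mr ns (i + 1) b x * ns i + v) * pr ns a i + mr ns a i x := by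
  rw [mr_three h1 h2, mr_update_of_not (by omega), mr_update_of_not (by omega),
    Function.update_self]

end

/-! ### boxes, tensor products, cyclic convolution -/

/-- All digit strings `x` with `x i < ns i` for `i < d` and `x i = 0` for `i ≥ d`. -/
def box (ns : ℕ → ℕ) (d : ℕ) : Finset (ℕ → ℕ) :=
  (Fintype.piFinset fun i : Fin d => range (ns i)).map
    ⟨fun x i => if h : i < d then x ⟨i, h⟩ else 0, fun x y h => by
      funext i; simpa using congrFun h i⟩

theorem mem_box {ns : ℕ → ℕ} {d : ℕ} {x : ℕ → ℕ} :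
    x ∈ box ns d ↔ (∀ i < d, x i < ns i) ∧ ∀ i, d ≤ i → x i = 0 := by
  simp only [box, mem_map, Fintype.mem_piFinset, mem_range, Function.Embedding.coeFn_mk]
  constructor
  · rintro ⟨y, h, rfl⟩
    exact ⟨fun i hi => by simpa [hi] using h ⟨i, hi⟩, fun i hi => by simp [not_lt.2 hi]⟩
  · rintro ⟨h1, h2⟩
    refine ⟨fun i => x i, fun i => h1 i i.2, ?_⟩
    funext i
    split_ifs with h
    · rfl
    · exact (h2 i (not_lt.1 h)).symm

theorem box_congr {ns ns' : ℕ → ℕ} {d : ℕ} (h : ∀ i < d, ns i = ns' i) : box ns d = box ns' d := by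
  ext x
  simp only [mem_box]
  exact and_congr_left fun _ => forall₂_congr fun i hi => by rw [h i hi]

theorem card_box (ns : ℕ → ℕ) (d : ℕ) : (box ns d).card = pr ns 0 d := by
  simp [box, pr, Fintype.card_piFinset, prod_range, ← range_eq_Ico]

theorem dig_mem_box {ns : ℕ → ℕ} {d : ℕ} (h : ∀ i < d, 0 < ns i) (n : ℕ) :
    dig ns 0 d n ∈ box ns d :=
  mem_box.2 ⟨fun i hi => dig_lt (h i hi), fun i hi => by simp [dig, not_lt.2 hi]⟩

theorem mr_lt_of_mem_box {ns : ℕ → ℕ} {d : ℕ} {x : ℕ → ℕ} (h : x ∈ box ns d) :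
    mr ns 0 d x < pr ns 0 d := mr_lt fun i _ hi => (mem_box.1 h).1 i hi

theorem update_mem_box {ns ns' : ℕ → ℕ} {d c v : ℕ} {x : ℕ → ℕ} (h : x ∈ box ns d) (hc : c < d)
    (hn : ∀ i < d, i ≠ c → ns i = ns' i) (hv : v < ns' c) : Function.update x c v ∈ box ns' d := by
  rw [mem_box] at h ⊢
  refine ⟨fun i hi => ?_, fun i hi => ?_⟩
  · by_cases hic : i = c
    · subst hic; simpa using hv
    · rw [Function.update_of_ne hic, ← hn i hi hic]; exact h.1 i hi
  · rw [Function.update_of_ne (by omega)]; exact h.2 i hi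

theorem sum_box_prod {R : Type*} [CommSemiring R] (ns : ℕ → ℕ) (d : ℕ) (f : ℕ → ℕ → R) :
    ∑ y ∈ box ns d, ∏ i ∈ range d, f i (y i) = ∏ i ∈ range d, ∑ u ∈ range (ns i), f i u := by
  rw [box, sum_map, prod_range, prod_univ_sum]
  refine sum_congr rfl fun y _ => ?_
  rw [prod_range]
  simp

section
variable {R V : Type*} [CommSemiring R] [AddCommMonoid V] [Module R V]

/-- Tensor product of the kernels `Kn i` applied to an array on the box with radices `ns`. -/
def tens (ns : ℕ → ℕ) (d : ℕ) (Kn : ℕ → ℕ → ℕ → R) (z : (ℕ → ℕ) → V) (x : ℕ → ℕ) : V :=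
  ∑ y ∈ box ns d, (∏ i ∈ range d, Kn i (x i) (y i)) • z y

theorem tens_tens (ns ns' : ℕ → ℕ) (d : ℕ) (Kn Kn' : ℕ → ℕ → ℕ → R) (z : (ℕ → ℕ) → V)
    (x : ℕ → ℕ) : tens ns' d Kn' (tens ns d Kn z) x =
      tens ns d (fun i a b => ∑ u ∈ range (ns' i), Kn' i a u * Kn i u b) z x := by
  simp only [tens, smul_sum, smul_smul]
  rw [sum_comm]
  refine sum_congr rfl fun y _ => ?_
  rw [← sum_smul, ← sum_box_prod ns' d (fun i u => Kn' i (x i) u * Kn i u (y i))]
  simp only [prod_mul_distrib]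

theorem tens_congr {ns : ℕ → ℕ} {d : ℕ} {Kn Kn' : ℕ → ℕ → ℕ → R} {z z' : (ℕ → ℕ) → V}
    {x x' : ℕ → ℕ} (h : ∀ i < d, ∀ u < ns i, Kn i (x i) u = Kn' i (x' i) u)
    (hz : ∀ y ∈ box ns d, z y = z' y) : tens ns d Kn z x = tens ns d Kn' z' x' :=
  sum_congr rfl fun y hy => by
    rw [hz y hy, prod_congr rfl fun i hi =>
      h i (mem_range.1 hi) _ ((mem_box.1 hy).1 i (mem_range.1 hi))]

/-- A tensor product whose kernels are the identity except in direction `c`. -/
theorem tens_along {ns ns' : ℕ → ℕ} {d c : ℕ} (hc : c < d) (hn : ∀ i < d, i ≠ c → ns' i = ns i)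
    (k : ℕ → ℕ → R) (z : (ℕ → ℕ) → V) {x : ℕ → ℕ} (hx : x ∈ box ns' d) :
    tens ns d (fun i a b => if i = c then k a b else if a = b then 1 else 0) z x =
      ∑ u ∈ range (ns c), k (x c) u • z (Function.update x c u) := by
  unfold tens
  symm
  refine sum_bij_ne_zero (fun u _ _ => Function.update x c u) ?_ ?_ ?_ ?_
  · intro u hu _
    exact update_mem_box hx hc hn (mem_range.1 hu)
  · intro u _ _ v _ _ h
    simpa using congrFun h c
  · intro y hy h0
    have h1 : ∀ i < d, i ≠ c → x i = y i := fun i hi hic => by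
      by_contra hne
      apply h0
      rw [prod_eq_zero (mem_range.2 hi) (by simp [hic, hne]), zero_smul]
    have h2 : Function.update x c (y c) = y := by
      funext i
      by_cases hic : i = c
      · subst hic; simp
      · rw [Function.update_of_ne hic]
        by_cases hi : i < d
        · exact h1 i hi hic
        · rw [(mem_box.1 hx).2 i (by omega), (mem_box.1 hy).2 i (by omega)]
    refine ⟨y c, mem_range.2 ((mem_box.1 hy).1 c hc), ?_, h2⟩
    rw [h2]
    rw [prod_eq_single c (fun i hi hic => by simp [hic, h1 i (mem_range.1 hi) hic])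
      (by simp [hc])] at h0
    simpa using h0
  · intro u _ _
    rw [prod_eq_single c (fun i _ hic => by simp [hic]) (by simp [hc])]
    simp

end

/-- Coordinatewise difference modulo the radices. -/
def csub (ns : ℕ → ℕ) (d : ℕ) (x y : ℕ → ℕ) : ℕ → ℕ :=
  fun i => if i < d then (x i + ns i - y i) % ns i else 0

/-- Cyclic convolution on the box. -/
def cconv {A : Type*} [CommRing A] (ns : ℕ → ℕ) (d : ℕ) (a b : (ℕ → ℕ) → A) (x : ℕ → ℕ) : A :=
  ∑ y ∈ box ns d, a y * b (csub ns d x y)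

theorem csub_mem_box {ns : ℕ → ℕ} {d : ℕ} (h : ∀ i < d, 0 < ns i) (x y : ℕ → ℕ) :
    csub ns d x y ∈ box ns d :=
  mem_box.2 ⟨fun i hi => by simpa [csub, hi] using Nat.mod_lt _ (h i hi),
    fun i hi => by simp [csub, not_lt.2 hi]⟩

end Crest.Agent.IM
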