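import Crest.Agent.IM.Base

/-! TASK IM-R. The algebra `ℂ[x] / (x ^ n - i)` (that is `ℝ[x] / (x ^ (2 n) + 1)`), its complex
and real coefficients and the sup norm. Use `AdjoinRoot.powerBasis'` / `modByMonicHom`:
every `a` is `∑ j < n, co a j • xr ^ j`, and `co (xr * a)` is the twisted shift. -/

set_option autoImplicit false
open Polynomial Finset

namespace Crest.Agent.IM

/-- The coefficient algebra. -/
abbrev RA (n : ℕ) : Type := AdjoinRoot (X ^ n - C Complex.I : ℂ[X])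

/-- The generator. -/
noncomputable def xr (n : ℕ) : RA n := AdjoinRoot.root _

/-- Complex coefficients (`j < n`). -/
noncomputable def co (n : ℕ) (a : RA n) (j : ℕ) : ℂ :=
  if h : n = 0 then 0 else (AdjoinRoot.modByMonicHom (monic_X_pow_sub_C _ h) a).coeff j

/-- Real coefficients (`p < 2 n`). -/
noncomputable def rco (n : ℕ) (a : RA n) (p : ℕ) : ℝ :=
  if p < n then (co n a p).re else (co n a (p - n)).im

/-- Sup norm of the complex coefficients. -/
noncomputable def nrm (n : ℕ) (a : RA n) : ℝ := ‖fun j : Fin n => co n a j‖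

/-- The real coefficients of `a` are integers, represented in the lanes `ad p`. -/
def AR (w M n : ℕ) (ad : ℕ → ℕ) (L : List Bool) (a : RA n) : Prop :=
  ∀ p < 2 * n, ∃ u : ℤ, rco n a p = u ∧ WR w M L (ad p) u

/-- Standard lane address: outer index `o`, coefficient `p`, batch index `bt < Bt`. -/
def sad (n Bt o bt p : ℕ) : ℕ := (o * (2 * n) + p) * Bt + bt

section
variable {n : ℕ}

theorem co_add (a b : RA n) (j : ℕ) : co n (a + b) j = co n a j + co n b j := by
  unfold co; split_ifs <;> simp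
theorem co_smul (c : ℂ) (a : RA n) (j : ℕ) : co n (c • a) j = c * co n a j := by
  unfold co; split_ifs <;> simp
theorem co_zero (j : ℕ) : co n 0 j = 0 := by
  unfold co; split_ifs <;> simp
theorem co_neg (a : RA n) (j : ℕ) : co n (-a) j = -co n a j := by
  unfold co; split_ifs <;> simp
theorem co_sub (a b : RA n) (j : ℕ) : co n (a - b) j = co n a j - co n b j := by
  unfold co; split_ifs <;> simp
theorem co_sum {ι : Type*} (s : Finset ι) (f : ι → RA n) (j : ℕ) :
    co n (∑ i ∈ s, f i) j = ∑ i ∈ s, co n (f i) j := by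
  unfold co; split_ifs <;> simp

theorem xr_pow_mul (a : RA n) : xr n ^ n * a = Complex.I • a := by
  have h : AdjoinRoot.mk (X ^ n - C Complex.I : ℂ[X]) (X ^ n - C Complex.I) = 0 :=
    AdjoinRoot.mk_self
  rw [map_sub, map_pow, AdjoinRoot.mk_X, AdjoinRoot.mk_C, sub_eq_zero] at h
  rw [xr, h, Algebra.smul_def]
  rfl

theorem xr_pow_two_mul : xr n ^ (2 * n) = -1 := by
  rw [two_mul, pow_add, xr_pow_mul, ← mul_one (xr n ^ n), xr_pow_mul, smul_smul, Complex.I_mul_I,
    neg_smul, one_smul]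

theorem co_xr_pow_lt {k : ℕ} (hk : k < n) (j : ℕ) :
    co n (xr n ^ k) j = if j = k then 1 else 0 := by
  have hn : n ≠ 0 := by omega
  have h1 : xr n ^ k = AdjoinRoot.mk _ (X ^ k) := by rw [map_pow, AdjoinRoot.mk_X, xr]
  rw [co, dif_neg hn, h1, AdjoinRoot.modByMonicHom_mk,
    (modByMonic_eq_self_iff (monic_X_pow_sub_C _ hn)).2, coeff_X_pow]
  rw [degree_X_pow, degree_X_pow_sub_C (by omega)]
  exact_mod_cast hk

theorem xr_pow_eq (m : ℕ) : xr n ^ m = Complex.I ^ (m / n) • xr n ^ (m % n) := by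
  conv_lhs => rw [← Nat.div_add_mod m n, pow_add, pow_mul]
  generalize m / n = q
  induction q with
  | zero => simp
  | succ q ih => rw [pow_succ', mul_assoc, ih, xr_pow_mul, smul_smul, pow_succ']

theorem co_xr_pow (hn : 1 ≤ n) (m j : ℕ) :
    co n (xr n ^ m) j = if j = m % n then Complex.I ^ (m / n) else 0 := by
  rw [xr_pow_eq, co_smul, co_xr_pow_lt (Nat.mod_lt _ hn)]
  split_ifs <;> simp

theorem eq_sum_co (hn : 1 ≤ n) (a : RA n) : a = ∑ j ∈ range n, co n a j • xr n ^ j := by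
  have hn' : n ≠ 0 := by omega
  have hm := monic_X_pow_sub_C Complex.I hn'
  have h1 := AdjoinRoot.mk_leftInverse hm a
  have h2 : (AdjoinRoot.modByMonicHom hm a).natDegree < n := by
    obtain ⟨f, rfl⟩ := AdjoinRoot.mk_surjective a
    rw [AdjoinRoot.modByMonicHom_mk]
    have := natDegree_modByMonic_lt f hm (by
      intro h
      have := congrArg natDegree h
      rw [natDegree_X_pow_sub_C, natDegree_one] at this
      omega)
    rwa [natDegree_X_pow_sub_C] at this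
  conv_lhs => rw [← h1, (AdjoinRoot.modByMonicHom hm a).as_sum_range' n h2, map_sum]
  refine sum_congr rfl fun j _ => ?_
  rw [co, dif_neg hn', ← C_mul_X_pow_eq_monomial, map_mul, map_pow, AdjoinRoot.mk_X,
    AdjoinRoot.mk_C, Algebra.smul_def]
  rfl

theorem co_ext (hn : 1 ≤ n) {a b : RA n} (h : ∀ j < n, co n a j = co n b j) : a = b := by
  rw [eq_sum_co hn a, eq_sum_co hn b]
  exact sum_congr rfl fun j hj => by rw [h j (mem_range.1 hj)]
theorem exists_co (hn : 1 ≤ n) (c : ℕ → ℂ) : ∃ a : RA n, ∀ j < n, co n a j = c j := by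
  have _ := hn
  refine ⟨∑ k ∈ range n, c k • xr n ^ k, fun j hj => ?_⟩
  rw [co_sum, sum_congr rfl fun k hk => by rw [co_smul, co_xr_pow_lt (mem_range.1 hk)]]
  simp [hj]
theorem co_one (hn : 1 ≤ n) {j : ℕ} (hj : j < n) : co n 1 j = if j = 0 then 1 else 0 := by
  have _ := hj
  rw [← pow_zero (xr n), co_xr_pow_lt hn]
theorem co_eq_rco (a : RA n) {j : ℕ} (hj : j < n) :
    co n a j = rco n a j + rco n a (j + n) * Complex.I := by
  simp [rco, hj]

theorem rco_add (a b : RA n) (p : ℕ) : rco n (a + b) p = rco n a p + rco n b p := by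
  unfold rco; split_ifs <;> simp [co_add]
theorem rco_smul (c : ℝ) (a : RA n) (p : ℕ) : rco n ((c : ℂ) • a) p = c * rco n a p := by
  unfold rco; rw [co_smul, co_smul]; split_ifs <;> simp
theorem rco_zero (p : ℕ) : rco n 0 p = 0 := by
  unfold rco; split_ifs <;> simp [co_zero]
theorem rco_neg (a : RA n) (p : ℕ) : rco n (-a) p = -rco n a p := by
  unfold rco; split_ifs <;> simp [co_neg]
theorem rco_sub (a b : RA n) (p : ℕ) : rco n (a - b) p = rco n a p - rco n b p := by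
  unfold rco; split_ifs <;> simp [co_sub]
theorem rco_sum {ι : Type*} (s : Finset ι) (f : ι → RA n) (p : ℕ) :
    rco n (∑ i ∈ s, f i) p = ∑ i ∈ s, rco n (f i) p := by
  unfold rco; split_ifs <;> simp [co_sum]
theorem rco_intCast_mul (c : ℤ) (a : RA n) (p : ℕ) :
    rco n ((c : RA n) * a) p = c * rco n a p := by
  rw [← rco_smul, Algebra.smul_def]
  simp
theorem rco_ext (hn : 1 ≤ n) {a b : RA n} (h : ∀ p < 2 * n, rco n a p = rco n b p) : a = b := by
  refine co_ext hn fun j hj => ?_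
  rw [co_eq_rco a hj, co_eq_rco b hj, h j (by omega), h (j + n) (by omega)]
theorem exists_rco (hn : 1 ≤ n) (u : ℕ → ℝ) : ∃ a : RA n, ∀ p < 2 * n, rco n a p = u p := by
  obtain ⟨a, ha⟩ := exists_co hn (fun j => u j + u (j + n) * Complex.I)
  refine ⟨a, fun p hp => ?_⟩
  unfold rco
  split_ifs with h
  · rw [ha p h]; simp
  · rw [ha (p - n) (by omega), Nat.sub_add_cancel (by omega)]; simp
theorem rco_one (hn : 1 ≤ n) {p : ℕ} (hp : p < 2 * n) :
    rco n 1 p = if p = 0 then 1 else 0 := by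
  unfold rco
  split_ifs with h h0 h0
  · rw [co_one hn h, if_pos h0]; simp
  · rw [co_one hn h, if_neg h0]; simp
  · omega
  · rw [co_one hn (by omega)]; split_ifs <;> simp

theorem rco_xr_pow_lt {k p : ℕ} (hk : k < 2 * n) (hp : p < 2 * n) :
    rco n (xr n ^ k) p = if p = k then 1 else 0 := by
  have hn : 1 ≤ n := by omega
  unfold rco
  rw [co_xr_pow hn, co_xr_pow hn]
  by_cases h : k < n
  · rw [Nat.mod_eq_of_lt h, Nat.div_eq_of_lt h]
    split_ifs <;> first | omega | simp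
  · obtain ⟨k, rfl⟩ : ∃ k', k = k' + n := ⟨k - n, by omega⟩
    have h' : k < n := by omega
    rw [Nat.add_mod_right, Nat.add_div_right _ hn, Nat.mod_eq_of_lt h', Nat.div_eq_of_lt h']
    split_ifs <;> first | omega | simp

theorem rco_xr_pow (hn : 1 ≤ n) (m : ℕ) {p : ℕ} (hp : p < 2 * n) :
    rco n (xr n ^ m) p = if p = m % (2 * n) then (-1) ^ (m / (2 * n)) else 0 := by
  have h : xr n ^ m = (((-1 : ℝ) ^ (m / (2 * n)) : ℝ) : ℂ) • xr n ^ (m % (2 * n)) := by
    conv_lhs => rw [← Nat.div_add_mod m (2 * n), pow_add, pow_mul, xr_pow_two_mul]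
    rw [Algebra.smul_def]
    simp
  rw [h, rco_smul, rco_xr_pow_lt (Nat.mod_lt _ (by omega)) hp]
  split_ifs <;> simp

theorem eq_sum_rco (hn : 1 ≤ n) (a : RA n) :
    a = ∑ p ∈ range (2 * n), (rco n a p : ℂ) • xr n ^ p := by
  refine rco_ext hn fun p hp => ?_
  rw [rco_sum, sum_congr rfl fun k hk => by rw [rco_smul, rco_xr_pow_lt (mem_range.1 hk) hp]]
  simp [hp]

theorem add_mod_inj {N φ p q : ℕ} (hp : p < N) (hq : q < N) (h : (p + φ) % N = (q + φ) % N) :
    p = q :=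
  Nat.ModEq.eq_of_lt_of_lt (Nat.ModEq.add_right_cancel' φ h) hp hq

theorem rco_xr_pow_mul (hn : 1 ≤ n) (φ : ℕ) (a : RA n) {p : ℕ} (hp : p < 2 * n) :
    rco n (xr n ^ φ * a) ((p + φ) % (2 * n)) = (-1) ^ ((p + φ) / (2 * n)) * rco n a p := by
  have hq : (p + φ) % (2 * n) < 2 * n := Nat.mod_lt _ (by omega)
  conv_lhs => rw [eq_sum_rco hn a, mul_sum, rco_sum]
  rw [sum_eq_single p]
  · rw [mul_smul_comm, rco_smul, ← pow_add, rco_xr_pow hn _ hq, add_comm φ, if_pos rfl, mul_comm]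
  · intro k hk hkp
    rw [mul_smul_comm, rco_smul, ← pow_add, rco_xr_pow hn _ hq, add_comm φ, if_neg, mul_zero]
    exact fun h => hkp (add_mod_inj hp (mem_range.1 hk) h).symm
  · simp [hp]
theorem rco_mul (hn : 1 ≤ n) (a b : RA n) {p : ℕ} (hp : p < 2 * n) :
    rco n (a * b) p = ∑ i ∈ range (2 * n), ∑ j ∈ range (2 * n),
      (if i + j = p then 1 else if i + j = p + 2 * n then -1 else 0) *
        (rco n a i * rco n b j) := by
  conv_lhs => rw [eq_sum_rco hn a, eq_sum_rco hn b, sum_mul_sum, rco_sum]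
  refine sum_congr rfl fun i hi => ?_
  rw [rco_sum]
  refine sum_congr rfl fun j hj => ?_
  rw [mem_range] at hi hj
  rw [smul_mul_smul_comm, ← Complex.ofReal_mul, rco_smul, ← pow_add, rco_xr_pow hn _ hp, mul_comm]
  congr 1
  by_cases h : i + j < 2 * n
  · rw [Nat.mod_eq_of_lt h, Nat.div_eq_of_lt h]
    split_ifs <;> first | omega | simp
  · obtain ⟨k, hk⟩ : ∃ k, i + j = k + 2 * n := ⟨i + j - 2 * n, by omega⟩
    have h' : k < 2 * n := by omega
    rw [hk, Nat.add_mod_right, Nat.add_div_right _ (by omega), Nat.mod_eq_of_lt h',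
      Nat.div_eq_of_lt h']
    split_ifs <;> first | omega | simp

theorem nrm_nonneg (a : RA n) : 0 ≤ nrm n a := norm_nonneg _
theorem norm_co_le (a : RA n) {j : ℕ} (hj : j < n) : ‖co n a j‖ ≤ nrm n a :=
  norm_le_pi_norm (fun j : Fin n => co n a j) ⟨j, hj⟩
theorem nrm_le_of_co {a : RA n} {c : ℝ} (hc : 0 ≤ c) (h : ∀ j < n, ‖co n a j‖ ≤ c) :
    nrm n a ≤ c := (pi_norm_le_iff_of_nonneg hc).2 fun j => h j j.2
theorem nrm_zero : nrm n 0 = 0 :=
  le_antisymm (nrm_le_of_co le_rfl fun j _ => by simp [co_zero]) (nrm_nonneg _)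
theorem nrm_one_le : nrm n 1 ≤ 1 :=
  nrm_le_of_co zero_le_one fun j hj => by
    rw [co_one (by omega) hj]; split_ifs <;> simp
theorem nrm_smul (c : ℂ) (a : RA n) : nrm n (c • a) = ‖c‖ * nrm n a := by
  unfold nrm
  rw [← norm_smul]
  congr 1
  funext j
  simp [co_smul]
theorem nrm_neg (a : RA n) : nrm n (-a) = nrm n a := by
  rw [← neg_one_smul ℂ a, nrm_smul]; simp
theorem nrm_add_le (a b : RA n) : nrm n (a + b) ≤ nrm n a + nrm n b :=
  nrm_le_of_co (add_nonneg (nrm_nonneg _) (nrm_nonneg _)) fun j hj => by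
    rw [co_add]
    exact (norm_add_le _ _).trans (add_le_add (norm_co_le a hj) (norm_co_le b hj))
theorem nrm_sub_le (a b : RA n) : nrm n (a - b) ≤ nrm n a + nrm n b := by
  rw [sub_eq_add_neg, ← nrm_neg b]; exact nrm_add_le _ _
theorem nrm_sub_comm (a b : RA n) : nrm n (a - b) = nrm n (b - a) := by
  rw [← nrm_neg, neg_sub]
theorem nrm_sum_le {ι : Type*} (s : Finset ι) (f : ι → RA n) :
    nrm n (∑ i ∈ s, f i) ≤ ∑ i ∈ s, nrm n (f i) :=
  nrm_le_of_co (sum_nonneg fun _ _ => nrm_nonneg _) fun j hj => by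
    rw [co_sum]
    exact (norm_sum_le _ _).trans (sum_le_sum fun i _ => norm_co_le _ hj)
theorem nrm_xr_pow_mul_le (φ : ℕ) (a : RA n) : nrm n (xr n ^ φ * a) ≤ nrm n a := by
  refine nrm_le_of_co (nrm_nonneg _) fun j hj => ?_
  have hn : 1 ≤ n := by omega
  have e : co n (xr n ^ φ * a) j = ∑ k ∈ range n,
      co n a k * if j = (k + φ) % n then Complex.I ^ ((k + φ) / n) else 0 := by
    conv_lhs => rw [eq_sum_co hn a, mul_sum, co_sum]
    refine sum_congr rfl fun k _ => ?_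
    rw [mul_smul_comm, co_smul, ← pow_add, co_xr_pow hn, add_comm φ]
  rw [e]
  by_cases h : ∃ k < n, j = (k + φ) % n
  · obtain ⟨k, hk, hj'⟩ := h
    rw [sum_eq_single k, if_pos hj']
    · simpa using norm_co_le a hk
    · intro l hl hlk
      rw [if_neg, mul_zero]
      exact fun h => hlk (add_mod_inj (mem_range.1 hl) hk (h.symm.trans hj'))
    · simp [hk]
  · rw [sum_eq_zero]
    · simpa using nrm_nonneg a
    · intro k hk
      rw [if_neg fun h' => h ⟨k, mem_range.1 hk, h'⟩, mul_zero]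
theorem nrm_xr_pow_mul (φ : ℕ) (a : RA n) : nrm n (xr n ^ φ * a) = nrm n a := by
  refine le_antisymm (nrm_xr_pow_mul_le φ a) ?_
  rcases Nat.eq_zero_or_pos n with rfl | hn
  · exact nrm_le_of_co (nrm_nonneg _) fun j hj => by omega
  · have h : xr n ^ ((4 * n - 1) * φ) * (xr n ^ φ * a) = a := by
      obtain ⟨m, hm⟩ : ∃ m, 4 * n = m + 1 := ⟨4 * n - 1, by omega⟩
      have e : (4 * n - 1) * φ + φ = 2 * n * (2 * φ) := by
        rw [show 2 * n * (2 * φ) = 4 * n * φ by ring, hm, Nat.add_sub_cancel]; ring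
      rw [← mul_assoc, ← pow_add, e, pow_mul, xr_pow_two_mul, pow_mul]
      simp
    conv_lhs => rw [← h]
    exact nrm_xr_pow_mul_le _ _
theorem nrm_mul_le (a b : RA n) : nrm n (a * b) ≤ n * (nrm n a * nrm n b) := by
  rcases Nat.eq_zero_or_pos n with rfl | hn
  · exact nrm_le_of_co (by simp) fun j hj => by omega
  conv_lhs => rw [eq_sum_co hn a, sum_mul]
  refine (nrm_sum_le _ _).trans ?_
  refine (sum_le_card_nsmul _ _ (nrm n a * nrm n b) fun j hj => ?_).trans (by simp)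
  rw [smul_mul_assoc, nrm_smul, nrm_xr_pow_mul]
  exact mul_le_mul_of_nonneg_right (norm_co_le a (mem_range.1 hj)) (nrm_nonneg _)
theorem abs_rco_le (a : RA n) {p : ℕ} (hp : p < 2 * n) : |rco n a p| ≤ nrm n a := by
  unfold rco
  split_ifs with h
  · exact (Complex.abs_re_le_norm _).trans (norm_co_le a h)
  · exact (Complex.abs_im_le_norm _).trans (norm_co_le a (by omega))
theorem nrm_le_of_rco {a : RA n} {c : ℝ} (hc : 0 ≤ c) (h : ∀ p < 2 * n, |rco n a p| ≤ c) :
    nrm n a ≤ 2 * c := by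
  refine nrm_le_of_co (by positivity) fun j hj => ?_
  rw [co_eq_rco a hj]
  refine (norm_add_le _ _).trans ?_
  have h1 := h j (by omega)
  have h2 := h (j + n) (by omega)
  simp only [Complex.norm_real, Real.norm_eq_abs, norm_mul, Complex.norm_I, mul_one]
  linarith

/-- Row-sum bound for tensor products with scalar kernels. -/
theorem nrm_tens_le {ns : ℕ → ℕ} {d : ℕ} (Kn : ℕ → ℕ → ℕ → ℂ) (z : (ℕ → ℕ) → RA n) (x : ℕ → ℕ)
    {μ : ℝ} (hz : ∀ y ∈ box ns d, nrm n (z y) ≤ μ) :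
    nrm n (tens ns d Kn z x) ≤ (∏ i ∈ range d, ∑ u ∈ range (ns i), ‖Kn i (x i) u‖) * μ := by
  rw [← sum_box_prod ns d (fun i u => ‖Kn i (x i) u‖), sum_mul]
  refine (nrm_sum_le _ _).trans (sum_le_sum fun y hy => ?_)
  rw [nrm_smul, norm_prod]
  exact mul_le_mul_of_nonneg_left (hz y hy) (prod_nonneg fun _ _ => norm_nonneg _)

theorem nrm_cconv_le {ns : ℕ → ℕ} {d : ℕ} (hn : ∀ i < d, 0 < ns i) (a b : (ℕ → ℕ) → RA n)
    (x : ℕ → ℕ) {μ ν : ℝ} (ha : ∀ y ∈ box ns d, nrm n (a y) ≤ μ)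
    (hb : ∀ y ∈ box ns d, nrm n (b y) ≤ ν) :
    nrm n (cconv ns d a b x) ≤ pr ns 0 d * (n * (μ * ν)) := by
  refine (nrm_sum_le _ _).trans ?_
  refine (sum_le_card_nsmul _ _ (n * (μ * ν)) fun y hy => ?_).trans (by simp [card_box])
  refine (nrm_mul_le _ _).trans (mul_le_mul_of_nonneg_left ?_ (Nat.cast_nonneg _))
  exact mul_le_mul (ha y hy) (hb _ (csub_mem_box hn _ _)) (nrm_nonneg _)
    ((nrm_nonneg _).trans (ha y hy))

/-- Any lanes represent some element. -/
theorem exists_AR (hn : 1 ≤ n) (w M : ℕ) (ad : ℕ → ℕ) (L : List Bool) :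
    ∃ a : RA n, AR w M n ad L a := by
  obtain ⟨a, ha⟩ := exists_rco hn (fun p => (wd w M L (ad p) : ℝ))
  exact ⟨a, fun p hp => ⟨wd w M L (ad p), by rw [ha p hp]; simp, WR.of_wd _ _ _ _⟩⟩

theorem AR.move {w M M' : ℕ} {ad ad' : ℕ → ℕ} {L L' : List Bool} {a : RA n}
    (h : AR w M n ad L a)
    (h' : ∀ p < 2 * n, ∀ u : ℤ, WR w M L (ad p) u → WR w M' L' (ad' p) u) :
    AR w M' n ad' L' a := fun p hp => let ⟨u, h1, h2⟩ := h p hp; ⟨u, h1, h' p hp u h2⟩

end

end Crest.Agent.IM
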