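import Crest.Agent.IM.P3
import Crest.Agent.IM.Ring

/-! Auxiliary facts for `Scal`: argument checks, `scal`, lifting to represented elements. -/

set_option autoImplicit false

namespace Crest.Agent.IM.SK

theorem ok_nil {B : ℕ} {env : List ℕ} : ∀ v ∈ ([] : List ℕ), Ok B env v := by simp

theorem ok_cons {B a : ℕ} {env l : List ℕ} (h : Ok B env a) (h' : ∀ v ∈ l, Ok B env v) :
    ∀ v ∈ a :: l, Ok B env v := List.forall_mem_cons.2 ⟨h, h'⟩

theorem ok_le {B a : ℕ} {env l : List ℕ} (h : a ≤ B) (h' : ∀ v ∈ l, Ok B env v) :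
    ∀ v ∈ a :: l, Ok B env v := ok_cons (Or.inl h) h'

theorem ok_mem {B a : ℕ} {env l : List ℕ} (h : a ∈ env) (h' : ∀ v ∈ l, Ok B env v) :
    ∀ v ∈ a :: l, Ok B env v := ok_cons (Or.inr h) h'

theorem ok_sub {B : ℕ} {env l : List ℕ} (h : l ⊆ env) : ∀ v ∈ l, Ok B env v :=
  fun _ hv => Or.inr (h hv)

theorem ok_self {B : ℕ} {env : List ℕ} : ∀ v ∈ env, Ok B env v := fun _ hv => Or.inr hv

theorem ok_suf {B : ℕ} {env l : List ℕ} (h : l <:+ env) : ∀ v ∈ l, Ok B env v := ok_sub h.subset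

/-- cost normalisation -/
theorem cst (C : ℕ) {a k N : ℕ} {y : ℝ} (hy : y = a) (h : a ≤ k * N) :
    (C : ℝ) * y ≤ k * (C * N) := by
  subst hy
  exact_mod_cast (by nlinarith : C * a ≤ k * (C * N))

theorem le_B {C N B k : ℕ} (h : C * N ≤ B) (hk : k ≤ C) : k * N ≤ B :=
  (Nat.mul_le_mul_right _ hk).trans h

theorem div_idx {O o : ℕ} (β : ℕ) (ho : o < O) : (β * O + o) / O = β := by
  rw [add_comm, Nat.add_mul_div_right _ _ (by omega), Nat.div_eq_of_lt ho, zero_add]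

theorem mod_idx {O o : ℕ} (β : ℕ) (ho : o < O) : (β * O + o) % O = o := by
  rw [add_comm, Nat.add_mul_mod_self_right, Nat.mod_eq_of_lt ho]

theorem wd_of_bits {w M a E : ℕ} {L : List Bool}
    (h : ∀ β < w, (bit L (β * M + a)).toNat = E / 2 ^ β % 2) : wd w M L a = E % 2 ^ w := by
  induction w with
  | zero => simp [wd, Nat.mod_one]
  | succ w ih =>
    rw [wd_succ, ih fun β hβ => h β (by omega), h w (by omega), Nat.mod_pow_succ, mul_comm]

theorem scal_ex (e : Ex) (nx : ℕ) (mul : Prog) : ∃ (p : Prog) (C : ℕ), ∀ (B P : ℕ) (r : Prog)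
    (w O A f : ℕ) (xs : List ℕ) (x : ℝ) (X : List Bool), 1 ≤ P → xs.length = nx → 1 ≤ O →
    1 ≤ A → f < w → 2 ^ w ≤ B → C * (w * (O * A)) ≤ B → MulAt B P r mul w (O * A) x →
    X.length = w * (O * A) →
    ∃ Z : List Bool, Z.length = w * (O * A) ∧
      Top B P r p (w :: O :: A :: f :: xs) X Z (x + C * (w * (O * A) + w * O * P)) ∧
      ∀ o < O, ∀ j < A, ∀ u c : ℤ, (e.ev B P (o :: xs) : ℤ) ≡ c [ZMOD 2 ^ w] →
        WR w (O * A) X (o * A + j) u → 2 * |c * u| < 2 ^ w →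
        WR w (O * A) Z (o * A + j) (c * u / 2 ^ f) := by
  let e' : Ex := .cb (.var 0 % .var 2) 5 e / .pow 2 (.var 0 / .var 2) % 2 * .var 3
  obtain ⟨p₁, C₁, h₁⟩ := fill_ex e' (nx + 4)
  obtain ⟨p₂, C₂, h₂⟩ := resize_ex
  obtain ⟨p₃, C₃, h₃⟩ := asr_ex
  refine ⟨.call (.var 0 * .var 1 :: .var 2 :: fwd 0 (nx + 4)) p₁ ;;
    .call [.var 0, .var 1 * .var 2] mul ;;
    .call [1, 2 * .var 0 * (.var 1 * .var 2), .var 0 * (.var 1 * .var 2)] p₂ ;;
    .call [.var 0, .var 1 * .var 2, .var 3] p₃, 2 * C₁ + 4 * C₂ + C₃ + 7,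
    fun B P r w O A f xs x X hP hxs hO hA hf hw hB hmul hX => ?_⟩
  have hw1 : 1 ≤ w := by omega
  have hM : 1 ≤ O * A := Nat.mul_pos hO hA
  have b1 : O * A ≤ w * (O * A) := Nat.le_mul_of_pos_left _ hw1
  have b2 : w * O ≤ w * (O * A) := Nat.mul_le_mul_left _ (Nat.le_mul_of_pos_right _ hA)
  have b3 : 2 * (w * (O * A)) ≤ B := le_B hB (by omega)
  have c1 : P ≤ w * O * P := Nat.le_mul_of_pos_left _ (Nat.mul_pos hw1 hO)
  obtain ⟨F, l₁, t₁, s₁⟩ := h₁ B P r (w * O) A (w :: O :: A :: f :: xs) hP (by simp [hxs]) hA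
    (by rw [mul_assoc]; omega)
  obtain ⟨Z₀, l₂, t₂, s₂⟩ := hmul F X (by rw [l₁]; ring) hX
  obtain ⟨Z₁, l₃, t₃, s₃⟩ := h₂ B P r 1 (2 * w * (O * A)) (w * (O * A)) Z₀ hP (by rw [l₂]; ring)
  obtain ⟨Z, l₄, t₄, s₄⟩ := h₃ B P r w (O * A) f Z₁ hP hM hf (by rw [l₃]; ring)
  have g₁ := Go.call (args := .var 0 * .var 1 :: .var 2 :: fwd 0 (nx + 4))
    (env := w :: O :: A :: f :: xs)
    (by simp [ev_fwd' (B := B) (P := P) (w :: O :: A :: f :: xs) (c := 0) (n := nx + 4)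
      (by simp [hxs])])
    (ok_le (by omega) (ok_mem (by simp) ok_self)) (t₁.frame X)
  have g₂ := Go.call (args := [.var 0, .var 1 * .var 2]) (env := w :: O :: A :: f :: xs)
    (by simp) (ok_mem (by simp) (ok_le (by omega) ok_nil)) t₂
  have g₃ := Go.call (args := [1, 2 * .var 0 * (.var 1 * .var 2), .var 0 * (.var 1 * .var 2)])
    (env := w :: O :: A :: f :: xs) (by simp)
    (ok_le (by omega) (ok_le (by rw [mul_assoc]; omega) (ok_le (by omega) ok_nil))) t₃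
  have g₄ := Go.call (args := [.var 0, .var 1 * .var 2, .var 3]) (env := w :: O :: A :: f :: xs)
    (by simp) (ok_mem (by simp) (ok_le (by omega) (ok_mem (by simp) ok_nil))) t₄
  refine ⟨Z, l₄, ((g₁.seq (g₂.seq (g₃.seq g₄))).mono ?_).top, fun o ho j hj u c hc hu hb => ?_⟩
  · have k1 := cst C₁ (k := 2) (N := w * (O * A) + w * O * P) (a := w * O * A + w * O * P + P)
      rfl (by rw [mul_assoc w O A]; omega)
    have k2 := cst C₂ (k := 4) (N := w * (O * A) + w * O * P)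
      (a := 2 * w * (O * A) + w * (O * A) + 1 + P) rfl (by rw [mul_assoc 2]; omega)
    have k3 := cst C₃ (k := 1) (N := w * (O * A) + w * O * P) (a := w * (O * A) + P) rfl (by omega)
    have k4 := cst 1 (k := 7) (N := w * (O * A) + w * O * P) (a := 4 * P + 3) rfl (by omega)
    push_cast at k1 k2 k3 k4 ⊢
    linarith
  · have ha : o * A + j < O * A := P3.idx_lt ho hj
    refine s₄ _ ha _ ?_ hb
    have e1 : wd w (O * A) F (o * A + j) = e.ev B P (o :: xs) % 2 ^ w := wd_of_bits fun β hβ => by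
      have hp : (Ex.pow 2 (.var 0 / .var 2)).ev B P ((β * O + o) :: w :: O :: A :: f :: xs) =
          2 ^ β := by
        rw [Ex.ev_pow] <;> simp [div_idx β ho]
        exact (Nat.pow_le_pow_right (by norm_num) hβ.le).trans hw
      rw [show β * (O * A) + (o * A + j) = (β * O + o) * A + j by ring,
        s₁ _ (P3.idx_lt hβ ho) j hj]
      simp only [e', Ex.ev_mul, Ex.ev_mod, Ex.ev_div, hp]
      simp only [Ex.ev_cb, Ex.ev_mod, Ex.ev_var, List.getD_cons_succ, List.getD_cons_zero,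
        mod_idx β ho, List.drop_succ_cons, List.drop_zero, Ex.ev_ofNat]
      rcases Nat.mod_two_eq_zero_or_one (e.ev B P (o :: xs) / 2 ^ β) with h | h <;> simp [h, hj]
    have e2 : wd w (O * A) Z₁ (o * A + j) = wd w (O * A) Z₀ (o * A + j) := wd_congr fun β hβ => by
      have h1 := P3.idx_lt hβ ha
      have := s₃ 0 (by omega) _ h1
      simp only [zero_mul, zero_add] at this
      rw [this, decide_eq_true (by rw [mul_assoc]; omega), Bool.true_and]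
    have e3 := s₂ _ ha
    rw [two_mul, wd_add, e1] at e3
    unfold WR at hu ⊢
    rw [e2]
    have e4 : (wd w (O * A) Z₀ (o * A + j) : ℤ) ≡
        (e.ev B P (o :: xs) : ℤ) % 2 ^ w * wd w (O * A) X (o * A + j) [ZMOD 2 ^ w] := by
      refine Int.modEq_iff_dvd.2 ⟨wd w (O * A) (Z₀.drop (w * (O * A))) (o * A + j), ?_⟩
      have := congrArg (Nat.cast : ℕ → ℤ) e3
      push_cast at this
      linarith
    exact e4.trans (((Int.mod_modEq _ _).trans hc).mul hu)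

theorem sad_lt {n Bt O o bt c : ℕ} (ho : o < O) (hb : bt < Bt) (hc : c < 2 * n) :
    sad n Bt o bt c < O * (2 * n) * Bt := P3.idx_lt (P3.idx_lt ho hc) hb

theorem abs_ediv_le (a : ℤ) (f : ℕ) : |((a / 2 ^ f : ℤ) : ℝ) - a / 2 ^ f| ≤ 1 := by
  have h0 : (0 : ℤ) < 2 ^ f := by positivity
  have h1 := Int.mul_ediv_add_emod a (2 ^ f)
  have h2 := Int.emod_nonneg a h0.ne'
  have h3 := Int.emod_lt_of_pos a h0
  generalize a / 2 ^ f = q at *
  generalize a % 2 ^ f = s at *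
  subst h1
  have h4 : (0 : ℝ) ≤ s := by exact_mod_cast h2
  have h5 : (s : ℝ) ≤ 2 ^ f := by exact_mod_cast h3.le
  push_cast
  rw [show (q : ℝ) - (2 ^ f * q + s) / 2 ^ f = -(s / 2 ^ f) by field_simp; ring, abs_neg,
    abs_of_nonneg (by positivity), div_le_one (by positivity)]
  exact h5

/-- coefficientwise approximation of a real multiple -/
theorem ar_map {w M M' n : ℕ} (hn : 1 ≤ n) {ad ad' : ℕ → ℕ} {X Z : List Bool} {a : RA n}
    (ha : AR w M n ad X a) (g : ℤ → ℤ) (c ε : ℝ) (hε : 0 ≤ ε)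
    (h : ∀ p < 2 * n, ∀ u : ℤ, |(u : ℝ)| ≤ nrm n a → WR w M X (ad p) u →
      WR w M' Z (ad' p) (g u) ∧ |(g u : ℝ) - c * u| ≤ ε) :
    ∃ a' : RA n, AR w M' n ad' Z a' ∧ nrm n (a' - (c : ℂ) • a) ≤ 2 * ε := by
  choose! u hu1 hu2 using ha
  obtain ⟨a', ha'⟩ := exists_rco hn (fun p => (g (u p) : ℝ))
  have key := fun p hp => h p hp (u p) (hu1 p hp ▸ abs_rco_le a hp) (hu2 p hp)
  refine ⟨a', fun p hp => ⟨g (u p), ha' p hp, (key p hp).1⟩, nrm_le_of_rco hε fun p hp => ?_⟩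
  rw [rco_sub, rco_smul, ha' p hp, hu1 p hp]
  exact (key p hp).2

theorem ar_scal {w M M' n f : ℕ} (hn : 1 ≤ n) (hf : 3 ≤ f) (hw : w = 6 * f) {ad ad' : ℕ → ℕ}
    {X Z : List Bool} {a : RA n} {c : ℝ} {c₁ : ℤ} (hc : |(c₁ : ℝ) - 2 ^ f * c| ≤ 1)
    (hc' : |c| ≤ 2 ^ f) (ha : AR w M n ad X a) (hb : nrm n a ≤ 2 ^ (3 * f))
    (h : ∀ p < 2 * n, ∀ u : ℤ, WR w M X (ad p) u → 2 * |c₁ * u| < 2 ^ w →
      WR w M' Z (ad' p) (c₁ * u / 2 ^ f)) :
    ∃ a' : RA n, AR w M' n ad' Z a' ∧ nrm n (a' - (c : ℂ) • a) ≤ 2 * (1 + nrm n a / 2 ^ f) := by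
  have h0 := nrm_nonneg a
  have hp : (0 : ℝ) < 2 ^ f := by positivity
  refine ar_map hn ha (fun u => c₁ * u / 2 ^ f) c _ (by positivity) fun p hp' u hu hr =>
    ⟨h p hp' u hr ?_, ?_⟩
  · have h1 : |(c₁ : ℝ)| ≤ 2 * (2 ^ f * 2 ^ f) := by
      have h2 : |(2 : ℝ) ^ f * c| ≤ 2 ^ f * 2 ^ f := by rw [abs_mul, abs_of_pos hp]; gcongr
      have h3 : (1 : ℝ) ≤ 2 ^ f * 2 ^ f := by rw [← pow_add]; exact one_le_pow₀ (by norm_num)
      have := abs_sub_abs_le_abs_sub (c₁ : ℝ) (2 ^ f * c)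
      linarith
    have h4 : (2 : ℝ) ^ 3 ≤ 2 ^ f := by gcongr; norm_num
    have h5 : (2 : ℝ) * |(c₁ : ℝ) * u| < 2 ^ w := by
      rw [abs_mul, hw, show 6 * f = f + (f + f + 3 * f) by ring, pow_add, pow_add, pow_add]
      calc _ ≤ 2 * (2 * (2 ^ f * 2 ^ f) * 2 ^ (3 * f) : ℝ) := by gcongr; exact hu.trans hb
        _ = 4 * (2 ^ f * 2 ^ f * 2 ^ (3 * f)) := by ring
        _ < _ := by gcongr; linarith
    exact_mod_cast h5
  · have h1 := abs_ediv_le (c₁ * u) f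
    have h2 : |((c₁ * u : ℤ) : ℝ) / 2 ^ f - c * u| ≤ nrm n a / 2 ^ f := by
      push_cast
      rw [show (c₁ : ℝ) * u / 2 ^ f - c * u = (c₁ - 2 ^ f * c) * u / 2 ^ f by field_simp,
        abs_div, abs_mul, abs_of_pos hp]
      gcongr
      nlinarith [abs_nonneg ((c₁ : ℝ) - 2 ^ f * c), abs_nonneg (u : ℝ)]
    have := abs_sub_le ((c₁ * u / 2 ^ f : ℤ) : ℝ) (((c₁ * u : ℤ) : ℝ) / 2 ^ f) (c * u)
    linarith

theorem ar_add {w M n : ℕ} {ad : ℕ → ℕ} {X Y Z : List Bool} {a b : RA n}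
    (ha : AR w M n ad X a) (hb : AR w M n ad Y b)
    (h : ∀ c < 2 * n, ∀ u v : ℤ, WR w M X (ad c) u → WR w M Y (ad c) v → WR w M Z (ad c) (u + v)) :
    AR w M n ad Z (a + b) := fun p hp => by
  obtain ⟨u, h1, h2⟩ := ha p hp
  obtain ⟨v, h3, h4⟩ := hb p hp
  exact ⟨u + v, by rw [rco_add, h1, h3]; simp, h p hp u v h2 h4⟩

theorem ar_tw {w M M' n : ℕ} (φ : ℕ) {ad ad' : ℕ → ℕ} {X Z : List Bool} {a : RA n}
    (ha : AR w M n ad X a)
    (h : ∀ j < 2 * n, ∀ u : ℤ, WR w M X (ad j) u →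
      WR w M' Z (ad' ((j + φ) % (2 * n))) ((-1) ^ ((j + φ) / (2 * n)) * u)) :
    AR w M' n ad' Z (xr n ^ φ * a) := fun p hp => by
  have h0 : 0 < 2 * n := by omega
  have h1 : φ % (2 * n) < 2 * n := Nat.mod_lt _ h0
  have h2 : ((p + (2 * n - φ % (2 * n))) % (2 * n) + φ) % (2 * n) = p := by
    rw [Nat.mod_add_mod, ← Nat.add_mod_mod,
      show p + (2 * n - φ % (2 * n)) + φ % (2 * n) = p + 2 * n by omega, Nat.add_mod_right,
      Nat.mod_eq_of_lt hp]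
  have hj : (p + (2 * n - φ % (2 * n))) % (2 * n) < 2 * n := Nat.mod_lt _ h0
  generalize (p + (2 * n - φ % (2 * n))) % (2 * n) = j at h2 hj
  subst h2
  obtain ⟨u, h3, h4⟩ := ha j hj
  exact ⟨_, by rw [rco_xr_pow_mul (by omega) φ a hj, h3]; simp, h j hj u h4⟩

theorem ar_zero (w M n N : ℕ) (ad : ℕ → ℕ) : AR w M n ad (List.replicate N false) 0 :=
  fun p _ => ⟨0, by simp [rco_zero], by simp [WR, wd_replicate]⟩

end Crest.Agent.IM.SK
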