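import Crest.Agent.IM.Par
import Crest.Agent.IM.ScalA

/-! TASK IM-K. Multiplication by address-dependent fixed-point constants.
`scal`: `fill` a sliced array of constants (`w O` rows; row `β O + o` is all ones iff bit `β` of
`e (o :: xs)`), multiply, truncate to `w` slices (`resize`), `asr p`.
`rscal`: the same program with `A = 2 n Bt` (`exists_rco` for the result).
`cscal`: `pick`, two `scal`, `tw` by `n` (multiplication by `i`, `xr_pow_mul`), `add2`.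
`band`: accumulator of zeros; for `l < nl`: `pick` the input, `rot` the field of size `s` so that
index `(j + (l σ₁ + σ₀)) % s` comes to `j`, `gath` (row `j' ↦ j' / s' * s + ψ (j' % s')`, rows of
`Oi (2 n) Bt` bits), `rscal` with callback index `o' % s'` (`O s'` rows of `Oi (2 n) Bt` lanes,
use `scal`), `add2`; finally remove the input (`exch`, `drop`).
`asrA`: `asr` on represented elements. -/

set_option autoImplicit false

namespace Crest.Agent.IM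
open SK

theorem scal_ex (e : Ex) (nx : ℕ) (mul : Prog) : ∃ (p : Prog) (C : ℕ), ∀ (B P : ℕ) (r : Prog)
    (w O A f : ℕ) (xs : List ℕ) (x : ℝ) (X : List Bool), 1 ≤ P → xs.length = nx → 1 ≤ O →
    1 ≤ A → f < w → 2 ^ w ≤ B → C * (w * (O * A)) ≤ B → MulAt B P r mul w (O * A) x →
    X.length = w * (O * A) →
    ∃ Z : List Bool, Z.length = w * (O * A) ∧
      Top B P r p (w :: O :: A :: f :: xs) X Z (x + C * (w * (O * A) + w * O * P)) ∧
      ∀ o < O, ∀ j < A, ∀ u c : ℤ, (e.ev B P (o :: xs) : ℤ) ≡ c [ZMOD 2 ^ w] →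
        WR w (O * A) X (o * A + j) u → 2 * |c * u| < 2 ^ w →
        WR w (O * A) Z (o * A + j) (c * u / 2 ^ f) := by
  exact SK.scal_ex e nx mul

theorem rscal_ex (e : Ex) (nx : ℕ) (mul : Prog) : ∃ (p : Prog) (C : ℕ), ∀ (B P : ℕ) (r : Prog)
    (w O n Bt f : ℕ) (xs : List ℕ) (x : ℝ) (X : List Bool), 1 ≤ P → xs.length = nx → 1 ≤ O →
    1 ≤ n → 1 ≤ Bt → 3 ≤ f → w = 6 * f → P ≤ 2 * n * Bt → 2 ^ w ≤ B →
    C * (w * (O * (2 * n) * Bt)) ≤ B → MulAt B P r mul w (O * (2 * n) * Bt) x →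
    X.length = w * (O * (2 * n) * Bt) →
    ∃ Z : List Bool, Z.length = w * (O * (2 * n) * Bt) ∧
      Top B P r p (w :: O :: n :: Bt :: f :: xs) X Z (x + C * (w * (O * (2 * n) * Bt))) ∧
      ∀ o < O, ∀ bt < Bt, ∀ (a : RA n) (c : ℝ) (c₁ : ℤ),
        (e.ev B P (o :: xs) : ℤ) ≡ c₁ [ZMOD 2 ^ w] → |(c₁ : ℝ) - 2 ^ f * c| ≤ 1 → |c| ≤ 2 ^ f →
        AR w (O * (2 * n) * Bt) n (sad n Bt o bt) X a → nrm n a ≤ 2 ^ (3 * f) →
        ∃ a' : RA n, AR w (O * (2 * n) * Bt) n (sad n Bt o bt) Z a' ∧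
          nrm n (a' - (c : ℂ) • a) ≤ 2 * (1 + nrm n a / 2 ^ f) := by
  obtain ⟨p₁, C₁, h₁⟩ := scal_ex e nx mul
  refine ⟨.call (.var 0 :: .var 1 :: 2 * .var 2 * .var 3 :: fwd 4 (nx + 1)) p₁, 2 * C₁ + 1,
    fun B P r w O n Bt f xs x X hP hxs hO hn hBt hf hw hPA hwB hB hmul hX => ?_⟩
  have e1 : O * (2 * n) * Bt = O * (2 * n * Bt) := by ring
  rw [e1] at hB hmul hX ⊢
  have hA : 1 ≤ 2 * n * Bt := by omega
  have b1 : 2 * n * Bt ≤ w * (O * (2 * n * Bt)) := by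
    rw [← mul_assoc]; exact Nat.le_mul_of_pos_left _ (Nat.mul_pos (by omega) hO)
  have b2 : 1 * (w * (O * (2 * n * Bt))) ≤ B := le_B hB (by omega)
  have b3 : w * O * P ≤ w * (O * (2 * n * Bt)) := by rw [mul_assoc]; gcongr
  obtain ⟨Z, l₁, t₁, s₁⟩ := h₁ B P r w O (2 * n * Bt) f xs x X hP hxs hO hA (by omega) hwB
    (le_B hB (by omega)) hmul hX
  have g₁ := Go.call (args := .var 0 :: .var 1 :: 2 * .var 2 * .var 3 :: fwd 4 (nx + 1))
    (env := w :: O :: n :: Bt :: f :: xs)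
    (by simp [ev_fwd' (B := B) (P := P) (w :: O :: n :: Bt :: f :: xs) (c := 4) (n := nx + 1)
      (by simp [hxs]; ring)])
    (ok_mem (by simp) (ok_mem (by simp) (ok_le (by omega)
      (ok_sub fun v hv => by simp only [List.mem_cons] at hv ⊢; tauto)))) t₁
  refine ⟨Z, l₁, (g₁.mono ?_).top, fun o ho bt hbt a c c₁ h1 h2 h3 h4 h5 =>
    ar_scal hn hf hw h2 h3 h4 h5 fun p hp u hu hb => ?_⟩
  · have k1 := cst C₁ (k := 2) (N := w * (O * (2 * n * Bt)))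
      (a := w * (O * (2 * n * Bt)) + w * O * P) rfl (by omega)
    have k2 := cst 1 (k := 1) (N := w * (O * (2 * n * Bt))) (a := P) rfl (by omega)
    push_cast at k1 k2 ⊢
    linarith
  · have e2 : sad n Bt o bt p = o * (2 * n * Bt) + (p * Bt + bt) := by unfold sad; ring
    rw [e2] at hu ⊢
    exact s₁ o ho _ (P3.idx_lt hp hbt) u c₁ h1 hu hb

theorem cscal_ex (e₁ e₂ : Ex) (nx : ℕ) (mul : Prog) : ∃ (p : Prog) (C : ℕ), ∀ (B P : ℕ) (r : Prog)
    (w O n Bt f : ℕ) (xs : List ℕ) (x : ℝ) (X : List Bool), 1 ≤ P → xs.length = nx → 1 ≤ O →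
    1 ≤ n → 1 ≤ Bt → 3 ≤ f → w = 6 * f → P ≤ 2 * n * Bt → 2 ^ w ≤ B →
    C * (w * (O * (2 * n) * Bt)) ≤ B → MulAt B P r mul w (O * (2 * n) * Bt) x →
    X.length = w * (O * (2 * n) * Bt) →
    ∃ Z : List Bool, Z.length = w * (O * (2 * n) * Bt) ∧
      Top B P r p (w :: O :: n :: Bt :: f :: xs) X Z (2 * x + C * (w * (O * (2 * n) * Bt))) ∧
      ∀ o < O, ∀ bt < Bt, ∀ (a : RA n) (c : ℂ) (c₁ c₂ : ℤ),
        (e₁.ev B P (o :: xs) : ℤ) ≡ c₁ [ZMOD 2 ^ w] → |(c₁ : ℝ) - 2 ^ f * c.re| ≤ 1 →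
        (e₂.ev B P (o :: xs) : ℤ) ≡ c₂ [ZMOD 2 ^ w] → |(c₂ : ℝ) - 2 ^ f * c.im| ≤ 1 →
        ‖c‖ ≤ 2 ^ f → AR w (O * (2 * n) * Bt) n (sad n Bt o bt) X a → nrm n a ≤ 2 ^ (3 * f) →
        ∃ a' : RA n, AR w (O * (2 * n) * Bt) n (sad n Bt o bt) Z a' ∧
          nrm n (a' - c • a) ≤ 4 * (1 + nrm n a / 2 ^ f) := by
  obtain ⟨p₁, C₁, h₁⟩ := rscal_ex e₁ nx mul
  obtain ⟨p₂, C₂, h₂⟩ := rscal_ex e₂ nx mul
  obtain ⟨p₃, C₃, h₃⟩ := pick_ex
  obtain ⟨p₄, C₄, h₄⟩ := tw_ex (.var 1) 1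
  obtain ⟨p₅, C₅, h₅⟩ := exch_ex
  obtain ⟨p₆, C₆, h₆⟩ := add2_ex
  let eM : Ex := .var 1 * (2 * .var 2) * .var 3
  refine ⟨.call [0, .var 0 * eM] p₃ ;; .call (fwd 0 (nx + 5)) p₂ ;;
    .call [.var 0, .var 1, 2 * .var 2, .var 3, .var 2] p₄ ;; .call [.var 0 * eM, .var 0 * eM] p₅ ;;
    .call (fwd 0 (nx + 5)) p₁ ;; .call [.var 0, eM] p₆,
    C₁ + C₂ + 2 * C₃ + 2 * C₄ + 3 * C₅ + 2 * C₆ + 11,
    fun B P r w O n Bt f xs x X hP hxs hO hn hBt hf hw hPA hwB hB hmul hX => ?_⟩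
  have hw1 : 1 ≤ w := by omega
  have hM : 1 ≤ O * (2 * n) * Bt := Nat.mul_pos (Nat.mul_pos hO (by omega)) hBt
  have b0 : O * (2 * n) * Bt ≤ w * (O * (2 * n) * Bt) := Nat.le_mul_of_pos_left _ hw1
  have b1 : 2 * n * Bt ≤ O * (2 * n) * Bt := by
    rw [mul_assoc O]; exact Nat.le_mul_of_pos_left _ hO
  have b2 : 1 * (w * (O * (2 * n) * Bt)) ≤ B := le_B hB (by omega)
  have b3 : w * O * P ≤ w * (O * (2 * n) * Bt) := by rw [mul_assoc, mul_assoc O]; gcongr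
  have b4 : 2 * n ≤ 2 * n * Bt := Nat.le_mul_of_pos_right _ hBt
  have hfw := ev_fwd' (B := B) (P := P) (w :: O :: n :: Bt :: f :: xs) (c := 0) (n := nx + 5)
    (by simp [hxs])
  have t₃ := h₃ B P r 0 _ [] X hP rfl hX
  obtain ⟨Z₂, l₂, t₂, s₂⟩ := h₂ B P r w O n Bt f xs x X hP hxs hO hn hBt hf hw hPA hwB
    (le_B hB (by omega)) hmul hX
  obtain ⟨Z₄, l₄, t₄, s₄⟩ := h₄ B P r w O (2 * n) Bt [n] Z₂ hP rfl hw1 hO (by omega) hBt
    (by omega) l₂
  have t₅ := h₅ B P r _ _ Z₄ X hP l₄ hX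
  obtain ⟨Z₁, l₁, t₁, s₁⟩ := h₁ B P r w O n Bt f xs x X hP hxs hO hn hBt hf hw hPA hwB
    (le_B hB (by omega)) hmul hX
  obtain ⟨Z, l₆, t₆, s₆⟩ := h₆ B P r w _ Z₁ Z₄ hP hw1 hM l₁ l₄
  have g₃ := Go.call (args := [0, .var 0 * eM]) (env := w :: O :: n :: Bt :: f :: xs)
    (by simp [eM]) (ok_le (by omega) (ok_le (by omega) ok_nil)) t₃
  have g₂ := Go.call hfw ok_self (t₂.frame X)
  have g₄ := Go.call (args := [.var 0, .var 1, 2 * .var 2, .var 3, .var 2])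
    (env := w :: O :: n :: Bt :: f :: xs) (by simp)
    (ok_mem (by simp) (ok_mem (by simp) (ok_le (by omega) (ok_sub (by simp))))) (t₄.frame X)
  have g₅ := Go.call (args := [.var 0 * eM, .var 0 * eM]) (env := w :: O :: n :: Bt :: f :: xs)
    (by simp [eM]) (ok_le (by omega) (ok_le (by omega) ok_nil)) t₅
  have g₁ := Go.call hfw ok_self (t₁.frame Z₄)
  have g₆ := Go.call (args := [.var 0, eM]) (env := w :: O :: n :: Bt :: f :: xs)
    (by simp [eM]) (ok_mem (by simp) (ok_le (by omega) ok_nil)) t₆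
  refine ⟨Z, l₆, ((g₃.seq (g₂.seq (g₄.seq (g₅.seq (g₁.seq g₆))))).mono ?_).top,
    fun o ho bt hbt a c c₁ c₂ h1 h2 h3 h4 h5 h6 h7 => ?_⟩
  · have k3 := cst C₃ (k := 2) (N := w * (O * (2 * n) * Bt))
      (a := 0 + w * (O * (2 * n) * Bt) + P) rfl (by omega)
    have k4 := cst C₄ (k := 2) (N := w * (O * (2 * n) * Bt))
      (a := w * (O * (2 * n) * Bt) + w * O * P) rfl (by omega)
    have k5 := cst C₅ (k := 3) (N := w * (O * (2 * n) * Bt))
      (a := w * (O * (2 * n) * Bt) + w * (O * (2 * n) * Bt) + P) rfl (by omega)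
    have k6 := cst C₆ (k := 2) (N := w * (O * (2 * n) * Bt))
      (a := w * (O * (2 * n) * Bt) + P) rfl (by omega)
    have k7 := cst 1 (k := 11) (N := w * (O * (2 * n) * Bt)) (a := 6 * P + 5) rfl (by omega)
    push_cast at k3 k4 k5 k6 k7 ⊢
    linarith
  · obtain ⟨a₁, r₁, n₁⟩ := s₁ o ho bt hbt a c.re c₁ h1 h2 ((Complex.abs_re_le_norm c).trans h5) h6 h7
    obtain ⟨a₂, r₂, n₂⟩ := s₂ o ho bt hbt a c.im c₂ h3 h4 ((Complex.abs_im_le_norm c).trans h5) h6 h7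
    have r₄ : AR w (O * (2 * n) * Bt) n (sad n Bt o bt) Z₄ (xr n ^ n * a₂) :=
      ar_tw n r₂ fun j hj u hu => s₄ o ho j hj bt hbt u hu
    refine ⟨_, ar_add r₁ r₄ fun p hp => s₆ _ (SK.sad_lt ho hbt hp), ?_⟩
    have e1 : a₁ + xr n ^ n * a₂ - c • a =
        (a₁ - (c.re : ℂ) • a) + Complex.I • (a₂ - (c.im : ℂ) • a) := by
      rw [xr_pow_mul]
      conv_lhs => rw [← Complex.re_add_im c]
      module
    rw [e1]
    refine (nrm_add_le _ _).trans ?_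
    rw [nrm_smul, Complex.norm_I]
    linarith

theorem band_ex (eψ ec : Ex) (nx : ℕ) (mul : Prog) : ∃ (p : Prog) (C : ℕ), ∀ (B P : ℕ) (r : Prog)
    (w O s s' Oi n Bt f nl σ₁ σ₀ : ℕ) (xs : List ℕ) (x : ℝ) (X : List Bool), 1 ≤ P →
    xs.length = nx → 1 ≤ O → 1 ≤ s → 1 ≤ s' → 1 ≤ Oi → 1 ≤ n → 1 ≤ Bt → 3 ≤ f → w = 6 * f →
    P ≤ 2 * n * Bt → 2 ^ w ≤ B → nl ≤ B →
    C * (w * (O * s * Oi * (2 * n) * Bt) + w * (O * s' * Oi * (2 * n) * Bt)) ≤ B →
    (∀ k < s', eψ.ev B P (k :: xs) < s) →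
    (∀ k, k + 1 < s' → eψ.ev B P (k :: xs) ≤ eψ.ev B P ((k + 1) :: xs)) →
    MulAt B P r mul w (O * s' * Oi * (2 * n) * Bt) x →
    X.length = w * (O * s * Oi * (2 * n) * Bt) →
    ∃ Z : List Bool, Z.length = w * (O * s' * Oi * (2 * n) * Bt) ∧
      Top B P r p (w :: O :: s :: s' :: Oi :: n :: Bt :: f :: nl :: σ₁ :: σ₀ :: xs) X Z
        (nl * x + C * (nl + 1) *
          (w * (O * s * Oi * (2 * n) * Bt) + w * (O * s' * Oi * (2 * n) * Bt))) ∧
      ∀ o < O, ∀ k < s', ∀ oi < Oi, ∀ bt < Bt, ∀ (a : ℕ → RA n) (μ : ℝ) (c : ℕ → ℝ),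
        (∀ j < s, AR w (O * s * Oi * (2 * n) * Bt) n (sad n Bt ((o * s + j) * Oi + oi) bt) X (a j) ∧
          nrm n (a j) ≤ μ) → μ ≤ 2 ^ (3 * f) →
        (∀ l < nl, |c l| ≤ 2 ^ f ∧ ∃ c₁ : ℤ, (ec.ev B P (k :: l :: xs) : ℤ) ≡ c₁ [ZMOD 2 ^ w] ∧
          |(c₁ : ℝ) - 2 ^ f * c l| ≤ 1) →
        ∃ a' : RA n,
          AR w (O * s' * Oi * (2 * n) * Bt) n (sad n Bt ((o * s' + k) * Oi + oi) bt) Z a' ∧
          nrm n (a' - ∑ l ∈ Finset.range nl,
            (c l : ℂ) • a ((eψ.ev B P (k :: xs) + (l * σ₁ + σ₀)) % s)) ≤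
            nl * (2 * (1 + μ / 2 ^ f)) := by
  let eI : Ex := .var 5 * (2 * .var 6) * .var 7
  let eN : Ex := .var 0 * (.var 1 * .var 2 * .var 4 * (2 * .var 5) * .var 6)
  let eN' : Ex := .var 0 * (.var 1 * .var 3 * .var 4 * (2 * .var 5) * .var 6)
  obtain ⟨p₀, C₀, h₀⟩ := zeros_ex
  obtain ⟨p₁, C₁, h₁⟩ := pick_ex
  obtain ⟨p₂, C₂, h₂⟩ := rot_ex ((.var 4 - (.var 1 * .var 11 + .var 12) % .var 4) * .drop 1 eI)
    (nx + 12)
  obtain ⟨p₃, C₃, h₃⟩ := gath_ex (.var 0 / .var 5 * .var 4 + .cb (.var 0 % .var 5) 13 eψ) (nx + 12)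
  obtain ⟨p₄, C₄, h₄⟩ := rscal_ex (.cb (.var 0 / .var 2 % .var 1) 3 ec) (nx + 3) mul
  obtain ⟨p₅, C₅, h₅⟩ := add2_ex
  obtain ⟨p₆, C₆, h₆⟩ := exch_ex
  obtain ⟨p₇, C₇, h₇⟩ := drop_ex
  let body : Prog := .call [.drop 1 eN', .drop 1 eN] p₁ ;;
    .call (.var 1 * .var 2 :: .var 3 * eI :: fwd 0 (nx + 12)) p₂ ;;
    .call (.var 1 * .var 2 * .var 4 :: .var 1 * .var 2 * .var 3 :: eI :: fwd 0 (nx + 12)) p₃ ;;
    .call (.var 1 :: .var 2 * .var 4 * .var 5 :: .var 6 :: .var 7 :: .var 8 :: .var 4 :: .var 5 ::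
      .var 0 :: fwd 12 nx) p₄ ;;
    .call [.var 1, .var 2 * .var 4 * .var 5 * (2 * .var 6) * .var 7] p₅ ;; .set 0 (.var 0 + 1)
  refine ⟨.call [eN'] p₀ ;; .lett 0 (.loop (.var 9) body) ;; .call [eN', eN] p₆ ;; .call [eN] p₇,
    2 * C₀ + 2 * C₁ + 3 * C₂ + 3 * C₃ + C₄ + 2 * C₅ + 2 * C₆ + 2 * C₇ + 12,
    fun B P r w O s s' Oi n Bt f nl σ₁ σ₀ xs x X hP hxs hO hs hs' hOi hn hBt hf hw hPA hwB hnl hB
      hψ hψ' hmul hX => ?_⟩
  have hw1 : 1 ≤ w := by omega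
  obtain ⟨I, hI⟩ : ∃ I, I = Oi * (2 * n) * Bt := ⟨_, rfl⟩
  obtain ⟨M, hM⟩ : ∃ M, M = O * s * Oi * (2 * n) * Bt := ⟨_, rfl⟩
  obtain ⟨M', hM'⟩ : ∃ M', M' = O * s' * Oi * (2 * n) * Bt := ⟨_, rfl⟩
  have eM : w * O * s * I = w * M := by rw [hI, hM]; ring
  have eM' : w * O * s' * I = w * M' := by rw [hI, hM']; ring
  have hPI : P ≤ I := by
    rw [hI, mul_assoc]; exact hPA.trans (Nat.le_mul_of_pos_left _ hOi)
  have hI1 : 1 ≤ I := by omega
  have hwO : 1 ≤ w * O := Nat.mul_pos hw1 hO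
  have b1 : s * I ≤ w * M := by rw [← eM, mul_assoc _ s]; exact Nat.le_mul_of_pos_left _ hwO
  have b2 : I ≤ s * I := Nat.le_mul_of_pos_left _ hs
  have b3 : w * O * s ≤ w * M := by rw [← eM]; exact Nat.le_mul_of_pos_right _ hI1
  have b4 : w * O * s' ≤ w * M' := by rw [← eM']; exact Nat.le_mul_of_pos_right _ hI1
  have b5 : w * O * P ≤ w * M := by rw [← eM, mul_assoc _ s]; gcongr; omega
  have b6 : w * O * s' * P ≤ w * M' := by rw [← eM']; gcongr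
  have b7 : M' ≤ w * M' := Nat.le_mul_of_pos_left _ hw1
  have b8 : O * s' * Oi ≤ M' := by
    rw [hM', mul_assoc _ _ Bt]; exact Nat.le_mul_of_pos_right _ (by omega)
  have b9 : 1 ≤ O * s' * Oi := Nat.mul_pos (Nat.mul_pos hO hs') hOi
  have b10 : w * O ≤ w * O * s := Nat.le_mul_of_pos_right _ hs
  have cM : (O * s * Oi * (2 * n) * Bt : ℝ) = M := by rw [hM]; push_cast; ring
  have cM' : (O * s' * Oi * (2 * n) * Bt : ℝ) = M' := by rw [hM']; push_cast; ring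
  rw [cM, cM']
  rw [← hM, ← hM'] at hB ⊢
  rw [← hM] at hX
  rw [← hM'] at hmul
  have bB : 1 * (w * M + w * M') ≤ B := le_B hB (by omega)
  obtain ⟨env, L, g₁, rfl, Z, l₁, rfl, s₁⟩ := Go.loop (B := B) (P := P) (r := r) (p := body)
    (e := .var 9) (env := 0 :: w :: O :: s :: s' :: Oi :: n :: Bt :: f :: nl :: σ₁ :: σ₀ :: xs)
    (L := List.replicate (w * M') false ++ X) (n := nl) (by simp)
    (fun l env L => env = l :: w :: O :: s :: s' :: Oi :: n :: Bt :: f :: nl :: σ₁ :: σ₀ :: xs ∧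
      ∃ Z : List Bool, Z.length = w * M' ∧ L = Z ++ X ∧
      ∀ o < O, ∀ k < s', ∀ oi < Oi, ∀ bt < Bt, ∀ (a : ℕ → RA n) (μ : ℝ) (c : ℕ → ℝ),
        (∀ j < s, AR w M n (sad n Bt ((o * s + j) * Oi + oi) bt) X (a j) ∧
          nrm n (a j) ≤ μ) → μ ≤ 2 ^ (3 * f) →
        (∀ l < nl, |c l| ≤ 2 ^ f ∧ ∃ c₁ : ℤ, (ec.ev B P (k :: l :: xs) : ℤ) ≡ c₁ [ZMOD 2 ^ w] ∧
          |(c₁ : ℝ) - 2 ^ f * c l| ≤ 1) →
        ∃ a' : RA n, AR w M' n (sad n Bt ((o * s' + k) * Oi + oi) bt) Z a' ∧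
          nrm n (a' - ∑ l ∈ Finset.range l,
            (c l : ℂ) • a ((eψ.ev B P (k :: xs) + (l * σ₁ + σ₀)) % s)) ≤
            l * (2 * (1 + μ / 2 ^ f)))
    (x + (2 * C₁ + 3 * C₂ + 3 * C₃ + C₄ + 2 * C₅ + 11) * (w * M + w * M'))
    ⟨rfl, _, by simp, rfl, fun o ho k hk oi hoi bt hbt a μ c _ _ _ =>
      ⟨0, ar_zero _ _ _ _ _, by simp [nrm_zero]⟩⟩
    (by
      rintro l hl env L ⟨rfl, Z, hZ, rfl, hz⟩
      have hfw := ev_fwd' (B := B) (P := P)
        (l :: w :: O :: s :: s' :: Oi :: n :: Bt :: f :: nl :: σ₁ :: σ₀ :: xs) (c := 0)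
        (n := nx + 12) (by simp [hxs])
      have hfw' := ev_fwd' (B := B) (P := P)
        (l :: w :: O :: s :: s' :: Oi :: n :: Bt :: f :: nl :: σ₁ :: σ₀ :: xs) (c := 12)
        (n := nx) (by simp [hxs]; ring)
      have t₁ := h₁ B P r _ _ Z X hP hZ hX
      obtain ⟨X₂, l₂, t₂, s₂⟩ := h₂ B P r (w * O) (s * I)
        (l :: w :: O :: s :: s' :: Oi :: n :: Bt :: f :: nl :: σ₁ :: σ₀ :: xs) X hP (by simp [hxs])
        (by omega) (by rw [← mul_assoc, eM]; omega) (by rw [← mul_assoc, eM, hX])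
      obtain ⟨X₃, l₃, t₃, s₃⟩ := h₃ B P r (w * O * s') (w * O * s) I
        (l :: w :: O :: s :: s' :: Oi :: n :: Bt :: f :: nl :: σ₁ :: σ₀ :: xs) X₂ hP (by simp [hxs])
        hI1 (by omega) (by omega) (by rw [l₂]; ring)
        (fun j hj => by
          simp only [Ex.ev_add, Ex.ev_mul, Ex.ev_div, Ex.ev_cb, Ex.ev_mod, Ex.ev_var,
            List.getD_cons_succ, List.getD_cons_zero, List.drop_succ_cons, List.drop_zero]
          exact P3.idx_lt (Nat.div_lt_of_lt_mul (by rwa [mul_comm])) (hψ _ (Nat.mod_lt _ hs')))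
        (fun j hj => by
          simp only [Ex.ev_add, Ex.ev_mul, Ex.ev_div, Ex.ev_cb, Ex.ev_mod, Ex.ev_var,
            List.getD_cons_succ, List.getD_cons_zero, List.drop_succ_cons, List.drop_zero]
          have h1 : j % s' < s' := Nat.mod_lt _ hs'
          obtain ⟨q, k, hk, rfl⟩ : ∃ q k, k < s' ∧ j = q * s' + k :=
            ⟨j / s', j % s', h1, (Nat.div_add_mod' j s').symm⟩
          rw [div_idx q hk, mod_idx q hk]
          by_cases hk' : k + 1 < s'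
          · rw [add_assoc, div_idx q hk', mod_idx q hk']
            exact Nat.add_le_add_left (hψ' k hk') _
          · rw [show q * s' + k + 1 = (q + 1) * s' + 0 by rw [add_mul]; omega, div_idx _ hs']
            have := hψ k hk
            rw [add_mul]; omega)
      obtain ⟨X₄, l₄, t₄, s₄⟩ := h₄ B P r w (O * s' * Oi) n Bt f (s' :: Oi :: l :: xs) x X₃ hP
        (by simp [hxs]) b9 hn hBt hf hw hPA hwB
        (by rw [← hM']; exact le_trans (Nat.mul_le_mul_left _ (by omega)) (le_B hB (by omega)))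
        (hM' ▸ hmul) (by rw [l₃, eM', hM'])
      rw [← hM'] at l₄ s₄
      obtain ⟨Z', l₅, t₅, s₅⟩ := h₅ B P r w M' X₄ Z hP hw1 (by omega) l₄ hZ
      have g₁ := Go.call (args := [.drop 1 eN', .drop 1 eN])
        (env := l :: w :: O :: s :: s' :: Oi :: n :: Bt :: f :: nl :: σ₁ :: σ₀ :: xs)
        (by simp [eN, eN', hM, hM']) (ok_le (by omega) (ok_le (by omega) ok_nil)) t₁
      have g₂ := Go.call
        (args := .var 1 * .var 2 :: .var 3 * eI :: fwd 0 (nx + 12))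
        (env := l :: w :: O :: s :: s' :: Oi :: n :: Bt :: f :: nl :: σ₁ :: σ₀ :: xs)
        (by simp [eI, hI, hfw])
        (ok_le (by omega) (ok_le (by omega) ok_self)) (t₂.frame (Z ++ X))
      have g₃ := Go.call
        (args := .var 1 * .var 2 * .var 4 :: .var 1 * .var 2 * .var 3 :: eI :: fwd 0 (nx + 12))
        (env := l :: w :: O :: s :: s' :: Oi :: n :: Bt :: f :: nl :: σ₁ :: σ₀ :: xs)
        (by simp [eI, hI, hfw])
        (ok_le (by omega) (ok_le (by omega) (ok_le (by omega) ok_self))) (t₃.frame (Z ++ X))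
      have g₄ := Go.call
        (args := .var 1 :: .var 2 * .var 4 * .var 5 :: .var 6 :: .var 7 :: .var 8 :: .var 4 ::
          .var 5 :: .var 0 :: fwd 12 nx)
        (env := l :: w :: O :: s :: s' :: Oi :: n :: Bt :: f :: nl :: σ₁ :: σ₀ :: xs)
        (by simp [hfw'])
        (ok_mem (by simp) (ok_le (by omega)
          (ok_sub fun v hv => by simp only [List.mem_cons] at hv ⊢; tauto))) (t₄.frame (Z ++ X))
      have g₅ := Go.call (args := [.var 1, .var 2 * .var 4 * .var 5 * (2 * .var 6) * .var 7])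
        (env := l :: w :: O :: s :: s' :: Oi :: n :: Bt :: f :: nl :: σ₁ :: σ₀ :: xs)
        (by simp [hM']) (ok_mem (by simp) (ok_le (by omega) ok_nil)) (t₅.frame X)
      rw [List.append_assoc] at g₅
      have g₆ := Go.set (B := B) (P := P) (r := r) (i := 0) (e := .var 0 + 1) (L := Z' ++ X)
        (env := l :: w :: O :: s :: s' :: Oi :: n :: Bt :: f :: nl :: σ₁ :: σ₀ :: xs) (v := l + 1)
        (by simp) (Or.inl (by omega))
      refine ⟨_, _, (g₁.seq (g₂.seq (g₃.seq (g₄.seq (g₅.seq g₆))))).mono ?_, rfl, Z', l₅, rfl,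
        fun o ho k hk oi hoi bt hbt a μ c ha hμ hc => ?_⟩
      · have k1 := cst C₁ (k := 2) (N := w * M + w * M') (a := w * M' + w * M + P) rfl (by omega)
        have k2 := cst C₂ (k := 3) (N := w * M + w * M') (a := w * O * (s * I) + w * O * P + P) rfl
          (by rw [← mul_assoc, eM]; omega)
        have k3 := cst C₃ (k := 3) (N := w * M + w * M')
          (a := w * O * s * I + w * O * s' * I + w * O * s' * P + P) rfl (by omega)
        have k4 := cst C₄ (k := 1) (N := w * M + w * M') (a := w * M') rfl (by omega)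
        have k5 := cst C₅ (k := 2) (N := w * M + w * M') (a := w * M' + P) rfl (by omega)
        have k6 := cst 1 (k := 11) (N := w * M + w * M') (a := 6 * P + 5) rfl (by omega)
        push_cast at k1 k2 k3 k4 k5 k6 ⊢
        rw [cM']
        linarith
      · obtain ⟨a', r₁, n₁⟩ := hz o ho k hk oi hoi bt hbt a μ c ha hμ hc
        obtain ⟨hc1, c₁, hc2, hc3⟩ := hc l hl
        have hψk := hψ k hk
        have hj : (eψ.ev B P (k :: xs) + (l * σ₁ + σ₀)) % s < s := Nat.mod_lt _ hs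
        have ho' : (o * s' + k) * Oi + oi < O * s' * Oi := P3.idx_lt (P3.idx_lt ho hk) hoi
        obtain ⟨r₂, n₂⟩ := ha _ hj
        have r₃ : AR w M' n (sad n Bt ((o * s' + k) * Oi + oi) bt) X₃
            (a ((eψ.ev B P (k :: xs) + (l * σ₁ + σ₀)) % s)) :=
          r₂.move fun p hp u hu => hu.move fun β hβ => by
            have hi : (oi * (2 * n) + p) * Bt + bt < I := hI ▸ SK.sad_lt hoi hbt hp
            have hβ' : β * O + o < w * O := P3.idx_lt hβ ho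
            have e3 := s₃ _ (P3.idx_lt hβ' hk) _ hi
            have e2 := s₂ _ hβ' _ (P3.idx_lt hj hi)
            simp only [eI, Ex.ev_add, Ex.ev_sub, Ex.ev_mul, Ex.ev_div, Ex.ev_cb, Ex.ev_mod,
              Ex.ev_var, Ex.ev_drop, Ex.ev_ofNat, List.getD_cons_succ, List.getD_cons_zero,
              List.drop_succ_cons, List.drop_zero, div_idx _ hk, mod_idx _ hk, ← hI] at e2 e3
            generalize eψ.ev B P (k :: xs) = ψ at *
            generalize l * σ₁ + σ₀ = σ at *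
            have e4 : ((ψ + σ) % s * I + ((oi * (2 * n) + p) * Bt + bt) + (s - σ % s) * I) %
                (s * I) = ψ * I + ((oi * (2 * n) + p) * Bt + bt) := by
              have h1 : σ % s < s := Nat.mod_lt _ hs
              generalize (oi * (2 * n) + p) * Bt + bt = i at *
              rw [show (ψ + σ) % s * I + i + (s - σ % s) * I =
                i + I * ((ψ + σ) % s + (s - σ % s)) by ring, mul_comm s I, Nat.mod_mul,
                Nat.add_mul_mod_self_left, Nat.mod_eq_of_lt hi, Nat.add_mul_div_left _ _ hI1,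
                Nat.div_eq_of_lt hi, zero_add, Nat.mod_add_mod, add_right_comm,
                ← Nat.add_mod_mod, show ψ + (s - σ % s) + σ % s = ψ + s by omega,
                Nat.add_mod_right, Nat.mod_eq_of_lt hψk]
              ring
            rw [e4] at e2
            calc _ = bit X₃ (((β * O + o) * s' + k) * I + ((oi * (2 * n) + p) * Bt + bt)) := by
                  congr 1; rw [hM', hI, sad]; ring
              _ = bit X₂ ((β * O + o) * (s * I) + (ψ * I + ((oi * (2 * n) + p) * Bt + bt))) := by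
                  rw [e3]; congr 1; ring
              _ = _ := by rw [e2]; congr 1; rw [hM, hI, sad]; ring
        obtain ⟨a₄, r₄, n₄⟩ := s₄ _ ho' bt hbt _ (c l) c₁
          (by simpa [div_idx _ hoi, mod_idx _ hk] using hc2) hc3 hc1 r₃ (n₂.trans hμ)
        refine ⟨_, ar_add r₄ r₁ fun p hp => s₅ _ (hM' ▸ SK.sad_lt ho' hbt hp), ?_⟩
        rw [Finset.sum_range_succ, add_comm a₄, add_sub_add_comm]
        refine (nrm_add_le _ _).trans ?_
        have : nrm n (a ((eψ.ev B P (k :: xs) + (l * σ₁ + σ₀)) % s)) / 2 ^ f ≤ μ / 2 ^ f := by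
          gcongr
        push_cast
        linarith)
  have g₀ := Go.call (args := [eN'])
    (env := w :: O :: s :: s' :: Oi :: n :: Bt :: f :: nl :: σ₁ :: σ₀ :: xs)
    (by simp [eN', hM']) (ok_le (by omega) ok_nil) ((h₀ B P r (w * M') hP).frame X)
  have g₂ := Go.lett (e := 0) (by simp) (Or.inl (Nat.zero_le _)) g₁
  have g₆ := Go.call (args := [eN', eN])
    (env := w :: O :: s :: s' :: Oi :: n :: Bt :: f :: nl :: σ₁ :: σ₀ :: xs)
    (by simp [eN, eN', hM, hM']) (ok_le (by omega) (ok_le (by omega) ok_nil))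
    (h₆ B P r _ _ Z X hP l₁ hX)
  have g₇ := Go.call (args := [eN])
    (env := w :: O :: s :: s' :: Oi :: n :: Bt :: f :: nl :: σ₁ :: σ₀ :: xs)
    (by simp [eN, hM]) (ok_le (by omega) ok_nil) ((h₇ B P r _ X hP hX).frame Z)
  refine ⟨Z, l₁, ((g₀.seq (g₂.seq (g₆.seq g₇))).mono ?_).top, s₁⟩
  have k0 := cst C₀ (k := 2) (N := w * M + w * M') (a := w * M' + P) rfl (by omega)
  have k6 := cst C₆ (k := 2) (N := w * M + w * M') (a := w * M' + w * M + P) rfl (by omega)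
  have k7 := cst C₇ (k := 2) (N := w * M + w * M') (a := w * M + P) rfl (by omega)
  have k8 := cst 1 (k := 12) (N := w * M + w * M') (a := 5 * P + 3) rfl (by omega)
  have k9 := cst 1 (k := 1) (N := w * M + w * M') (a := 1) rfl (by omega)
  push_cast at k0 k6 k7 k8 k9 ⊢
  generalize (w * M + w * M' : ℝ) = N at *
  have hN : 0 ≤ N := by linarith
  have h1 : (0 : ℝ) ≤ nl := Nat.cast_nonneg _
  have h2 : (0 : ℝ) ≤ nl * ((2 * C₀ + 2 * C₆ + 2 * C₇) * N) := by positivity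
  have h3 : (0 : ℝ) ≤ (2 * C₁ + 3 * C₂ + 3 * C₃ + C₄ + 2 * C₅) * N := by positivity
  have h4 : (nl : ℝ) * 1 ≤ nl * N := by gcongr; linarith
  linarith

/-- Lane-wise facts lifted to represented elements. -/
theorem AR.asr {w M M' n D : ℕ} (hn : 1 ≤ n) {ad ad' : ℕ → ℕ} {X Z : List Bool} {a : RA n}
    (ha : AR w M n ad X a) (hb : 2 * nrm n a < 2 ^ w)
    (h : ∀ c < 2 * n, ∀ u : ℤ, WR w M X (ad c) u → 2 * |u| < 2 ^ w → WR w M' Z (ad' c) (u / 2 ^ D)) :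
    ∃ a' : RA n, AR w M' n ad' Z a' ∧ nrm n (a' - ((2 : ℂ) ^ D)⁻¹ • a) ≤ 2 := by
  have := ar_map hn ha (fun u => u / 2 ^ D) (2 ^ D)⁻¹ 1 zero_le_one fun p hp u hu hr =>
    ⟨h p hp u hr (by exact_mod_cast (by linarith : 2 * |(u : ℝ)| < 2 ^ w)), by
      rw [← div_eq_inv_mul]; exact abs_ediv_le u D⟩
  simpa using this

theorem AR.add {w M n : ℕ} {ad : ℕ → ℕ} {X Y Z : List Bool} {a b : RA n}
    (ha : AR w M n ad X a) (hb : AR w M n ad Y b)
    (h : ∀ c < 2 * n, ∀ u v : ℤ, WR w M X (ad c) u → WR w M Y (ad c) v → WR w M Z (ad c) (u + v)) :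
    AR w M n ad Z (a + b) := by
  exact ar_add ha hb h

theorem AR.neg {w M n : ℕ} {ad : ℕ → ℕ} {X Z : List Bool} {a : RA n} (ha : AR w M n ad X a)
    (h : ∀ c < 2 * n, ∀ u : ℤ, WR w M X (ad c) u → WR w M Z (ad c) (-u)) :
    AR w M n ad Z (-a) := by
  intro p hp
  obtain ⟨u, h1, h2⟩ := ha p hp
  exact ⟨-u, by rw [rco_neg, h1]; simp, h p hp u h2⟩

theorem sad_lt {n Bt O o bt c : ℕ} (ho : o < O) (hb : bt < Bt) (hc : c < 2 * n) :
    sad n Bt o bt c < O * (2 * n) * Bt := by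
  exact SK.sad_lt ho hb hc

end Crest.Agent.IM
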