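import Crest.Agent.IM.Conv
import Crest.Agent.IM.Scal

/-! TASK IM-U. Approximate DFT on `(ℤ / t) ^ d` by Bluestein's identity (`bluestein`).
`σ = 1` if `sgn = 0`, else `-1`. `cscal` by `chirp σ` (callbacks `eC`, `eS` of `exp_ex` through
`Ex.app`, with `D = t` and numerator `m = (∑ x_i ^ 2) % (2 t)` or `2 t - m`; the digits of the row
index by `mr_digit`, `Ex.sum`); build the array `2 ^ p • 1` (`fill`: in slice `p` the first `Bt`
lanes of every row of `2 n Bt` lanes are one; `rco_one`), `cscal` it by `chirp (-σ)`; convolve;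
`asr p` (`AR.asr`); `cscal` by `chirp σ`. Error factors `≤ 16`, `≤ 12 t ^ d n`, `≤ 16`
(`nrm_cconv_le`, bilinearity of `cconv`). -/

set_option autoImplicit false

namespace Crest.Agent.IM

/-- Approximate DFT of power-of-two lengths. -/
def BlueStmt (q bb : ℕ) : Prop :=
  ∀ mul : Prog, ∃ (p : Prog) (C : ℕ), ∀ (B P : ℕ) (r : Prog) (π : Par) (sgn : ℕ) (x₁ x₂ : ℝ)
    (X : List Bool), π.Ok q bb P → π.Big C B P → sgn ≤ 1 → π.Mul1 B P r mul x₁ →
    π.Mul2 B P r mul x₂ → X.length = π.N0 →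
    ∃ Z : List Bool, Z.length = π.N0 ∧
      Top B P r p (sgn :: π.args) X Z (x₁ + 6 * x₂ + C * π.N0 * π.ovG P) ∧
      ∀ bt < π.Bt, ∀ (a : (ℕ → ℕ) → RA π.n) (ε : ℝ), 1 ≤ ε →
        2 * (2 ^ (π.k * π.d + π.e + 20) * ε) ≤ 2 ^ π.p →
        (∀ x ∈ box (fun _ => π.t) π.d, Apx π.w (π.t ^ π.d * (2 * π.n) * π.Bt) π.n
          (sad π.n π.Bt (mr (fun _ => π.t) 0 π.d x) bt) π.p ε X (a x)) →
        ∀ x ∈ box (fun _ => π.t) π.d, Apx π.w (π.t ^ π.d * (2 * π.n) * π.Bt) π.n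
          (sad π.n π.Bt (mr (fun _ => π.t) 0 π.d x) bt) π.p (2 ^ (π.k * π.d + π.e + 20) * ε) Z
          (dft (if sgn = 0 then 1 else -1) (fun _ => π.t) π.d a x)

namespace BU
open Q4 Finset

theorem norm_ee (σ : ℤ) (n a : ℕ) : ‖ee σ n a‖ = 1 := by
  have : ee σ n a = Complex.exp (((σ * (2 * Real.pi) * a / n : ℝ) : ℂ) * Complex.I) := by
    unfold ee; congr 1; push_cast; ring
  rw [this, Complex.norm_exp_ofReal_mul_I]

theorem ee_eq {σ : ℤ} {t S m : ℕ} (ht : 0 < t) (h : (m : ℤ) ≡ σ * S [ZMOD 2 * t]) :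
    ee σ (2 * t) S = Complex.exp (((Real.pi * m / t : ℝ) : ℂ) * Complex.I) := by
  obtain ⟨c, hc⟩ := h.dvd
  have hc' : (σ : ℂ) * S = m + 2 * t * c := by
    have : σ * S = m + 2 * t * c := by linarith
    exact_mod_cast this
  have ht' : (t : ℂ) ≠ 0 := by exact_mod_cast ht.ne'
  rw [ee, Complex.exp_eq_exp_iff_exists_int]
  refine ⟨c, ?_⟩
  push_cast
  field_simp
  linear_combination hc'

theorem cconv_sub {A : Type*} [CommRing A] (ns : ℕ → ℕ) (d : ℕ) (a b a' b' : (ℕ → ℕ) → A)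
    (x : ℕ → ℕ) : cconv ns d a b x - cconv ns d a' b' x =
      cconv ns d (fun y => a y - a' y) b x + cconv ns d a' (fun y => b y - b' y) x := by
  simp only [cconv, ← sum_sub_distrib, ← sum_add_distrib]
  exact sum_congr rfl fun y _ => by ring

/-- numerator of the chirp, in the environment `[o, s, t, d, …]` -/
def mE : Ex :=
  Ex.cb (Ex.sum (.var 3) (.var 1 / Ex.pow (.var 3) (.var 0) % .var 3 *
    (.var 1 / Ex.pow (.var 3) (.var 0) % .var 3)) % (2 * .var 2)) 0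
    (Ex.ite (.var 2) (2 * .var 3 - .var 0) (.var 0))

theorem ev_mE {B P s t d : ℕ} {rest : List ℕ} {x : ℕ → ℕ} (ht : 2 ≤ t) (h1 : t ^ d ≤ B)
    (h2 : d * t ^ 2 ≤ B) (hx : x ∈ box (fun _ => t) d) :
    mE.ev B P (mr (fun _ => t) 0 d x :: s :: t :: d :: rest) =
      if s = 0 then (∑ i ∈ range d, x i ^ 2) % (2 * t)
      else 2 * t - (∑ i ∈ range d, x i ^ 2) % (2 * t) := by
  have hx' := (mem_box.1 hx).1
  rw [mE, Ex.ev_cb, Ex.ev_mod]
  have e : ∀ i ∈ range d, (Ex.var 1 / Ex.pow (.var 3) (.var 0) % .var 3 *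
      (.var 1 / Ex.pow (.var 3) (.var 0) % .var 3)).ev B P
      (i :: mr (fun _ => t) 0 d x :: s :: t :: d :: rest) = x i ^ 2 := fun i hi => by
    have hi' := mem_range.1 hi
    have k1 : t ^ i ≤ B := (Nat.pow_le_pow_right (by omega) hi'.le).trans h1
    have k2 := mr_digit (ns := fun _ => t) (x := x) (Nat.zero_le i) hi'
      (fun l _ hl => hx' l (by omega))
    rw [pr_const, Nat.sub_zero] at k2
    simp [Ex.ev_pow, ht, k1, k2, sq]
  rw [Ex.ev_sum]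
  · simp only [Ex.ev_var, List.getD_cons_succ, List.getD_cons_zero]
    rw [sum_congr rfl e]
    simp
  · simpa using Ex.le_size_of_two_pow_le ((Nat.pow_le_pow_left ht _).trans h1)
  · simp only [Ex.ev_var, List.getD_cons_succ, List.getD_cons_zero]
    rw [sum_congr rfl e]
    refine le_trans ?_ h2
    simpa using sum_le_card_nsmul (range d) _ (t ^ 2)
      (fun i hi => Nat.pow_le_pow_left (hx' i (mem_range.1 hi)).le 2)

theorem facts {q bb B P : ℕ} {π : Par} (h : π.Ok q bb P) (hB : π.N0 ≤ B) :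
    π.t ^ π.d ≤ B ∧ π.d * π.t ^ 2 ≤ B ∧ π.t ≤ 2 ^ π.p ∧ π.w * π.t ^ π.d ≤ B ∧
      2 * π.n * π.Bt ≤ B ∧ π.t ^ π.d * (2 * π.n) * π.Bt ≤ B := by
  have h1 := h.le_p
  have h2 := h.eight_le_d
  have h3 := h.two_le_t
  have h4 := π.one_le_n
  have h5 := h.hBt
  have h6 : 1 ≤ π.α ^ 2 := by have := h.hα1; omega
  have hw : 0 < π.w := by unfold Par.w; omega
  have ht : 0 < π.t := by omega
  have b1 : π.w * π.t ^ π.d ≤ B := le_of_mul (2 * π.n * π.Bt) (one_le (by positivity)) hB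
    (by unfold Par.N0; ring)
  have b2 : π.t ^ π.d * (2 * π.n) * π.Bt ≤ B := le_of_mul π.w hw hB (by unfold Par.N0; ring)
  refine ⟨le_of_mul π.w hw b1 (by ring), le_trans (Nat.mul_le_mul ?_
    (Nat.pow_le_pow_right ht (by omega))) b1, le_trans ?_ h.hα3, b1,
    le_of_mul (π.t ^ π.d) (one_le (by positivity)) b2 (by ring), b2⟩
  · have : π.d ≤ π.d ^ 4 := Nat.le_self_pow (by norm_num) _
    unfold Par.w Par.p; nlinarith
  · nlinarith

/-- multiplication by the chirp -/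
theorem chs_ex (q bb : ℕ) (mul : Prog) : ∃ (p : Prog) (C : ℕ), ∀ (B P : ℕ) (r : Prog) (π : Par)
    (s : ℕ) (x₂ : ℝ) (X : List Bool), π.Ok q bb P → π.Big C B P → π.Mul2 B P r mul x₂ →
    X.length = π.N0 →
    ∃ Z : List Bool, Z.length = π.N0 ∧ Top B P r p (s :: π.args) X Z (2 * x₂ + C * π.N0) ∧
      ∀ bt < π.Bt, ∀ x ∈ box (fun _ => π.t) π.d, ∀ a : RA π.n,
        AR π.w (π.t ^ π.d * (2 * π.n) * π.Bt) π.n
          (sad π.n π.Bt (mr (fun _ => π.t) 0 π.d x) bt) X a → nrm π.n a ≤ 2 ^ (3 * π.p) →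
        ∃ a' : RA π.n, AR π.w (π.t ^ π.d * (2 * π.n) * π.Bt) π.n
          (sad π.n π.Bt (mr (fun _ => π.t) 0 π.d x) bt) Z a' ∧
          nrm π.n (a' - chirp (if s = 0 then 1 else -1) π.t π.d x • a) ≤
            4 * (1 + nrm π.n a / 2 ^ π.p) := by
  obtain ⟨eE, eC, eS, C₁, hE⟩ := exp_ex
  obtain ⟨p, C, hp⟩ := cscal_ex (Ex.app [0, mE, .var 2, 1, 1, .var 4, .var 5] eC)
    (Ex.app [0, mE, .var 2, 1, 1, .var 4, .var 5] eS) 5 mul
  refine ⟨.call [.var 17, Ex.pow (.var 14) (.var 13), .var 15, .var 10, .var 16, .var 0, .var 14,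
    .var 13, .var 16, .var 17] p, C + C₁ + 6, fun B P r π s x₂ X h hB hM hX => ?_⟩
  obtain ⟨b1, b2, b3, -, -, -⟩ := facts h (le_of_mul _ (by omega) hB.1 (mul_comm _ _))
  have h1 := h.le_p
  have h3 := h.two_le_t
  obtain ⟨Z, l1, t1, e⟩ := hp B P r π.w (π.t ^ π.d) π.n π.Bt π.p [s, π.t, π.d, π.p, π.w] x₂ X h.hP
    rfl (Nat.one_le_pow _ _ π.one_le_t) π.one_le_n h.hBt (by omega) rfl h.hPn
    (le_trans (Nat.pow_le_pow_right (by norm_num) (by unfold Par.w; nlinarith)) hB.2.1)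
    (hB.mono (by omega)).1 (hM _ h.S_le le_rfl) hX
  have g1 := Go.call (args := [.var 17, Ex.pow (.var 14) (.var 13), .var 15, .var 10, .var 16,
    .var 0, .var 14, .var 13, .var 16, .var 17]) (env := s :: π.args)
    (by simp [Par.args, Ex.ev_pow, h3, b1]) (by simp [Ok, Par.args, b1]) t1
  refine ⟨Z, l1, g1.top.mono ?_, fun bt hbt x hx a ha hn => ?_⟩
  · have k1 : (P : ℝ) ≤ π.N0 := by exact_mod_cast h.P_le_N0
    have k2 : (π.w : ℝ) * ((π.t ^ π.d : ℕ) * (2 * π.n) * π.Bt) = π.N0 := by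
      unfold Par.N0; push_cast; ring
    have k3 : (0 : ℝ) ≤ C₁ * π.N0 := by positivity
    have k4 : (0 : ℝ) ≤ P := by positivity
    rw [k2]; push_cast; linarith
  · have hm := ev_mE (B := B) (P := P) (s := s) (rest := [π.p, π.w]) h3 b1 b2 hx
    generalize hS : ∑ i ∈ range π.d, x i ^ 2 = S at hm
    have hlt : S % (2 * π.t) < 2 * π.t := Nat.mod_lt _ (by omega)
    obtain ⟨m, hm'⟩ : ∃ m, m = if s = 0 then S % (2 * π.t) else 2 * π.t - S % (2 * π.t) := ⟨_, rfl⟩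
    rw [← hm'] at hm
    obtain ⟨-, ⟨c₁, u1, u2⟩, c₂, u3, u4⟩ := hE B P 0 m π.t 1 1 π.p π.w
      [mr (fun _ => π.t) 0 π.d x, s, π.t, π.d, π.p, π.w] (by omega) (by omega) b3 le_rfl
      Nat.one_le_two_pow le_rfl (by
        have : m ≤ 2 * π.t := by rw [hm']; split_ifs <;> omega
        nlinarith) (by unfold Par.w; omega) (hB.mono (by omega)).2.1
    have hc : chirp (if s = 0 then 1 else -1) π.t π.d x =
        Complex.exp (((Real.pi * m / π.t : ℝ) : ℂ) * Complex.I) := by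
      rw [chirp, hS]
      refine ee_eq (by omega) ?_
      have k : ((S % (2 * π.t) : ℕ) : ℤ) ≡ S [ZMOD 2 * π.t] := by
        exact_mod_cast Int.natCast_modEq_iff.2 (Nat.mod_modEq S (2 * π.t))
      rw [hm']
      split_ifs
      · rwa [one_mul]
      · rw [Nat.cast_sub hlt.le, neg_one_mul, ← zero_sub]
        refine Int.ModEq.sub ?_ k
        push_cast
        exact Int.modEq_zero_iff_dvd.2 dvd_rfl
    have ho : mr (fun _ => π.t) 0 π.d x < π.t ^ π.d := by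
      have := mr_lt_of_mem_box hx
      rwa [pr_const] at this
    refine e _ ho bt hbt a _ c₁ c₂ (by simpa [hm] using u1) ?_ (by simpa [hm] using u3) ?_ ?_ ha hn
    · rwa [hc, Complex.exp_ofReal_mul_I_re]
    · rwa [hc, Complex.exp_ofReal_mul_I_im]
    · rw [chirp, norm_ee]; exact one_le_pow₀ (by norm_num)

/-- the constant array `2 ^ p` -/
theorem one_ex (q bb : ℕ) : ∃ (p : Prog) (C : ℕ), ∀ (B P : ℕ) (r : Prog) (π : Par),
    π.Ok q bb P → π.N0 ≤ B →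
    ∃ Z : List Bool, Z.length = π.N0 ∧ Top B P r p π.args [] Z (C * π.N0) ∧
      ∀ bt < π.Bt, ∀ o < π.t ^ π.d, AR π.w (π.t ^ π.d * (2 * π.n) * π.Bt) π.n
        (sad π.n π.Bt o bt) Z ((((2 : ℝ) ^ π.p : ℝ) : ℂ) • 1) := by
  obtain ⟨p, C, hp⟩ := fill_ex (Ex.ifEq (.var 0 / .var 1) (.var 2) (.var 3) 0) 3
  refine ⟨.call [.var 16 * Ex.pow (.var 13) (.var 12), 2 * .var 14 * .var 9,
    Ex.pow (.var 13) (.var 12), .var 15, .var 9] p, 3 * C + 1, fun B P r π h hB => ?_⟩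
  obtain ⟨b1, -, -, b4, b5, -⟩ := facts h hB
  have h1 := h.le_p
  have h3 := h.two_le_t
  have h4 := π.one_le_n
  have h5 := h.hBt
  have eN : π.w * π.t ^ π.d * (2 * π.n * π.Bt) = π.N0 := by unfold Par.N0; ring
  obtain ⟨Z, l1, t1, e⟩ := hp B P r (π.w * π.t ^ π.d) (2 * π.n * π.Bt) [π.t ^ π.d, π.p, π.Bt] h.hP
    rfl (one_le (by positivity)) (eN ▸ hB)
  have g1 := Go.call (args := [.var 16 * Ex.pow (.var 13) (.var 12), 2 * .var 14 * .var 9,
    Ex.pow (.var 13) (.var 12), .var 15, .var 9]) (env := π.args)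
    (by simp [Par.args, Ex.ev_pow, h3, b1]) (by simp [Ok, Par.args, b1, b4, b5]) t1
  refine ⟨Z, l1.trans eN, g1.top.mono ?_, fun bt hbt o ho c hc => ?_⟩
  · have k1 : (P : ℝ) ≤ π.N0 := by exact_mod_cast h.P_le_N0
    have k2 : ((π.w * π.t ^ π.d : ℕ) : ℝ) * (2 * π.n * π.Bt : ℕ) = π.N0 := by exact_mod_cast eN
    have k3 : ((π.w * π.t ^ π.d : ℕ) : ℝ) * P ≤ π.N0 := by
      exact_mod_cast (Nat.mul_le_mul_left _ h.hPn).trans eN.le
    have := cle C (x := π.N0 + ((π.w * π.t ^ π.d : ℕ) : ℝ) * P + P) (y := 3 * π.N0) (by linarith)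
    rw [k2]; push_cast at this ⊢; linarith
  · refine ⟨if c = 0 then 2 ^ π.p else 0, ?_, ?_⟩
    · rw [rco_smul, rco_one h4 hc]; split_ifs <;> simp
    · have hb : ∀ β < π.w, bit Z (β * (π.t ^ π.d * (2 * π.n) * π.Bt) + sad π.n π.Bt o bt c) =
          decide (β = π.p ∧ c = 0) := fun β hβ => by
        have a1 := e (β * π.t ^ π.d + o) (lt_mul hβ ho) (c * π.Bt + bt) (lt_mul hc hbt)
        have a2 : (β * π.t ^ π.d + o) / π.t ^ π.d = β := by
          rw [add_comm, Nat.add_mul_div_right _ _ (by omega), Nat.div_eq_of_lt ho, zero_add]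
        simp only [Ex.ev_ifEq, Ex.ev_div, Ex.ev_var, List.getD_cons_zero, List.getD_cons_succ, a2,
          Ex.ev_ofNat] at a1
        refine Eq.trans (by congr 1; unfold sad; ring) (a1.trans ?_)
        rcases Nat.eq_zero_or_pos c with rfl | h0
        · split_ifs with h2 <;> simp [h2, hbt]
        · have : π.Bt ≤ c * π.Bt := Nat.le_mul_of_pos_left _ h0
          split_ifs with h2 <;> simp [h0.ne']
          omega
      have : wd π.w (π.t ^ π.d * (2 * π.n) * π.Bt) Z (sad π.n π.Bt o bt c) =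
          if c = 0 then 2 ^ π.p else 0 := by
        unfold wd
        rw [sum_congr rfl fun β hβ => by rw [hb β (mem_range.1 hβ)],
          sum_eq_single π.p (fun β _ hβ => by simp [hβ])
            (fun hn => absurd (mem_range.2 (by unfold Par.w; omega)) hn)]
        split_ifs with h0 <;> simp [h0]
      unfold WR
      rw [this]
      split_ifs <;> simp

end BU

open BU Q4

theorem blue_ex {q bb : ℕ} (hC : ConvStmt q bb) : BlueStmt q bb := by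
  intro mul
  obtain ⟨p₁, C₁, h₁⟩ := chs_ex q bb mul
  obtain ⟨p₂, C₂, h₂⟩ := one_ex q bb
  obtain ⟨p₃, C₃, h₃⟩ := exch_ex
  obtain ⟨p₄, C₄, h₄⟩ := hC mul
  obtain ⟨p₅, C₅, h₅⟩ := asr_ex
  refine ⟨.call (.var 0 :: fwd 1 20) p₁ ;; .call (fwd 1 20) p₂ ;;
    .call ((1 - .var 0) :: fwd 1 20) p₁ ;;
    .call [.var 17 * (Ex.pow (.var 14) (.var 13) * (2 * .var 15) * .var 10),
      .var 17 * (Ex.pow (.var 14) (.var 13) * (2 * .var 15) * .var 10)] p₃ ;;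
    .call (fwd 1 20) p₄ ;;
    .call [.var 17, Ex.pow (.var 14) (.var 13) * (2 * .var 15) * .var 10, .var 16] p₅ ;;
    .call (.var 0 :: fwd 1 20) p₁, 3 * C₁ + C₂ + 3 * C₃ + C₄ + 2 * C₅ + 13,
    fun B P r π sgn x₁ x₂ X h hB hs hM1 hM2 hX => ?_⟩
  have hN : π.N0 ≤ B := le_of_mul _ (by omega) hB.1 (mul_comm _ _)
  obtain ⟨b1, -, -, -, -, b6⟩ := facts h hN
  have h1 := h.le_p
  have h3 := h.two_le_t
  have h4 := π.one_le_n
  have h5 := h.hBt
  have hN1 : 1 ≤ π.N0 := h.hP.trans h.P_le_N0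
  obtain ⟨X₁, l1, t1, e1⟩ := h₁ B P r π sgn x₂ X h (hB.mono (by omega)) hM2 hX
  obtain ⟨Y, l2, t2, e2⟩ := h₂ B P r π h hN
  obtain ⟨Y₁, l3, t3, e3⟩ := h₁ B P r π (1 - sgn) x₂ Y h (hB.mono (by omega)) hM2 l2
  have t4 := h₃ B P r _ _ Y₁ X₁ h.hP l3 l1
  obtain ⟨Z₁, l5, t5, e5⟩ := h₄ B P r π x₁ X₁ Y₁ h (hB.mono (by omega)) hM1 l1 l3
  obtain ⟨Z₂, l6, t6, e6⟩ := h₅ B P r π.w (π.t ^ π.d * (2 * π.n) * π.Bt) π.p Z₁ h.hP
    (one_le (by positivity)) (by unfold Par.w; omega) l5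
  obtain ⟨Z₃, l7, t7, e7⟩ := h₁ B P r π sgn x₂ Z₂ h (hB.mono (by omega)) hM2 l6
  have f0 : (fwd 1 20).map (fun e => e.ev B P (sgn :: π.args)) = π.args :=
    ev_fwd [sgn] π.args rfl rfl
  have o0 : ∀ v ∈ π.args, Ok B (sgn :: π.args) v := fun v hv => Or.inr (List.mem_cons_of_mem _ hv)
  have o1 : ∀ s ≤ 1, ∀ v ∈ s :: π.args, Ok B (sgn :: π.args) v := fun s hs v hv => by
    rcases List.mem_cons.1 hv with rfl | hv
    · exact Or.inl (by omega)
    · exact o0 v hv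
  have g1 := Go.call (args := .var 0 :: fwd 1 20) (by rw [List.map_cons, f0]; rfl) (o1 _ hs) t1
  have g2 := Go.call f0 o0 (t2.frame X₁)
  have g3 := Go.call (args := (1 - .var 0) :: fwd 1 20) (by rw [List.map_cons, f0]; rfl)
    (o1 _ (by omega)) (t3.frame X₁)
  have g4 := Go.call (args := [.var 17 * (Ex.pow (.var 14) (.var 13) * (2 * .var 15) * .var 10),
      .var 17 * (Ex.pow (.var 14) (.var 13) * (2 * .var 15) * .var 10)]) (env := sgn :: π.args)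
    (by simp [Par.args, Ex.ev_pow, h3, b1, Par.N0]) (by simp [Ok, hN]) t4
  have g5 := Go.call f0 o0 t5
  have g6 := Go.call (args := [.var 17, Ex.pow (.var 14) (.var 13) * (2 * .var 15) * .var 10,
    .var 16]) (env := sgn :: π.args) (by simp [Par.args, Ex.ev_pow, h3, b1])
    (by simp [Ok, b6, Par.args]) t6
  have g7 := Go.call (args := .var 0 :: fwd 1 20) (by rw [List.map_cons, f0]; rfl) (o1 _ hs) t7
  refine ⟨Z₃, l7, (g1.seq (g2.seq (g3.seq (g4.seq (g5.seq (g6.seq g7)))))).top.mono ?_,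
    fun bt hbt a ε hε hε' ha => ?_⟩
  · have k1 : (P : ℝ) ≤ π.N0 := by exact_mod_cast h.P_le_N0
    have k0 : (1 : ℝ) ≤ P := by exact_mod_cast h.hP
    have k2 : (π.w : ℝ) * (π.t ^ π.d * (2 * π.n) * π.Bt : ℕ) = π.N0 := by
      unfold Par.N0; push_cast; ring
    have k3 := (π.one_le_tr P).trans (π.tr_le_ovG P)
    have k4 : (π.N0 : ℝ) ≤ π.N0 * π.ovG P := le_mul_of_one_le_right (by linarith) k3
    have c1 := cle C₁ k4
    have c2 := cle C₂ k4
    have c3 := cle C₃ (x := π.N0 + π.N0 + P) (y := 3 * (π.N0 * π.ovG P)) (by linarith)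
    have c5 := cle C₅ (x := π.N0 + P) (y := 2 * (π.N0 * π.ovG P)) (by linarith)
    rw [k2]; push_cast; linarith
  obtain ⟨σ, hσ⟩ : ∃ σ : ℤ, σ = if sgn = 0 then 1 else -1 := ⟨_, rfl⟩
  have hσ' : (if 1 - sgn = 0 then 1 else -1 : ℤ) = -σ := by
    rw [hσ]; split_ifs <;> omega
  rw [← hσ] at e1 e7 ⊢
  rw [hσ'] at e3
  obtain ⟨T, hT⟩ : ∃ T : ℝ, T = (π.t : ℝ) ^ π.d * π.n := ⟨_, rfl⟩
  have hT1 : 1 ≤ T := by
    rw [hT]; exact_mod_cast one_le (show 0 < π.t ^ π.d * π.n by positivity)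
  have hT2 : (2 : ℝ) ^ (π.k * π.d + π.e + 20) = 2 ^ 21 * T := by
    obtain ⟨e', he'⟩ : ∃ e', π.e = e' + 1 := ⟨π.e - 1, by have := h.hke; omega⟩
    rw [hT]; unfold Par.t Par.n; rw [he']; push_cast; rw [← pow_mul]; ring
  rw [hT2] at hε' ⊢
  have hp3 : (2 : ℝ) ^ (3 * π.p) = 2 ^ π.p * 2 ^ π.p * 2 ^ π.p := by ring
  have hp2 : (2 : ℝ) ^ (2 * π.p) = 2 ^ π.p * 2 ^ π.p := by ring
  have hp6 : (2 : ℝ) ^ π.w = (2 ^ π.p * 2 ^ π.p * 2 ^ π.p) * (2 ^ π.p * 2 ^ π.p * 2 ^ π.p) := by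
    unfold Par.w; ring
  have hcn : ∀ (s : ℤ) (x : ℕ → ℕ) (z : RA π.n), nrm π.n (chirp s π.t π.d x • z) = nrm π.n z :=
    fun s x z => by rw [nrm_smul, chirp, norm_ee, one_mul]
  have tri : ∀ u v : RA π.n, nrm π.n u ≤ nrm π.n (u - v) + nrm π.n v := fun u v => by
    simpa using nrm_add_le (u - v) v
  have tri' : ∀ u v z : RA π.n, nrm π.n (u - z) ≤ nrm π.n (u - v) + nrm π.n (v - z) :=
    fun u v z => by simpa using nrm_add_le (u - v) (v - z)
  have cv : ∀ (u v : (ℕ → ℕ) → RA π.n) (μ ν : ℝ) (x : ℕ → ℕ),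
      (∀ y ∈ box (fun _ => π.t) π.d, nrm π.n (u y) ≤ μ) →
      (∀ y ∈ box (fun _ => π.t) π.d, nrm π.n (v y) ≤ ν) →
      nrm π.n (cconv (fun _ => π.t) π.d u v x) ≤ T * (μ * ν) := fun u v μ ν x hu hv => by
    refine (nrm_cconv_le (fun _ _ => π.one_le_t) u v x hu hv).trans (le_of_eq ?_)
    rw [pr_const, hT, Nat.sub_zero]; push_cast; ring
  have ho : ∀ x ∈ box (fun _ => π.t) π.d, mr (fun _ => π.t) 0 π.d x < π.t ^ π.d := fun x hx => by
    have := mr_lt_of_mem_box hx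
    rwa [pr_const] at this
  have hone : nrm π.n ((((2 : ℝ) ^ π.p : ℝ) : ℂ) • 1) ≤ 2 ^ π.p := by
    rw [nrm_smul, Complex.norm_real, Real.norm_of_nonneg (by positivity)]
    exact mul_le_of_le_one_right (by positivity) nrm_one_le
  have hinv : ((2 : ℂ) ^ π.p)⁻¹ * (((2 : ℝ) ^ π.p : ℝ) : ℂ) = 1 := by
    push_cast; exact inv_mul_cancel₀ (pow_ne_zero _ two_ne_zero)
  have hninv : ‖((2 : ℂ) ^ π.p)⁻¹‖ = (2 ^ π.p)⁻¹ := by simp
  simp only [Apx] at ha ⊢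
  rw [hp3] at e1 e3 e7
  rw [hp2] at e5
  have hR : (64 : ℝ) ≤ 2 ^ π.p := by
    calc (64 : ℝ) = 2 ^ 6 := by norm_num
      _ ≤ _ := pow_le_pow_right₀ (by norm_num) (by omega)
  generalize (2 : ℝ) ^ π.p = R at *
  have r0 : 0 < R := by linarith
  have r1 : ε ≤ T * ε := le_mul_of_one_le_left (by linarith) hT1
  have r2 : 2 * (T * ε) ≤ R := by linarith
  have r3 : R * R ≤ R * R * R := le_mul_of_one_le_right (by positivity) (by linarith)
  have r4 : 64 * ε ≤ R * ε := mul_le_mul_of_nonneg_right hR (by linarith)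
  have r5 : R * (2 * (T * ε)) ≤ R * R := mul_le_mul_of_nonneg_left r2 r0.le
  have r6 : R * ε ≤ R * (T * ε) := mul_le_mul_of_nonneg_left r1 r0.le
  have r7 : 64 * R ≤ R * R := mul_le_mul_of_nonneg_right hR r0.le
  have r8 : 64 * (T * ε) ≤ R * (T * ε) := mul_le_mul_of_nonneg_right hR (by linarith)
  have A1 : ∀ x ∈ box (fun _ => π.t) π.d, ∃ a₁, AR π.w (π.t ^ π.d * (2 * π.n) * π.Bt) π.n
      (sad π.n π.Bt (mr (fun _ => π.t) 0 π.d x) bt) X₁ a₁ ∧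
      nrm π.n (a₁ - chirp σ π.t π.d x • a x) ≤ 13 * ε := fun x hx => by
    obtain ⟨k1, a', k2, k3⟩ := ha x hx
    have k4 := tri a' (a x)
    obtain ⟨a₁, k5, k6⟩ := e1 bt hbt x hx a' k2 (by linarith)
    have k7 : nrm π.n a' / R ≤ 2 * ε := by rw [div_le_iff₀ r0]; linarith
    have k8 := tri' a₁ (chirp σ π.t π.d x • a') (chirp σ π.t π.d x • a x)
    rw [← smul_sub, hcn] at k8
    exact ⟨a₁, k5, by linarith⟩
  have A2 : ∀ x ∈ box (fun _ => π.t) π.d, ∃ b₁, AR π.w (π.t ^ π.d * (2 * π.n) * π.Bt) π.n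
      (sad π.n π.Bt (mr (fun _ => π.t) 0 π.d x) bt) Y₁ b₁ ∧
      nrm π.n (b₁ - chirp (-σ) π.t π.d x • (R : ℂ) • 1) ≤ 8 := fun x hx => by
    obtain ⟨b₁, k5, k6⟩ := e3 bt hbt x hx _ (e2 bt hbt _ (ho x hx)) (by linarith)
    have k7 : nrm π.n ((R : ℂ) • 1) / R ≤ 1 := (div_le_one r0).2 hone
    exact ⟨b₁, k5, by linarith⟩
  choose! a₁ ha₁ ha₁' using A1
  choose! b₁ hb₁ hb₁' using A2
  have n0 : ∀ x ∈ box (fun _ => π.t) π.d, nrm π.n (chirp σ π.t π.d x • a x) ≤ R * ε :=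
    fun x hx => by rw [hcn]; exact (ha x hx).1
  have n1 : ∀ x ∈ box (fun _ => π.t) π.d, nrm π.n (a₁ x) ≤ 2 * (R * ε) := fun x hx => by
    linarith [tri (a₁ x) (chirp σ π.t π.d x • a x), n0 x hx, ha₁' x hx]
  have n2 : ∀ x ∈ box (fun _ => π.t) π.d, nrm π.n (b₁ x) ≤ 2 * R := fun x hx => by
    linarith [tri (b₁ x) (chirp (-σ) π.t π.d x • (R : ℂ) • 1), hcn (-σ) x ((R : ℂ) • 1), hb₁' x hx]
  intro x hx
  have c1 := e5 bt hbt a₁ b₁ (fun y hy => ⟨ha₁ y hy, by linarith [n1 y hy]⟩)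
    (fun y hy => ⟨hb₁ y hy, by linarith [n2 y hy]⟩) x hx
  have c2 := cv a₁ b₁ _ _ x n1 n2
  obtain ⟨a₂, k1, k2⟩ := AR.asr h4 c1 (by
      have u1 : R * (R * (2 * (T * ε))) ≤ R * (R * R) := mul_le_mul_of_nonneg_left r5 r0.le
      have u2 : 64 * (R * R * R) ≤ R * R * R * (R * R * R) :=
        mul_le_mul_of_nonneg_right (by linarith) (by positivity)
      have u3 : 0 < R * R * R := by positivity
      rw [hp6]; linarith)
    (fun c hc u => e6 _ (sad_lt (ho x hx) hbt hc) u)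
  obtain ⟨W, hW⟩ : ∃ W, W = cconv (fun _ => π.t) π.d (fun y => chirp σ π.t π.d y • a y)
    (fun y => chirp (-σ) π.t π.d y • (1 : RA π.n)) x := ⟨_, rfl⟩
  have w1 : nrm π.n W ≤ T * (R * ε * 1) :=
    hW ▸ cv _ _ _ _ x n0 (fun y _ => by rw [hcn]; exact nrm_one_le)
  have w2 : W = ((2 : ℂ) ^ π.p)⁻¹ • cconv (fun _ => π.t) π.d (fun y => chirp σ π.t π.d y • a y)
      (fun y => chirp (-σ) π.t π.d y • (R : ℂ) • (1 : RA π.n)) x := by
    rw [hW, cconv, cconv, Finset.smul_sum]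
    refine Finset.sum_congr rfl fun y _ => ?_
    rw [smul_comm _ (R : ℂ), mul_smul_comm (R : ℂ), smul_smul, hinv, one_smul]
  have w3 : nrm π.n (((2 : ℂ) ^ π.p)⁻¹ • cconv (fun _ => π.t) π.d a₁ b₁ x - W) ≤ 34 * (T * ε) := by
    rw [w2, ← smul_sub, nrm_smul, hninv, cconv_sub, inv_mul_le_iff₀ r0]
    refine (nrm_add_le _ _).trans ?_
    linarith [cv _ _ _ _ x ha₁' n2, cv _ _ _ _ x n0 hb₁']
  have w4 := tri' a₂ (((2 : ℂ) ^ π.p)⁻¹ • cconv (fun _ => π.t) π.d a₁ b₁ x) W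
  have w5 := tri a₂ W
  obtain ⟨a₃, k3, k4⟩ := e7 bt hbt x hx a₂ k1 (by linarith)
  have k7 : nrm π.n a₂ / R ≤ 2 * (T * ε) := by rw [div_le_iff₀ r0]; linarith
  have k8 := tri' a₃ (chirp σ π.t π.d x • a₂) (chirp σ π.t π.d x • W)
  rw [← smul_sub, hcn] at k8
  have hev : Even π.t := by
    unfold Par.t; exact (Nat.even_pow.2 ⟨even_two, by have := h.hG; omega⟩)
  rw [bluestein σ π.one_le_t hev π.d a hx, ← hW, hcn]
  have r9 : 0 ≤ R * (T * ε) := by positivity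
  exact ⟨by linarith, a₃, k3, by linarith⟩

end Crest.Agent.IM
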