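import Crest.Agent.IM.Base
import Crest.Agent.PT.Arith

/-! TASK IM-CA. Control steps are polynomial-time functions of the control configuration.
Plan: PT for binary div/mod (long division by `natRec` over the bits), `Nat.size` (= `len`, then
`binOfNat`), access to `encL` through `Raw` (`tailR`, `fstR`, `sndR`; `encL [] = []` is a fixed
point), then structural induction on `e` (`fold`: `natRec` with count `min n (size B)` in unary,
accumulator bounded by `B`). -/

set_option autoImplicit false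

namespace Crest.Agent.IM
open Crest.Agent.PT

/-- Control configuration. -/
structure Cf : Type where
  /-- value bound -/
  B : ℕ
  /-- cost unit -/
  P : ℕ
  /-- registers -/
  env : List ℕ

/-- Code of a list of numbers. -/
def encL : List ℕ → List Bool
  | [] => []
  | v :: l => true :: (dbl v.bits ++ false :: encL l)

instance encCf : Enc Cf := ⟨fun c => enc ((⟨c.B⟩ : Bin), (⟨c.P⟩ : Bin), (⟨encL c.env⟩ : Raw))⟩

namespace CA

/-- Lists of numbers with the code `encL`. -/
structure NL : Type where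
  /-- the list -/
  val : List ℕ

instance encNL : Enc NL := ⟨fun l => encL l.val⟩

variable {α : Type} [Enc α]

theorem length_encL (l : List ℕ) (B : ℕ) (h : ∀ v ∈ l, v ≤ B) :
    (encL l).length ≤ l.length * (2 * B.size + 2) := by
  induction l with
  | nil => simp [encL]
  | cons v l ih =>
    have h1 := ih (fun w hw => h w (List.mem_cons_of_mem _ hw))
    have h2 := Nat.size_le_size (h v List.mem_cons_self)
    have h3 := Nat.size_eq_bits_len v
    simp only [encL, List.length_cons, List.length_append, length_dbl]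
    rw [Nat.add_mul, one_mul]; omega

theorem parts : PT (fun c : Cf => ((⟨c.B⟩ : Bin), (⟨c.P⟩ : Bin), (⟨c.env⟩ : NL))) :=
  PT.reinterp (fun _ => rfl)

theorem getB : PT (fun c : Cf => (⟨c.B⟩ : Bin)) := parts.fst
theorem getP : PT (fun c : Cf => (⟨c.P⟩ : Bin)) := parts.snd.fst
theorem getE : PT (fun c : Cf => (⟨c.env⟩ : NL)) := parts.snd.snd

theorem mkCf {b p : α → ℕ} {l : α → List ℕ} (hb : PT (fun a => (⟨b a⟩ : Bin)))
    (hp : PT (fun a => (⟨p a⟩ : Bin))) (hl : PT (fun a => (⟨l a⟩ : NL))) :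
    PT (fun a => (⟨b a, p a, l a⟩ : Cf)) :=
  (hb.pair (hp.pair hl)).of_enc_eq (fun _ => rfl)

theorem nlHead {l : α → List ℕ} (hl : PT (fun a => (⟨l a⟩ : NL))) :
    PT (fun a => (⟨(l a).headD 0⟩ : Bin)) :=
  (PT.ofRaw (f := fun x : NL => (⟨x.val.headD 0⟩ : Bin)) (PT.fstR.comp PT.tailR) (fun x => by
    obtain ⟨_ | ⟨v, l⟩⟩ := x
    · rfl
    · exact fstL_pair _ _)).comp hl

theorem nlTail {l : α → List ℕ} (hl : PT (fun a => (⟨l a⟩ : NL))) :
    PT (fun a => (⟨(l a).tail⟩ : NL)) :=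
  (PT.ofRaw (f := fun x : NL => (⟨x.val.tail⟩ : NL)) (PT.sndR.comp PT.tailR) (fun x => by
    obtain ⟨_ | ⟨v, l⟩⟩ := x
    · rfl
    · exact sndL_pair _ _)).comp hl

theorem nlCons {v : α → ℕ} {l : α → List ℕ} (hv : PT (fun a => (⟨v a⟩ : Bin)))
    (hl : PT (fun a => (⟨l a⟩ : NL))) : PT (fun a => (⟨v a :: l a⟩ : NL)) :=
  ((PT.consR true).comp (PT.toRaw.comp (hv.pair hl))).of_enc_eq (fun _ => rfl)

theorem nlNil {l : α → List ℕ} (hl : PT (fun a => (⟨l a⟩ : NL))) :
    PT (fun a => (l a).isEmpty) :=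
  (PT.isNil (PT.toRaw.comp hl)).congr (fun a => by cases l a <;> rfl)

theorem nlDrop (c : ℕ) {l : α → List ℕ} (hl : PT (fun a => (⟨l a⟩ : NL))) :
    PT (fun a => (⟨(l a).drop c⟩ : NL)) := by
  induction c with
  | zero => exact hl
  | succ c ih => exact (nlTail ih).congr (fun a => by simp)

theorem nlGet (i : ℕ) {l : α → List ℕ} (hl : PT (fun a => (⟨l a⟩ : NL))) :
    PT (fun a => (⟨(l a).getD i 0⟩ : Bin)) :=
  (nlHead (nlDrop i hl)).congr (fun a => by simp [List.getD_eq_getElem?_getD])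

theorem nlSet (i : ℕ) {v : α → ℕ} {l : α → List ℕ} (hv : PT (fun a => (⟨v a⟩ : Bin)))
    (hl : PT (fun a => (⟨l a⟩ : NL))) : PT (fun a => (⟨(l a).set i (v a)⟩ : NL)) := by
  induction i generalizing l with
  | zero =>
    exact (PT.cond (nlNil hl) hl (nlCons hv (nlTail hl))).congr (fun a => by cases l a <;> rfl)
  | succ i ih =>
    exact (PT.cond (nlNil hl) hl (nlCons (nlHead hl) (ih (nlTail hl)))).congr
      (fun a => by cases l a <;> rfl)

theorem bAdd {f g : α → ℕ} (hf : PT (fun a => (⟨f a⟩ : Bin))) (hg : PT (fun a => (⟨g a⟩ : Bin))) :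
    PT (fun a => (⟨f a + g a⟩ : Bin)) := hf.binAdd hg

theorem bSub {f g : α → ℕ} (hf : PT (fun a => (⟨f a⟩ : Bin))) (hg : PT (fun a => (⟨g a⟩ : Bin))) :
    PT (fun a => (⟨f a - g a⟩ : Bin)) := hf.binSub hg

theorem bMul {f g : α → ℕ} (hf : PT (fun a => (⟨f a⟩ : Bin))) (hg : PT (fun a => (⟨g a⟩ : Bin))) :
    PT (fun a => (⟨f a * g a⟩ : Bin)) := hf.binMul hg

theorem bZero {f : α → ℕ} (hf : PT (fun a => (⟨f a⟩ : Bin))) :
    PT (fun a => decide (f a = 0)) := hf.binIsZero

theorem bLe {f g : α → ℕ} (hf : PT (fun a => (⟨f a⟩ : Bin))) (hg : PT (fun a => (⟨g a⟩ : Bin))) :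
    PT (fun a => decide (f a ≤ g a)) :=
  (bZero (bSub hf hg)).congr (fun a => by simp [Nat.sub_eq_zero_iff_le])

theorem bMin {f g : α → ℕ} (hf : PT (fun a => (⟨f a⟩ : Bin))) (hg : PT (fun a => (⟨g a⟩ : Bin))) :
    PT (fun a => (⟨min (f a) (g a)⟩ : Bin)) :=
  (bSub hf (bSub hf hg)).congr (fun a => by congr 1; omega)

/-- The size of a binary number, in unary. -/
theorem bSize {f : α → ℕ} (hf : PT (fun a => (⟨f a⟩ : Bin))) : PT (fun a => (f a).size) :=
  hf.len.congr (fun a => by simp)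

theorem bShr {f g : α → ℕ} (hf : PT (fun a => (⟨f a⟩ : Bin))) (hg : PT g) :
    PT (fun a => (⟨f a / 2 ^ g a⟩ : Bin)) := by
  have key : ∀ (x i : ℕ), Bin.div2^[i] ⟨x⟩ = ⟨x / 2 ^ i⟩ := by
    intro x i
    induction i with
    | zero => simp
    | succ i ih =>
      rw [Function.iterate_succ_apply', ih, pow_succ, ← Nat.div_div_eq_div_mul]; rfl
  refine (PT.iter (PT.binDiv2 PT.id') hg hf hf.pb (fun a i _ => ?_)).congr (fun a => key _ _)
  rw [key]
  simpa using Nat.size_le_size (Nat.div_le_self _ _)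

theorem bShl {f g : α → ℕ} (hf : PT (fun a => (⟨f a⟩ : Bin))) (hg : PT g) :
    PT (fun a => (⟨f a * 2 ^ g a⟩ : Bin)) := by
  have key : ∀ (x i : ℕ), (Bin.bit false)^[i] ⟨x⟩ = ⟨x * 2 ^ i⟩ := by
    intro x i
    induction i with
    | zero => simp
    | succ i ih =>
      rw [Function.iterate_succ_apply', ih, pow_succ]
      simp only [Bin.bit, Nat.bit_false_apply]
      congr 1; ring
  refine (PT.iter (PT.binBit (PT.const false) PT.id') hg hf
    ((hf.pb.add hg.pbNat).add (PB.const 1)) (fun a i hi => ?_)).congr (fun a => key _ _)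
  rw [key]
  have := size_mul_le (f a) (2 ^ i)
  rw [Nat.size_pow] at this
  simp only [sz_bin]
  omega

theorem bDiv {f g : α → ℕ} (hf : PT (fun a => (⟨f a⟩ : Bin))) (hg : PT (fun a => (⟨g a⟩ : Bin))) :
    PT (fun a => (⟨f a / g a⟩ : Bin)) := by
  let s : α → ℕ → Bin → Bin := fun a i q =>
    Bin.bit (decide ((2 * q.val + 1) * g a ≤ f a / 2 ^ ((f a).size - (i + 1)))) q
  have h1 : PT (fun p : α × ℕ × Bin => p.1) := PT.fst PT.id'
  have h2 : PT (fun p : α × ℕ × Bin => p.2.1) := (PT.snd PT.id').fst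
  have h3 : PT (fun p : α × ℕ × Bin => p.2.2) := (PT.snd PT.id').snd
  have hs : PT (fun p : α × ℕ × Bin => s p.1 p.2.1 p.2.2) :=
    PT.binBit (bLe (bMul (bAdd (bMul (PT.const (⟨2⟩ : Bin)) h3) (PT.const (⟨1⟩ : Bin)))
      (hg.comp h1)) (bShr (hf.comp h1) (((bSize hf).comp h1).sub h2.succ))) h3
  have h := PT.natRec_add (s := s) (bSize hf) (PT.const (⟨0⟩ : Bin)) hs (PB.const 1)
    (fun a i b => by
      have hβ : ∀ β : Bool, (Nat.bit β b.val).size ≤ b.val.size + 1 := fun β => by
        rw [Nat.size_le, pow_succ]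
        have := Nat.lt_size_self b.val
        cases β <;> simp [Nat.bit] <;> omega
      simpa only [s, Bin.bit, sz_bin] using hβ _)
  refine (PT.ite (bZero hg) (PT.const (⟨0⟩ : Bin)) h).congr (fun a => ?_)
  split_ifs with h0
  · simp [h0]
  have key : ∀ i ≤ (f a).size, (Nat.rec (⟨0⟩ : Bin) (s a) i : Bin) =
      ⟨f a / 2 ^ ((f a).size - i) / g a⟩ := by
    intro i
    induction i with
    | zero => intro _; simp [Nat.div_eq_of_lt (Nat.lt_size_self _)]
    | succ i ih =>
      intro hi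
      show s a i _ = _
      rw [ih (by omega)]
      have e : (f a).size - i = (f a).size - (i + 1) + 1 := by omega
      simp only [s, Bin.bit]
      rw [e, pow_succ, ← Nat.div_div_eq_div_mul]
      generalize f a / 2 ^ ((f a).size - (i + 1)) = u
      have e2 : u / 2 / g a = u / g a / 2 := by
        rw [Nat.div_div_eq_div_mul, Nat.div_div_eq_div_mul, mul_comm]
      rw [e2]
      congr 1
      simp only [← Nat.le_div_iff_mul_le (Nat.pos_of_ne_zero h0)]
      generalize u / g a = w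
      by_cases hw : 2 * (w / 2) + 1 ≤ w <;> simp [hw, Nat.bit] <;> omega
  rw [key _ le_rfl]; simp

theorem bMod {f g : α → ℕ} (hf : PT (fun a => (⟨f a⟩ : Bin))) (hg : PT (fun a => (⟨g a⟩ : Bin))) :
    PT (fun a => (⟨f a % g a⟩ : Bin)) :=
  (bSub hf (bMul hg (bDiv hf hg))).congr (fun a => by rw [Nat.mod_def])

/-- From binary to unary, truncated at a unary bound. -/
theorem bUn {f g : α → ℕ} (hf : PT (fun a => (⟨f a⟩ : Bin))) (hg : PT g) :
    PT (fun a => min (f a) (g a)) := by
  have h1 : PT (fun p : α × ℕ => p.1) := PT.fst PT.id'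
  have h2 : PT (fun p : α × ℕ => p.2) := PT.snd PT.id'
  refine (PT.sumNat (f := fun a i => if f a ≤ i then 0 else 1) hg
    (PT.ite (bLe (hf.comp h1) h2.binOfNat) (PT.const 0) (PT.const 1))).congr (fun a => ?_)
  induction g a with
  | zero => simp
  | succ n ih =>
    rw [Finset.sum_range_succ, ih]
    split_ifs <;> omega

end CA

open CA

theorem sz_cf (c : Cf) (h : ∀ v ∈ c.env, v ≤ c.B) (hP : c.P ≤ c.B) :
    sz c ≤ (c.env.length + 2) * (2 * c.B.size + 2) := by
  have h1 := length_encL c.env c.B h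
  have h2 := Nat.size_le_size hP
  show sz ((⟨c.B⟩ : Bin), (⟨c.P⟩ : Bin), (⟨encL c.env⟩ : Raw)) ≤ _
  simp only [sz_pair, sz_bin, sz_raw]
  rw [Nat.add_mul]; omega

theorem pt_ev (e : Ex) : PT (fun c : Cf => (⟨e.ev c.B c.P c.env⟩ : Bin)) := by
  induction e with
  | var i => exact nlGet i getE
  | cst n => exact PT.const (⟨n⟩ : Bin)
  | big => exact getB
  | unit => exact getP
  | add a b iha ihb => exact bAdd iha ihb
  | sub a b iha ihb => exact bSub iha ihb
  | mul a b iha ihb => exact bMul iha ihb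
  | div a b iha ihb => exact bDiv iha ihb
  | mod a b iha ihb => exact bMod iha ihb
  | ite c a b ihc iha ihb =>
    exact (PT.ite (bZero ihc) ihb iha).congr (fun x => by
      rw [Ex.ev_ite]; split_ifs <;> rfl)
  | size a iha => exact (bSize iha).binOfNat
  | cb a c e iha ihe => exact ihe.comp (mkCf getB getP (nlCons iha (nlDrop c getE)))
  | drop c e ihe => exact ihe.comp (mkCf getB getP (nlDrop c getE))
  | fold n init body ihn ihi ihb =>
    let s : Cf → ℕ → Bin → Bin := fun c i acc =>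
      ⟨min (body.ev c.B c.P (acc.val :: i :: c.env)) c.B⟩
    have h1 : PT (fun p : Cf × ℕ × Bin => p.1) := PT.fst PT.id'
    have h2 : PT (fun p : Cf × ℕ × Bin => p.2.1) := (PT.snd PT.id').fst
    have h3 : PT (fun p : Cf × ℕ × Bin => p.2.2) := (PT.snd PT.id').snd
    have hs : PT (fun p : Cf × ℕ × Bin => s p.1 p.2.1 p.2.2) :=
      bMin (ihb.comp (mkCf (getB.comp h1) (getP.comp h1)
        (nlCons h3 (nlCons h2.binOfNat (getE.comp h1))))) (getB.comp h1)
    refine (PT.natRec (s := s) (bUn ihn (bSize getB)) (bMin ihi getB) hs getB.pb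
      (fun c i _ => ?_)).congr (fun c => ?_)
    · cases i with
      | zero => simpa using Nat.size_le_size (min_le_right _ _)
      | succ i => simpa [s] using Nat.size_le_size (min_le_right _ _)
    · show _ = (⟨List.foldl _ _ _⟩ : Bin)
      induction min (n.ev c.B c.P c.env) c.B.size with
      | zero => rfl
      | succ m ih =>
        rw [List.range_succ, List.foldl_append]
        show s c m _ = _
        rw [ih]; rfl

theorem pt_set (i : ℕ) (e : Ex) :
    PT (fun c : Cf => (⟨c.B, c.P, c.env.set i (e.ev c.B c.P c.env)⟩ : Cf)) :=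
  mkCf getB getP (nlSet i (pt_ev e) getE)

theorem pt_cons (e : Ex) : PT (fun c : Cf => (⟨c.B, c.P, e.ev c.B c.P c.env :: c.env⟩ : Cf)) :=
  mkCf getB getP (nlCons (pt_ev e) getE)

theorem pt_tail : PT (fun c : Cf => (⟨c.B, c.P, c.env.tail⟩ : Cf)) :=
  mkCf getB getP (nlTail getE)

theorem pt_args (args : List Ex) :
    PT (fun c : Cf => (⟨c.B, c.P, args.map (fun a => a.ev c.B c.P c.env)⟩ : Cf)) := by
  refine mkCf getB getP ?_
  induction args with
  | nil => exact PT.const (⟨[]⟩ : NL)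
  | cons a as ih => exact nlCons (pt_ev a) ih

end Crest.Agent.IM
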