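import Crest.Agent.IM.CompBA

/-! TASK IM-CB. The interpreter: a program becomes a flat bit-stack machine.
Extra stacks: continuation stack, frame stack, loop-counter stack, one binary stack per
vector count, temporaries of the finitely many PT machines of `CompA`. Continuation items:
`run r q` for the finitely many pairs of subterms of `p`, `pop` (end of `lett`), `ret` (restore
the frame), `again r q` (pop the counter stack). Item number `j` is coded `true :: 1^j 0`; the
main machine is a loop on the continuation stack around a dispatch chain. -/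

set_option autoImplicit false

namespace Crest.Agent.IM
open Crest.Agent.PT Crest.Agent.PT.Mach

namespace CB

/-- Store with data stacks `σ`, control registers and one temporary. -/
def sto (σ : St) (x κ φ l t : List Bool) : Sto (K ⊕ K) := Sum.elim σ (mk6 x κ φ l t [])

section
variable (σ : St) (x κ φ l t v : List Bool)
@[simp] theorem sto_d : sto σ x κ φ l t (.inr .d) = x := rfl
@[simp] theorem sto_a : sto σ x κ φ l t (.inr .a) = κ := rfl
@[simp] theorem sto_b : sto σ x κ φ l t (.inr .b) = φ := rfl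
@[simp] theorem sto_c : sto σ x κ φ l t (.inr .c) = l := rfl
@[simp] theorem sto_e : sto σ x κ φ l t (.inr .e) = t := rfl
@[simp] theorem sto_inl (k : K) : sto σ x κ φ l t (.inl k) = σ k := rfl
@[simp] theorem upd_sto_d : upd (sto σ x κ φ l t) (.inr .d) v = sto σ v κ φ l t := by
  simp only [sto, upd_inr, updK, upd_d]
@[simp] theorem upd_sto_a : upd (sto σ x κ φ l t) (.inr .a) v = sto σ x v φ l t := by
  simp only [sto, upd_inr, updK, upd_a]
@[simp] theorem upd_sto_b : upd (sto σ x κ φ l t) (.inr .b) v = sto σ x κ v l t := by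
  simp only [sto, upd_inr, updK, upd_b]
@[simp] theorem upd_sto_c : upd (sto σ x κ φ l t) (.inr .c) v = sto σ x κ φ v t := by
  simp only [sto, upd_inr, updK, upd_c]
@[simp] theorem upd_sto_e : upd (sto σ x κ φ l t) (.inr .e) v = sto σ x κ φ l v := by
  simp only [sto, upd_inr, updK, upd_e]
@[simp] theorem upd_sto_inl (k : K) :
    upd (sto σ x κ φ l t) (.inl k) v = sto (Function.update σ k v) x κ φ l t := by
  simp only [sto, upd_inl, updK]
end

/-! ### vector programs -/

/-- Store with the counts in binary. -/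
def vst (m : ℕ) (cn : ℕ → ℕ) (σ : St) (x κ φ l : List Bool) : Sto ((K ⊕ K) ⊕ Fin m) :=
  Sum.elim (sto σ x κ φ l []) fun i => (cn i).bits

/-- The effect of a vector program. -/
def VRel (m : ℕ) (v : V) : Rel ((K ⊕ K) ⊕ Fin m) := fun S T _ d =>
  ∃ cn σ x κ φ l, (∀ i, m ≤ i → cn i = 0) ∧ S = vst m cn σ x κ φ l ∧
    T = vst m cn (v.run cn σ) x κ φ l ∧ v.cost cn ≤ d

theorem loopR_rep (m : ℕ) (v : V) (cn : ℕ → ℕ) (h0 : ∀ i, m ≤ i → cn i = 0) (x κ φ l : List Bool)
    (n : ℕ) (σ : St) (d : ℕ) (hd : n * (v.cost cn + 1) ≤ d) :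
    LoopR (.inl (.inr .c)) (VRel m v) (vst m cn σ x κ φ (List.replicate n true ++ false :: l))
      (vst m cn ((v.run cn)^[n] σ) x κ φ l) d := by
  induction n generalizing σ d with
  | zero =>
    have := LoopR.stop (k := .inl (.inr .c)) (X := VRel m v) (d := d)
      (S := vst m cn σ x κ φ (false :: l)) (x := l) rfl
    simp only [vst, upd_inl, upd_sto_c] at this
    exact this
  | succ n ih =>
    refine LoopR.tru (x := List.replicate n true ++ false :: l) rfl
      ⟨cn, σ, x, κ, φ, _, h0, by simp only [vst, upd_inl, upd_sto_c], rfl, le_rfl⟩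
      (ih (v.run cn σ) _ le_rfl) ?_
    rw [Nat.succ_mul] at hd; omega

theorem good_V (m : ℕ) (v : V) : Good (VRel m v) := by
  induction v with
  | skip =>
    refine Good.skip.mono ?_
    rintro _ _ s d ⟨cn, σ, x, κ, φ, l, h0, rfl, rfl, hd⟩
    rfl
  | seq u v ihu ihv =>
    refine (ihu.seq ihv).mono ?_
    rintro _ _ s d ⟨cn, σ, x, κ, φ, l, h0, rfl, rfl, hd⟩
    simp only [V.cost] at hd
    exact ⟨_, ⟨cn, σ, x, κ, φ, l, h0, rfl, rfl, by omega⟩,
      ⟨cn, _, x, κ, φ, l, h0, rfl, rfl, by omega⟩⟩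
  | push k b =>
    refine (Good.pushL (.inl (.inl k)) [b]).mono ?_
    rintro _ _ s d ⟨cn, σ, x, κ, φ, l, h0, rfl, rfl, hd⟩
    simp only [vst, upd_inl, upd_sto_inl]
    rfl
  | case k t f iht ihf =>
    refine (Good.case (.inl (.inl k)) iht ihf).mono ?_
    rintro _ _ s d ⟨cn, σ, x, κ, φ, l, h0, rfl, rfl, hd⟩
    simp only [V.cost] at hd
    have e : upd (vst m cn σ x κ φ l) (.inl (.inl k)) (vst m cn σ x κ φ l (.inl (.inl k))).tail =
        vst m cn (Function.update σ k (σ k).tail) x κ φ l := by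
      simp only [vst, upd_inl, upd_sto_inl]; rfl
    rw [e]
    show if (σ k).headD false then _ else _
    simp only [V.run]
    split_ifs
    · exact ⟨cn, _, x, κ, φ, l, h0, rfl, rfl, by omega⟩
    · exact ⟨cn, _, x, κ, φ, l, h0, rfl, rfl, by omega⟩
  | rep i v ih =>
    by_cases hi : i < m
    · refine ((Good.un (a := .inr ⟨i, hi⟩) (b := .inl (.inr .c)) (by simp)).seq
        (ih.loop (.inl (.inr .c)))).mono ?_
      rintro _ _ s d ⟨cn, σ, x, κ, φ, l, h0, rfl, rfl, hd⟩
      simp only [V.cost] at hd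
      refine ⟨vst m cn σ x κ φ (List.replicate (cn i) true ++ false :: l), ⟨cn i, rfl, ?_, ?_⟩,
        loopR_rep m v cn h0 x κ φ l _ σ d (by omega)⟩
      · simp only [vst, upd_inl, upd_sto_c]; rfl
      · rw [Nat.mul_succ] at hd; omega
    · refine Good.skip.mono ?_
      rintro _ _ s d ⟨cn, σ, x, κ, φ, l, h0, rfl, rfl, hd⟩
      simp only [V.run, h0 i (by omega), Function.iterate_zero, id_eq]

section fill
variable {A B α : Type} [DecidableEq B] [Enc α] {f : B → α → Bin}

theorem good_fill (a : A) (hf : ∀ i, PT (f i)) (F : Finset B) :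
    Good (fun (S T : Sto (A ⊕ B)) s _ => ∃ (U : Sto A) (x : α), U a = enc x ∧ sz x ≤ s ∧
      S = ext U ∧ T = Sum.elim U fun i => if i ∈ F then enc (f i x) else []) := by
  induction F using Finset.induction_on with
  | empty =>
    refine Good.skip.mono ?_
    rintro _ _ s d ⟨U, x, -, -, rfl, rfl⟩
    simp [ext]
  | insert j F hj ih =>
    refine (ih.seq (Good.evTo (a := .inl a) (b := .inr j) (by simp) (hf j))).mono ?_
    rintro _ _ s d ⟨U, x, h1, h2, rfl, rfl⟩
    refine ⟨_, ⟨U, x, h1, h2, rfl, rfl⟩, x, h1, by simp [hj], ?_, h2⟩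
    rw [upd_inr]
    congr 1
    funext i
    by_cases h : i = j
    · subst h; simp
    · simp [upd_ne _ _ h, h]

theorem good_clear (hf : ∀ i, PT (f i)) (F : Finset B) :
    Good (fun (S T : Sto (A ⊕ B)) s _ => ∃ (U : Sto A) (x : α), sz x ≤ s ∧
      S = Sum.elim U (fun i => if i ∈ F then enc (f i x) else []) ∧ T = ext U) := by
  induction F using Finset.induction_on with
  | empty =>
    refine Good.skip.mono ?_
    rintro _ _ s d ⟨U, x, -, rfl, rfl⟩
    simp [ext]
  | insert j F hj ih =>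
    refine ((Good.clrPB (.inr j) (hf j).pb).seq ih).mono ?_
    rintro _ _ s d ⟨U, x, h2, rfl, rfl⟩
    refine ⟨_, ⟨x, by simp [sz], rfl, h2⟩, U, x, h2, ?_, rfl⟩
    rw [upd_inr]
    congr 1
    funext i
    by_cases h : i = j
    · subst h; simp [hj]
    · simp [upd_ne _ _ h, h]

end fill

/-- The counts of a vector instruction. -/
def cnt (cn : List Ex) (c : Cf) (i : ℕ) : ℕ := (cn.map fun a => a.ev c.B c.P c.env).getD i 0

theorem good_vec (cn : List Ex) (v : V) :
    Good (fun (S T : Sto (K ⊕ K)) s d => ∃ (σ : St) (c : Cf) (κ φ l : List Bool), sz c ≤ s ∧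
      v.cost (cnt cn c) ≤ d ∧ S = sto σ (enc c) κ φ l [] ∧
      T = sto (v.run (cnt cn c) σ) (enc c) κ φ l []) := by
  have hf : ∀ i : Fin cn.length, PT (fun c : Cf => (⟨cnt cn c i⟩ : Bin)) := fun i =>
    (pt_ev cn[i]).congr fun c => by simp [cnt, List.getD_eq_getElem?_getD]
  refine ((good_fill (.inr .d) hf Finset.univ).seq
    ((good_V cn.length v).seq (good_clear hf Finset.univ))).loc.mono ?_
  rintro _ _ s d ⟨σ, c, κ, φ, l, h1, h2, rfl, rfl⟩
  refine ⟨_, ⟨_, c, rfl, h1, rfl, rfl⟩, _, ⟨cnt cn c, σ, enc c, κ, φ, l, fun i hi => ?_, ?_, rfl, h2⟩,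
    _, c, h1, ?_, rfl⟩
  · simp [cnt, List.getD_eq_getElem?_getD, hi]
  · simp [vst, enc_bin]
  · simp [vst, enc_bin]

/-! ### continuation items -/

/-- Continuation items. -/
inductive It : Type
  | run (r q : Prog)
  | again (r q : Prog)
  | pop
  | ret

/-- One step of the interpreter, after the item has been removed from the continuation stack. -/
inductive Step (cd : It → List Bool) : It → Rel (K ⊕ K)
  | skip {r S s d} : Step cd (.run r .skip) S S s d
  | seq {r p q σ x κ φ l s d} : Step cd (.run r (.seq p q)) (sto σ x κ φ l [])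
      (sto σ x (cd (.run r p) ++ cd (.run r q) ++ κ) φ l []) s d
  | set {r i e σ} {c : Cf} {κ φ l s d} : sz c ≤ s → Step cd (.run r (.set i e))
      (sto σ (enc c) κ φ l [])
      (sto σ (enc (⟨c.B, c.P, c.env.set i (e.ev c.B c.P c.env)⟩ : Cf)) κ φ l []) s d
  | lett {r e p σ} {c : Cf} {κ φ l s d} : sz c ≤ s → Step cd (.run r (.lett e p))
      (sto σ (enc c) κ φ l [])
      (sto σ (enc (⟨c.B, c.P, e.ev c.B c.P c.env :: c.env⟩ : Cf))
        (cd (.run r p) ++ cd .pop ++ κ) φ l []) s d
  | pop {σ} {c : Cf} {κ φ l s d} : sz c ≤ s → Step cd .pop (sto σ (enc c) κ φ l [])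
      (sto σ (enc (⟨c.B, c.P, c.env.tail⟩ : Cf)) κ φ l []) s d
  | ite {r e p q σ} {c : Cf} {κ φ l s d} : sz c ≤ s → Step cd (.run r (.ite e p q))
      (sto σ (enc c) κ φ l [])
      (sto σ (enc c) (cd (.run r (if e.ev c.B c.P c.env = 0 then q else p)) ++ κ) φ l []) s d
  | loop {r e p σ} {c : Cf} {κ φ l s d} : sz c ≤ s → e.ev c.B c.P c.env ≤ d →
      Step cd (.run r (.loop e p)) (sto σ (enc c) κ φ l [])
      (sto σ (enc c) (cd (.again r p) ++ κ) φ
        (List.replicate (e.ev c.B c.P c.env) true ++ false :: l) []) s d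
  | againT {r p σ x κ φ l s d} : Step cd (.again r p) (sto σ x κ φ (true :: l) [])
      (sto σ x (cd (.run r p) ++ cd (.again r p) ++ κ) φ l []) s d
  | againF {r p σ x κ φ l s d} : Step cd (.again r p) (sto σ x κ φ (false :: l) [])
      (sto σ x κ φ l []) s d
  | call {r args p σ} {c : Cf} {κ φ l s d} : sz c ≤ s → Step cd (.run r (.call args p))
      (sto σ (enc c) κ φ l [])
      (sto σ (enc (⟨c.B, c.P, args.map fun a => a.ev c.B c.P c.env⟩ : Cf))
        (cd (.run r p) ++ cd .ret ++ κ) (dbl (enc c) ++ false :: φ) l []) s d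
  | self {r args σ} {c : Cf} {κ φ l s d} : sz c ≤ s → Step cd (.run r (.self args))
      (sto σ (enc c) κ φ l [])
      (sto σ (enc (⟨c.B, c.P, args.map fun a => a.ev c.B c.P c.env⟩ : Cf))
        (cd (.run r r) ++ cd .ret ++ κ) (dbl (enc c) ++ false :: φ) l []) s d
  | ret {σ x z κ φ l s d} : x.length ≤ s → z.length ≤ s →
      Step cd .ret (sto σ x κ (dbl z ++ false :: φ) l []) (sto σ z κ φ l []) s d
  | fix {r p σ x κ φ l s d} : Step cd (.run r (.fix p)) (sto σ x κ φ l [])
      (sto σ x (cd (.run p p) ++ κ) φ l []) s d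
  | vec {r cn v σ} {c : Cf} {κ φ l s d} : sz c ≤ s → v.cost (cnt cn c) ≤ d →
      Step cd (.run r (.vec cn v)) (sto σ (enc c) κ φ l [])
      (sto (v.run (cnt cn c) σ) (enc c) κ φ l []) s d

theorem good_call (args : List Ex) (w : List Bool) :
    Good (fun (S T : Sto (K ⊕ K)) s _ => ∃ (σ : St) (c : Cf) (κ φ l : List Bool), sz c ≤ s ∧
      S = sto σ (enc c) κ φ l [] ∧
      T = sto σ (enc (⟨c.B, c.P, args.map fun a => a.ev c.B c.P c.env⟩ : Cf))
        (w ++ κ) (dbl (enc c) ++ false :: φ) l []) := by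
  refine ((Good.pushL (.inr .b) [false]).seq
    ((Good.cp (a := .inr .d) (b := .inr .b) (by simp) (fun x => [true, x]) (by simp)).seq
      ((Good.pt (.inr .d) (pt_args args)).seq (Good.pushL (.inr .a) w)))).mono ?_
  rintro _ _ s d ⟨σ, c, κ, φ, l, h, rfl, rfl⟩
  refine ⟨_, rfl, _, ⟨rfl, by simpa [sz] using h⟩, _, ⟨c, by simp, rfl, h⟩, ?_⟩
  simp [dbl]

theorem good_step (cd : It → List Bool) (it : It) : Good (Step cd it) := by
  rcases it with ⟨r, q⟩ | ⟨r, p⟩ | _ | _
  · cases q with
    | skip => exact Good.skip.mono fun S T s d h => by cases h; rfl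
    | seq p q =>
      exact (Good.pushL (.inr .a) (cd (.run r p) ++ cd (.run r q))).mono fun S T s d h => by
        cases h; simp
    | set i e =>
      exact (Good.pt (.inr .d) (pt_set i e)).mono fun S T s d h => by
        cases h with
        | set h => exact ⟨_, rfl, by simp, h⟩
    | lett e p =>
      exact ((Good.pt (.inr .d) (pt_cons e)).seq
        (Good.pushL (.inr .a) (cd (.run r p) ++ cd .pop))).mono fun S T s d h => by
        cases h with
        | lett h => exact ⟨_, ⟨_, rfl, rfl, h⟩, by simp⟩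
    | ite e p q =>
      exact ((Good.evTo (a := .inr .d) (b := .inr .e) (by simp) (CA.bZero (pt_ev e))).seq
        (Good.case (.inr .e) (Good.pushL (.inr .a) (cd (.run r q)))
          (Good.pushL (.inr .a) (cd (.run r p))))).mono fun S T s d h => by
        cases h with
        | @ite _ _ _ _ σ c κ φ l _ _ h =>
          refine ⟨_, ⟨_, rfl, rfl, rfl, h⟩, ?_⟩
          by_cases h0 : e.ev c.B c.P c.env = 0 <;> simp [h0]
    | loop e p =>
      exact ((Good.evTo (a := .inr .d) (b := .inr .e) (by simp) (pt_ev e)).seq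
        ((Good.un (a := .inr .e) (b := .inr .c) (by simp)).seq
          ((Good.clr (.inr .e)).seq (Good.pushL (.inr .a) (cd (.again r p)))))).mono
        fun S T s d h => by
        cases h with
        | @loop _ _ _ σ c κ φ l _ _ h h' =>
          refine ⟨_, ⟨_, rfl, rfl, rfl, h⟩, _, ⟨e.ev c.B c.P c.env, by simp [enc_bin], rfl, h'⟩,
            _, ⟨rfl, ?_⟩, by simp⟩
          have := size_le_self (e.ev c.B c.P c.env)
          simp only [upd_sto_e, upd_sto_c, sto_e, enc_bin, Nat.size_eq_bits_len]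
          omega
    | call args p =>
      exact (good_call args (cd (.run r p) ++ cd .ret)).mono fun S T s d h => by
        cases h with
        | call h => exact ⟨_, _, _, _, _, h, rfl, rfl⟩
    | self args =>
      exact (good_call args (cd (.run r r) ++ cd .ret)).mono fun S T s d h => by
        cases h with
        | self h => exact ⟨_, _, _, _, _, h, rfl, rfl⟩
    | fix p =>
      exact (Good.pushL (.inr .a) (cd (.run p p))).mono fun S T s d h => by
        cases h; simp
    | vec cn v =>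
      exact (good_vec cn v).mono fun S T s d h => by
        cases h with
        | vec h h' => exact ⟨_, _, _, _, _, h, h', rfl, rfl⟩
  · exact (Good.case (.inr .c) (Good.pushL (.inr .a) (cd (.run r p) ++ cd (.again r p)))
      Good.skip).mono fun S T s d h => by
      cases h <;> simp
  · exact (Good.pt (.inr .d) pt_tail).mono fun S T s d h => by
      cases h with
      | pop h => exact ⟨_, rfl, by simp, h⟩
  · exact (Good.rest (a := .inr .d) (b := .inr .b) (by simp)).mono fun S T s d h => by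
      cases h with
      | ret h h' => exact ⟨_, _, rfl, by simp, h, h'⟩

theorem good_disp {A ι : Type} (a : A) (X : ι → Rel A) (hX : ∀ i, Good (X i)) (L : List ι) :
    Good (fun S T s d => ∃ j i κ, L[j]? = some i ∧ S a = List.replicate j true ++ false :: κ ∧
      X i (upd S a κ) T s d) := by
  induction L with
  | nil =>
    refine Good.skip.mono ?_
    rintro S T s d ⟨j, i, κ, h, -⟩
    simp at h
  | cons i₀ L ih =>
    refine (Good.case a ih (hX i₀)).mono ?_
    rintro S T s d ⟨j, i, κ, h1, h2, h3⟩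
    rcases j with _ | j
    · obtain rfl : i₀ = i := by simpa using h1
      simpa [h2] using h3
    · simp only [h2, List.replicate_succ, List.cons_append, List.headD_cons, if_true,
        List.tail_cons]
      exact ⟨j, i, κ, by simpa using h1, upd_same _ _ _, by rwa [upd_upd]⟩

/-! ### subterms -/

/-- Subterms. -/
def subs : Prog → List Prog
  | .seq p q => .seq p q :: (subs p ++ subs q)
  | .lett e p => .lett e p :: subs p
  | .ite e p q => .ite e p q :: (subs p ++ subs q)
  | .loop e p => .loop e p :: subs p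
  | .call a p => .call a p :: subs p
  | .fix p => .fix p :: subs p
  | p => [p]

/-- Bound for the growth of the environment. -/
def wt : Prog → ℕ
  | .seq p q => wt p + wt q
  | .lett _ p => wt p + 1
  | .ite _ p q => wt p + wt q
  | .loop _ p => wt p
  | .call a p => a.length + wt p
  | .self a => a.length
  | .fix p => wt p
  | _ => 0

theorem self_mem_subs (p : Prog) : p ∈ subs p := by cases p <;> simp [subs]

theorem subs_trans {p q : Prog} (h : q ∈ subs p) : (∀ r ∈ subs q, r ∈ subs p) ∧ wt q ≤ wt p := by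
  induction p with
  | seq p p' ih ih' | ite e p p' ih ih' =>
    simp only [subs, List.mem_cons, List.mem_append] at h
    rcases h with rfl | h | h
    · exact ⟨fun _ h => h, le_rfl⟩
    · exact ⟨fun r hr => by simp [subs, (ih h).1 r hr], by have := (ih h).2; simp only [wt]; omega⟩
    · exact ⟨fun r hr => by simp [subs, (ih' h).1 r hr],
        by have := (ih' h).2; simp only [wt]; omega⟩
  | lett e p ih | loop e p ih | call e p ih | fix p ih =>
    simp only [subs, List.mem_cons] at h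
    rcases h with rfl | h
    · exact ⟨fun _ h => h, le_rfl⟩
    · exact ⟨fun r hr => by simp [subs, (ih h).1 r hr], by have := (ih h).2; simp only [wt]; omega⟩
  | _ =>
    simp only [subs, List.mem_singleton] at h
    subst h
    exact ⟨fun _ h => h, le_rfl⟩

/-- All items needed for `p`. -/
def items (p : Prog) : List It :=
  .pop :: .ret :: (subs p).flatMap fun r => (subs p).flatMap fun q => [.run r q, .again r q]

theorem run_mem {p r q : Prog} (hr : r ∈ subs p) (hq : q ∈ subs p) : .run r q ∈ items p := by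
  simp only [items, List.mem_cons, List.mem_flatMap]
  exact .inr (.inr ⟨r, hr, q, hq, by simp⟩)

theorem again_mem {p r q : Prog} (hr : r ∈ subs p) (hq : q ∈ subs p) : .again r q ∈ items p := by
  simp only [items, List.mem_cons, List.mem_flatMap]
  exact .inr (.inr ⟨r, hr, q, hq, by simp⟩)

open Classical in
/-- Code of an item. -/
noncomputable def code (L : List It) (it : It) : List Bool :=
  true :: (List.replicate (L.idxOf it) true ++ [false])

/-- The main loop, abstractly: `R S t` means that the run from `S` ends in `t` steps. -/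
theorem exists_main (L : List It) :
    ∃ (k : ℕ) (τ : Type) (_ : Finite τ) (M : Mach ((K ⊕ K) ⊕ τ)),
      (∀ σ x φ l, M.Runs (ext (sto σ x [] φ l [])) (ext (sto σ x [] φ l [])) 1) ∧
      ∀ it ∈ L, ∀ σ x κ φ l T s d U t, Step (code L) it (sto σ x κ φ l []) T s d →
        M.Runs (ext T) U t → M.Runs (ext (sto σ x (code L it ++ κ) φ l [])) U
          (t + (cost k s d + 1)) := by
  classical
  obtain ⟨k, τ, _, M, h⟩ := good_disp (.inr .a) _ (good_step (code L)) L
  refine ⟨k, τ, inferInstance, Mach.loop (.inl (.inr .a)) true M Mach.skip,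
    fun σ x φ l => Runs.loop_nil rfl, fun it hit σ x κ φ l T s d U t h1 h2 => ?_⟩
  refine (Runs.loop_true (x := List.replicate (L.idxOf it) true ++ false :: κ) (by simp [code])
    (by
      rw [upd_ext, upd_sto_a]
      exact h _ _ s d ⟨_, it, κ, List.getElem?_idxOf hit, rfl, by rwa [upd_sto_a]⟩) h2).mono ?_
  omega

theorem ok_le {B : ℕ} {env : List ℕ} {v : ℕ} (h : ∀ v ∈ env, v ≤ B) (hv : Ok B env v) : v ≤ B :=
  hv.elim id (h v)

theorem sim {p₀ : Prog} {cd : It → List Bool} {k B P E s : ℕ} (hP : P ≤ B)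
    (hs : (2 * wt p₀ + 4) * (2 * B.size + 2) ≤ s) (hE : 2 * k + 1 ≤ E)
    (hEP : 2 * (k * (s + 1) ^ k) + k + 2 ≤ E * P) (R : Sto (K ⊕ K) → ℕ → Prop)
    (Rm : ∀ S t t', R S t → t ≤ t' → R S t')
    (hR : ∀ it ∈ items p₀, ∀ σ x κ φ l T s d t, Step cd it (sto σ x κ φ l []) T s d →
      R T t → R (sto σ x (cd it ++ κ) φ l []) (t + (cost k s d + 1)))
    {r q : Prog} {env : List ℕ} {σ : St} {env' : List ℕ} {σ' : St} {c : ℕ}
    (h : Exec B P r q env σ env' σ' c) (hr : r ∈ subs p₀) (hq : q ∈ subs p₀)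
    (hB : ∀ v ∈ env, v ≤ B) (hl : env.length + wt q ≤ 2 * wt p₀ + 2) :
    (∀ v ∈ env', v ≤ B) ∧ env'.length = env.length ∧ ∀ κ φ l t,
      R (sto σ' (enc (⟨B, P, env'⟩ : Cf)) κ φ l []) t →
      R (sto σ (enc (⟨B, P, env⟩ : Cf)) (cd (.run r q) ++ κ) φ l []) (t + E * c) := by
  have hsz : ∀ env : List ℕ, (∀ v ∈ env, v ≤ B) → env.length ≤ 2 * wt p₀ + 2 →
      sz (⟨B, P, env⟩ : Cf) ≤ s := fun env h1 h2 =>
    (sz_cf _ h1 hP).trans ((Nat.mul_le_mul_right _ (by simp only; omega)).trans hs)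
  have c0 : cost k 0 0 = k := by simp [cost]
  have c1 : ∀ d, cost k s d = k * (s + 1) ^ k + k * d := fun d => by rw [cost, Nat.mul_add]
  have c2 : cost k s 0 = k * (s + 1) ^ k := by simp [cost]
  induction h with
  | skip r env σ =>
    exact ⟨hB, rfl, fun κ φ l t h =>
      Rm _ _ _ (hR _ (run_mem hr hq) _ _ _ _ _ _ 0 0 _ .skip h) (by omega)⟩
  | @seq r p q env σ env₁ σ₁ env₂ σ₂ c₁ c₂ _ _ ih₁ ih₂ =>
    have hs := (subs_trans hq).1
    simp only [wt] at hl
    obtain ⟨a1, a2, a3⟩ := ih₁ hr (hs _ (by simp [subs, self_mem_subs])) hB (by omega)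
    obtain ⟨b1, b2, b3⟩ := ih₂ hr (hs _ (by simp [subs, self_mem_subs])) a1 (by omega)
    refine ⟨b1, b2.trans a2, fun κ φ l t h => ?_⟩
    have h1 := a3 _ _ _ _ (b3 _ _ _ _ h)
    rw [← List.append_assoc] at h1
    refine Rm _ _ _ (hR _ (run_mem hr hq) _ _ _ _ _ _ 0 0 _ .seq h1) ?_
    simp only [Nat.mul_add]; omega
  | @set r i e env σ hok =>
    refine ⟨fun v hv => ?_, by simp, fun κ φ l t h => ?_⟩
    · rcases List.mem_or_eq_of_mem_set hv with h | rfl
      · exact hB v h
      · exact ok_le hB hok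
    · exact Rm _ _ _ (hR _ (run_mem hr hq) _ _ _ _ _ _ s 0 _
        (.set (c := ⟨B, P, env⟩) (hsz _ hB (by omega))) h) (by omega)
  | @lett r e p env σ env' σ' c hok _ ih =>
    have hs := (subs_trans hq).1
    simp only [wt] at hl
    obtain ⟨a1, a2, a3⟩ := ih hr (hs _ (by simp [subs, self_mem_subs]))
      (by
        intro v hv
        rcases List.mem_cons.1 hv with rfl | h
        · exact ok_le hB hok
        · exact hB v h) (by simp only [List.length_cons]; omega)
    simp only [List.length_cons] at a2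
    refine ⟨fun v hv => a1 v (List.mem_of_mem_tail hv), by simp [a2], fun κ φ l t h => ?_⟩
    have h1 := a3 _ _ _ _ (hR .pop (by simp [items]) _ _ _ _ _ _ s 0 _
      (.pop (c := ⟨B, P, env'⟩) (hsz _ a1 (by omega))) h)
    rw [← List.append_assoc] at h1
    refine Rm _ _ _ (hR _ (run_mem hr hq) _ _ _ _ _ _ s 0 _
      (.lett (c := ⟨B, P, env⟩) (hsz _ hB (by omega))) h1) ?_
    simp only [Nat.mul_add]; omega
  | @iteT r e p q env σ env' σ' c h0 _ ih =>
    have hs := (subs_trans hq).1
    simp only [wt] at hl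
    obtain ⟨a1, a2, a3⟩ := ih hr (hs _ (by simp [subs, self_mem_subs])) hB (by omega)
    refine ⟨a1, a2, fun κ φ l t h => ?_⟩
    refine Rm _ _ _ (hR _ (run_mem hr hq) _ _ _ _ _ _ s 0 _
      (.ite (c := ⟨B, P, env⟩) (hsz _ hB (by omega)))
      (by simpa only [if_neg h0] using a3 _ _ _ _ h)) ?_
    simp only [Nat.mul_add]; omega
  | @iteF r e p q env σ env' σ' c h0 _ ih =>
    have hs := (subs_trans hq).1
    simp only [wt] at hl
    obtain ⟨a1, a2, a3⟩ := ih hr (hs _ (by simp [subs, self_mem_subs])) hB (by omega)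
    refine ⟨a1, a2, fun κ φ l t h => ?_⟩
    refine Rm _ _ _ (hR _ (run_mem hr hq) _ _ _ _ _ _ s 0 _
      (.ite (c := ⟨B, P, env⟩) (hsz _ hB (by omega)))
      (by simpa only [if_pos h0] using a3 _ _ _ _ h)) ?_
    simp only [Nat.mul_add]; omega
  | @loop r e p En S c n hn _ ih =>
    have hp : p ∈ subs p₀ := (subs_trans hq).1 _ (by simp [subs, self_mem_subs])
    simp only [wt] at hl
    have key : ∀ m ≤ n, (∀ v ∈ En m, v ≤ B) ∧ (En m).length = (En 0).length ∧ ∀ κ φ l t,
        R (sto (S m) (enc (⟨B, P, En m⟩ : Cf)) (cd (.again r p) ++ κ) φ l []) t →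
        R (sto (S 0) (enc (⟨B, P, En 0⟩ : Cf)) (cd (.again r p) ++ κ) φ
          (List.replicate m true ++ l) []) (t + (E * ∑ i ∈ Finset.range m, c i + (k + 1) * m)) := by
      intro m hm
      induction m with
      | zero => exact ⟨hB, rfl, fun κ φ l t h => by simpa using h⟩
      | succ m ihm =>
        obtain ⟨a1, a2, a3⟩ := ihm (by omega)
        obtain ⟨b1, b2, b3⟩ := ih m (by omega) hr hp a1 (by omega)
        refine ⟨b1, b2.trans a2, fun κ φ l t h => ?_⟩
        have h1 := b3 _ _ _ _ h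
        rw [← List.append_assoc] at h1
        have h2 := a3 _ _ _ _ (hR _ (again_mem hr hp) _ _ _ _ _ _ 0 0 _ .againT h1)
        rw [List.replicate_succ', List.append_assoc]
        refine Rm _ _ _ h2 ?_
        simp only [Finset.sum_range_succ, Nat.mul_add]; omega
    obtain ⟨a1, a2, a3⟩ := key n le_rfl
    refine ⟨a1, a2, fun κ φ l t h => ?_⟩
    have h1 := a3 _ _ _ _ (hR _ (again_mem hr hp) _ _ _ _ _ _ 0 0 _ .againF h)
    subst hn
    refine Rm _ _ _ (hR _ (run_mem hr hq) _ _ _ _ _ _ s _ _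
      (.loop (c := ⟨B, P, En 0⟩) (hsz _ hB (by omega)) le_rfl) h1) ?_
    have := Nat.mul_le_mul_right (e.ev B P (En 0)) hE
    simp only [c1, Finset.sum_add_distrib, Finset.sum_const, Finset.card_range, smul_eq_mul,
      mul_one, Nat.mul_add, Nat.add_mul, one_mul, mul_assoc] at this ⊢
    omega
  | @call r args p env σ env' σ' c hok _ ih =>
    have hs := subs_trans hq
    simp only [wt] at hl hs
    obtain ⟨a1, a2, a3⟩ := ih hr (hs.1 _ (by simp [subs, self_mem_subs]))
      (by
        intro v hv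
        obtain ⟨a, ha, rfl⟩ := List.mem_map.1 hv
        exact ok_le hB (hok a ha)) (by simp only [List.length_map]; omega)
    simp only [List.length_map] at a2
    refine ⟨hB, rfl, fun κ φ l t h => ?_⟩
    have h1 := a3 _ _ _ _ (hR .ret (by simp [items]) _ _ _ _ _ _ s 0 _
      (.ret (hsz _ a1 (by omega)) (hsz _ hB (by omega))) h)
    rw [← List.append_assoc] at h1
    refine Rm _ _ _ (hR _ (run_mem hr hq) _ _ _ _ _ _ s 0 _
      (.call (c := ⟨B, P, env⟩) (hsz _ hB (by omega))) h1) ?_
    simp only [Nat.mul_add]; omega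
  | @self r args env σ env' σ' c hok _ ih =>
    have hs := (subs_trans hq).2
    have hs' := (subs_trans hr).2
    simp only [wt] at hl hs
    obtain ⟨a1, a2, a3⟩ := ih hr hr
      (by
        intro v hv
        obtain ⟨a, ha, rfl⟩ := List.mem_map.1 hv
        exact ok_le hB (hok a ha)) (by simp only [List.length_map]; omega)
    simp only [List.length_map] at a2
    refine ⟨hB, rfl, fun κ φ l t h => ?_⟩
    have h1 := a3 _ _ _ _ (hR .ret (by simp [items]) _ _ _ _ _ _ s 0 _
      (.ret (hsz _ a1 (by omega)) (hsz _ hB (by omega))) h)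
    rw [← List.append_assoc] at h1
    refine Rm _ _ _ (hR _ (run_mem hr hq) _ _ _ _ _ _ s 0 _
      (.self (c := ⟨B, P, env⟩) (hsz _ hB (by omega))) h1) ?_
    simp only [Nat.mul_add]; omega
  | @fix r p env σ env' σ' c _ ih =>
    have hp : p ∈ subs p₀ := (subs_trans hq).1 _ (by simp [subs, self_mem_subs])
    simp only [wt] at hl
    obtain ⟨a1, a2, a3⟩ := ih hp hp hB hl
    refine ⟨a1, a2, fun κ φ l t h => ?_⟩
    refine Rm _ _ _ (hR _ (run_mem hr hq) _ _ _ _ _ _ 0 0 _ .fix (a3 _ _ _ _ h)) ?_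
    simp only [Nat.mul_add]; omega
  | vec r cn v env σ =>
    refine ⟨hB, rfl, fun κ φ l t h => ?_⟩
    refine Rm _ _ _ (hR _ (run_mem hr hq) _ _ _ _ _ _ s _ _
      (.vec (c := ⟨B, P, env⟩) (hsz _ hB (by omega)) le_rfl) h) ?_
    have : k * v.cost (cnt cn ⟨B, P, env⟩) ≤ E * v.cost (cnt cn ⟨B, P, env⟩) :=
      Nat.mul_le_mul_right _ (by omega)
    show _ ≤ t + E * (v.cost (cnt cn ⟨B, P, env⟩) + P)
    simp only [c1, Nat.mul_add]; omega
  | mono _ hc ih =>
    obtain ⟨a1, a2, a3⟩ := ih hr hq hB hl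
    exact ⟨a1, a2, fun κ φ l t h => Rm _ _ _ (a3 _ _ _ _ h)
      (Nat.add_le_add_left (Nat.mul_le_mul_left _ hc) _)⟩

end CB

open CB

/-- Store of the compiled machine. -/
def stt {τ : Type} (σ : St) (x : List Bool) : K ⊕ Option τ → List Bool
  | .inl k => σ k
  | .inr none => x
  | .inr (some _) => []

theorem machine (p : Prog) : ∃ (τ : Type) (_ : Finite τ) (M : Mach (K ⊕ Option τ)) (C k : ℕ),
    ∀ (B P : ℕ) (env : List ℕ) (σ : St) (env' : List ℕ) (σ' : St) (c Q : ℕ),
      env.length ≤ 2 → (∀ v ∈ env, v ≤ B) → P ≤ B → 1 ≤ P → 1 ≤ Q → (B.size + 2) ^ k ≤ Q * P →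
      Exec B P p p env σ env' σ' c →
      M.Runs (stt σ (enc (⟨B, P, env⟩ : Cf))) (stt σ' []) (C * Q * (c + P)) := by
  obtain ⟨k, τ, _, M, h0, h⟩ := exists_main (items p)
  have := finK
  let ι : (K ⊕ K) ⊕ τ → K ⊕ Option (K ⊕ τ) := fun j => match j with
    | .inl (.inl k) => .inl k
    | .inl (.inr .d) => .inr none
    | .inl (.inr k) => .inr (some (.inl k))
    | .inr t => .inr (some (.inr t))
  obtain ⟨W, hW⟩ : ∃ W, W = 4 * wt p + 8 := ⟨_, rfl⟩
  obtain ⟨C, hC⟩ : ∃ C, C = 2 * (k * W ^ k) + 2 * k + 2 := ⟨_, rfl⟩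
  refine ⟨K ⊕ τ, inferInstance, ((pushList (.inl (.inr .a)) (code (items p) (.run p p))).seq
    (M.seq (clear (.inl (.inr .d))))).rename ι,
    C + (code (items p) (.run p p)).length + 1 + W, k + 1, ?_⟩
  intro B P env σ env' σ' c Q hl hB hP hP1 hQ hk he
  have hQP : 1 ≤ Q * P := Nat.mul_pos hQ hP1
  have hk1 : (B.size + 2) ^ k ≤ Q * P := (Nat.pow_le_pow_right (by omega) (by omega)).trans hk
  have hk2 : B.size + 2 ≤ Q * P := (Nat.le_self_pow (by omega) _).trans hk
  obtain ⟨s, hs⟩ : ∃ s, s = (2 * wt p + 4) * (2 * B.size + 2) := ⟨_, rfl⟩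
  have hs1 : s + 1 ≤ W * (B.size + 2) := by rw [hs, hW]; nlinarith
  have hs2 : (s + 1) ^ k ≤ W ^ k * (Q * P) :=
    (Nat.pow_le_pow_left hs1 k).trans (by rw [mul_pow]; exact Nat.mul_le_mul_left _ hk1)
  have hE : 2 * k + 1 ≤ C * Q := by nlinarith [Nat.zero_le (k * W ^ k)]
  have hEP : 2 * (k * (s + 1) ^ k) + k + 2 ≤ C * Q * P := by
    have := Nat.mul_le_mul_left k hs2
    rw [mul_assoc C, hC]
    nlinarith
  obtain ⟨a1, a2, a3⟩ := sim hP hs.ge hE hEP
    (fun S t => M.Runs (ext S) (ext (sto σ' (enc (⟨B, P, env'⟩ : Cf)) [] [] [] [])) t)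
    (fun _ _ _ h ht => h.mono ht)
    (fun it hit σ x κ φ l T s d t => h it hit σ x κ φ l T s d _ t)
    he (self_mem_subs p) (self_mem_subs p) hB (by omega)
  have h1 := runs_pushList (.inl (.inr .a)) (code (items p) (.run p p))
    (ext (τ := τ) (sto σ (enc (⟨B, P, env⟩ : Cf)) [] [] [] []))
  have h2 := a3 _ _ _ _ (h0 _ _ _ _)
  have h3 := runs_clear (.inl (.inr .d))
    (ext (τ := τ) (sto σ' (enc (⟨B, P, env'⟩ : Cf)) [] [] [] []))
  simp only [upd_ext, ext_inl, upd_sto_a, sto_a, upd_sto_d, sto_d] at h1 h3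
  have h4 : (enc (⟨B, P, env'⟩ : Cf)).length ≤ s :=
    (sz_cf _ a1 hP).trans (hs ▸ Nat.mul_le_mul_right _ (by simp only; omega))
  refine ((h1.seq (h2.seq h3)).rename ?_ _ ?_ _ ?_ ?_).mono ?_
  · rintro ((u | u) | u) ((v | v) | v) huv <;>
      first | (cases u <;> cases v <;> simp_all [ι]) | (cases u <;> simp_all [ι]) |
        (cases v <;> simp_all [ι]) | simp_all [ι]
  · rintro ((u | u) | u)
    · rfl
    · cases u <;> rfl
    · rfl
  · rintro ((u | u) | u)
    · rfl
    · cases u <;> rfl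
    · rfl
  · rintro (u | _ | u) hu
    · exact (hu ⟨.inl (.inl u), rfl⟩).elim
    · exact (hu ⟨.inl (.inr .d), rfl⟩).elim
    · rfl
  · generalize (code (items p) (.run p p)).length = n
    have h5 : s + 1 ≤ W * (Q * P) := hs1.trans (Nat.mul_le_mul_left _ hk2)
    have h6 : n + 1 ≤ (n + 1) * (Q * P) := Nat.le_mul_of_pos_right _ hQP
    nlinarith [Nat.zero_le (C * Q * P), Nat.zero_le ((n + 1 + W) * Q * c)]

end Crest.Agent.IM
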