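import Crest.Agent.IM.CompA

/-! Auxiliary calculus for `CompB`: relations between stores that are implemented by a machine
with finitely many (initially and finally empty) temporaries at cost `k * ((s + 1) ^ k + d)`. -/

set_option autoImplicit false

namespace Crest.Agent.IM.CB
open Crest.Agent.PT Crest.Agent.PT.Mach

/-- Stores. -/
abbrev Sto (A : Type) := A → List Bool

/-- Extension of a store by empty temporaries. -/
def ext {A τ : Type} (S : Sto A) : Sto (A ⊕ τ) := Sum.elim S fun _ => []

theorem upd_inl {A B : Type} (f : Sto A) (g : Sto B) (a : A) (v : List Bool) :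
    upd (Sum.elim f g) (.inl a) v = Sum.elim (upd f a v) g := by
  funext j
  rcases j with j | j
  · by_cases h : j = a
    · subst h; simp
    · rw [upd_ne _ _ (by simpa using h)]; simp [upd_ne _ _ h]
  · rw [upd_ne _ _ (by simp)]; simp

theorem upd_inr {A B : Type} (f : Sto A) (g : Sto B) (b : B) (v : List Bool) :
    upd (Sum.elim f g) (.inr b) v = Sum.elim f (upd g b v) := by
  funext j
  rcases j with j | j
  · rw [upd_ne _ _ (by simp)]; simp
  · by_cases h : j = b
    · subst h; simp
    · rw [upd_ne _ _ (by simpa using h)]; simp [upd_ne _ _ h]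

theorem upd_ext {A τ : Type} (S : Sto A) (a : A) (v : List Bool) :
    upd (ext S : Sto (A ⊕ τ)) (.inl a) v = ext (upd S a v) := upd_inl _ _ _ _

@[simp] theorem ext_inl {A τ : Type} (S : Sto A) (a : A) : (ext S : Sto (A ⊕ τ)) (.inl a) = S a :=
  rfl

theorem updK (S : St) (k : K) (v : List Bool) : upd S k v = Function.update S k v :=
  upd_eq_update _ _ _

theorem finK : Finite K :=
  Finite.of_surjective (fun i : Fin 6 => [K.d, K.a, K.b, K.c, K.e, K.f].getD i K.d) (fun k => by
    cases k
    exacts [⟨0, rfl⟩, ⟨1, rfl⟩, ⟨2, rfl⟩, ⟨3, rfl⟩, ⟨4, rfl⟩, ⟨5, rfl⟩])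

/-- Cost: polynomial in `s`, linear in `d`. -/
def cost (k s d : ℕ) : ℕ := k * ((s + 1) ^ k + d)

theorem cost_mono {k k' s s' d d' : ℕ} (hk : k ≤ k') (hs : s ≤ s') (hd : d ≤ d') :
    cost k s d ≤ cost k' s' d' :=
  Nat.mul_le_mul hk (Nat.add_le_add ((Nat.pow_le_pow_left (by omega) _).trans
    (Nat.pow_le_pow_right (by omega) hk)) hd)

theorem cost_add (k k' s d : ℕ) : cost k s d + cost k' s d ≤ cost (k + k') s d := by
  have h1 : (s + 1) ^ k ≤ (s + 1) ^ (k + k') := Nat.pow_le_pow_right (by omega) (by omega)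
  have h2 : (s + 1) ^ k' ≤ (s + 1) ^ (k + k') := Nat.pow_le_pow_right (by omega) (by omega)
  unfold cost
  rw [Nat.add_mul]
  exact Nat.add_le_add (Nat.mul_le_mul_left _ (by omega)) (Nat.mul_le_mul_left _ (by omega))

theorem lin_le_cost (c s d : ℕ) : c * (s + d + 1) ≤ cost c s d := by
  rcases Nat.eq_zero_or_pos c with rfl | hc
  · simp
  · have : s + 1 ≤ (s + 1) ^ c := Nat.le_self_pow (by omega) _
    exact Nat.mul_le_mul_left _ (by omega)

theorem cost_succ (k s d : ℕ) : cost k s d + 1 ≤ cost (k + 1) s d := by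
  have h1 := cost_add k 1 s d
  have h2 := lin_le_cost 1 s d
  omega

theorem pow_le_cost (k s d : ℕ) : (s + 2) ^ k ≤ cost (2 ^ k) s d := by
  have h1 : (s + 2) ^ k ≤ 2 ^ k * (s + 1) ^ k := by
    rw [← mul_pow]; exact Nat.pow_le_pow_left (by omega) _
  have h2 : (s + 1) ^ k ≤ (s + 1) ^ 2 ^ k :=
    Nat.pow_le_pow_right (by omega) Nat.lt_two_pow_self.le
  exact h1.trans (Nat.mul_le_mul_left _ (by omega))

/-- Relations between stores, with two cost parameters. -/
abbrev Rel (A : Type) := Sto A → Sto A → ℕ → ℕ → Prop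

/-- The relation is implemented by a machine. -/
def Good {A : Type} (X : Rel A) : Prop :=
  ∃ (k : ℕ) (τ : Type) (_ : Finite τ) (M : Mach (A ⊕ τ)),
    ∀ S T s d, X S T s d → M.Runs (ext S) (ext T) (cost k s d)

theorem runs_lift {A τ τ' : Type} {j : τ → τ'} (hj : Function.Injective j) {M : Mach (A ⊕ τ)}
    {S T : Sto A} {t : ℕ} (h : M.Runs (ext S) (ext T) t) :
    (M.rename (Sum.map id j)).Runs (ext S) (ext T) t := by
  refine h.rename (Sum.map_injective.2 ⟨Function.injective_id, hj⟩) _ ?_ _ ?_ ?_
  · rintro (a | a) <;> rfl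
  · rintro (a | a) <;> rfl
  · rintro (a | a) ha
    · exact (ha ⟨.inl a, rfl⟩).elim
    · rfl

/-- Iteration of `X` controlled by the register `k`. -/
inductive LoopR {A : Type} (k : A) (X : Rel A) : Sto A → Sto A → ℕ → Prop
  | stop {S x d} : S k = false :: x → LoopR k X S (upd S k x) d
  | tru {S S' T x d₁ d₂ d} : S k = true :: x → X (upd S k x) S' 0 d₁ → LoopR k X S' T d₂ →
      d₁ + d₂ + 1 ≤ d → LoopR k X S T d

namespace Good
variable {A : Type} {X Y : Rel A}

theorem mono' (h : Good X) (H : ∀ S T s d, Y S T s d → ∃ s' ≤ s, ∃ d' ≤ d, X S T s' d') :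
    Good Y := by
  obtain ⟨k, τ, _, M, h⟩ := h
  refine ⟨k, τ, inferInstance, M, fun S T s d hY => ?_⟩
  obtain ⟨s', hs, d', hd, hX⟩ := H S T s d hY
  exact (h S T s' d' hX).mono (cost_mono le_rfl hs hd)

theorem mono (h : Good X) (H : ∀ S T s d, Y S T s d → X S T s d) : Good Y :=
  h.mono' fun S T s d hY => ⟨s, le_rfl, d, le_rfl, H S T s d hY⟩

theorem ofMach (M : Mach A) (c : ℕ) (h : ∀ S T s d, X S T s d → M.Runs S T (c * (s + d + 1))) :
    Good X := by
  refine ⟨c, Empty, inferInstance, M.rename Sum.inl, fun S T s d hX => ?_⟩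
  refine ((h S T s d hX).rename Sum.inl_injective _ (fun _ => rfl) _ (fun _ => rfl) ?_).mono
    (lin_le_cost _ _ _)
  rintro (a | a) ha
  · exact (ha ⟨a, rfl⟩).elim
  · rfl

theorem two (hX : Good X) (hY : Good Y) :
    ∃ (k k' : ℕ) (τ : Type) (_ : Finite τ) (M N : Mach (A ⊕ τ)),
      (∀ S T s d, X S T s d → M.Runs (ext S) (ext T) (cost k s d)) ∧
      (∀ S T s d, Y S T s d → N.Runs (ext S) (ext T) (cost k' s d)) := by
  obtain ⟨k, τ, _, M, h⟩ := hX
  obtain ⟨k', τ', _, M', h'⟩ := hY
  exact ⟨k, k', τ ⊕ τ', inferInstance, _, _,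
    fun S T s d hX => runs_lift Sum.inl_injective (h S T s d hX),
    fun S T s d hY => runs_lift Sum.inr_injective (h' S T s d hY)⟩

theorem seq (hX : Good X) (hY : Good Y) :
    Good (fun S U s d => ∃ T, X S T s d ∧ Y T U s d) := by
  obtain ⟨k, k', τ, _, M, N, h, h'⟩ := hX.two hY
  refine ⟨k + k', τ, inferInstance, M.seq N, ?_⟩
  rintro S U s d ⟨T, h1, h2⟩
  exact ((h _ _ _ _ h1).seq (h' _ _ _ _ h2)).mono (cost_add _ _ _ _)

theorem case (a : A) (hX : Good X) (hY : Good Y) :
    Good (fun S T s d => if (S a).headD false then X (upd S a (S a).tail) T s d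
      else Y (upd S a (S a).tail) T s d) := by
  obtain ⟨k, k', τ, _, M, N, h, h'⟩ := hX.two hY
  refine ⟨k + k' + 1, τ, inferInstance, Mach.case (.inl a) N M N, fun S T s d H => ?_⟩
  have c1 := cost_add k k' s d
  have c2 := cost_succ (k + k') s d
  rcases hS : S a with _ | ⟨_ | _, x⟩ <;> simp only [hS, List.headD_nil, List.headD_cons,
    List.tail_cons, List.tail_nil, Bool.false_eq_true, if_false, if_true] at H
  · rw [← hS, upd_self] at H
    exact (Runs.case_nil ((ext_inl S a).trans hS) (h' _ _ _ _ H)).mono (by omega)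
  · refine (Runs.case_false ((ext_inl S a).trans hS) ?_).mono (t := cost k' s d + 1) (by omega)
    rw [upd_ext]; exact h' _ _ _ _ H
  · refine (Runs.case_true ((ext_inl S a).trans hS) ?_).mono (t := cost k s d + 1) (by omega)
    rw [upd_ext]; exact h _ _ _ _ H

theorem loop (a : A) (hX : Good X) : Good (fun S T _ d => LoopR a X S T d) := by
  obtain ⟨k, τ, _, M, h⟩ := hX
  refine ⟨k + 1, τ, inferInstance, Mach.loop (.inl a) true M Mach.skip, fun S T s d H => ?_⟩
  refine Runs.mono ?_ (cost_mono le_rfl (Nat.zero_le s) le_rfl)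
  induction H with
  | @stop S x d hS =>
    have := Runs.loop_stop (MT := M) (MF := Mach.skip) ((ext_inl S a).trans hS)
    rw [upd_ext] at this
    exact this.mono (by have := cost_succ k 0 d; omega)
  | @tru S S' T x d₁ d₂ d hS h1 _ hd ih =>
    refine (Runs.loop_true ((ext_inl S a).trans hS) (by rw [upd_ext]; exact h _ _ _ _ h1)
      ih).mono ?_
    simp only [cost, zero_add, one_pow]
    nlinarith

theorem pt {α β : Type} [Enc α] [Enc β] (a : A) {f : α → β} (hf : PT f) :
    Good (fun S T s _ => ∃ x, S a = enc x ∧ T = upd S a (enc (f x)) ∧ sz x ≤ s) := by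
  obtain ⟨τ, _, M, T, ⟨k, hk⟩, h⟩ := hf
  refine ⟨2 ^ k, τ, inferInstance, M.rename (fun o => o.elim (.inl a) .inr), ?_⟩
  rintro S _ s d ⟨x, hS, rfl, hs⟩
  refine ((h x).rename ?_ _ ?_ _ ?_ ?_).mono
    ((hk x).trans ((Nat.pow_le_pow_left (by omega) _).trans (pow_le_cost k s d)))
  · rintro (_ | u) (_ | v) huv <;> simp_all
  · rintro (_ | u)
    · exact hS
    · rfl
  · rintro (_ | u)
    · exact upd_same _ _ _
    · rfl
  · rintro (b | u) hb
    · exact upd_ne _ _ fun e => hb ⟨none, by simp [e]⟩
    · rfl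

theorem loc {B : Type} [Finite B] {X : Rel (A ⊕ B)} (h : Good X) :
    Good (fun S T s d => X (ext S) (ext T) s d) := by
  obtain ⟨k, τ, _, M, h⟩ := h
  refine ⟨k, B ⊕ τ, inferInstance, M.rename (Equiv.sumAssoc A B τ), fun S T s d H => ?_⟩
  refine (h _ _ _ _ H).rename (Equiv.injective _) _ ?_ _ ?_ ?_
  · rintro ((u | u) | u) <;> rfl
  · rintro ((u | u) | u) <;> rfl
  · intro j hj
    exact (hj (Equiv.surjective _ j)).elim

/-- A machine on the six standard stacks acting on two registers. -/
theorem emb2 {a b : A} (hab : a ≠ b) (M : Mach K) (c : ℕ)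
    (h : ∀ S T s d, X S T s d → ∃ x' y', T = upd (upd S a x') b y' ∧
      M.Runs (mk6 (S a) (S b) [] [] [] []) (mk6 x' y' [] [] [] []) (c * (s + d + 1))) :
    Good X := by
  have := finK
  refine ⟨c, K, inferInstance, M.rename (fun k => match k with
    | .d => .inl a | .a => .inl b | k => .inr k), fun S T s d H => ?_⟩
  obtain ⟨x', y', rfl, h⟩ := h S T s d H
  refine (h.rename ?_ _ ?_ _ ?_ ?_).mono (lin_le_cost _ _ _)
  · intro u v huv
    cases u <;> cases v <;> simp_all [eq_comm]
  · intro u; cases u <;> rfl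
  · intro u
    cases u <;> try rfl
    · show upd (upd S a x') b y' a = x'
      rw [upd_ne _ _ hab, upd_same]
    · exact upd_same _ _ _
  · rintro (u | u) hu
    · show upd (upd S a x') b y' u = S u
      rw [upd_ne _ _ (fun e => hu ⟨.a, by simp [e]⟩), upd_ne _ _ (fun e => hu ⟨.d, by simp [e]⟩)]
    · rfl

theorem skip : Good (fun S T : Sto A => fun _ _ => T = S) :=
  ofMach Mach.skip 0 (by rintro S _ s d rfl; exact (runs_skip _).mono (Nat.zero_le _))

theorem pushL (a : A) (w : List Bool) : Good (fun S T _ _ => T = upd S a (w ++ S a)) :=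
  ofMach (pushList a w) w.length (by
    rintro S _ s d rfl
    exact (runs_pushList a w S).mono (Nat.le_mul_of_pos_right _ (by omega)))

theorem clr (a : A) : Good (fun S T s d => T = upd S a [] ∧ (S a).length ≤ s + d) :=
  ofMach (clear a) 1 (by
    rintro S _ s d ⟨rfl, h⟩
    exact (runs_clear a S).mono (by omega))

/-- Copy `a` on top of `b`, replacing every bit `x` by the word `v x`. -/
theorem cp {a b : A} (hab : a ≠ b) (v : Bool → List Bool) (hv : ∀ x, (v x).length ≤ 2) :
    Good (fun S T s _ => T = upd S b ((S a).flatMap v ++ S b) ∧ (S a).length ≤ s) := by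
  refine emb2 hab ((transfer K.d K.b K.c (fun x => [x]) (fun _ => [])).seq
    (transfer K.b K.d K.a (fun x => [x]) v)) 10 ?_
  rintro S _ s d ⟨rfl, h⟩
  refine ⟨S a, (S a).flatMap v ++ S b, by rw [upd_self], ?_⟩
  have h1 := runs_transfer (k := K.d) (k1 := K.b) (k2 := K.c) (by simp) (by simp) (by simp)
    (fun x => [x]) (fun _ => []) (by simp) (by simp) (mk6 (S a) (S b) [] [] [] [])
  have h2 := runs_transfer (k := K.b) (k1 := K.d) (k2 := K.a) (by simp) (by simp) (by simp)
    (fun x => [x]) v (by simp) hv (mk6 [] (S b) (S a).reverse [] [] [])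
  simp only [updK, upd_a, upd_b, upd_c, upd_d, mk6_a, mk6_b, mk6_c, mk6_d, flatMap_single,
    flatMap_nil', List.append_nil, List.reverse_reverse, List.length_reverse] at h1 h2
  exact (h1.seq h2).mono (by omega)

end Good

theorem runs_unDbl' {A : Type} {k k1 : A} (h1 : k1 ≠ k) (z y : List Bool) (S : Sto A)
    (hS : S k = dbl z ++ false :: y) :
    (unDbl k k1).Runs S (upd (upd S k y) k1 (z.reverse ++ S k1)) (3 * z.length + 1) := by
  induction z generalizing S with
  | nil =>
    have := Runs.loop_stop (MT := Mach.case k Mach.skip (push k1 true) (push k1 false))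
      (MF := Mach.skip) hS
    rw [List.reverse_nil, List.nil_append, ← upd_ne S y h1, upd_self]
    exact this
  | cons b z ih =>
    have hb : (Mach.case k Mach.skip (push k1 true) (push k1 false)).Runs
        (upd S k (b :: (dbl z ++ false :: y)))
        (upd (upd S k (dbl z ++ false :: y)) k1 (b :: S k1)) 2 := by
      cases b
      · have := Runs.case_false (M0 := Mach.skip) (MT := push k1 true)
          (S := upd S k (false :: (dbl z ++ false :: y))) (upd_same _ _ _) (runs_push k1 false _)
        simpa [upd_ne _ _ h1] using this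
      · have := Runs.case_true (M0 := Mach.skip) (MF := push k1 false)
          (S := upd S k (true :: (dbl z ++ false :: y))) (upd_same _ _ _) (runs_push k1 true _)
        simpa [upd_ne _ _ h1] using this
    have h := ih (upd (upd S k (dbl z ++ false :: y)) k1 (b :: S k1))
      (by rw [upd_ne _ _ h1.symm, upd_same])
    have e : upd (upd (upd (upd S k (dbl z ++ false :: y)) k1 (b :: S k1)) k y) k1
        (z.reverse ++ upd (upd S k (dbl z ++ false :: y)) k1 (b :: S k1) k1) =
        upd (upd S k y) k1 ((b :: z).reverse ++ S k1) := by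
      funext j
      by_cases a1 : j = k1
      · subst a1; simp
      · by_cases a0 : j = k
        · subst a0; simp [upd_ne _ _ a1]
        · simp [upd_ne _ _ a1, upd_ne _ _ a0]
    rw [e] at h
    exact (Runs.loop_true hS hb h).mono (by simp only [List.length_cons]; omega)

theorem flatMap_rep (m : ℕ) :
    (List.replicate m true).flatMap (fun _ => [true, true]) = List.replicate (2 * m) true := by
  induction m with
  | zero => rfl
  | succ m ih =>
    rw [List.replicate_succ, List.flatMap_cons, ih, Nat.mul_succ]; rfl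

/-- Doubling of the unary accumulator. -/
def dblM : Mach K := (transfer K.e K.f K.c (fun _ => [true, true]) (fun _ => [])).seq
  (transfer K.f K.e K.c (fun x => [x]) (fun _ => []))

theorem runs_dblM (x y l : List Bool) (m : ℕ) :
    dblM.Runs (mk6 x y l [] (List.replicate m true) [])
      (mk6 x y l [] (List.replicate (2 * m) true) []) (15 * m + 2) := by
  have h1 := runs_transfer (k := K.e) (k1 := K.f) (k2 := K.c) (by simp) (by simp) (by simp)
    (fun _ => [true, true]) (fun _ => []) (by simp) (by simp)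
    (mk6 x y l [] (List.replicate m true) [])
  have h2 := runs_transfer (k := K.f) (k1 := K.e) (k2 := K.c) (by simp) (by simp) (by simp)
    (fun x => [x]) (fun _ => []) (by simp) (by simp)
    (mk6 x y l [] [] (List.replicate (2 * m) true))
  simp only [updK, upd_e, upd_f, upd_c, mk6_e, mk6_f, mk6_c, flatMap_single, flatMap_rep,
    flatMap_nil', List.append_nil, List.reverse_replicate, List.length_replicate] at h1 h2
  exact (h1.seq h2).mono (by omega)

theorem runs_conv (x y l : List Bool) (m : ℕ) :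
    ∃ t, (Mach.loop K.b false (dblM.seq (push K.e true)) dblM).Runs
      (mk6 x y l [] (List.replicate m true) [])
      (mk6 x y [] [] (List.replicate (l.foldl (fun n b => Nat.bit b n) m) true) []) t ∧
      t + 15 * m ≤ 15 * l.foldl (fun n b => Nat.bit b n) m + 4 * l.length + 1 := by
  induction l generalizing m with
  | nil => exact ⟨1, Runs.loop_nil rfl, by simp; omega⟩
  | cons b l ih =>
    obtain ⟨t, h, ht⟩ := ih (Nat.bit b m)
    have h1 := runs_dblM x y l m
    cases b
    · refine ⟨_, Runs.loop_false (x := l) rfl (by simp only [updK, upd_b]; exact h1) h, ?_⟩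
      simp only [List.foldl_cons, List.length_cons, Nat.bit_false_apply] at ht ⊢
      omega
    · have h2 := runs_push K.e true (mk6 x y l [] (List.replicate (2 * m) true) [])
      simp only [updK, upd_e, mk6_e] at h2
      refine ⟨_, Runs.loop_true (x := l) rfl (by simp only [updK, upd_b]; exact h1.seq h2) h, ?_⟩
      simp only [List.foldl_cons, List.length_cons, Nat.bit_true_apply] at ht ⊢
      omega

theorem foldl_bits (n : ℕ) : n.bits.reverse.foldl (fun n b => Nat.bit b n) 0 = n := by
  induction n using Nat.binaryRec' with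
  | zero => simp
  | bit b n h ih => rw [Nat.bits_append_bit n b h, List.reverse_cons, List.foldl_append, ih]; rfl

namespace Good
variable {A : Type}

/-- Restore a frame. -/
theorem rest {a b : A} (hab : a ≠ b) :
    Good (fun S T s _ => ∃ z y, S b = dbl z ++ false :: y ∧ T = upd (upd S a z) b y ∧
      (S a).length ≤ s ∧ z.length ≤ s) := by
  refine emb2 hab ((clear K.d).seq ((unDbl K.a K.b).seq
    (transfer K.b K.d K.c (fun x => [x]) (fun _ => [])))) 9 ?_
  rintro S _ s d ⟨z, y, hS, rfl, h, h'⟩
  refine ⟨_, _, rfl, ?_⟩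
  rw [hS]
  have h1 := runs_clear K.d (mk6 (S a) (dbl z ++ false :: y) [] [] [] [])
  have h2 := runs_unDbl' (k := K.a) (k1 := K.b) (by simp) z y
    (mk6 [] (dbl z ++ false :: y) [] [] [] []) rfl
  have h3 := runs_transfer (k := K.b) (k1 := K.d) (k2 := K.c) (by simp) (by simp) (by simp)
    (fun x => [x]) (fun _ => []) (by simp) (by simp) (mk6 [] y z.reverse [] [] [])
  simp only [updK, upd_a, upd_b, upd_c, upd_d, mk6_b, mk6_c, mk6_d, flatMap_single,
    flatMap_nil', List.append_nil, List.reverse_reverse, List.length_reverse] at h1 h2 h3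
  exact (h1.seq (h2.seq h3)).mono (by omega)

/-- Push the unary code of the binary number held by `a` on `b`. -/
theorem un {a b : A} (hab : a ≠ b) :
    Good (fun S T _ d => ∃ n : ℕ, S a = n.bits ∧
      T = upd S b (List.replicate n true ++ false :: S b) ∧ n ≤ d) := by
  refine emb2 hab ((transfer K.d K.b K.c (fun x => [x]) (fun x => [x])).seq
    ((transfer K.c K.d K.e (fun x => [x]) (fun _ => [])).seq
      ((Mach.loop K.b false (dblM.seq (push K.e true)) dblM).seq
        ((push K.a false).seq (transfer K.e K.a K.c (fun x => [x]) (fun _ => [])))))) 34 ?_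
  rintro S _ s d ⟨n, hS, rfl, h⟩
  refine ⟨S a, List.replicate n true ++ false :: S b, by rw [upd_self], ?_⟩
  rw [hS]
  have h1 := runs_transfer (k := K.d) (k1 := K.b) (k2 := K.c) (by simp) (by simp) (by simp)
    (fun x => [x]) (fun x => [x]) (by simp) (by simp) (mk6 n.bits (S b) [] [] [] [])
  have h2 := runs_transfer (k := K.c) (k1 := K.d) (k2 := K.e) (by simp) (by simp) (by simp)
    (fun x => [x]) (fun _ => []) (by simp) (by simp)
    (mk6 [] (S b) n.bits.reverse n.bits.reverse [] [])
  obtain ⟨t, h3, ht⟩ := runs_conv n.bits (S b) n.bits.reverse 0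
  have h4 := runs_push K.a false (mk6 n.bits (S b) [] [] (List.replicate n true) [])
  have h5 := runs_transfer (k := K.e) (k1 := K.a) (k2 := K.c) (by simp) (by simp) (by simp)
    (fun x => [x]) (fun _ => []) (by simp) (by simp)
    (mk6 n.bits (false :: S b) [] [] (List.replicate n true) [])
  have hl : n.bits.length ≤ n := by rw [Nat.size_eq_bits_len]; exact size_le_self n
  simp only [updK, upd_a, upd_b, upd_c, upd_d, upd_e, mk6_a, mk6_b, mk6_c, mk6_d, mk6_e,
    flatMap_single, flatMap_nil', List.append_nil, List.reverse_reverse, List.length_reverse,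
    foldl_bits, List.replicate_zero, List.reverse_replicate, List.length_replicate]
    at h1 h2 h3 ht h4 h5
  exact (h1.seq (h2.seq (h3.seq (h4.seq h5)))).mono (by omega)

/-- Evaluate a polynomial-time function of `a` into the empty register `b`. -/
theorem evTo {α β : Type} [Enc α] [Enc β] {a b : A} (hab : a ≠ b) {f : α → β} (hf : PT f) :
    Good (fun S T s _ => ∃ x, S a = enc x ∧ S b = [] ∧ T = upd S b (enc (f x)) ∧ sz x ≤ s) := by
  refine ((cp hab (fun x => [x]) (by simp)).seq (pt b hf)).mono ?_
  rintro S _ s d ⟨x, h1, h2, rfl, h3⟩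
  refine ⟨_, ⟨rfl, by rw [h1]; exact h3⟩, x, ?_, ?_, h3⟩
  · rw [upd_same, flatMap_single, h1, h2, List.append_nil]
  · rw [upd_upd]

/-- Clear a register holding a polynomially bounded value. -/
theorem clrPB {α : Type} [Enc α] (b : A) {g : α → ℕ} (hg : PB g) :
    Good (fun S T s _ => ∃ x, (S b).length ≤ g x ∧ T = upd S b [] ∧ sz x ≤ s) := by
  obtain ⟨k, hk⟩ := hg
  refine ⟨2 ^ k + 1, Empty, inferInstance, clear (.inl b), ?_⟩
  rintro S _ s d ⟨x, h1, rfl, h2⟩
  have h := runs_clear (Sum.inl b : A ⊕ Empty) (ext S)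
  rw [upd_ext] at h
  refine h.mono ?_
  have h3 := hk x
  have h4 : (sz x + 2) ^ k ≤ (s + 2) ^ k := Nat.pow_le_pow_left (by omega) _
  have h5 := pow_le_cost k s d
  have h6 := cost_succ (2 ^ k) s d
  show (S b).length + 1 ≤ _
  omega

end Good

end Crest.Agent.IM.CB
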