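import Crest.Agent.PT.Arith
import Crest.Prelude.Def_TimeBound

/-! Flat machines reading a tagged input (alphabet `Bool ⊕ Bool`), and a linear-time length
counter. -/

set_option autoImplicit false

namespace Crest.Agent.IM.CC
open Crest.Agent.PT Turing Turing.TM2

variable {τ : Type}

/-- Stack alphabets: the input stack is tagged. -/
@[reducible] def Gam (τ : Type) : Option (Option τ) → Type
  | none => Bool ⊕ Bool
  | some _ => Bool

/-- Stores. -/
def sto (w : List (Bool ⊕ Bool)) (S : Option τ → List Bool) : ∀ k, List (Gam τ k)
  | none => w
  | some k => S k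

theorem upd_sto_none (w w' : List (Bool ⊕ Bool)) (S : Option τ → List Bool) :
    @Function.update _ (fun k => List (Gam τ k)) (Classical.decEq _) (sto w S) none w' =
      sto w' S := by
  funext j
  cases j with
  | none => simp [sto]
  | some j => simp [sto]

theorem upd_sto_some (w : List (Bool ⊕ Bool)) (S : Option τ → List Bool) (k : Option τ)
    (v : List Bool) :
    @Function.update _ (fun k => List (Gam τ k)) (Classical.decEq _) (sto w S) (some k) v =
      sto w (upd S k v) := by
  funext j
  cases j with
  | none => simp [sto]
  | some j =>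
    by_cases h : j = k
    · subst h; simp [sto]
    · rw [@Function.update_of_ne _ _ (Classical.decEq _) _ _ (by simpa using h)]
      simp [sto, upd_ne _ _ h]

/-- Jump statement. -/
def jmp (M : Mach (Option τ)) :
    Option M.L → Stmt (Gam τ) (Option M.L) (Option (Bool ⊕ Bool))
  | none => Stmt.halt
  | some l => Stmt.goto (fun _ => some l)

/-- Translation of an instruction. -/
def ins (M : Mach (Option τ)) :
    Instr (Option τ) (Option M.L) → Stmt (Gam τ) (Option M.L) (Option (Bool ⊕ Bool))
  | .push k b n => Stmt.push (some k) (fun _ => b) (jmp M n)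
  | .pop k n => Stmt.pop (some k) (fun _ o => o.map Sum.inl)
      (Stmt.branch (fun v => v.isNone) (jmp M (n none))
        (Stmt.branch (fun v => v == some (Sum.inl true))
          (Stmt.load (fun _ => none) (jmp M (n (some true))))
          (Stmt.load (fun _ => none) (jmp M (n (some false))))))

/-- The bit of a tagged symbol. -/
def val : Bool ⊕ Bool → Bool := Sum.elim id id

/-- The reading statement. -/
def rd (M : Mach (Option τ)) (dat tg : Option τ) :
    Stmt (Gam τ) (Option M.L) (Option (Bool ⊕ Bool)) :=
  Stmt.pop none (fun _ o => o)
    (Stmt.branch (fun v => v.isNone) (jmp M M.entry)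
      (Stmt.push (some dat) (fun v => val (v.getD (Sum.inl false)))
        (Stmt.push (some tg) (fun v => (v.getD (Sum.inl false)).isLeft)
          (Stmt.load (fun _ => none) (Stmt.goto (fun _ => none))))))

/-- The bundled stack machine. -/
noncomputable def toTM [Finite τ] (M : Mach (Option τ)) (dat tg : Option τ) : FinTM2 :=
  @FinTM2.mk (Option (Option τ)) (Classical.decEq _) (Fintype.ofFinite _) none (some none) (Gam τ)
    (Option M.L) none (by haveI := M.fin; exact Fintype.ofFinite _) (Option (Bool ⊕ Bool)) none
    inferInstance (inferInstanceAs (Fintype (Bool ⊕ Bool)))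
    (fun l => match l with
      | none => rd M dat tg
      | some l => ins M (M.prog l))

/-- Translation of configurations. -/
def cfgOf [Finite τ] (M : Mach (Option τ)) (dat tg : Option τ)
    (c : Option M.L × (Option τ → List Bool)) : (toTM M dat tg).Cfg :=
  ⟨c.1.map some, none, sto [] c.2⟩

theorem stepAux_jmp [Finite τ] (M : Mach (Option τ)) (dat tg : Option τ) (n : Option M.L)
    (S : Option τ → List Bool) :
    @stepAux _ (Gam τ) (Option M.L) (Option (Bool ⊕ Bool)) (Classical.decEq _)
      (jmp M n) none (sto [] S) = cfgOf M dat tg (n, S) := by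
  cases n <;> rfl

theorem step_cfgOf [Finite τ] (M : Mach (Option τ)) (dat tg : Option τ) (l : M.L)
    (S : Option τ → List Bool) :
    (toTM M dat tg).step (cfgOf M dat tg (some l, S)) =
      some (cfgOf M dat tg (M.step (some l, S))) := by
  show some (@stepAux _ (Gam τ) (Option M.L) (Option (Bool ⊕ Bool)) (Classical.decEq _)
    (ins M (M.prog l)) none (sto [] S)) = some (cfgOf M dat tg ((M.prog l).exec S))
  congr 1
  cases M.prog l with
  | push k b n =>
    simp only [ins, stepAux, Instr.exec]
    rw [upd_sto_some, stepAux_jmp M dat tg]
    rfl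
  | pop k n =>
    simp only [ins, stepAux, Instr.exec]
    rw [upd_sto_some]
    have e : sto [] S (some k) = S k := rfl
    rw [e]
    rcases h : (S k).head? with _ | _ | _ <;> simp [stepAux_jmp M dat tg] <;> rfl

theorem evals_of_iter [Finite τ] (M : Mach (Option τ)) (dat tg : Option τ) (t : ℕ)
    (c : Option M.L × (Option τ → List Bool)) (T : Option τ → List Bool)
    (h : M.step^[t] c = (none, T)) :
    ∃ t' ≤ t, (flip bind (toTM M dat tg).step)^[t'] (some (cfgOf M dat tg c)) =
      some (cfgOf M dat tg (none, T)) := by
  induction t generalizing c with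
  | zero => exact ⟨0, le_rfl, by simp only [Function.iterate_zero, id_eq] at h ⊢; rw [h]⟩
  | succ t ih =>
    obtain ⟨l, S⟩ := c
    cases l with
    | none =>
      rw [Mach.iter_none] at h
      exact ⟨0, Nat.zero_le _, by simp only [Function.iterate_zero, id_eq]; rw [h]⟩
    | some l =>
      rw [Function.iterate_succ_apply] at h
      obtain ⟨t', ht', h'⟩ := ih _ h
      refine ⟨t' + 1, by omega, ?_⟩
      rw [Function.iterate_succ_apply]
      have : flip bind (toTM M dat tg).step (some (cfgOf M dat tg (some l, S))) =
          some (cfgOf M dat tg (M.step (some l, S))) := step_cfgOf M dat tg l S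
      rw [this]
      exact h'

theorem read_all [Finite τ] (M : Mach (Option τ)) {dat tg : Option τ} (hne : tg ≠ dat)
    (w : List (Bool ⊕ Bool)) (S : Option τ → List Bool) :
    (flip bind (toTM M dat tg).step)^[w.length + 1]
      (some (⟨some none, none, sto w S⟩ : (toTM M dat tg).Cfg)) =
      some (cfgOf M dat tg (M.entry, upd (upd S dat (w.reverse.map val ++ S dat)) tg
        (w.reverse.map Sum.isLeft ++ S tg))) := by
  induction w generalizing S with
  | nil =>
    show some (@stepAux _ (Gam τ) (Option M.L) (Option (Bool ⊕ Bool)) (Classical.decEq _)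
      (rd M dat tg) none (sto [] S)) = _
    simp only [rd, stepAux]
    rw [upd_sto_none]
    have e : sto [] S none = [] := rfl
    rw [e]
    simp [stepAux_jmp M dat tg]
    rfl
  | cons s w ih =>
    rw [List.length_cons, Function.iterate_succ_apply]
    have : flip bind (toTM M dat tg).step
        (some (⟨some none, none, sto (s :: w) S⟩ : (toTM M dat tg).Cfg)) =
        some (⟨some none, none, sto w (upd (upd S dat (val s :: S dat)) tg
          (s.isLeft :: S tg))⟩ : (toTM M dat tg).Cfg) := by
      show some (@stepAux _ (Gam τ) (Option M.L) (Option (Bool ⊕ Bool)) (Classical.decEq _)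
        (rd M dat tg) none (sto (s :: w) S)) = _
      simp only [rd, stepAux]
      rw [upd_sto_none]
      have e : sto (s :: w) S none = s :: w := rfl
      rw [e]
      simp only [List.head?_cons, Option.isNone_some, cond_false, List.tail_cons, Option.getD_some]
      rw [upd_sto_some, upd_sto_some]
      have e1 : ∀ S' : Option τ → List Bool, ∀ k, sto w S' (some k) = S' k := fun _ _ => rfl
      rw [e1, e1, upd_ne _ _ hne]
      rfl
    refine (congrArg _ this).trans ((ih _).trans ?_)
    congr 3
    funext j
    by_cases h1 : j = tg
    · subst h1; simp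
    · by_cases h2 : j = dat
      · subst h2; simp [upd_ne _ _ h1]
      · simp [upd_ne _ _ h1, upd_ne _ _ h2]

theorem timeBound_of_runs {α β : Type} (ea : α → List (Bool ⊕ Bool)) (eb : β → List Bool)
    (f : α → β) [Finite τ] (M : Mach (Option τ)) {dat tg : Option τ} (hne : tg ≠ dat) (t : ℕ → ℕ)
    (h : ∀ a, ∃ s, M.Runs (upd (upd (fun _ => []) dat ((ea a).reverse.map val)) tg
      ((ea a).reverse.map Sum.isLeft)) (st (eb (f a))) s ∧
      s + (ea a).length + 1 ≤ t (ea a).length) :
    Crest.DTime.TimeBoundComputable ea eb f t := by
  refine ⟨⟨⟨toTM M dat tg, Equiv.refl _, Equiv.refl _⟩, t, fun a => ?_⟩, fun _ => le_rfl⟩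
  have hex : ∃ t', t' + ((ea a).length + 1) ≤ t (ea a).length ∧
      (flip bind (toTM M dat tg).step)^[t'] (some (cfgOf M dat tg (M.entry,
        upd (upd (fun _ => []) dat ((ea a).reverse.map val)) tg
          ((ea a).reverse.map Sum.isLeft)))) =
        some (cfgOf M dat tg (none, st (eb (f a)))) := by
    obtain ⟨s, ⟨t₁, ht, h⟩, hs⟩ := h a
    obtain ⟨t', ht', h'⟩ := evals_of_iter M dat tg t₁ _ _ h
    exact ⟨t', by omega, h'⟩
  refine ⟨⟨hex.choose + ((ea a).length + 1), ?_⟩, hex.choose_spec.1⟩
  rw [Function.iterate_add_apply]
  have e1 : initList (toTM M dat tg) (List.map (Equiv.refl (Bool ⊕ Bool)).invFun (ea a)) =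
      (⟨some none, none, sto (ea a) (fun _ => [])⟩ : (toTM M dat tg).Cfg) := by
    simp only [initList]
    congr 1
    funext k
    cases k <;> simp [toTM, sto]
  have e2 : Option.map (haltList (toTM M dat tg))
      (some (List.map (Equiv.refl Bool).invFun (eb (f a)))) =
      some (cfgOf M dat tg (none, st (eb (f a)))) := by
    simp only [Option.map_some, cfgOf, haltList, Option.map_none]
    congr 2
    funext k
    rcases k with _ | _ | k <;> simp [toTM, sto, st]
  have e3 := read_all M hne (ea a) (fun _ => [])
  simp only [List.append_nil] at e3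
  exact (congrArg _ ((congrArg _ (congrArg some e1)).trans e3)).trans
    (hex.choose_spec.2.trans e2.symm)

/-! ### length counter -/

/-- Inner loop body of the halving step. -/
def hb : Mach (Option (Bool ⊕ Empty)) :=
  (Mach.push r2 true).seq (Mach.case r1
    ((Mach.case none Mach.skip Mach.skip Mach.skip).seq (Mach.push none false)) Mach.skip Mach.skip)

theorem loop_any {K : Type} {k : K} {M : Mach K} {S S' T : K → List Bool} {b : Bool}
    {x : List Bool} {t t' : ℕ} (hS : S k = b :: x) (h : M.Runs (upd S k x) S' t)
    (h' : (Mach.loop k false M M).Runs S' T t') :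
    (Mach.loop k false M M).Runs S T (t + t' + 1) := by
  cases b
  · exact Mach.Runs.loop_false hS h h'
  · exact Mach.Runs.loop_true hS h h'

theorem runs_half (u o : List Bool) (j : ℕ) :
    (Mach.loop r1 false hb hb).Runs (st3 (true :: o) u (List.replicate j true))
      (st3 ((u.length + 1).bodd :: o) [] (List.replicate (j + (u.length + 1) / 2) true))
      (3 * u.length + 5) := by
  induction u using List.twoStepInduction generalizing j with
  | nil => exact (Mach.Runs.loop_nil rfl).mono (by simp)
  | singleton b =>
    have h1 := Mach.runs_push (K := Option (Bool ⊕ Empty)) r2 true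
      (st3 (true :: o) [] (List.replicate j true))
    have h2 := Mach.runs_push (K := Option (Bool ⊕ Empty)) none false
      (st3 o [] (true :: List.replicate j true))
    have h3 : (Mach.case none Mach.skip Mach.skip Mach.skip).Runs
        (st3 (τ := Empty) (true :: o) [] (true :: List.replicate j true))
        (st3 o [] (true :: List.replicate j true)) (0 + 1) :=
      Mach.Runs.case_true (x := o) rfl (by rw [upd_st3_io]; exact Mach.runs_skip _)
    simp only [st3_r2, upd_st3_r2, st3_io, upd_st3_io] at h1 h2
    have h4 : hb.Runs (st3 (true :: o) [] (List.replicate j true))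
        (st3 (false :: o) [] (true :: List.replicate j true)) _ :=
      h1.seq (Mach.Runs.case_nil rfl (h3.seq h2))
    have h5 := loop_any (k := r1) (S := st3 (true :: o) [b] (List.replicate j true)) (x := []) rfl
      (by rw [upd_st3_r1]; exact h4) (Mach.Runs.loop_nil rfl)
    have e2 : j + (([b] : List Bool).length + 1) / 2 = j + 1 := by simp
    have e1 : (([b] : List Bool).length + 1).bodd = false := by simp
    rw [e2, e1, List.replicate_succ]
    exact h5.mono (by simp)
  | cons_cons b b' u ih _ =>
    have h1 := Mach.runs_push (K := Option (Bool ⊕ Empty)) r2 true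
      (st3 (true :: o) (b' :: u) (List.replicate j true))
    simp only [st3_r2, upd_st3_r2] at h1
    have h4 : hb.Runs (st3 (true :: o) (b' :: u) (List.replicate j true))
        (st3 (true :: o) u (List.replicate (j + 1) true)) (1 + (0 + 1)) := by
      refine h1.seq ?_
      cases b'
      · exact Mach.Runs.case_false (x := u) rfl (by rw [upd_st3_r1]; exact Mach.runs_skip _)
      · exact Mach.Runs.case_true (x := u) rfl (by rw [upd_st3_r1]; exact Mach.runs_skip _)
    have h5 := loop_any (S := st3 (true :: o) (b :: b' :: u) (List.replicate j true))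
      (x := b' :: u) rfl (by rw [upd_st3_r1]; exact h4) (ih (j + 1))
    have e1 : ((b :: b' :: u).length + 1).bodd = (u.length + 1).bodd := by simp
    have e2 : j + ((b :: b' :: u).length + 1) / 2 = j + 1 + (u.length + 1) / 2 := by
      simp only [List.length_cons]; omega
    rw [e1, e2]
    exact h5.mono (by simp only [List.length_cons]; omega)

/-- One halving round. -/
def round : Mach (Option (Bool ⊕ Empty)) :=
  (Mach.push none true).seq ((Mach.loop r1 false hb hb).seq (Mach.move r2 r1 none))

/-- The length of `r1` in binary, most significant bit on top. -/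
def count : Mach (Option (Bool ⊕ Empty)) := Mach.loop r1 false round round

theorem runs_count (u o : List Bool) :
    count.Runs (st3 o u []) (st3 (u.length.bits.reverse ++ o) [] []) (30 * u.length + 1) := by
  generalize hN : u.length = N
  induction N using Nat.strong_induction_on generalizing u o with
  | _ N ih =>
  cases u with
  | nil =>
    subst hN
    exact (Mach.Runs.loop_nil rfl).mono (by simp)
  | cons b u =>
    simp only [List.length_cons] at hN
    have h1 := Mach.runs_push (K := Option (Bool ⊕ Empty)) none true (st3 o u [])
    have h2 := runs_half u o 0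
    have h3 := Mach.runs_move (τ := Empty) (k := r2) (k1 := r1) (k2 := none) (by simp) (by simp)
      (by simp) (st3 (N.bodd :: o) [] (List.replicate (N / 2) true))
    simp only [st3_io, upd_st3_io, st3_r1, st3_r2, upd_st3_r1, upd_st3_r2, List.append_nil,
      List.reverse_replicate, List.length_replicate, hN, zero_add, List.replicate_zero]
      at h1 h2 h3
    have h4 := ih (N / 2) (by omega) (List.replicate (N / 2) true) (N.bodd :: o) (by simp)
    have h5 := loop_any (S := st3 (τ := Empty) o (b :: u) []) (M := round) (x := u) rfl
      (by rw [upd_st3_r1]; exact h1.seq (h2.seq h3)) h4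
    have e : N.bits = N.bodd :: (N / 2).bits := by
      conv_lhs => rw [← Nat.bit_bodd_div2 N]
      rw [Nat.bits_append_bit, Nat.div2_val]
      intro h0
      rw [Nat.div2_val] at h0
      obtain rfl : N = 1 := by omega
      rfl
    rw [e, List.reverse_cons, List.append_assoc]
    exact h5.mono (by omega)

theorem valR_bits (N : ℕ) : valR N.bits.reverse = N := by
  induction N using Nat.binaryRec' with
  | zero => simp [valR]
  | bit b n h ih =>
    rw [Nat.bits_append_bit n b h, List.reverse_cons]
    simp only [valR] at ih ⊢
    rw [List.foldl_append, ih]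
    rfl

end Crest.Agent.IM.CC
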