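import Crest.Agent.IM.CompB
import Crest.Agent.IM.CompCA
import Crest.Prelude.Def_IntMul
import Crest.Prelude.Def_TimeBound

/-! TASK IM-CC. From the vector machine to Mathlib's stack machines.
Plan. A variant of `PT.toTM` with an extra input stack over `Bool ⊕ Bool`: the first phase pops
the input, pushing its bits on `K.d` (giving `y.reverse ++ x.reverse`) and one mark per `inl`
symbol on a unary counter. Unary `n` to `Nat.bits n` by repeated halving in `O(n + 1)` steps. A PT
function `Bin → Cf`, `n ↦ ⟨Bn c n, Pn n, [n, 1]⟩`. Run `machine p`; move `K.d` to the output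
stack (this reverses it; `testBit_wd`). `(size (Bn c n) + 2) ^ k ≤ Q * Pn n` for a constant `Q`,
`Pn n ≤ 2 * n + 1`. Take `M.time := t`. -/

set_option autoImplicit false

namespace Crest.Agent.IM
open Crest.LogicCS.IntMul Crest.DTime

/-- The register bound on inputs of length `n`. -/
def Bn (c n : ℕ) : ℕ := 2 ^ ((n.size + c) ^ 4)

/-- The cost unit on inputs of length `n`. -/
def Pn (n : ℕ) : ℕ := 2 ^ (Nat.sqrt n.size)

namespace CC
open Crest.Agent.PT CA

theorem exists_pow_le (a k : ℕ) : ∃ Q : ℕ, 1 ≤ Q ∧ ∀ r, (r + a) ^ k ≤ Q * 2 ^ r := by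
  obtain ⟨C, hC⟩ := (tendsto_pow_const_div_const_pow_of_one_lt k
    (by norm_num : (1 : ℝ) < 2)).bddAbove_range
  refine ⟨⌈C⌉₊ * 2 ^ a + 1, by omega, fun r => ?_⟩
  have h1 : ((r + a : ℕ) : ℝ) ^ k / 2 ^ (r + a) ≤ C := hC ⟨r + a, rfl⟩
  rw [div_le_iff₀ (by positivity)] at h1
  have h2 : ((r + a : ℕ) : ℝ) ^ k ≤ (⌈C⌉₊ : ℝ) * 2 ^ (r + a) :=
    h1.trans (mul_le_mul_of_nonneg_right (Nat.le_ceil C) (by positivity))
  have h3 : (r + a) ^ k ≤ ⌈C⌉₊ * 2 ^ (r + a) := by exact_mod_cast h2
  rw [pow_add] at h3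
  nlinarith [Nat.zero_le (2 ^ r)]

theorem two_pow_size (n : ℕ) : 2 ^ n.size ≤ 2 * n + 1 := by
  rcases Nat.eq_zero_or_pos n with rfl | h
  · simp
  · have h1 : 0 < n.size := Nat.size_pos.2 h
    have h2 : 2 ^ (n.size - 1) ≤ n := Nat.lt_size.1 (by omega)
    obtain ⟨s, hs⟩ : ∃ s, n.size = s + 1 := ⟨n.size - 1, by omega⟩
    rw [hs] at h2 ⊢
    simp only [Nat.add_sub_cancel] at h2
    rw [pow_succ]; omega

theorem pt_sqrt {α : Type} [Enc α] {f : α → ℕ} (hf : PT f) : PT (fun a => (f a).sqrt) := by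
  have h1 : PT (fun p : α × ℕ => p.1) := PT.fst PT.id'
  have h2 : PT (fun p : α × ℕ => p.2) := PT.snd PT.id'
  refine (PT.sumNat (f := fun a i => if (i + 1) * (i + 1) ≤ f a then 1 else 0) hf
    (PT.ite_le (h2.succ.mul h2.succ) (hf.comp h1) (PT.const 1) (PT.const 0))).congr (fun a => ?_)
  simp only [← Nat.le_sqrt]
  have : ∀ n, ∑ i ∈ Finset.range n, (if i + 1 ≤ (f a).sqrt then 1 else 0) = min n (f a).sqrt := by
    intro n
    induction n with
    | zero => simp
    | succ n ih =>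
      rw [Finset.sum_range_succ, ih]
      split_ifs <;> omega
  rw [this, min_eq_right (Nat.sqrt_le_self _)]

theorem pt_init (c : ℕ) : PT (fun x : Raw =>
    (⟨Bn c (valR x.val / 2), Pn (valR x.val / 2), [valR x.val / 2, 1]⟩ : Cf)) := by
  have hn : PT (fun x : Raw => (⟨valR x.val / 2⟩ : Bin)) := (PT.ofRev PT.id').binDiv2
  refine mkCf ?_ ?_ (nlCons hn (PT.const (⟨[1]⟩ : NL)))
  · exact (bShl (PT.const (⟨1⟩ : Bin)) (((bSize hn).add (PT.const c)).pow 4)).congr
      (fun x => by simp [Bn])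
  · exact (bShl (PT.const (⟨1⟩ : Bin)) (pt_sqrt (bSize hn))).congr (fun x => by simp [Pn])

theorem wd_reverse (y : List Bool) : wd y.length 1 y.reverse 0 = bitsVal y := by
  induction y using List.reverseRecOn with
  | nil => simp [wd, bitsVal]
  | append_singleton y b ih =>
    rw [List.length_append, List.length_singleton, add_comm, wd_add, List.reverse_append]
    simp only [bitsVal] at ih ⊢
    rw [List.foldl_append]
    simp only [List.reverse_singleton, List.singleton_append, mul_one, List.drop_succ_cons,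
      List.drop_zero, ih, List.foldl_cons, List.foldl_nil]
    cases b <;> simp [wd, bit]
    omega

theorem toBits_wd (Z : List Bool) : toBits Z.length (wd Z.length 1 Z 0) = Z.reverse := by
  unfold toBits
  congr 1
  refine List.ext_getElem (by simp) (fun j h1 h2 => ?_)
  simp only [List.getElem_map, List.getElem_range]
  rw [testBit_wd _ _ h2, mul_one, add_zero, bit_eq_getElem h2]

instance : Finite K :=
  Finite.of_surjective (fun i : Fin 6 => ([K.d, .a, .b, .c, .e, .f][i] : K)) (fun k => by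
    cases k
    exacts [⟨0, rfl⟩, ⟨1, rfl⟩, ⟨2, rfl⟩, ⟨3, rfl⟩, ⟨4, rfl⟩, ⟨5, rfl⟩])

/-- Registers of the whole machine. -/
abbrev Rg (τ τ' : Type) : Type := Option ((K ⊕ Option τ) ⊕ (Bool ⊕ τ'))

/-- Stores of the whole machine. -/
def W {τ τ' : Type} (o : List Bool) (σ : St) (x u v : List Bool) : Rg τ τ' → List Bool
  | none => o
  | some (.inl j) => stt σ x j
  | some (.inr (.inl false)) => u
  | some (.inr (.inl true)) => v
  | some (.inr (.inr _)) => []

/-- Embedding of the counter. -/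
def e1 {τ τ' : Type} : Option (Bool ⊕ Empty) → Rg τ τ'
  | none => some (.inl (.inr none))
  | some (.inl b) => some (.inr (.inl b))
  | some (.inr e) => e.elim

/-- Embedding of the initialiser. -/
def e2 {τ τ' : Type} : Option τ' → Rg τ τ'
  | none => some (.inl (.inr none))
  | some t => some (.inr (.inr t))

theorem runs_e1 {τ τ' : Type} {M : Mach (Option (Bool ⊕ Empty))} {x u v x' u' v' : List Bool}
    {t : ℕ} (h : M.Runs (st3 x u v) (st3 x' u' v') t) (o : List Bool) (σ : St) :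
    (M.rename (e1 (τ := τ) (τ' := τ'))).Runs (W o σ x u v) (W o σ x' u' v') t := by
  refine h.rename ?_ _ ?_ _ ?_ ?_
  · rintro (_ | _ | a) (_ | _ | b) hab <;> first | exact a.elim | exact b.elim | simp_all [e1]
  · rintro (_ | (_ | _) | a) <;> first | exact a.elim | rfl
  · rintro (_ | (_ | _) | a) <;> first | exact a.elim | rfl
  · rintro (_ | (_ | _ | _) | (b | _)) hj <;> try rfl
    · exact (hj ⟨none, rfl⟩).elim
    · exact (hj ⟨some (.inl b), rfl⟩).elim

theorem runs_e2 {τ τ' : Type} {M : Mach (Option τ')} {x x' : List Bool}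
    {t : ℕ} (h : M.Runs (st x) (st x') t) (o : List Bool) (σ : St) (u v : List Bool) :
    (M.rename (e2 (τ := τ) (τ' := τ'))).Runs (W o σ x u v) (W o σ x' u v) t := by
  refine h.rename ?_ _ ?_ _ ?_ ?_
  · rintro (_ | a) (_ | b) hab <;> simp_all [e2]
  · rintro (_ | a) <;> rfl
  · rintro (_ | a) <;> rfl
  · rintro (_ | (_ | _ | _) | ((_ | _) | _)) hj <;> try rfl
    exact (hj ⟨none, rfl⟩).elim

theorem runs_e3 {τ τ' : Type} {M : Mach (K ⊕ Option τ)} {σ σ' : St} {x x' : List Bool}
    {t : ℕ} (h : M.Runs (stt σ x) (stt σ' x') t) (o u v : List Bool) :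
    (M.rename (fun j => (some (.inl j) : Rg τ τ'))).Runs (W o σ x u v) (W o σ' x' u v) t := by
  refine h.rename ?_ _ ?_ _ ?_ ?_
  · intro a b hab; simpa using hab
  · exact fun _ => rfl
  · exact fun _ => rfl
  · rintro (_ | j | ((_ | _) | _)) hj <;> try rfl
    exact (hj ⟨j, rfl⟩).elim

end CC

open Crest.Agent.PT CC

theorem compile (p : Prog) (c : ℕ) (hc : 1 ≤ c) (T : ℕ → ℝ)
    (h : ∀ n, MulAt (Bn c n) (Pn n) p p n 1 (T n)) :
    ∃ C : ℕ, ∀ t : ℕ → ℕ, (∀ n : ℕ, C * (T n + n + 1) ≤ t (2 * n)) →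
      TimeBoundComputable EqLenPair.enc (Computability.encodingList Bool).encode mulOutput t := by
  obtain ⟨τ, _, M, C, k, hM⟩ := machine p
  obtain ⟨τ', _, M', T', ⟨k', hT'⟩, hM'⟩ := pt_init c
  obtain ⟨Q, hQ1, hQ⟩ := exists_pow_le (c + 4) (9 * k)
  obtain ⟨Q', -, hQ'⟩ := exists_pow_le 2 k'
  refine ⟨3 * (C * Q) + 4 * Q' + 80, fun t ht => ?_⟩
  let dat : Rg τ τ' := some (.inl (.inl K.d))
  let tg : Rg τ τ' := some (.inr (.inl false))
  refine timeBound_of_runs _ _ _ ((count.rename e1).seq ((M'.rename e2).seq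
    ((M.rename (fun j => (some (.inl j) : Rg τ τ'))).seq
      (Mach.transfer dat none tg (fun b => [b]) (fun _ => [])))))
    (dat := dat) (tg := tg) (by simp [dat, tg]) t ?_
  rintro ⟨⟨x, y⟩, hxy⟩
  obtain ⟨n, hn⟩ : ∃ n, n = x.length := ⟨_, rfl⟩
  have hn' : n = y.length := hn.trans hxy
  have henc : EqLenPair.enc ⟨(x, y), hxy⟩ = x.map Sum.inl ++ y.map Sum.inr := rfl
  have hlen : (x.map Sum.inl ++ y.map (Sum.inr : Bool → Bool ⊕ Bool)).length = 2 * n := by
    simp; omega
  obtain ⟨Z, hZ, ⟨env', hgo⟩, hw⟩ := h n y.reverse x.reverse (by simp; omega) (by simp; omega)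
  obtain ⟨c₀, hc₀, hex⟩ := hgo []
  simp only [List.append_nil, mul_one] at hex hZ
  have hs1 : n.size ≤ (n.size + c) ^ 4 :=
    (Nat.le_add_right _ c).trans (Nat.le_self_pow (by norm_num) _)
  have hP : Pn n ≤ 2 ^ n.size := Nat.pow_le_pow_right (by norm_num) (Nat.sqrt_le_self _)
  have hB : 2 ^ n.size ≤ Bn c n := Nat.pow_le_pow_right (by norm_num) hs1
  have h3 := hM (Bn c n) (Pn n) [n, 1] _ env' _ c₀ Q (by simp)
    (by
      have := Nat.lt_size_self n
      have := Nat.one_le_two_pow (n := n.size)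
      simp only [List.mem_cons, List.not_mem_nil, or_false, forall_eq_or_imp, forall_eq]
      omega) (hP.trans hB) Nat.one_le_two_pow hQ1
    (by
      refine le_trans ?_ (hQ n.size.sqrt)
      rw [pow_mul, Bn, Nat.size_pow]
      refine Nat.pow_le_pow_left ?_ k
      have a1 := Nat.lt_succ_sqrt' n.size
      generalize n.size.sqrt = r at a1 ⊢
      have a2 : n.size + c ≤ (r + (c + 4)) ^ 2 := by
        nlinarith [Nat.zero_le (r * c), Nat.zero_le (c * c)]
      have a3 : (n.size + c) ^ 4 ≤ (r + (c + 4)) ^ 8 :=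
        (Nat.pow_le_pow_left a2 4).trans (by rw [← pow_mul])
      have a4 : 1 ≤ (r + (c + 4)) ^ 8 := Nat.one_le_pow _ _ (by omega)
      rw [pow_succ (r + (c + 4)) 8]
      nlinarith) hex
  have h1 := runs_e1 (τ := τ) (τ' := τ') (runs_count
    ((x.map Sum.inl ++ y.map (Sum.inr : Bool → Bool ⊕ Bool)).reverse.map Sum.isLeft) []) []
    (only (y.reverse ++ x.reverse))
  simp only [List.length_map, List.length_reverse, hlen, List.append_nil] at h1
  have h2 := runs_e2 (τ := τ) (hM' ⟨(2 * n).bits.reverse⟩) [] (only (y.reverse ++ x.reverse)) [] []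
  simp only [enc_raw, valR_bits, Nat.mul_div_cancel_left n (by norm_num : 0 < 2)] at h2
  have h4 := Mach.runs_transfer (k := dat) (k1 := none) (k2 := tg) (by simp [dat])
    (by simp [dat, tg]) (by simp [tg]) (fun b => [b]) (fun _ => []) (by simp) (by simp)
    (W [] (only Z) [] [] [])
  have h5 := h1.seq (h2.seq ((runs_e3 h3 [] [] []).seq h4))
  refine ⟨30 * (2 * n) + 1 + (T' ⟨(2 * n).bits.reverse⟩ + (C * Q * (c₀ + Pn n) +
    (5 * (W [] (only Z) [] [] [] dat).length + 1))), ?_, ?_⟩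
  · convert h5 using 1
    · rw [henc]
      funext j
      rcases j with _ | ((_ | _ | _ | _ | _ | _) | _ | _) | ((_ | _) | _) <;>
        simp [upd, dat, tg, W, stt, only, val, Function.comp_def]
    · have e : mulOutput ⟨(x, y), hxy⟩ = Z.reverse := by
        have := hw 0 (by norm_num)
        rw [← hZ] at this
        rw [← toBits_wd, this, hZ]
        have w1 := wd_reverse x
        have w2 := wd_reverse y
        rw [← hn] at w1
        rw [← hn'] at w2
        rw [w1, w2, mul_comm (bitsVal y), hn]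
        rfl
      show st (mulOutput ⟨(x, y), hxy⟩) = _
      rw [e]
      funext j
      rcases j with _ | ((_ | _ | _ | _ | _ | _) | _ | _) | ((_ | _) | _) <;>
        simp [upd, dat, tg, W, stt, only, st]
  · rw [henc, hlen]
    have b1 := hT' ⟨(2 * n).bits.reverse⟩
    simp only [sz_raw, List.length_reverse, Nat.size_eq_bits_len] at b1
    have b2 := hQ' (2 * n).size
    have b3 := two_pow_size (2 * n)
    have b4 := two_pow_size n
    have b5 : T' ⟨(2 * n).bits.reverse⟩ ≤ Q' * (4 * n + 1) :=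
      (b1.trans b2).trans (Nat.mul_le_mul_left _ (by omega))
    have b6 : (W [] (only Z) [] [] [] dat : List Bool) = Z := rfl
    rw [b6, hZ]
    have b7 : C * Q * (c₀ + Pn n) ≤ C * Q * (c₀ + (2 * n + 1)) :=
      Nat.mul_le_mul_left _ (by omega)
    have b8 : (3 * (C * Q) + 4 * Q' + 80) * (c₀ + n + 1) ≤ t (2 * n) := by
      have := ht n
      have h0 : ((3 * (C * Q) + 4 * Q' + 80 : ℕ) : ℝ) * (c₀ + n + 1) ≤
          ((3 * (C * Q) + 4 * Q' + 80 : ℕ) : ℝ) * (T n + n + 1) := by gcongr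
      exact_mod_cast h0.trans this
    generalize C * Q = D at *
    nlinarith [Nat.zero_le (D * c₀), Nat.zero_le (D * n), Nat.zero_le (Q' * c₀)]

end Crest.Agent.IM
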