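import Crest.Agent.IM.Par

/-! Change between the standard layout and the network layout (helper23). -/

set_option autoImplicit false

namespace Crest.Agent.IM.CV
open Q4

/-- The change of layout, bit by bit. -/
def Su0 (w d t S' Q R I : ℕ) (X Z : List Bool) : Prop :=
  ∀ β < w, ∀ x : ℕ → ℕ, (∀ l < d, x l < t) → ∀ h < t, ∀ la < R,
    bit Z (β * (Q ^ d * S' ^ d * (t * I)) +
      ((mr (fun _ => Q) 0 d (dig (fun _ => Q - 1) 0 d (la / I)) * S' ^ d +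
        mr (fun _ => S') 0 d x) * (t * I) + (h * I + la % I))) =
      bit X (((β * t ^ d + mr (fun _ => t) 0 d x) * t + h) * R + la)

theorem mrc_lt {n d : ℕ} {x : ℕ → ℕ} (h : ∀ l < d, x l < n) : mr (fun _ => n) 0 d x < n ^ d := by
  have := mr_lt (ns := fun _ => n) (a := 0) (b := d) (x := x) fun i _ hi => h i hi
  rwa [pr_const, Nat.sub_zero] at this

/-- Composition of the four steps. -/
theorem su_comp {w d t S' Q R I : ℕ} (hQ : 3 ≤ Q) (ht : t ≤ S') (hI : 0 < I)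
    (hR : R ≤ (Q - 1) ^ d * I) {X L₁ L₂ L₃ Z : List Bool}
    (e1 : ∀ o < w * t ^ d * t, ∀ j, j < R → j < (Q - 1) ^ d * I →
      bit L₁ (o * ((Q - 1) ^ d * I) + j) = bit X (o * R + j))
    (e2 : ∀ o < w, ∀ a < t ^ d * t, ∀ a' < (Q - 1) ^ d, ∀ i < I,
      bit L₂ (((o * (Q - 1) ^ d + a') * (t ^ d * t) + a) * I + i) =
        bit L₁ (((o * (t ^ d * t) + a) * (Q - 1) ^ d + a') * I + i))
    (e3 : ∀ o < w, ∀ x : ℕ → ℕ, (∀ l < d, x l < Q - 1 ∧ x l < Q) → ∀ i < t ^ d * t * I,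
      bit L₃ ((o * Q ^ d + mr (fun _ => Q) 0 d x) * (t ^ d * t * I) + i) =
        bit L₂ ((o * (Q - 1) ^ d + mr (fun _ => Q - 1) 0 d x) * (t ^ d * t * I) + i))
    (e4 : ∀ o < w * Q ^ d, ∀ x : ℕ → ℕ, (∀ l < d, x l < t ∧ x l < S') → ∀ i < t * I,
      bit Z ((o * S' ^ d + mr (fun _ => S') 0 d x) * (t * I) + i) =
        bit L₃ ((o * t ^ d + mr (fun _ => t) 0 d x) * (t * I) + i)) :
    Su0 w d t S' Q R I X Z := by
  intro β hβ x hx h hh la hla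
  have h1 : la / I < (Q - 1) ^ d := (Nat.div_lt_iff_lt_mul hI).2 (by omega)
  have h2 : la % I < I := Nat.mod_lt _ hI
  set b := dig (fun _ => Q - 1) 0 d (la / I) with hb
  have h3 : ∀ l < d, b l < Q - 1 ∧ b l < Q := fun l _ => by
    have : b l < Q - 1 := dig_lt (ns := fun _ => Q - 1) (by omega)
    omega
  have h4 : mr (fun _ => Q - 1) 0 d b = la / I := by
    rw [hb, mr_dig (Nat.zero_le d), pr_const, Nat.sub_zero, Nat.mod_eq_of_lt h1]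
  have h5 := mrc_lt fun l hl => (h3 l hl).2
  have h6 := mrc_lt hx
  have a4 := e4 _ (lt_mul hβ h5) x (fun l hl => ⟨hx l hl, (hx l hl).trans_le ht⟩) _ (lt_mul hh h2)
  have a3 := e3 β hβ b h3 _ (lt_mul (lt_mul h6 hh) h2)
  have a2 := e2 β hβ _ (lt_mul h6 hh) _ h1 _ h2
  have a1 := e1 _ (lt_mul (lt_mul hβ h6) hh) la hla (by omega)
  rw [h4] at a3
  have h7 := Nat.div_add_mod' la I
  refine Eq.trans (Eq.trans ?_ a4) (Eq.trans (Eq.trans ?_ a3) (Eq.trans (Eq.trans ?_ a2)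
    (Eq.trans ?_ a1))) <;> congr 1
  · ring
  · ring
  · ring
  · conv_rhs => rw [← h7]
    ring

/-- Sizes of the intermediate arrays. -/
theorem sizes {w d t S' Q R I N : ℕ} (ht : t ≤ S') (hR : R ≤ (Q - 1) ^ d * I)
    (hN : w * (Q ^ d * S' ^ d * (t * I)) ≤ N) :
    w * t ^ d * t * R ≤ N ∧ w * t ^ d * t * ((Q - 1) ^ d * I) ≤ N ∧
      w * Q ^ d * (t ^ d * t * I) ≤ N ∧ w * Q ^ d * S' ^ d * (t * I) ≤ N := by
  have h1 : (Q - 1) ^ d ≤ Q ^ d := Nat.pow_le_pow_left (by omega) _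
  have h2 : t ^ d ≤ S' ^ d := Nat.pow_le_pow_left ht _
  have h3 : w * Q ^ d * (t ^ d * t * I) ≤ N := by
    refine le_trans ?_ hN
    calc _ = w * (Q ^ d * t ^ d * (t * I)) := by ring
      _ ≤ _ := by gcongr
  have h4 : w * t ^ d * t * ((Q - 1) ^ d * I) ≤ N := by
    refine le_trans ?_ h3
    calc _ = w * (Q - 1) ^ d * (t ^ d * t * I) := by ring
      _ ≤ _ := by gcongr
  exact ⟨le_trans (Nat.mul_le_mul_left _ hR) h4, h4, h3, le_trans (le_of_eq (by ring)) hN⟩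

theorem cost4 {C₁ C₂ C₃ : ℕ} {N P d τ y₂ y₃ y₄ : ℝ} (hP : 1 ≤ P) (hPN : P ≤ N) (hd : 0 ≤ d)
    (hτ : 1 ≤ τ) (h2 : y₂ ≤ N) (h3 : y₃ ≤ N) (h4 : y₄ ≤ N) :
    C₁ * (N + P) + C₂ * (y₂ + P) * τ + C₃ * (d + 1) * (y₃ + P) + C₃ * (d + 1) * (y₄ + P) +
      4 * P + 3 ≤ ((2 * C₁ + 2 * C₂ + 4 * C₃ + 7 : ℕ) : ℝ) * N * (d + τ) := by
  have hN : 0 ≤ N := by linarith
  have k0 : N ≤ N * (d + τ) := le_mul_of_one_le_right hN (by linarith)
  have k1 := cle C₁ (show N + P ≤ 2 * (N * (d + τ)) by linarith)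
  have k2 := cle C₂ (show (y₂ + P) * τ ≤ 2 * (N * (d + τ)) by nlinarith)
  have k3 := cle C₃ (show (d + 1) * (y₃ + P) ≤ 2 * (N * (d + τ)) by nlinarith)
  have k4 := cle C₃ (show (d + 1) * (y₄ + P) ≤ 2 * (N * (d + τ)) by nlinarith)
  push_cast
  nlinarith

theorem bounds {w d t S' Q R I N B : ℕ} (hw : 1 ≤ w) (hd : 1 ≤ d) (ht : 2 ≤ t) (hS : t ≤ S')
    (hQ : 3 ≤ Q) (hR : 1 ≤ R) (hI0 : 0 < I) (hRI : R ≤ (Q - 1) ^ d * I)
    (hN : w * (Q ^ d * S' ^ d * (t * I)) ≤ N) (hNB : N ≤ B) :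
    w * t ^ d * t ≤ B ∧ (Q - 1) ^ d * I ≤ B ∧ t ^ d * t * I ≤ B ∧ t ^ d * t ≤ B ∧ t * I ≤ B ∧
      w * Q ^ d ≤ B ∧ Q - 1 ≤ B := by
  obtain ⟨s1, s2, s3, s4⟩ := sizes hS hRI hN
  have hT0 : 0 < t ^ d := by positivity
  have hQ0 : 0 < Q ^ d := by positivity
  have ht0 : 0 < t := by omega
  have b2 : (Q - 1) ^ d * I ≤ B :=
    le_of_mul (w * t ^ d * t) (one_le (by positivity)) (s2.trans hNB) (by ring)
  have b3 : t ^ d * t * I ≤ B :=
    le_of_mul (w * Q ^ d) (one_le (by positivity)) (s3.trans hNB) (by ring)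
  exact ⟨le_of_mul R hR (s1.trans hNB) rfl, b2, b3, le_of_mul I hI0 b3 rfl,
    le_of_mul (t ^ d) hT0 b3 (by ring),
    le_of_mul (t ^ d * t * I) (one_le (by positivity)) (s3.trans hNB) rfl,
    (Nat.le_self_pow (by omega) _).trans (le_of_mul I hI0 b2 rfl)⟩

theorem su0_ex (hT : TransStmt) : ∃ (p : Prog) (C : ℕ), ∀ (B P : ℕ) (r : Prog)
    (j w d t S' Q R I N : ℕ) (X : List Bool), 1 ≤ P → 1 ≤ w → 1 ≤ d → 2 ≤ t → t ≤ S' → 3 ≤ Q →
    1 ≤ R → P < I → R ≤ (Q - 1) ^ d * I → w * (Q ^ d * S' ^ d * (t * I)) ≤ N → P ≤ N →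
    C * N ≤ B → WW ^ j * P ≤ B → X.length = w * t ^ d * t * R →
    ∃ Z : List Bool, Z.length = w * (Q ^ d * S' ^ d * (t * I)) ∧
      Top B P r p [t ^ d, (Q - 1) ^ d, Q ^ d, j, w, d, t, S', Q, R, I] X Z
        (C * N * (d + trc j (t ^ d * t * (Q - 1) ^ d).size 0)) ∧ Su0 w d t S' Q R I X Z := by
  obtain ⟨p₁, C₁, h₁⟩ := TT.rs_ex
  obtain ⟨p₂, C₂, h₂⟩ := hT
  obtain ⟨p₃, C₃, h₃⟩ := rsz_ex
  refine ⟨.call [.var 4 * .var 0 * .var 6, .var 9, .var 1 * .var 10] p₁ ;;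
    .call [.var 3, .var 4, .var 0 * .var 6, .var 1, .var 10] p₂ ;;
    .call [.var 4, .var 5, .var 8 - 1, .var 8, .var 0 * .var 6 * .var 10] p₃ ;;
    .call [.var 4 * .var 2, .var 5, .var 6, .var 7, .var 6 * .var 10] p₃,
    2 * C₁ + 2 * C₂ + 4 * C₃ + 7,
    fun B P r j w d t S' Q R I N X hP hw hd ht hS hQ hR hI hRI hN hPN hB hW hX => ?_⟩
  obtain ⟨s1, s2, s3, s4⟩ := sizes hS hRI hN
  have hNB : N ≤ B := le_trans (Nat.le_mul_of_pos_left _ (by omega)) hB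
  have hT0 : 0 < t ^ d := by positivity
  have hA0 : 0 < (Q - 1) ^ d := pow_pos (by omega) _
  have hQ0 : 0 < Q ^ d := by positivity
  have hI0 : 0 < I := by omega
  have ht0 : 0 < t := by omega
  obtain ⟨L₁, t1, l1, e1⟩ := h₁ B P r (w * t ^ d * t) R ((Q - 1) ^ d * I) N X hP hR s1 s2 hX
  obtain ⟨L₂, l2, t2, e2⟩ := h₂ B P r j w (t ^ d * t) ((Q - 1) ^ d) I L₁ hP hw
    (one_le (by positivity)) hA0 hI0
    (le_trans (Nat.mul_le_mul (by omega) (le_trans (le_of_eq (by ring)) s2)) hB) hW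
    (by rw [l1]; ring)
  have m3 : max (Q - 1) Q = Q := max_eq_right (by omega)
  have m4 : max t S' = S' := max_eq_right hS
  obtain ⟨L₃, l3, t3, e3⟩ := h₃ B P r w d (Q - 1) Q (t ^ d * t * I) L₂ hP hw
    (one_le (by positivity)) (by omega) (by omega) (by rw [m3]; omega) (by rw [l2]; ring)
  obtain ⟨Z, l4, t4, e4⟩ := h₃ B P r (w * Q ^ d) d t S' (t * I) L₃ hP (one_le (by positivity))
    (one_le (by positivity)) ht (by omega) (by rw [m4]; omega) (by rw [l3]; ring)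
  obtain ⟨b1, b2, b3, b4, b5, b6, b7⟩ := bounds hw hd ht hS hQ hR hI0 hRI hN hNB
  rw [m3] at t3
  rw [m4] at t4
  rw [Nat.div_eq_of_lt hI, Nat.size_zero] at t2
  generalize hE : [t ^ d, (Q - 1) ^ d, Q ^ d, j, w, d, t, S', Q, R, I] = env
  have g1 := Go.call (args := [.var 4 * .var 0 * .var 6, .var 9, .var 1 * .var 10]) (env := env)
    (by simp [← hE]) (by simp [Ok, ← hE, b1, b2]) t1
  have g2 := Go.call (args := [.var 3, .var 4, .var 0 * .var 6, .var 1, .var 10]) (env := env)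
    (by simp [← hE]) (by simp [Ok, ← hE, b4]) t2
  have g3 := Go.call (args := [.var 4, .var 5, .var 8 - 1, .var 8, .var 0 * .var 6 * .var 10])
    (env := env) (by simp [← hE]) (by simp only [List.forall_mem_cons, Ok, b3, b7]; simp [← hE]) t3
  have g4 := Go.call (args := [.var 4 * .var 2, .var 5, .var 6, .var 7, .var 6 * .var 10])
    (env := env) (by simp [← hE]) (by simp [Ok, ← hE, b5, b6]) t4
  refine ⟨Z, by rw [l4]; ring, (g1.seq (g2.seq (g3.seq g4))).top.mono ?_,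
    su_comp hQ hS hI0 hRI e1 e2 e3 e4⟩
  refine le_trans (le_of_eq ?_) (cost4 (C₁ := C₁) (C₂ := C₂) (C₃ := C₃) (P := P)
    (y₂ := ((w * t ^ d * t * ((Q - 1) ^ d * I) : ℕ) : ℝ))
    (y₃ := ((w * Q ^ d * (t ^ d * t * I) : ℕ) : ℝ)) (y₄ := ((w * Q ^ d * S' ^ d * (t * I) : ℕ) : ℝ))
    (by exact_mod_cast hP) (by exact_mod_cast hPN) (Nat.cast_nonneg d) (one_le_trc _ _ _)
    (by exact_mod_cast s2) (by exact_mod_cast s3) (by exact_mod_cast s4))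
  push_cast
  ring

theorem us0_ex (hT : TransStmt) : ∃ (p : Prog) (C : ℕ), ∀ (B P : ℕ) (r : Prog)
    (j w d t S' Q R I N : ℕ) (Z : List Bool), 1 ≤ P → 1 ≤ w → 1 ≤ d → 2 ≤ t → t ≤ S' → 3 ≤ Q →
    1 ≤ R → P < I → R ≤ (Q - 1) ^ d * I → w * (Q ^ d * S' ^ d * (t * I)) ≤ N → P ≤ N →
    C * N ≤ B → WW ^ j * P ≤ B → Z.length = w * (Q ^ d * S' ^ d * (t * I)) →
    ∃ X : List Bool, X.length = w * t ^ d * t * R ∧
      Top B P r p [t ^ d, (Q - 1) ^ d, Q ^ d, j, w, d, t, S', Q, R, I] Z X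
        (C * N * (d + trc j (t ^ d * t * (Q - 1) ^ d).size 0)) ∧ Su0 w d t S' Q R I X Z := by
  obtain ⟨p₁, C₁, h₁⟩ := TT.rs_ex
  obtain ⟨p₂, C₂, h₂⟩ := hT
  obtain ⟨p₃, C₃, h₃⟩ := rsz_ex
  refine ⟨.call [.var 4 * .var 2, .var 5, .var 7, .var 6, .var 6 * .var 10] p₃ ;;
    .call [.var 4, .var 5, .var 8, .var 8 - 1, .var 0 * .var 6 * .var 10] p₃ ;;
    .call [.var 3, .var 4, .var 1, .var 0 * .var 6, .var 10] p₂ ;;
    .call [.var 4 * .var 0 * .var 6, .var 1 * .var 10, .var 9] p₁,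
    2 * C₁ + 2 * C₂ + 4 * C₃ + 7,
    fun B P r j w d t S' Q R I N Z hP hw hd ht hS hQ hR hI hRI hN hPN hB hW hZ => ?_⟩
  obtain ⟨s1, s2, s3, s4⟩ := sizes hS hRI hN
  have hNB : N ≤ B := le_trans (Nat.le_mul_of_pos_left _ (by omega)) hB
  have hT0 : 0 < t ^ d := by positivity
  have hA0 : 0 < (Q - 1) ^ d := pow_pos (by omega) _
  have hQ0 : 0 < Q ^ d := by positivity
  have hI0 : 0 < I := by omega
  have ht0 : 0 < t := by omega
  have m3 : max Q (Q - 1) = Q := max_eq_left (by omega)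
  have m4 : max S' t = S' := max_eq_left hS
  obtain ⟨L₃, l3, t4, e4⟩ := h₃ B P r (w * Q ^ d) d S' t (t * I) Z hP (one_le (by positivity))
    (one_le (by positivity)) (by omega) ht (by rw [m4]; omega) (by rw [hZ]; ring)
  obtain ⟨L₂, l2, t3, e3⟩ := h₃ B P r w d Q (Q - 1) (t ^ d * t * I) L₃ hP hw
    (one_le (by positivity)) (by omega) (by omega) (by rw [m3]; omega) (by rw [l3]; ring)
  obtain ⟨L₁, l1, t2, e2⟩ := h₂ B P r j w ((Q - 1) ^ d) (t ^ d * t) I L₂ hP hw hA0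
    (one_le (by positivity)) hI0
    (le_trans (Nat.mul_le_mul (by omega) (le_trans (le_of_eq (by ring)) s2)) hB) hW
    (by rw [l2]; ring)
  obtain ⟨X, t1, l0, e1⟩ := h₁ B P r (w * t ^ d * t) ((Q - 1) ^ d * I) R N L₁ hP
    (one_le (by positivity)) s2 s1 (by rw [l1]; ring)
  obtain ⟨b1, b2, b3, b4, b5, b6, b7⟩ := bounds hw hd ht hS hQ hR hI0 hRI hN hNB
  rw [m3] at t3
  rw [m4] at t4
  rw [Nat.div_eq_of_lt hI, Nat.size_zero, mul_comm ((Q - 1) ^ d) (t ^ d * t)] at t2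
  generalize hE : [t ^ d, (Q - 1) ^ d, Q ^ d, j, w, d, t, S', Q, R, I] = env
  have g1 := Go.call (args := [.var 4 * .var 0 * .var 6, .var 1 * .var 10, .var 9]) (env := env)
    (by simp [← hE]) (by simp [Ok, ← hE, b1, b2]) t1
  have g2 := Go.call (args := [.var 3, .var 4, .var 1, .var 0 * .var 6, .var 10]) (env := env)
    (by simp [← hE]) (by simp [Ok, ← hE, b4]) t2
  have g3 := Go.call (args := [.var 4, .var 5, .var 8, .var 8 - 1, .var 0 * .var 6 * .var 10])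
    (env := env) (by simp [← hE]) (by simp only [List.forall_mem_cons, Ok, b3, b7]; simp [← hE]) t3
  have g4 := Go.call (args := [.var 4 * .var 2, .var 5, .var 7, .var 6, .var 6 * .var 10])
    (env := env) (by simp [← hE]) (by simp [Ok, ← hE, b5, b6]) t4
  refine ⟨X, l0, (g4.seq (g3.seq (g2.seq g1))).top.mono ?_,
    su_comp hQ hS hI0 hRI (fun o ho j h1 h2 => (e1 o ho j h2 h1).symm)
      (fun o ho a ha a' ha' i hi => (e2 o ho a' ha' a ha i hi).symm)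
      (fun o ho x hx i hi => (e3 o ho x (fun l hl => (hx l hl).symm) i hi).symm)
      (fun o ho x hx i hi => (e4 o ho x (fun l hl => (hx l hl).symm) i hi).symm)⟩
  refine le_trans (le_of_eq ?_) (cost4 (C₁ := C₁) (C₂ := C₂) (C₃ := C₃) (P := P)
    (y₂ := ((w * t ^ d * t * ((Q - 1) ^ d * I) : ℕ) : ℝ))
    (y₃ := ((w * Q ^ d * (t ^ d * t * I) : ℕ) : ℝ)) (y₄ := ((w * Q ^ d * S' ^ d * (t * I) : ℕ) : ℝ))
    (by exact_mod_cast hP) (by exact_mod_cast hPN) (Nat.cast_nonneg d) (one_le_trc _ _ _)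
    (by exact_mod_cast s2) (by exact_mod_cast s3) (by exact_mod_cast s4))
  push_cast
  ring

/-- The change of layout in terms of the parameters. -/
def Su (π : Par) (X Z : List Bool) : Prop :=
  ∀ β < π.w, ∀ bt < π.Bt, ∀ x ∈ box (fun _ => π.t) π.d, ∀ c < 2 * π.n,
    bit Z (β * nM π.Qg π.S' π.d (2 ^ π.k) π.Y + π.nad' bt x c) =
      bit X (β * (π.t ^ π.d * (2 * π.n) * π.Bt) + sad π.n π.Bt (mr (fun _ => π.t) 0 π.d x) bt c)

theorem su_of {π : Par} {q bb P : ℕ} (ok : π.Ok q bb P) {X Z : List Bool}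
    (h : Su0 π.w π.d π.t π.S' π.Qg (π.ρx * π.Bt) (π.Qg ^ π.d * π.Y) X Z) : Su π X Z := by
  intro β hβ bt hbt x hx c hc
  have h1 := ok.t_mul_ρx
  have h2 := π.one_le_ρx
  have := h β hβ x (mem_box.1 hx).1 (c / π.ρx) ((Nat.div_lt_iff_lt_mul h2).2 (by omega))
    (c % π.ρx * π.Bt + bt) (lt_mul (Nat.mod_lt _ h2) hbt)
  refine Eq.trans (Eq.trans ?_ this) ?_ <;> congr 1
  · unfold Par.nad' nad nM Par.t; ring
  · unfold sad
    conv_rhs => rw [← h1, ← Nat.div_add_mod' c π.ρx]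
    ring

/-- arguments of the change of layout -/
def suA : List Ex :=
  [Ex.pow (.var 13) (.var 12), Ex.pow (.var 10 - 1) (.var 12), Ex.pow (.var 10) (.var 12),
    .var 5, .var 16, .var 12, .var 13, .var 18, .var 10, .var 19 * .var 9,
    Ex.pow (.var 10) (.var 12) * .var 11]

theorem one_le_w {π : Par} {q bb P : ℕ} (ok : π.Ok q bb P) : 1 ≤ π.w := by
  have := ok.le_p; unfold Par.w; omega

theorem one_le_ovG (π : Par) (P : ℕ) : 1 ≤ π.ovG P := (π.one_le_tr P).trans (π.tr_le_ovG P)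

theorem N0_le {π : Par} {B P C : ℕ} (big : π.Big C B P) (hC : 1 ≤ C) : π.N0 ≤ B :=
  le_trans (Nat.le_mul_of_pos_left _ hC) big.1

theorem facts {π : Par} {q bb P : ℕ} (ok : π.Ok q bb P) :
    1 ≤ π.ρx * π.Bt ∧ P < π.Qg ^ π.d * π.Y ∧
      π.ρx * π.Bt ≤ (π.Qg - 1) ^ π.d * (π.Qg ^ π.d * π.Y) ∧
      π.w * (π.Qg ^ π.d * π.S' ^ π.d * (π.t * (π.Qg ^ π.d * π.Y))) ≤ 8 * π.N0 ∧
      P ≤ 8 * π.N0 := by
  have h1 := ok.eight_le_d
  have h2 := ok.hQ3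
  refine ⟨Nat.mul_pos π.one_le_ρx ok.hBt, ?_, by rw [← mul_assoc]; exact ok.hY1, ?_,
    by have := ok.P_le_N0; omega⟩
  · have h3 : P ≤ π.Y := le_trans (Nat.le_mul_of_pos_right _
      (pow_pos (by have := two_le_WW; omega) _)) ok.hY4
    have h4 : π.Qg ≤ π.Qg ^ π.d := Nat.le_self_pow (by omega) _
    have := ok.hP
    nlinarith
  · calc _ = π.w * nM π.Qg π.S' π.d (2 ^ π.k) π.Y := by unfold nM Par.t; ring
      _ ≤ π.w * (8 * (π.t ^ π.d * (2 * π.n) * π.Bt)) := Nat.mul_le_mul_left _ ok.nM_le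
      _ = _ := by unfold Par.N0; ring

theorem wrap {π : Par} {q bb B P C : ℕ} {r p : Prog} (ok : π.Ok q bb P)
    (big : π.Big (8 * C + 16) B P) {X Z : List Bool}
    (h : Top B P r p [π.t ^ π.d, (π.Qg - 1) ^ π.d, π.Qg ^ π.d, π.jt, π.w, π.d, π.t, π.S', π.Qg,
        π.ρx * π.Bt, π.Qg ^ π.d * π.Y] X Z
        (C * (8 * π.N0 : ℕ) * (π.d + trc π.jt (π.t ^ π.d * π.t * (π.Qg - 1) ^ π.d).size 0))) :
    Top B P r (.call suA p) π.args X Z ((8 * C + 16 : ℕ) * π.N0 * π.ovG P) := by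
  obtain ⟨f1, f2, f3, f4, f5⟩ := facts ok
  have hN : 8 * π.N0 ≤ B := le_trans (Nat.mul_le_mul_right _ (by omega)) big.1
  have hQ := ok.hQ3
  have hd := ok.eight_le_d
  obtain ⟨b1, b2, b3, b4, b5, b6, b7⟩ := bounds (one_le_w ok) (by omega) ok.two_le_t π.t_le_S' hQ
    f1 (by omega) f3 f4 hN
  have c1 : π.t ^ π.d ≤ B := le_of_mul π.t π.one_le_t b4 rfl
  have c2 : (π.Qg - 1) ^ π.d ≤ B := le_of_mul _ (by omega) b2 rfl
  have c3 : π.Qg ^ π.d ≤ B := le_of_mul _ (one_le_w ok) b6 (mul_comm _ _)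
  have c4 : π.Qg ^ π.d * π.Y ≤ B := le_of_mul _ π.one_le_t b5 (mul_comm _ _)
  have c5 : π.ρx * π.Bt ≤ B := f3.trans b2
  have v1 : (Ex.pow (.var 13) (.var 12)).ev B P π.args = π.t ^ π.d :=
    Ex.ev_pow ok.two_le_t c1
  have v2 : (Ex.pow (.var 10 - 1) (.var 12)).ev B P π.args = (π.Qg - 1) ^ π.d :=
    Ex.ev_pow (show 2 ≤ π.Qg - 1 by omega) c2
  have v3 : (Ex.pow (.var 10) (.var 12)).ev B P π.args = π.Qg ^ π.d :=
    Ex.ev_pow (show 2 ≤ π.Qg by omega) c3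
  refine (Go.call (args := suA) (env := π.args)
    (by simp only [suA, List.map, Ex.ev_mul, v1, v2, v3]; rfl)
    (by simp only [List.forall_mem_cons, Ok, c1, c2, c3, c4, c5]; simp [Par.args]) h).top.mono ?_
  have k1 : trc π.jt (π.t ^ π.d * π.t * (π.Qg - 1) ^ π.d).size 0 ≤ π.tr P := by
    refine trc_mono _ (Nat.size_le_size ?_) (Nat.zero_le _)
    have h1 : (π.Qg - 1) ^ π.d ≤ π.ρx := (Nat.pow_le_pow_left (by omega) _).trans ok.hQρ
    have h2 := one_le_w ok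
    calc _ ≤ π.t ^ π.d * π.t * π.ρx := by gcongr
      _ = 1 * (π.t ^ π.d * (2 * π.n)) := by rw [← ok.t_mul_ρx]; ring
      _ ≤ _ := Nat.mul_le_mul_right _ (by omega)
  have k2 : π.d + π.tr P ≤ π.ovG P := by
    have := two_le_sg
    unfold Par.ovG
    have : (0 : ℝ) ≤ π.k * (π.J + 1) * sg ^ (π.J + π.jg) := by positivity
    have : (0 : ℝ) ≤ π.d * (π.G + π.Qg.size + 1) * sg ^ π.jg := by positivity
    have : (0 : ℝ) ≤ π.k := by positivity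
    linarith
  have k3 : (P : ℝ) ≤ π.N0 := by exact_mod_cast ok.P_le_N0
  have k4 := one_le_ovG π P
  have k5 : (π.N0 : ℝ) ≤ π.N0 * π.ovG P := le_mul_of_one_le_right (by positivity) k4
  have k6 : (C : ℝ) * (8 * π.N0) * (π.d + trc π.jt (π.t ^ π.d * π.t * (π.Qg - 1) ^ π.d).size 0) ≤
      C * (8 * π.N0) * π.ovG P := by gcongr; linarith
  have k7 : (0 : ℝ) ≤ π.N0 := by positivity
  push_cast
  nlinarith

theorem su_ex (hT : TransStmt) : ∃ (p : Prog) (C : ℕ), ∀ (q bb B P : ℕ) (r : Prog) (π : Par)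
    (X : List Bool), π.Ok q bb P → π.Big C B P → X.length = π.N0 →
    ∃ Z : List Bool, Z.length = π.w * nM π.Qg π.S' π.d (2 ^ π.k) π.Y ∧
      Top B P r p π.args X Z (C * π.N0 * π.ovG P) ∧ Su π X Z := by
  obtain ⟨p, C, h⟩ := su0_ex hT
  refine ⟨.call suA p, 8 * C + 16, fun q bb B P r π X ok big hX => ?_⟩
  obtain ⟨f1, f2, f3, f4, f5⟩ := facts ok
  obtain ⟨Z, l, t, e⟩ := h B P r π.jt π.w π.d π.t π.S' π.Qg _ _ _ X ok.hP (one_le_w ok)
    (by have := ok.eight_le_d; omega) ok.two_le_t π.t_le_S' ok.hQ3 f1 f2 f3 f4 f5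
    (le_trans (by nlinarith) big.1) big.2.2 (by rw [hX, Par.N0, ← ok.t_mul_ρx]; ring)
  exact ⟨Z, by rw [l]; unfold nM Par.t; ring, wrap ok big t, su_of ok e⟩

theorem us_ex (hT : TransStmt) : ∃ (p : Prog) (C : ℕ), ∀ (q bb B P : ℕ) (r : Prog) (π : Par)
    (Z : List Bool), π.Ok q bb P → π.Big C B P →
    Z.length = π.w * nM π.Qg π.S' π.d (2 ^ π.k) π.Y →
    ∃ X : List Bool, X.length = π.N0 ∧
      Top B P r p π.args Z X (C * π.N0 * π.ovG P) ∧ Su π X Z := by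
  obtain ⟨p, C, h⟩ := us0_ex hT
  refine ⟨.call suA p, 8 * C + 16, fun q bb B P r π Z ok big hZ => ?_⟩
  obtain ⟨f1, f2, f3, f4, f5⟩ := facts ok
  obtain ⟨X, l, t, e⟩ := h B P r π.jt π.w π.d π.t π.S' π.Qg _ _ _ Z ok.hP (one_le_w ok)
    (by have := ok.eight_le_d; omega) ok.two_le_t π.t_le_S' ok.hQ3 f1 f2 f3 f4 f5
    (le_trans (by nlinarith) big.1) big.2.2 (by rw [hZ]; unfold nM Par.t; ring)
  exact ⟨X, by rw [l, Par.N0, ← ok.t_mul_ρx]; ring, wrap ok big t, su_of ok e⟩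

end Crest.Agent.IM.CV
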