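import Crest.Agent.IM.Par

/-! TASK IM-M. Pointwise multiplication in `RA n` by Kronecker substitution.
Each factor: transpose `(β < w, o | c < 2 n)` (`O = 1`, `A = w O`, `A' = 2 n`, `I = Bt`), pad the
rows from `w` to `3 w` slices: one number of `2 n (3 w)` slices in `O Bt` lanes (`exch` to reach
the second factor). Multiply. The product has `4 n` digits in base `2 ^ (3 w)`, which are the
coefficients of the product polynomial (each `< 2 n 4 ^ w ≤ 2 ^ (3 w)`); truncate to `w` slices,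
transpose back (`O = 2`), subtract the upper half from the lower half (`exch`, `neg`, `add2`);
`rco_mul`. -/

set_option autoImplicit false
open Finset

namespace Crest.Agent.IM

namespace PM

theorem wd_eq_mod {w M a g : ℕ} {L : List Bool} (h : ∀ β < w, bit L (β * M + a) = g.testBit β) :
    wd w M L a = g % 2 ^ w := by
  refine Nat.eq_of_testBit_eq fun β => ?_
  rw [Nat.testBit_mod_two_pow]
  by_cases hβ : β < w
  · rw [testBit_wd _ _ hβ, h β hβ]; simp [hβ]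
  · rw [Nat.testBit_lt_two_pow ((wd_lt _ _ _ _).trans_le
      (Nat.pow_le_pow_right (by norm_num) (by omega)))]
    simp [hβ]

theorem tb_mr {s m c β : ℕ} {u : ℕ → ℕ} (h : ∀ i < m, u i < 2 ^ s) (hc : c < m) (hβ : β < s) :
    (mr (fun _ => 2 ^ s) 0 m u).testBit (c * s + β) = (u c).testBit β := by
  rw [← mr_digit (ns := fun _ => 2 ^ s) (x := u) (Nat.zero_le c) hc fun l _ hl => h l (by omega),
    pr_const, ← pow_mul, Nat.testBit_mod_two_pow, Nat.testBit_div_two_pow]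
  simp [hβ, mul_comm, add_comm]

/-- coefficients of the product -/
def cv (m : ℕ) (u v : ℕ → ℕ) (k : ℕ) : ℕ :=
  ∑ i ∈ range m, ∑ j ∈ range m, if i + j = k then u i * v j else 0

theorem mr_mul (T m : ℕ) (u v : ℕ → ℕ) : mr (fun _ => T) 0 m v * mr (fun _ => T) 0 m u =
    mr (fun _ => T) 0 (2 * m) (cv m u v) := by
  simp only [mr, pr_const, cv, ← range_eq_Ico, Nat.sub_zero, sum_mul]
  rw [← sum_mul, mul_comm, sum_mul_sum, sum_comm (s := range (2 * m))]
  refine sum_congr rfl fun i hi => ?_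
  rw [sum_comm]
  refine sum_congr rfl fun j hj => ?_
  rw [mem_range] at hi hj
  rw [sum_eq_single (i + j) (fun k _ hk => by simp [hk.symm]) (by simp; omega), if_pos rfl, pow_add]
  ring

theorem cv_lt {w m : ℕ} {u v : ℕ → ℕ} (hm : m ≤ 2 ^ w) (hu : ∀ i, u i < 2 ^ w)
    (hv : ∀ i, v i < 2 ^ w) (k : ℕ) : cv m u v k < 2 ^ (3 * w) := by
  have h1 : ∀ i ∈ range m, (∑ j ∈ range m, if i + j = k then u i * v j else 0) ≤
      2 ^ w * 2 ^ w - 1 := fun i _ => by
    have := Nat.mul_lt_mul'' (hu i) (hv (k - i))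
    by_cases hk : k - i ∈ range m
    · rw [sum_eq_single_of_mem (k - i) hk (fun j _ hj => if_neg (by omega))]
      split_ifs <;> omega
    · rw [sum_eq_zero fun j hj => if_neg (by rintro rfl; simp [hj] at hk)]; omega
  have h2 := sum_le_card_nsmul _ _ _ h1
  rw [card_range, smul_eq_mul] at h2
  have h3 : 0 < 2 ^ w := by positivity
  calc cv m u v k ≤ 2 ^ w * (2 ^ w * 2 ^ w - 1) := h2.trans (Nat.mul_le_mul_right _ hm)
    _ < 2 ^ w * (2 ^ w * 2 ^ w) := Nat.mul_lt_mul_of_pos_left (by have := Nat.mul_pos h3 h3; omega) h3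
    _ = _ := by ring

/-- packing of one factor -/
theorem pk_ex (hT : TransStmt) : ∃ (p : Prog) (C : ℕ), ∀ (B P : ℕ) (r : Prog)
    (j w O n Bt : ℕ) (X : List Bool), 1 ≤ P → 1 ≤ w → 1 ≤ O → 1 ≤ n → 1 ≤ Bt →
    (C + 3) * (w * (O * (2 * n) * Bt)) ≤ B → WW ^ j * P ≤ B → X.length = w * (O * (2 * n) * Bt) →
    ∃ Z : List Bool, Z.length = 2 * n * (3 * w) * (O * Bt) ∧
      Go B P r p [j, w, O, n, Bt] X [j, w, O, n, Bt] Z (C * (w * (O * (2 * n) * Bt) + P) *
        trc j (3 * w * (O * (2 * n))).size (P / Bt).size) ∧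
      ∀ o < O, ∀ bt < Bt, wd (2 * n * (3 * w)) (O * Bt) Z (o * Bt + bt) =
        mr (fun _ => 2 ^ (3 * w)) 0 (2 * n)
          (fun c => wd w (O * (2 * n) * Bt) X (sad n Bt o bt c)) := by
  obtain ⟨p₁, C₁, h₁⟩ := hT
  obtain ⟨p₂, C₂, h₂⟩ := resize_ex
  refine ⟨.call [.var 0, 1, .var 1 * .var 2, 2 * .var 3, .var 4] p₁ ;;
    .call [2 * .var 3, .var 1 * (.var 2 * .var 4), 3 * .var 1 * (.var 2 * .var 4)] p₂,
    C₁ + 5 * C₂ + 3, fun B P r j w O n Bt X hP hw hO hn hBt hB hW hX => ?_⟩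
  have hN0 : 0 < w * (O * (2 * n) * Bt) := by positivity
  have hB3 : 3 * (w * (O * (2 * n) * Bt)) ≤ B := le_trans (Nat.mul_le_mul_right _ (by omega)) hB
  have h30 : 0 < 3 * (w * (O * (2 * n) * Bt)) := by positivity
  have b1 : w * O ≤ B := GA.dv h30 hB3 (3 * (2 * n) * Bt) (by ring)
  have b2 : 2 * n ≤ B := GA.dv h30 hB3 (3 * w * O * Bt) (by ring)
  have b3 : w * (O * Bt) ≤ B := GA.dv h30 hB3 (3 * (2 * n)) (by ring)
  have b4 : 3 * w * (O * Bt) ≤ B := GA.dv h30 hB3 (2 * n) (by ring)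
  have b5 : 1 ≤ B := by omega
  obtain ⟨L₁, l1, t1, e1⟩ := h₁ B P r j 1 (w * O) (2 * n) Bt X hP le_rfl
    (Q4.one_le (by positivity)) (by omega) hBt
    (le_trans (Nat.mul_le_mul (by omega) (le_of_eq (by ring))) hB) hW (by rw [hX]; ring)
  obtain ⟨L₂, l2, t2, e2⟩ := h₂ B P r (2 * n) (w * (O * Bt)) (3 * w * (O * Bt)) L₁ hP
    (by rw [l1]; ring)
  have g1 := Go.call (args := [.var 0, 1, .var 1 * .var 2, 2 * .var 3, .var 4])
    (env := [j, w, O, n, Bt]) rfl (by simp [Ok, b1, b2, b5]) t1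
  have g2 := Go.call (args := [2 * .var 3, .var 1 * (.var 2 * .var 4),
    3 * .var 1 * (.var 2 * .var 4)]) (env := [j, w, O, n, Bt]) rfl (by simp [Ok, b2, b3, b4]) t2
  refine ⟨L₂, by rw [l2]; ring, (g1.seq g2).mono ?_, fun o ho bt hbt => ?_⟩
  · have k1 := one_le_trc j (3 * w * (O * (2 * n))).size (P / Bt).size
    have k2 := trc_mono j (l := (w * O * (2 * n)).size) (l' := (3 * w * (O * (2 * n))).size)
      (Nat.size_le_size (by nlinarith)) (le_refl (P / Bt).size)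
    set T := trc j (3 * w * (O * (2 * n))).size (P / Bt).size
    have k3 : C₂ * (2 * n * (w * (O * Bt)) + 2 * n * (3 * w * (O * Bt)) + 2 * n + P) + 2 * P + 1 ≤
        (5 * C₂ + 3) * (w * (O * (2 * n) * Bt) + P) := by
      have : 2 * n ≤ w * (O * (2 * n) * Bt) := GA.dv hN0 le_rfl (w * O * Bt) (by ring)
      nlinarith
    have k4 : (C₂ : ℝ) * (2 * n * (w * (O * Bt)) + 2 * n * (3 * w * (O * Bt)) + 2 * n + P) +
        2 * P + 1 ≤ (5 * C₂ + 3) * (w * (O * (2 * n) * Bt) + P) := by exact_mod_cast k3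
    have k5 := mul_le_mul_of_nonneg_left k1
      (show (0 : ℝ) ≤ (5 * C₂ + 3) * (w * (O * (2 * n) * Bt) + P) by positivity)
    have k6 := mul_le_mul_of_nonneg_left k2
      (show (0 : ℝ) ≤ C₁ * (w * (O * (2 * n) * Bt) + P) by positivity)
    push_cast
    linarith
  · have hu : ∀ c < 2 * n, wd w (O * (2 * n) * Bt) X (sad n Bt o bt c) < 2 ^ (3 * w) :=
      fun c _ => (wd_lt _ _ _ _).trans_le (Nat.pow_le_pow_right (by norm_num) (by omega))
    have hl := GA.mr_ltc (a := 0) (b := 2 * n) fun c _ hc => hu c hc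
    rw [wd_eq_mod (g := mr (fun _ => 2 ^ (3 * w)) 0 (2 * n)
      (fun c => wd w (O * (2 * n) * Bt) X (sad n Bt o bt c))), Nat.mod_eq_of_lt]
    · rwa [← pow_mul, Nat.sub_zero, mul_comm (3 * w)] at hl
    · intro γ hγ
      obtain ⟨c, β, hc, hβ, rfl⟩ : ∃ c β, c < 2 * n ∧ β < 3 * w ∧ γ = c * (3 * w) + β :=
        ⟨γ / (3 * w), γ % (3 * w), (Nat.div_lt_iff_lt_mul (by omega)).2 hγ,
          Nat.mod_lt _ (by omega), (Nat.div_add_mod' _ _).symm⟩
      have ha := Q4.lt_mul ho hbt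
      rw [tb_mr hu hc hβ, show (c * (3 * w) + β) * (O * Bt) + (o * Bt + bt) =
        c * (3 * w * (O * Bt)) + (β * (O * Bt) + (o * Bt + bt)) by ring,
        e2 c hc _ (Q4.lt_mul hβ ha)]
      by_cases hb : β < w
      · rw [testBit_wd _ _ hb, decide_eq_true (Q4.lt_mul hb ha), Bool.true_and]
        have a1 := e1 0 one_pos _ (Q4.lt_mul hb ho) c hc bt hbt
        refine Eq.trans (Eq.trans ?_ a1) ?_ <;> congr 1
        · ring
        · rw [sad]; ring
      · rw [Nat.testBit_lt_two_pow ((wd_lt _ _ _ _).trans_le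
          (Nat.pow_le_pow_right (by norm_num) (by omega))), decide_eq_false, Bool.false_and]
        have : w * (O * Bt) ≤ β * (O * Bt) := Nat.mul_le_mul_right _ (by omega)
        omega

end PM

theorem pmul_ex (hT : TransStmt) (mul : Prog) : ∃ (p : Prog) (C : ℕ), ∀ (B P : ℕ) (r : Prog)
    (j w O n Bt : ℕ) (x : ℝ) (X Y : List Bool), 1 ≤ P → 1 ≤ w → 1 ≤ O → 1 ≤ n → 1 ≤ Bt →
    2 * n ≤ 2 ^ w → C * (w * (O * (2 * n) * Bt)) ≤ B → WW ^ j * P ≤ B →
    MulAt B P r mul (2 * n * (3 * w)) (O * Bt) x →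
    X.length = w * (O * (2 * n) * Bt) → Y.length = w * (O * (2 * n) * Bt) →
    ∃ Z : List Bool, Z.length = w * (O * (2 * n) * Bt) ∧
      Top B P r p [j, w, O, n, Bt] (X ++ Y) Z (x + C * (w * (O * (2 * n) * Bt) + P) *
        trc j (3 * w * (O * (2 * n))).size (P / Bt).size) ∧
      ∀ o < O, ∀ bt < Bt, ∀ a b : RA n, AR w (O * (2 * n) * Bt) n (sad n Bt o bt) X a →
        AR w (O * (2 * n) * Bt) n (sad n Bt o bt) Y b →
        AR w (O * (2 * n) * Bt) n (sad n Bt o bt) Z (a * b) := by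
  obtain ⟨p₁, C₁, h₁⟩ := PM.pk_ex hT
  obtain ⟨p₂, C₂, h₂⟩ := exch_ex
  obtain ⟨p₃, C₃, h₃⟩ := resize_ex
  obtain ⟨p₄, C₄, h₄⟩ := hT
  obtain ⟨p₅, C₅, h₅⟩ := neg_ex
  obtain ⟨p₆, C₆, h₆⟩ := add2_ex
  set eN : Ex := .var 1 * (.var 2 * (2 * .var 3) * .var 4) with heN
  refine ⟨p₁ ;; .call [2 * .var 3 * (3 * .var 1) * (.var 2 * .var 4), eN] p₂ ;; p₁ ;;
    .call [2 * .var 3 * (3 * .var 1), .var 2 * .var 4] mul ;;
    .call [2 * (2 * .var 3), 3 * .var 1 * (.var 2 * .var 4), .var 1 * (.var 2 * .var 4)] p₃ ;;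
    .call [.var 0, 2, 2 * .var 3, .var 1 * .var 2, .var 4] p₄ ;; .call [eN, eN] p₂ ;;
    .call [.var 1, .var 2 * (2 * .var 3) * .var 4] p₅ ;;
    .call [.var 1, .var 2 * (2 * .var 3) * .var 4] p₆,
    2 * C₁ + 6 * C₂ + 10 * C₃ + 2 * C₄ + C₅ + C₆ + 15,
    fun B P r j w O n Bt x X Y hP hw hO hn hBt hnw hB hW hM hX hY => ?_⟩
  have hN0 : 0 < w * (O * (2 * n) * Bt) := by positivity
  have hB6 : 6 * (w * (O * (2 * n) * Bt)) ≤ B := le_trans (Nat.mul_le_mul_right _ (by omega)) hB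
  have h60 : 0 < 6 * (w * (O * (2 * n) * Bt)) := by positivity
  have b1 : 2 * n * (3 * w) * (O * Bt) ≤ B := GA.dv h60 hB6 2 (by ring)
  have b2 : w * (O * (2 * n) * Bt) ≤ B := GA.dv h60 hB6 6 (by ring)
  have b3 : 2 * n * (3 * w) ≤ B := GA.dv h60 hB6 (2 * O * Bt) (by ring)
  have b4 : O * Bt ≤ B := GA.dv h60 hB6 (6 * w * (2 * n)) (by ring)
  have b5 : 2 * (2 * n) ≤ B := GA.dv h60 hB6 (3 * w * O * Bt) (by ring)
  have b6 : 3 * w * (O * Bt) ≤ B := GA.dv h60 hB6 (2 * (2 * n)) (by ring)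
  have b7 : w * (O * Bt) ≤ B := GA.dv h60 hB6 (6 * (2 * n)) (by ring)
  have b8 : w * O ≤ B := GA.dv h60 hB6 (6 * (2 * n) * Bt) (by ring)
  have b9 : O * (2 * n) * Bt ≤ B := GA.dv h60 hB6 (6 * w) (by ring)
  have b10 : 2 * n ≤ B := by omega
  have b11 : 2 ≤ B := by omega
  have hM1 : 1 ≤ O * (2 * n) * Bt := Q4.one_le (by positivity)
  have hB1 : (C₁ + 3) * (w * (O * (2 * n) * Bt)) ≤ B :=
    le_trans (Nat.mul_le_mul_right _ (by omega)) hB
  obtain ⟨X₁, l1, g1, e1⟩ := h₁ B P r j w O n Bt X hP hw hO hn hBt hB1 hW hX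
  obtain ⟨Y₁, l2, g3, e2⟩ := h₁ B P r j w O n Bt Y hP hw hO hn hBt hB1 hW hY
  obtain ⟨Z₀, l3, t3, e3⟩ := hM Y₁ X₁ l2 l1
  obtain ⟨Z₁, l4, t4, e4⟩ := h₃ B P r (2 * (2 * n)) (3 * w * (O * Bt)) (w * (O * Bt)) Z₀ hP
    (by rw [l3]; ring)
  obtain ⟨Z₂, l5, t5, e5⟩ := h₄ B P r j 2 (2 * n) (w * O) Bt Z₁ hP (by omega) (by omega)
    (Q4.one_le (by positivity)) hBt
    (le_trans (le_trans (le_of_eq (by ring)) (Nat.mul_le_mul_right _
      (show 2 * C₄ ≤ _ by omega))) hB) hW (by rw [l4]; ring)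
  set N := w * (O * (2 * n) * Bt) with hN
  have l5' : Z₂.length = N + N := by rw [l5, hN]; ring
  have lLo : (Z₂.take N).length = N := by simp [l5']
  have lHi : (Z₂.drop N).length = N := by simp [l5']
  obtain ⟨Z₃, l6, t7, e6⟩ := h₅ B P r w (O * (2 * n) * Bt) (Z₂.drop N) hP hw hM1 lHi
  obtain ⟨Z, l7, t8, e7⟩ := h₆ B P r w (O * (2 * n) * Bt) Z₃ (Z₂.take N) hP hw hM1 l6 lLo
  have t2 := h₂ B P r _ _ X₁ Y hP l1 hY
  have t6 := h₂ B P r _ _ _ _ hP lLo lHi
  have g2 := Go.call (args := [2 * .var 3 * (3 * .var 1) * (.var 2 * .var 4), eN])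
    (env := [j, w, O, n, Bt]) rfl (by simp [Ok, heN, b1, ← hN, b2]) t2
  have g4 := Go.call (args := [2 * .var 3 * (3 * .var 1), .var 2 * .var 4])
    (env := [j, w, O, n, Bt]) rfl (by simp [Ok, b3, b4]) t3
  have g5 := Go.call (args := [2 * (2 * .var 3), 3 * .var 1 * (.var 2 * .var 4),
    .var 1 * (.var 2 * .var 4)]) (env := [j, w, O, n, Bt]) rfl (by simp [Ok, b5, b6, b7]) t4
  have g6 := Go.call (args := [.var 0, 2, 2 * .var 3, .var 1 * .var 2, .var 4])
    (env := [j, w, O, n, Bt]) rfl (by simp [Ok, b8, b10, b11]) t5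
  have g7 := Go.call (args := [eN, eN]) (env := [j, w, O, n, Bt]) rfl
    (by simp [Ok, heN, ← hN, b2]) t6
  rw [List.take_append_drop] at g7
  have g8 := Go.call (args := [.var 1, .var 2 * (2 * .var 3) * .var 4])
    (env := [j, w, O, n, Bt]) rfl (by simp [Ok, b9]) t7
  have g9 := Go.call (args := [.var 1, .var 2 * (2 * .var 3) * .var 4])
    (env := [j, w, O, n, Bt]) rfl (by simp [Ok, b9]) t8
  refine ⟨Z, l7, ((g1.frame Y).seq (g2.seq ((g3.frame X₁).seq (g4.seq (g5.seq (g6.seq (g7.seq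
    ((g8.frame _).seq g9)))))))).top.mono ?_, fun o ho bt hbt a b ha hb p hp => ?_⟩
  · have k1 := one_le_trc j (3 * w * (O * (2 * n))).size (P / Bt).size
    have k2 := trc_mono j (l := (2 * n * (w * O)).size) (l' := (3 * w * (O * (2 * n))).size)
      (Nat.size_le_size (by nlinarith)) (le_refl (P / Bt).size)
    set T := trc j (3 * w * (O * (2 * n))).size (P / Bt).size
    have k3 : C₂ * (2 * n * (3 * w) * (O * Bt) + N + P) + C₂ * (N + N + P) +
        C₃ * (2 * (2 * n) * (3 * w * (O * Bt)) + 2 * (2 * n) * (w * (O * Bt)) + 2 * (2 * n) + P) +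
        C₅ * (N + P) + C₆ * (N + P) + 7 * P + 8 ≤
        (6 * C₂ + 10 * C₃ + C₅ + C₆ + 15) * (N + P) := by
      have : 2 * n ≤ N := GA.dv hN0 le_rfl (w * O * Bt) (by rw [hN]; ring)
      have e1 : 2 * n * (3 * w) * (O * Bt) = 3 * N := by rw [hN]; ring
      have e2 : 2 * (2 * n) * (3 * w * (O * Bt)) = 6 * N := by rw [hN]; ring
      have e3 : 2 * (2 * n) * (w * (O * Bt)) = 2 * N := by rw [hN]; ring
      rw [e1, e2, e3]
      have c2 := Nat.mul_le_mul_left C₂ (show 3 * N + N + P + (N + N + P) ≤ 6 * (N + P) by omega)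
      have c3 := Nat.mul_le_mul_left C₃
        (show 6 * N + 2 * N + 2 * (2 * n) + P ≤ 10 * (N + P) by omega)
      have c4 : 7 * P + 8 ≤ 15 * (N + P) := by omega
      linarith
    have k4 := (Nat.cast_le (α := ℝ)).2 k3
    have k5 := mul_le_mul_of_nonneg_left k1 (show (0 : ℝ) ≤ (6 * C₂ + 10 * C₃ + C₅ + C₆ + 15) *
      (w * (O * (2 * n) * Bt) + P) by positivity)
    have k6 := mul_le_mul_of_nonneg_left k2
      (show (0 : ℝ) ≤ C₄ * (2 * (w * (O * (2 * n) * Bt)) + P) by positivity)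
    have k7 : (0 : ℝ) ≤ C₄ * P * T := by positivity
    rw [hN] at k4 ⊢
    push_cast at k4 ⊢
    linarith
  · set u := fun c => wd w (O * (2 * n) * Bt) X (sad n Bt o bt c) with hu
    set v := fun c => wd w (O * (2 * n) * Bt) Y (sad n Bt o bt c) with hv
    have hcv := PM.cv_lt (u := u) (v := v) hnw (fun _ => wd_lt _ _ _ _) (fun _ => wd_lt _ _ _ _)
    have hl := Q4.lt_mul ho hbt
    have hz := e3 _ hl
    rw [e1 o ho bt hbt, e2 o ho bt hbt, PM.mr_mul] at hz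
    have key : ∀ h < 2, ∀ β < w, bit Z₂ (h * N + (β * (O * (2 * n) * Bt) + sad n Bt o bt p)) =
        (PM.cv (2 * n) u v (h * (2 * n) + p)).testBit β := fun h hh β hβ => by
      have hc := Q4.lt_mul hh hp
      have a5 := e5 h hh p hp _ (Q4.lt_mul hβ ho) bt hbt
      have a4 := e4 _ hc _ (Q4.lt_mul hβ hl)
      have hβ' : β < 3 * w := by omega
      have hb3 := Q4.lt_mul hβ' hl
      rw [decide_eq_true hb3, Bool.true_and] at a4
      rw [← PM.tb_mr (s := 3 * w) (fun i _ => hcv i) hc hβ', ← hz,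
        testBit_wd _ _ ((Q4.lt_mul hc hβ').trans_eq (by ring))]
      refine Eq.trans (Eq.trans ?_ a5) (Eq.trans (Eq.trans ?_ a4) ?_) <;> congr 1
      · rw [sad, hN]; ring
      · ring
      · ring
    have hs : sad n Bt o bt p < O * (2 * n) * Bt := Q4.lt_mul (Q4.lt_mul ho hp) hbt
    have w0 : WR w (O * (2 * n) * Bt) (Z₂.take N) (sad n Bt o bt p) (PM.cv (2 * n) u v p) := by
      unfold WR
      rw [PM.wd_eq_mod (g := PM.cv (2 * n) u v p) fun β hβ => by
        rw [bit_take _ (Q4.lt_mul hβ hs)]; simpa using key 0 (by omega) β hβ]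
      push_cast; exact Int.mod_modEq _ _
    have w1 : WR w (O * (2 * n) * Bt) (Z₂.drop N) (sad n Bt o bt p)
        (PM.cv (2 * n) u v (2 * n + p)) := by
      unfold WR
      rw [PM.wd_eq_mod (g := PM.cv (2 * n) u v (2 * n + p)) fun β hβ => by
        rw [bit_drop]; simpa using key 1 (by omega) β hβ]
      push_cast; exact Int.mod_modEq _ _
    choose! A hA1 hA2 using ha
    choose! A' hA1' hA2' using hb
    refine ⟨∑ i ∈ range (2 * n), ∑ k ∈ range (2 * n),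
      (if i + k = p then 1 else if i + k = p + 2 * n then -1 else 0) * (A i * A' k), ?_,
      (e7 _ hs _ _ (e6 _ hs _ w1) w0).congr ?_⟩
    · rw [rco_mul hn a b hp]
      push_cast
      refine sum_congr rfl fun i hi => sum_congr rfl fun k hk => ?_
      rw [hA1 i (mem_range.1 hi), hA1' k (mem_range.1 hk)]
    · simp only [PM.cv]
      push_cast
      rw [← sum_neg_distrib, ← sum_add_distrib]
      refine Int.ModEq.sum fun i hi => ?_
      rw [← sum_neg_distrib, ← sum_add_distrib]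
      refine Int.ModEq.sum fun k hk => ?_
      have := (hA2 i (mem_range.1 hi)).mul (hA2' k (mem_range.1 hk))
      split_ifs <;> first | omega | simpa using this | simpa using this.neg | simp

end Crest.Agent.IM
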