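import Crest.Agent.IM.Layer
import Crest.Agent.IM.Pmul
import Crest.Agent.IM.ConvA

/-! TASK IM-C. The synthetic transforms and exact cyclic convolution on `(ℤ / t) ^ d`.
`g_ex`: set-up from the standard layout `(β, x, h < t, λ < ρx Bt)` (coefficient `c = h ρx + lo`,
`λ = lo Bt + bt`): `resize` rows `ρx Bt → (Qg - 1) ^ d Qg ^ d Y`; transpose (`O = w`,
`A = t ^ d t`, `A' = (Qg - 1) ^ d`, `I = Qg ^ d Y`); `rsz` the helper digits `Qg - 1 → Qg`
(`mr_dig`) and the places `t → S'`. Then `k` layers (`Go.loop_sum`; at most `G + size Qg` of them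
are slow; norms by `nrm_Gf`, `nrm_Gb`), then undo the set-up.
`conv_ex`: forward, `exch`, forward, `pmul`, backward, `asr (k d)` (exact, `fft_conv`,
`Gb_congr`, `xr_pow_two_mul`). -/

set_option autoImplicit false

namespace Crest.Agent.IM

namespace CV
open Q4 Finset

theorem slow_sum {k m : ℕ} (fast : ℕ → Prop) [DecidablePred fast] (h : ∀ ρ, ρ + m < k → fast ρ)
    {F S : ℝ} (hF : 0 ≤ F) (hS : 0 ≤ S) :
    ∑ ρ ∈ range k, (if fast ρ then F else S) ≤ k * F + m * S := by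
  rw [sum_ite, sum_const, sum_const, nsmul_eq_mul, nsmul_eq_mul]
  have h1 : ((range k).filter fast).card ≤ k := (card_filter_le _ _).trans (by simp)
  have h2 : ((range k).filter fun ρ => ¬ fast ρ).card ≤ m := by
    refine (card_le_card (t := Ico (k - m) k) fun ρ hρ => ?_).trans (by simp; omega)
    obtain ⟨h3, h4⟩ := mem_filter.1 hρ
    have := mem_range.1 h3
    have := mt (h ρ) h4
    exact mem_Ico.2 (by omega)
  gcongr

theorem fast_of {π : Par} {ρ : ℕ} (h : ρ + (π.G + π.Qg.size) < π.k) :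
    2 ^ π.k + 2 * π.Qg * 2 ^ ρ ≤ π.S' := by
  refine Nat.add_le_add_left ?_ _
  calc 2 * π.Qg * 2 ^ ρ ≤ 2 * 2 ^ π.Qg.size * 2 ^ ρ := by
        gcongr; exact (Nat.lt_size_self _).le
    _ = 2 ^ (π.Qg.size + ρ + 1) := by ring
    _ ≤ _ := Nat.pow_le_pow_right (by norm_num) (by omega)

/-- The `k` layers. -/
theorem lay_ex {q bb : ℕ} (hL : LayerStmt q bb) :
    ∃ (p : Prog) (C : ℕ), ∀ (B P : ℕ) (r : Prog) (π : Par) (dir : ℕ) (X : List Bool),
    π.Ok q bb P → π.Big C B P → dir ≤ 1 → X.length = π.w * nM π.Qg π.S' π.d (2 ^ π.k) π.Y →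
    ∃ Z : List Bool, Z.length = π.w * nM π.Qg π.S' π.d (2 ^ π.k) π.Y ∧
      Top B P r p (dir :: π.args) X Z (C * π.N0 * π.ovG P) ∧
      ∀ bt < π.Bt, ∀ (a : (ℕ → ℕ) → RA π.n) (μ : ℝ),
        (∀ x ∈ box (fun _ => 2 ^ π.k) π.d, AR π.w (nM π.Qg π.S' π.d (2 ^ π.k) π.Y) π.n
          (π.nad' bt x) X (a x) ∧ nrm π.n (a x) ≤ μ) →
        μ * 2 ^ (π.k * π.d + Dn bb π.J + π.d + 1) < 2 ^ π.w →
        ∀ x ∈ box (fun _ => 2 ^ π.k) π.d, AR π.w (nM π.Qg π.S' π.d (2 ^ π.k) π.Y) π.n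
          (π.nad' bt x) Z
          (if dir = 0 then Gf (xr π.n ^ π.ρx) π.k π.d π.k a x
            else Gb (xr π.n ^ π.ρx) π.k π.d π.k a x) := by
  obtain ⟨p, C, h⟩ := hL
  refine ⟨.lett 0 (.loop (.var 3) (.call (.var 1 :: Ex.ite (.var 1) (.var 0) (.var 3 - 1 - .var 0) ::
    fwd 2 20) p ;; .set 0 (.var 0 + 1))), C + 6, fun B P r π dir X ok big hd hX => ?_⟩
  have hkB : π.k ≤ B := by
    have h1 : π.k ≤ π.t := Nat.lt_two_pow_self.le
    have h2 : π.t ≤ π.t ^ π.d := Nat.le_self_pow (by have := ok.eight_le_d; omega) _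
    have h3 : π.t ^ π.d ≤ B := le_of_mul (π.w * (2 * π.n) * π.Bt)
      (Nat.mul_pos (Nat.mul_pos (one_le_w ok) (by have := π.one_le_n; omega)) ok.hBt)
      (N0_le big (by omega)) (by unfold Par.N0; ring)
    omega
  obtain ⟨env', Z, g, rfl, l, e⟩ := Go.loop_sum (B := B) (P := P) (r := r)
    (p := .call (.var 1 :: Ex.ite (.var 1) (.var 0) (.var 3 - 1 - .var 0) :: fwd 2 20) p ;;
      .set 0 (.var 0 + 1)) (e := .var 3) (env := 0 :: dir :: π.args) (L := X) (n := π.k) rfl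
    (fun i env L => env = i :: dir :: π.args ∧
      L.length = π.w * nM π.Qg π.S' π.d (2 ^ π.k) π.Y ∧
      ∀ bt < π.Bt, ∀ (a : (ℕ → ℕ) → RA π.n) (μ : ℝ),
        (∀ x ∈ box (fun _ => 2 ^ π.k) π.d, AR π.w (nM π.Qg π.S' π.d (2 ^ π.k) π.Y) π.n
          (π.nad' bt x) X (a x) ∧ nrm π.n (a x) ≤ μ) →
        μ * 2 ^ (π.k * π.d + Dn bb π.J + π.d + 1) < 2 ^ π.w →
        ∀ x ∈ box (fun _ => 2 ^ π.k) π.d, AR π.w (nM π.Qg π.S' π.d (2 ^ π.k) π.Y) π.n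
          (π.nad' bt x) L
          (if dir = 0 then Gf (xr π.n ^ π.ρx) π.k π.d i a x
            else Gb (xr π.n ^ π.ρx) π.k π.d i a x))
    (fun i => C * π.N0 * (if 2 ^ π.k + 2 * π.Qg * 2 ^ (if dir = 0 then π.k - 1 - i else i) ≤ π.S'
      then (π.J + 1) * sg ^ (π.J + π.jg) else π.d * sg ^ π.jg) + P + P + 1)
    ⟨rfl, hX, fun bt _ a μ ha _ x hx => by simpa [Gf, Gb] using (ha x hx).1⟩
    (by
      rintro i hi env L ⟨rfl, l, e⟩
      obtain ⟨L', l', t', e'⟩ := h B P r π dir (if dir = 0 then π.k - 1 - i else i) L ok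
        (big.mono (by omega)) hd (by split_ifs <;> omega) l
      have e1 : (fwd 2 20).map (fun e => e.ev B P (i :: dir :: π.args)) = π.args :=
        ev_fwd' _ rfl
      refine ⟨_, L', (Go.call (args := .var 1 :: Ex.ite (.var 1) (.var 0) (.var 3 - 1 - .var 0) ::
        fwd 2 20) (by simp only [List.map_cons, e1]; rfl) ?_ t').seq
        (Go.set (v := i + 1) rfl (Or.inl (by omega))), rfl, l', fun bt hbt a μ ha hμ x hx => ?_⟩
      · simp only [List.forall_mem_cons]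
        exact ⟨Or.inr (by simp), Or.inl (by split_ifs <;> omega), fun v hv => Or.inr (by simp [hv])⟩
      · have hμ0 : 0 ≤ μ := (nrm_nonneg _).trans (ha x hx).2
        have := e' bt hbt (fun y => if dir = 0 then Gf (xr π.n ^ π.ρx) π.k π.d i a y
            else Gb (xr π.n ^ π.ρx) π.k π.d i a y) (2 ^ (i * π.d) * μ)
          (fun y hy => ⟨e bt hbt a μ ha hμ y hy, by
            split_ifs
            · exact nrm_Gf _ _ _ _ hi.le a (fun y hy => (ha y hy).2) y hy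
            · exact nrm_Gb _ _ _ _ hi.le a (fun y hy => (ha y hy).2) y hy⟩)
          (lt_of_le_of_lt (by
            rw [mul_comm _ μ, mul_assoc, ← pow_add]
            have : i * π.d ≤ π.k * π.d := Nat.mul_le_mul_right _ hi.le
            exact mul_le_mul_of_nonneg_left (pow_le_pow_right₀ (by norm_num) (by omega)) hμ0)
            hμ) x hx
        split_ifs at this ⊢ <;> exact this)
  refine ⟨Z, l, (Go.lett (v := 0) rfl (Or.inl (Nat.zero_le _)) g).top.mono ?_, e⟩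
  have hsg := two_le_sg
  have s1 : ∑ i ∈ range π.k, (if 2 ^ π.k + 2 * π.Qg * 2 ^ (if dir = 0 then π.k - 1 - i else i) ≤ π.S'
      then ((π.J : ℝ) + 1) * sg ^ (π.J + π.jg) else π.d * sg ^ π.jg) ≤
      π.k * ((π.J + 1) * sg ^ (π.J + π.jg)) + (π.G + π.Qg.size : ℕ) * (π.d * sg ^ π.jg) := by
    refine le_trans (le_of_eq ?_) (slow_sum (fun ρ => 2 ^ π.k + 2 * π.Qg * 2 ^ ρ ≤ π.S')
      (fun ρ => fast_of) (by positivity) (by positivity))
    split_ifs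
    · exact sum_range_reflect (fun ρ => if 2 ^ π.k + 2 * π.Qg * 2 ^ ρ ≤ π.S'
        then ((π.J : ℝ) + 1) * sg ^ (π.J + π.jg) else π.d * sg ^ π.jg) π.k
    · rfl
  simp only [add_assoc, sum_add_distrib, ← mul_sum, sum_const, card_range, nsmul_eq_mul]
  generalize hs : ∑ i ∈ range π.k, (if 2 ^ π.k + 2 * π.Qg * 2 ^ (if dir = 0 then π.k - 1 - i else i) ≤
    π.S' then ((π.J : ℝ) + 1) * sg ^ (π.J + π.jg) else π.d * sg ^ π.jg) = s at s1 ⊢
  have k0 := π.one_le_tr P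
  have k1 : s + π.k + 1 ≤ π.ovG P := by
    unfold Par.ovG
    have : (0 : ℝ) ≤ π.d * sg ^ π.jg := by positivity
    have : (0 : ℝ) ≤ π.d := by positivity
    push_cast at s1
    nlinarith
  have s0 : 0 ≤ s := by
    rw [← hs]
    exact sum_nonneg fun i _ => by split_ifs <;> positivity
  have k3 : (P : ℝ) ≤ π.N0 := by exact_mod_cast ok.P_le_N0
  have k4 : (1 : ℝ) ≤ P := by exact_mod_cast ok.hP
  have k5 : (0 : ℝ) ≤ π.k := by positivity
  have k6 : (C : ℝ) * π.N0 * s ≤ C * π.N0 * π.ovG P := by gcongr; linarith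
  have k7 : (π.N0 : ℝ) * (π.k + 1) ≤ π.N0 * π.ovG P := by gcongr; linarith
  have k8 : (π.k : ℝ) * P ≤ π.k * π.N0 := by gcongr
  have k9 : (π.k : ℝ) ≤ π.k * π.N0 := le_mul_of_one_le_right k5 (by linarith)
  push_cast
  nlinarith

/-- integral coefficients -/
def IC (n : ℕ) (a : RA n) : Prop := ∀ c < 2 * n, ∃ u : ℤ, rco n a c = u

theorem IC.mul {n : ℕ} (hn : 1 ≤ n) {a b : RA n} (ha : IC n a) (hb : IC n b) : IC n (a * b) := by
  intro c hc
  choose! u hu using ha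
  choose! v hv using hb
  refine ⟨∑ i ∈ range (2 * n), ∑ j ∈ range (2 * n),
    (if i + j = c then 1 else if i + j = c + 2 * n then -1 else 0) * (u i * v j), ?_⟩
  rw [rco_mul hn a b hc]
  push_cast
  refine sum_congr rfl fun i hi => sum_congr rfl fun j hj => ?_
  rw [hu i (mem_range.1 hi), hv j (mem_range.1 hj)]

theorem IC.sum {n : ℕ} {ι : Type} (s : Finset ι) (f : ι → RA n) (h : ∀ i ∈ s, IC n (f i)) :
    IC n (∑ i ∈ s, f i) := by
  intro c hc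
  choose! u hu using fun i hi => h i hi c hc
  exact ⟨∑ i ∈ s, u i, by rw [rco_sum]; push_cast; exact sum_congr rfl hu⟩

theorem IC.of_AR {w M n : ℕ} {ad : ℕ → ℕ} {L : List Bool} {a : RA n} (h : AR w M n ad L a) :
    IC n a := fun c hc => let ⟨u, hu, _⟩ := h c hc; ⟨u, hu⟩

/-- exact shift -/
theorem asr_exact {w M n D : ℕ} {ad : ℕ → ℕ} {X Z : List Bool} {a : RA n} (hi : IC n a)
    (ha : AR w M n ad X (2 ^ D * a)) (hb : 2 * nrm n (2 ^ D * a) < 2 ^ w)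
    (h : ∀ c < 2 * n, ∀ u : ℤ, WR w M X (ad c) u → 2 * |u| < 2 ^ w → WR w M Z (ad c) (u / 2 ^ D)) :
    AR w M n ad Z a := by
  intro c hc
  obtain ⟨u, h1, h2⟩ := ha c hc
  obtain ⟨v, hv⟩ := hi c hc
  have h3 := abs_rco_le (2 ^ D * a) hc
  have h4 : u = 2 ^ D * v := by
    have := rco_intCast_mul (2 ^ D) a c
    push_cast at this
    rw [h1, hv] at this
    exact_mod_cast this
  have h5 := h c hc u h2 (by
    rw [h1] at h3
    have : (2 : ℝ) * |(u : ℝ)| < 2 ^ w := by linarith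
    exact_mod_cast this)
  rw [h4, Int.mul_ediv_cancel_left _ (by positivity)] at h5
  exact ⟨v, hv, h5⟩

end CV

theorem g_ex {q bb : ℕ} (hq : 2 ≤ q) (hL : LayerStmt q bb) (hT : TransStmt) :
    ∃ (p : Prog) (C : ℕ), ∀ (B P : ℕ) (r : Prog) (π : Par) (dir : ℕ) (X : List Bool),
    π.Ok q bb P → π.Big C B P → dir ≤ 1 → X.length = π.N0 →
    ∃ Z : List Bool, Z.length = π.N0 ∧ Top B P r p (dir :: π.args) X Z (C * π.N0 * π.ovG P) ∧
      ∀ bt < π.Bt, ∀ (a : (ℕ → ℕ) → RA π.n) (μ : ℝ),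
        (∀ x ∈ box (fun _ => π.t) π.d, AR π.w (π.t ^ π.d * (2 * π.n) * π.Bt) π.n
          (sad π.n π.Bt (mr (fun _ => π.t) 0 π.d x) bt) X (a x) ∧ nrm π.n (a x) ≤ μ) →
        μ * 2 ^ (π.k * π.d + Dn bb π.J + π.d + 1) < 2 ^ π.w →
        ∀ x ∈ box (fun _ => π.t) π.d, AR π.w (π.t ^ π.d * (2 * π.n) * π.Bt) π.n
          (sad π.n π.Bt (mr (fun _ => π.t) 0 π.d x) bt) Z
          (if dir = 0 then Gf (xr π.n ^ π.ρx) π.k π.d π.k a x
            else Gb (xr π.n ^ π.ρx) π.k π.d π.k a x) := by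
  have _ := hq
  obtain ⟨p₁, C₁, h₁⟩ := CV.su_ex hT
  obtain ⟨p₂, C₂, h₂⟩ := CV.lay_ex hL
  obtain ⟨p₃, C₃, h₃⟩ := CV.us_ex hT
  refine ⟨.call (fwd 1 20) p₁ ;; .call (fwd 0 21) p₂ ;; .call (fwd 1 20) p₃, C₁ + C₂ + C₃ + 5,
    fun B P r π dir X ok big hd hX => ?_⟩
  obtain ⟨Z₁, l₁, t₁, s₁⟩ := h₁ q bb B P r π X ok (big.mono (by omega)) hX
  obtain ⟨Z₂, l₂, t₂, s₂⟩ := h₂ B P r π dir Z₁ ok (big.mono (by omega)) hd l₁
  obtain ⟨Z₃, l₃, t₃, s₃⟩ := h₃ q bb B P r π Z₂ ok (big.mono (by omega)) l₂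
  have e1 : (fwd 1 20).map (fun e => e.ev B P (dir :: π.args)) = π.args := ev_fwd' _ rfl
  have e0 : (fwd 0 21).map (fun e => e.ev B P (dir :: π.args)) = dir :: π.args := ev_fwd' _ rfl
  have o1 : ∀ v ∈ π.args, Ok B (dir :: π.args) v := fun v hv => Or.inr (List.mem_cons_of_mem _ hv)
  refine ⟨Z₃, l₃, (((Go.call e1 o1 t₁).seq ((Go.call e0 (fun v hv => Or.inr hv) t₂).seq
    (Go.call e1 o1 t₃))).mono ?_).top, fun bt hbt a μ ha hμ x hx => ?_⟩
  · have k3 : (P : ℝ) ≤ π.N0 := by exact_mod_cast ok.P_le_N0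
    have k4 : (1 : ℝ) ≤ P := by exact_mod_cast ok.hP
    have k5 : (π.N0 : ℝ) ≤ π.N0 * π.ovG P :=
      le_mul_of_one_le_right (by positivity) (CV.one_le_ovG π P)
    push_cast
    nlinarith
  · exact (s₂ bt hbt a μ (fun y hy => ⟨(ha y hy).1.move fun c hc u hu =>
      hu.move fun β hβ => s₁ β hβ bt hbt y hy c hc, (ha y hy).2⟩) hμ x hx).move
      fun c hc u hu => hu.move fun β hβ => (s₃ β hβ bt hbt x hx c hc).symm

/-- Exact convolution. -/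
def ConvStmt (q bb : ℕ) : Prop :=
  ∀ mul : Prog, ∃ (p : Prog) (C : ℕ), ∀ (B P : ℕ) (r : Prog) (π : Par) (x₁ : ℝ)
    (X Y : List Bool), π.Ok q bb P → π.Big C B P → π.Mul1 B P r mul x₁ →
    X.length = π.N0 → Y.length = π.N0 →
    ∃ Z : List Bool, Z.length = π.N0 ∧
      Top B P r p π.args (X ++ Y) Z (x₁ + C * π.N0 * π.ovG P) ∧
      ∀ bt < π.Bt, ∀ a b : (ℕ → ℕ) → RA π.n,
        (∀ x ∈ box (fun _ => π.t) π.d, AR π.w (π.t ^ π.d * (2 * π.n) * π.Bt) π.n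
          (sad π.n π.Bt (mr (fun _ => π.t) 0 π.d x) bt) X (a x) ∧ nrm π.n (a x) ≤ 2 ^ (2 * π.p)) →
        (∀ x ∈ box (fun _ => π.t) π.d, AR π.w (π.t ^ π.d * (2 * π.n) * π.Bt) π.n
          (sad π.n π.Bt (mr (fun _ => π.t) 0 π.d x) bt) Y (b x) ∧ nrm π.n (b x) ≤ 2 ^ (2 * π.p)) →
        ∀ x ∈ box (fun _ => π.t) π.d, AR π.w (π.t ^ π.d * (2 * π.n) * π.Bt) π.n
          (sad π.n π.Bt (mr (fun _ => π.t) 0 π.d x) bt) Z (cconv (fun _ => π.t) π.d a b x)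

theorem conv_ex {q bb : ℕ} (hq : 2 ≤ q) (hL : LayerStmt q bb) (hT : TransStmt) :
    ConvStmt q bb := by
  intro mul
  obtain ⟨p₁, C₁, h₁⟩ := g_ex hq hL hT
  obtain ⟨p₂, C₂, h₂⟩ := exch_ex
  obtain ⟨p₃, C₃, h₃⟩ := pmul_ex hT mul
  obtain ⟨p₄, C₄, h₄⟩ := asr_ex
  refine ⟨.lett (Ex.pow (.var 13) (.var 12)) (.lett (.var 0 * (2 * .var 15) * .var 10)
    (.call (0 :: fwd 2 20) p₁ ;; .call [.var 18 * .var 0, .var 18 * .var 0] p₂ ;;
      .call (0 :: fwd 2 20) p₁ ;; .call [.var 7, .var 18, .var 1, .var 16, .var 11] p₃ ;;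
      .call (1 :: fwd 2 20) p₁ ;; .call [.var 18, .var 0, .var 3 * .var 14] p₄)),
    3 * C₁ + 3 * C₂ + 2 * C₃ + 2 * C₄ + 13, fun B P r π x₁ X Y ok big m1 hX hY => ?_⟩
  have hw := CV.one_le_w ok
  have hn := π.one_le_n
  have hD := ok.hD
  have hp := ok.le_p
  have hBt := ok.hBt
  have hw6 : π.w = 6 * π.p := rfl
  have hT0 : 0 < π.t ^ π.d := pow_pos π.one_le_t _
  have hM0 : 0 < π.t ^ π.d * (2 * π.n) * π.Bt := by positivity
  have hNB : π.N0 ≤ B := CV.N0_le big (by omega)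
  have hMB : π.t ^ π.d * (2 * π.n) * π.Bt ≤ B := Q4.le_of_mul π.w hw hNB (mul_comm _ _)
  have hTB : π.t ^ π.d ≤ B := Q4.le_of_mul (2 * π.n * π.Bt) (Nat.mul_pos (by omega) hBt) hMB
    (mul_assoc _ _ _)
  have hwB : π.w ≤ B := Q4.le_of_mul _ hM0 hNB rfl
  have hkd : 3 * π.k * π.d = 3 * (π.k * π.d) := mul_assoc _ _ _
  have h2n : 2 * π.n = 2 ^ π.e := by
    have := ok.hke
    unfold Par.n
    rw [← pow_succ']; congr 1; omega
  obtain ⟨X₁, l₁, t₁, s₁⟩ := h₁ B P r π 0 X ok (big.mono (by omega)) (by omega) hX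
  have t₂ := h₂ B P r _ _ X₁ Y ok.hP l₁ hY
  obtain ⟨Y₁, l₃, t₃, s₃⟩ := h₁ B P r π 0 Y ok (big.mono (by omega)) (by omega) hY
  obtain ⟨Z₁, l₄, t₄, s₄⟩ := h₃ B P r π.jt π.w (π.t ^ π.d) π.n π.Bt x₁ Y₁ X₁ ok.hP hw hT0 hn hBt
    (by rw [h2n]; exact Nat.pow_le_pow_right (by norm_num) (by omega))
    (big.mono (C' := C₃) (by omega)).1 big.2.2 (m1 _ ok.S_le le_rfl) l₃ l₁
  obtain ⟨Z₂, l₅, t₅, s₅⟩ := h₁ B P r π 1 Z₁ ok (big.mono (by omega)) le_rfl l₄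
  obtain ⟨Z, l₆, t₆, s₆⟩ := h₄ B P r π.w _ (π.k * π.d) Z₂ ok.hP hM0 (by omega) l₅
  generalize hE : π.t ^ π.d * (2 * π.n) * π.Bt :: π.t ^ π.d :: π.args = env
  have e1 : (fwd 2 20).map (fun e => e.ev B P env) = π.args := by rw [← hE]; exact ev_fwd' _ rfl
  have o1 : ∀ v ∈ π.args, Ok B env v := fun v hv => Or.inr (by simp [← hE, hv])
  have g1 := Go.call (args := 0 :: fwd 2 20) (env := env) (by simp only [List.map_cons, e1]; rfl)
    (List.forall_mem_cons.2 ⟨Or.inl (Nat.zero_le _), o1⟩) (t₁.frame Y)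
  have g2 := Go.call (args := [.var 18 * .var 0, .var 18 * .var 0]) (env := env)
    (by rw [← hE]; rfl) (by simp [Ok, hNB]) t₂
  have g3 := Go.call (args := 0 :: fwd 2 20) (env := env) (by simp only [List.map_cons, e1]; rfl)
    (List.forall_mem_cons.2 ⟨Or.inl (Nat.zero_le _), o1⟩) (t₃.frame X₁)
  have g4 := Go.call (args := [.var 7, .var 18, .var 1, .var 16, .var 11]) (env := env)
    (by rw [← hE]; rfl) (by simp [Ok, ← hE, Par.args]) t₄
  have g5 := Go.call (args := 1 :: fwd 2 20) (env := env) (by simp only [List.map_cons, e1]; rfl)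
    (List.forall_mem_cons.2 ⟨Or.inl (by omega), o1⟩) t₅
  have g6 := Go.call (args := [.var 18, .var 0, .var 3 * .var 14]) (env := env)
    (by rw [← hE]; rfl) (by simp [Ok, hwB, hMB, show π.k * π.d ≤ B by omega]) t₆
  subst hE
  have v1 : (Ex.pow (.var 13) (.var 12)).ev B P π.args = π.t ^ π.d := Ex.ev_pow ok.two_le_t hTB
  refine ⟨Z, l₆, (Go.lett v1 (Or.inl hTB) (Go.lett (e := .var 0 * (2 * .var 15) * .var 10)
    (by rfl) (Or.inl hMB) (g1.seq (g2.seq (g3.seq (g4.seq (g5.seq g6))))))).top.mono ?_,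
    fun bt hbt a b ha hb x hx => ?_⟩
  · have k3 : (P : ℝ) ≤ π.N0 := by exact_mod_cast ok.P_le_N0
    have k4 : (1 : ℝ) ≤ P := by exact_mod_cast ok.hP
    have k5 : (π.N0 : ℝ) ≤ π.N0 * π.ovG P :=
      le_mul_of_one_le_right (by positivity) (CV.one_le_ovG π P)
    have k6 : (π.w : ℝ) * ((π.t ^ π.d : ℕ) * (2 * π.n) * π.Bt) = π.N0 := by
      unfold Par.N0; push_cast; ring
    have k7 : (π.w : ℝ) * (π.t ^ π.d * (2 * π.n) * π.Bt : ℕ) = π.N0 := by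
      unfold Par.N0; push_cast; ring
    have k8 := π.tr_le_ovG P
    have k9 := π.one_le_tr P
    rw [k6, k7]
    change _ + _ + (_ + _ + (_ + _ + (_ + _ * π.tr P + _ + _ + _) + _) + _) + _ + _ + _ ≤ _
    have a2 := Q4.cle C₂ (show (π.N0 : ℝ) + π.N0 + P ≤ 3 * (π.N0 * π.ovG P) by linarith)
    have a3 := Q4.cle C₃ (show ((π.N0 : ℝ) + P) * π.tr P ≤ 2 * (π.N0 * π.ovG P) by nlinarith)
    have a4 := Q4.cle C₄ (show (π.N0 : ℝ) + P ≤ 2 * (π.N0 * π.ovG P) by linarith)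
    push_cast
    nlinarith
  · have hXo : (xr π.n ^ π.ρx) ^ 2 ^ π.k = -1 := by
      rw [← pow_mul, mul_comm, show 2 ^ π.k * π.ρx = 2 * π.n from ok.t_mul_ρx, xr_pow_two_mul]
    have c1 : (2 : ℝ) ^ (2 * π.p) * 2 ^ (π.k * π.d + Dn bb π.J + π.d + 1) < 2 ^ π.w := by
      rw [← pow_add]; exact pow_lt_pow_right₀ (by norm_num) (by omega)
    have r₁ := s₁ bt hbt a _ ha c1
    have r₃ := s₃ bt hbt b _ hb c1
    simp only [if_true] at r₁ r₃
    have n₁ := nrm_Gf π.ρx π.k π.d π.k le_rfl a fun y hy => (ha y hy).2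
    have n₃ := nrm_Gf π.ρx π.k π.d π.k le_rfl b fun y hy => (hb y hy).2
    have n₄ : ∀ y ∈ box (fun _ => 2 ^ π.k) π.d, nrm π.n (Gf (xr π.n ^ π.ρx) π.k π.d π.k a y *
        Gf (xr π.n ^ π.ρx) π.k π.d π.k b y) ≤ 2 ^ (π.e + 2 * (π.k * π.d) + 4 * π.p) := by
      intro y hy
      have : (π.n : ℝ) ≤ 2 ^ π.e := by exact_mod_cast (by omega : π.n ≤ 2 ^ π.e)
      refine (nrm_mul_le _ _).trans ((mul_le_mul this (mul_le_mul (n₁ y hy) (n₃ y hy)
        (nrm_nonneg _) (by positivity)) (mul_nonneg (nrm_nonneg _) (nrm_nonneg _))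
        (by positivity)).trans (le_of_eq (by ring)))
    have r₅ := s₅ bt hbt (fun y => Gf (xr π.n ^ π.ρx) π.k π.d π.k a y *
        Gf (xr π.n ^ π.ρx) π.k π.d π.k b y) _ (fun y hy => ⟨by
          rw [mul_comm (Gf _ _ _ _ a y)]
          exact s₄ _ (CV.mrc_lt (mem_box.1 hy).1) bt hbt _ _ (r₃ y hy) (r₁ y hy), n₄ y hy⟩)
      (by rw [← pow_add]; exact pow_lt_pow_right₀ (by norm_num) (by omega)) x hx
    have n₅ := nrm_Gb π.ρx π.k π.d π.k le_rfl _ n₄ x hx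
    rw [if_neg one_ne_zero] at r₅
    rw [fft_conv hXo π.d a b hx] at r₅ n₅
    refine CV.asr_exact (CV.IC.sum _ _ fun y hy => (CV.IC.of_AR (ha y hy).1).mul hn
      (CV.IC.of_AR (hb _ (csub_mem_box (fun _ _ => π.one_le_t) _ _)).1)) r₅ ?_
      fun c hc => s₆ _ (Q4.lt_mul (Q4.lt_mul (CV.mrc_lt (mem_box.1 hx).1) hc) hbt)
    refine lt_of_le_of_lt (mul_le_mul_of_nonneg_left n₅ (by norm_num)) ?_
    rw [← pow_add, ← pow_succ']
    exact pow_lt_pow_right₀ (by norm_num) (by omega)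

end Crest.Agent.IM
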