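import Crest.Agent.IM.CrtA

/-! TASK IM-Y. The Chinese remainder rearrangement. Forward: `j = u S + v`; transpose
(`O = w`, `A = 2 n`, `A' = S`, `I = Bt`); `tw` by `αx v` (`O = S`, `R = 2 n`, `I = Bt`;
`αx j ≡ u + αx v mod 4 n`; `Ex.powmod`); then for `i < d`, with `M i = pr s (i + 1) d`,
`v i = u i * M i + v (i + 1)`, `I = pr s 0 i * (2 n) * Bt`: transpose (`O = w`, `A = s i`,
`A' = M i`, `I`) and `rot` rows `s i * I` by `cc i * v (i + 1) % s i * I`
(`cc i * j ≡ u i + cc i * v (i + 1) mod s i`; compute `cc i` by a `fold` modulo `s i`).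
Track the address of coefficient `j`; finish with `crt_surj`, `rco_emb`. Backward: the inverse
passes in the opposite order (exponent `4 n - αx v % (4 n)`). -/

set_option autoImplicit false

namespace Crest.Agent.IM

namespace CY
open Q4

/-- The first two passes and their inverses. -/
theorem head_ex (hT : TransStmt) : ∃ (p p' : Prog) (C : ℕ), ∀ (q bb B P : ℕ) (r : Prog)
    (π : Par) (L : List Bool), π.Ok q bb P → π.Big C B P →
    L.length = π.w * (π.S * (2 * π.n) * π.Bt) →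
    (∃ L' : List Bool, L'.length = π.w * (π.S * (2 * π.n) * π.Bt) ∧
      Go B P r p π.args L π.args L' (C * π.N0 * π.tr P) ∧
      ∀ j < 2 * π.n * π.S, ∀ bt < π.Bt, ∀ u : ℤ,
        WR π.w (2 * π.n * π.S * π.Bt) L (j * π.Bt + bt) u →
        WR π.w (π.S * (2 * π.n) * π.Bt) L' (adr π 0 j (π.αx * j % (2 * π.n)) bt)
          ((-1) ^ (π.αx * j / (2 * π.n)) * u)) ∧
    (∃ L' : List Bool, L'.length = π.w * (π.S * (2 * π.n) * π.Bt) ∧
      Go B P r p' π.args L π.args L' (C * π.N0 * π.tr P) ∧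
      ∀ j < 2 * π.n * π.S, ∀ bt < π.Bt, ∀ u : ℤ,
        WR π.w (π.S * (2 * π.n) * π.Bt) L (adr π 0 j (π.αx * j % (2 * π.n)) bt)
          ((-1) ^ (π.αx * j / (2 * π.n)) * u) →
        WR π.w (2 * π.n * π.S * π.Bt) L' (j * π.Bt + bt) u) := by
  obtain ⟨p, p', C, hp⟩ := shear_ex hT
  obtain ⟨p₁, C₁, h₁⟩ := tw_ex (.var 1 * .var 0) 2
  obtain ⟨p₂, C₂, h₂⟩ := tw_ex (.var 2 - .var 1 * .var 0 % .var 2) 2
  refine ⟨.call [.var 5, .var 16, 2 * .var 14, .var 17, .var 9, 0] p ;;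
      .call [.var 16, .var 17, 2 * .var 14, .var 9,
        Ex.powmod (.var 17) (2 * .var 14 - 1) (4 * .var 14), 4 * .var 14] p₁,
    .call [.var 16, .var 17, 2 * .var 14, .var 9,
        Ex.powmod (.var 17) (2 * .var 14 - 1) (4 * .var 14), 4 * .var 14] p₂ ;;
      .call [.var 5, .var 16, 2 * .var 14, .var 17, .var 9, 0] p',
    C + 2 * C₁ + 2 * C₂ + 3, fun q bb B P r π L h hB hL => ?_⟩
  have hw := one_le_w h
  have hn := π.one_le_n
  have hS := π.one_le_S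
  have hBt := h.hBt
  have hP := h.hP
  have hN := M_le_N0 h
  have b0 : 2 * π.N0 ≤ B := (Nat.mul_le_mul_right _ (by omega)).trans hB.1
  have b1 : 2 * π.n ≤ π.N0 := by
    refine le_trans ?_ hN
    calc 2 * π.n = 1 * (1 * (2 * π.n) * 1) := by ring
      _ ≤ _ := by gcongr
  have b2 : π.αx ≤ B := (Nat.mod_lt _ (by omega : 0 < 4 * π.n)).le.trans (by omega)
  have b3 : π.w * π.S * P ≤ π.N0 := by
    refine le_trans ?_ hN
    rw [mul_assoc, mul_assoc π.S]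
    gcongr
    exact h.hPn
  have e0 : π.w * (2 * π.n) * π.S * π.Bt = π.w * (π.S * (2 * π.n) * π.Bt) := by ring
  have key := fun L hL => hp B P r π.jt π.w (2 * π.n) π.S π.Bt 0 π.N0 (π.tr P) L hP hw (by omega)
    hS hBt (by rw [e0]; exact hN) b3 ((Nat.mul_le_mul_right _ (by omega)).trans hB.1) hB.2.2
    (trc_le h (by rw [mul_comm]) le_rfl) hL
  have a1 : List.map (fun a => Ex.ev B P a π.args)
      [.var 5, .var 16, 2 * .var 14, .var 17, .var 9, 0] =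
      [π.jt, π.w, 2 * π.n, π.S, π.Bt, 0] := rfl
  have o1 : ∀ v ∈ [π.jt, π.w, 2 * π.n, π.S, π.Bt, 0], Ok B π.args v := by
    simp [Ok, Par.args, show 2 * π.n ≤ B by omega]
  have a2 : List.map (fun a => Ex.ev B P a π.args) [.var 16, .var 17, 2 * .var 14, .var 9,
      Ex.powmod (.var 17) (2 * .var 14 - 1) (4 * .var 14), 4 * .var 14] =
      π.w :: π.S :: 2 * π.n :: π.Bt :: [π.αx, 4 * π.n] := by
    have : (Ex.powmod (.var 17) (2 * .var 14 - 1) (4 * .var 14)).ev B P π.args = π.αx := by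
      rw [Ex.ev_powmod] <;> simp [Par.args, Par.αx] <;> omega
    simp only [List.map_cons, this]
    rfl
  have o2 : ∀ v ∈ π.w :: π.S :: 2 * π.n :: π.Bt :: [π.αx, 4 * π.n], Ok B π.args v := by
    simp [Ok, Par.args, show 2 * π.n ≤ B by omega, show 4 * π.n ≤ B by omega, b2]
  have r1 : (P : ℝ) ≤ π.N0 := by exact_mod_cast h.P_le_N0
  have r2 : (1 : ℝ) ≤ P := by exact_mod_cast hP
  have r3 := π.one_le_tr P
  have r4 : (π.N0 : ℝ) ≤ π.N0 * π.tr P := le_mul_of_one_le_right (by positivity) r3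
  have r5 : ∀ C : ℕ, (0 : ℝ) ≤ C * (π.N0 * π.tr P) := fun C => by positivity
  have r6 : ∀ C : ℕ, (C : ℝ) * (π.w * (π.S * (2 * π.n : ℕ) * π.Bt) + π.w * π.S * P) ≤
      C * (2 * (π.N0 * π.tr P)) := fun C => cle _ (by
    have k1 : ((π.w * (π.S * (2 * π.n) * π.Bt) : ℕ) : ℝ) ≤ π.N0 := by exact_mod_cast hN
    have k2 : ((π.w * π.S * P : ℕ) : ℝ) ≤ π.N0 := by exact_mod_cast b3
    push_cast at *
    linarith)
  have ad : ∀ j c bt, adr π 0 j c bt = (j % π.S * (2 * π.n) + c) * π.Bt + bt := fun j c bt => by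
    simp [adr, Par.S]
  have dv : ∀ j < 2 * π.n * π.S, j / π.S < 2 * π.n := fun j hj =>
    (Nat.div_lt_iff_lt_mul hS).2 hj
  have md : ∀ j, π.αx * j ≡ j / π.S + π.αx * (j % π.S) [MOD 2 * (2 * π.n)] := fun j => by
    have k1 := (h.αx_mul.mul_right (j / π.S)).add_right (π.αx * (j % π.S))
    rw [one_mul, mul_assoc, ← mul_add, Nat.div_add_mod] at k1
    rwa [show 2 * (2 * π.n) = 4 * π.n by ring]
  constructor
  · obtain ⟨L₁, l₁, t₁, e₁⟩ := (key L (by rw [hL, e0])).1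
    obtain ⟨L₂, l₂, t₂, e₂⟩ := h₁ B P r π.w π.S (2 * π.n) π.Bt [π.αx, 4 * π.n] L₁ hP rfl hw hS
      (by omega) hBt (by omega) (by rw [l₁, e0])
    refine ⟨L₂, l₂, ((Go.call a1 o1 t₁).seq (Go.call a2 o2 t₂)).mono ?_, fun j hj bt hbt u hu => ?_⟩
    · have := r6 C₁
      have := r5 C₂
      push_cast at *
      nlinarith
    · have w₁ : WR π.w (π.S * (2 * π.n) * π.Bt) L₁
          ((j % π.S * (2 * π.n) + j / π.S) * π.Bt + bt) u := hu.move fun β hβ => by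
        have := e₁ β hβ _ (dv j hj) _ (Nat.mod_lt j hS) bt hbt
        rw [zero_mul, add_zero, Nat.mod_eq_of_lt (dv j hj)] at this
        convert this using 2
        · ring
        · conv_lhs => rw [← Nat.div_add_mod j π.S]
          ring
      have w₂ := e₂ _ (Nat.mod_lt j hS) _ (dv j hj) bt hbt u w₁
      obtain ⟨s1, s2⟩ := sign_congr (by omega) (md j)
      rw [ad, s1, s2]
      exact w₂
  · obtain ⟨L₁, l₁, t₁, e₁⟩ := h₂ B P r π.w π.S (2 * π.n) π.Bt [π.αx, 4 * π.n] L hP rfl hw hS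
      (by omega) hBt (by omega) hL
    obtain ⟨L₂, l₂, t₂, e₂⟩ := (key L₁ (by rw [l₁, e0])).2
    refine ⟨L₂, by rw [l₂, e0], ((Go.call a2 o2 t₁).seq (Go.call a1 o1 t₂)).mono ?_,
      fun j hj bt hbt u hu => ?_⟩
    · have := r6 C₂
      have := r5 C₁
      push_cast at *
      nlinarith
    · rw [ad] at hu
      have w₁ := e₁ _ (Nat.mod_lt j hS) _ (Nat.mod_lt _ (by omega)) bt hbt _ hu
      simp only [Ex.ev_mul, Ex.ev_mod, Ex.ev_sub, Ex.ev_var, List.getD_cons_succ,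
        List.getD_cons_zero] at w₁
      generalize hφ : 4 * π.n - π.αx * (j % π.S) % (4 * π.n) = φ at w₁
      have m1 : π.αx * j + φ ≡ j / π.S [MOD 2 * (2 * π.n)] := by
        refine ((md j).add_right φ).trans ?_
        have k1 := Nat.mod_lt (π.αx * (j % π.S)) (by omega : 0 < 4 * π.n)
        have k2 := Nat.div_add_mod (π.αx * (j % π.S)) (4 * π.n)
        rw [show j / π.S + π.αx * (j % π.S) + φ =
          j / π.S + 4 * π.n * (π.αx * (j % π.S) / (4 * π.n) + 1) by rw [mul_add]; omega,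
          show 2 * (2 * π.n) = 4 * π.n by ring]
        exact Nat.add_mul_mod_self_left _ _ _
      obtain ⟨s1, s2⟩ := sign_congr (by omega) m1
      rw [Nat.mod_eq_of_lt (dv j hj)] at s1
      rw [Nat.div_eq_of_lt (dv j hj), pow_zero] at s2
      have s3 : (π.αx * j + φ) / (2 * π.n) =
          (π.αx * j % (2 * π.n) + φ) / (2 * π.n) + π.αx * j / (2 * π.n) := by
        conv_lhs => rw [← Nat.div_add_mod (π.αx * j) (2 * π.n), add_assoc,
          Nat.mul_add_div (by omega), add_comm]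
      rw [Nat.mod_add_mod, s1, ← mul_assoc _ _ u, ← pow_add, ← s3, s2, one_mul] at w₁
      refine w₁.move fun β hβ => ?_
      have := e₂ β hβ _ (dv j hj) _ (Nat.mod_lt j hS) bt hbt
      rw [zero_mul, add_zero, Nat.mod_eq_of_lt (dv j hj)] at this
      convert this.symm using 2
      · conv_lhs => rw [← Nat.div_add_mod j π.S]
        ring
      · ring

theorem adr_d (π : Par) (j c bt : ℕ) :
    adr π π.d j c bt = sad π.n π.Bt (mr π.s 0 π.d (π.γ j)) bt c := by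
  simp [adr, sad, Nat.mod_one]

theorem cost_le {π : Par} {q bb P : ℕ} (h : π.Ok q bb P) (C C' : ℕ) :
    (C : ℝ) * π.N0 * π.tr P + C' * π.N0 * ((π.d + 1) * π.tr P) + 1 ≤
      ((C + C' + 1 : ℕ) : ℝ) * π.N0 * ((π.d + 1) * π.tr P) := by
  have r1 : (1 : ℝ) ≤ π.N0 := by exact_mod_cast h.hP.trans h.P_le_N0
  have r3 := π.one_le_tr P
  have r4 : π.tr P ≤ (π.d + 1) * π.tr P :=
    le_mul_of_one_le_left (by linarith) (by linarith [Nat.cast_nonneg (α := ℝ) π.d])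
  have r5 : (C : ℝ) * π.N0 * π.tr P ≤ C * π.N0 * ((π.d + 1) * π.tr P) :=
    mul_le_mul_of_nonneg_left r4 (by positivity)
  have r6 : (1 : ℝ) * 1 ≤ π.N0 * ((π.d + 1) * π.tr P) :=
    mul_le_mul r1 (by linarith) zero_le_one (by linarith)
  push_cast
  linarith

end CY
open CY

theorem crtF_ex (hT : TransStmt) : ∃ (p : Prog) (C : ℕ), ∀ (q bb B P : ℕ) (r : Prog) (π : Par)
    (X : List Bool), π.Ok q bb P → π.Big C B P → X.length = π.w * (2 * π.n * π.S * π.Bt) →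
    ∃ Z : List Bool, Z.length = π.w * (π.S * (2 * π.n) * π.Bt) ∧
      Top B P r p π.args X Z (C * π.N0 * ((π.d + 1) * π.tr P)) ∧
      ∀ bt < π.Bt, ∀ f : ℕ → ℤ,
        (∀ j < 2 * π.n * π.S, WR π.w (2 * π.n * π.S * π.Bt) X (j * π.Bt + bt) (f j)) →
        ∀ x ∈ box π.s π.d, AR π.w (π.S * (2 * π.n) * π.Bt) π.n
          (sad π.n π.Bt (mr π.s 0 π.d x) bt) Z (π.emb f x) := by
  obtain ⟨p, _, C, hp⟩ := head_ex hT
  obtain ⟨p', _, C', hp'⟩ := loops_ex hT
  refine ⟨p ;; p', C + C' + 1, fun q bb B P r π X h hB hX => ?_⟩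
  obtain ⟨L₁, l₁, g₁, e₁⟩ := (hp q bb B P r π X h (hB.mono (by omega)) (by rw [hX]; ring)).1
  obtain ⟨L₂, l₂, g₂, e₂⟩ := (hp' q bb B P r π L₁ h (hB.mono (by omega)) l₁).1
  refine ⟨L₂, l₂, ((g₁.seq g₂).mono (cost_le h C C')).top, fun bt hbt f hf x hx c hc => ?_⟩
  obtain ⟨j, hj, rfl, rfl⟩ := h.crt_surj hx hc
  refine ⟨_, h.rco_emb f hj, ?_⟩
  rw [← adr_d]
  exact (e₁ j hj bt hbt _ (hf j hj)).move fun β hβ => e₂ β hβ j _ hc bt hbt

theorem crtB_ex (hT : TransStmt) : ∃ (p : Prog) (C : ℕ), ∀ (q bb B P : ℕ) (r : Prog) (π : Par)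
    (X : List Bool), π.Ok q bb P → π.Big C B P → X.length = π.w * (π.S * (2 * π.n) * π.Bt) →
    ∃ Z : List Bool, Z.length = π.w * (2 * π.n * π.S * π.Bt) ∧
      Top B P r p π.args X Z (C * π.N0 * ((π.d + 1) * π.tr P)) ∧
      ∀ bt < π.Bt, ∀ f : ℕ → ℤ,
        (∀ x ∈ box π.s π.d, AR π.w (π.S * (2 * π.n) * π.Bt) π.n
          (sad π.n π.Bt (mr π.s 0 π.d x) bt) X (π.emb f x)) →
        ∀ j < 2 * π.n * π.S, WR π.w (2 * π.n * π.S * π.Bt) Z (j * π.Bt + bt) (f j) := by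
  obtain ⟨_, p, C, hp⟩ := head_ex hT
  obtain ⟨_, p', C', hp'⟩ := loops_ex hT
  refine ⟨p' ;; p, C + C' + 1, fun q bb B P r π X h hB hX => ?_⟩
  obtain ⟨L₁, l₁, g₁, e₁⟩ := (hp' q bb B P r π X h (hB.mono (by omega)) hX).2
  obtain ⟨L₂, l₂, g₂, e₂⟩ := (hp q bb B P r π L₁ h (hB.mono (by omega)) l₁).2
  refine ⟨L₂, by rw [l₂]; ring, ((g₁.seq g₂).mono ((le_of_eq (by ring)).trans
    (cost_le h C C'))).top, fun bt hbt f hf j hj => e₂ j hj bt hbt _ ?_⟩
  have hc : π.αx * j % (2 * π.n) < 2 * π.n := Nat.mod_lt _ (by have := π.one_le_n; omega)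
  obtain ⟨u, hu, wu⟩ := hf _ (π.γ_mem_box j) _ hc
  rw [h.rco_emb f hj, Int.cast_inj] at hu
  rw [← adr_d, ← hu] at wu
  exact wu.move fun β hβ => (e₁ β hβ j _ hc bt hbt).symm

end Crest.Agent.IM
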