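import Crest.Agent.IM.Par

/-! TASK IM-Z. Cutting numbers into coefficients and adding them up again.
`split`: `resize` to `N b` slices, transpose (`O = 1`, `A = N`, `A' = b`, `I = Bt`), push
`f N Bt` zeros, `resize` to `w` slices (`testBit_wd`, `wd_add`).
`join`: truncate to `3 b` slices (`WR.eq_wd`), transpose (`O = 3`, `A = b`, `A' = N`): three
numbers `P₀ P₁ P₂` of `N b` slices; `rev`, `shl b`, `add2`, `shl b`, `add2`; truncate to `2 m`
slices. -/

set_option autoImplicit false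
open Finset

namespace Crest.Agent.IM

namespace SP

theorem testBit_wd' (w M : ℕ) (L : List Bool) (a β : ℕ) :
    (wd w M L a).testBit β = (decide (β < w) && bit L (β * M + a)) := by
  by_cases h : β < w
  · rw [testBit_wd L a h]; simp [h]
  · rw [Nat.testBit_lt_two_pow ((wd_lt _ _ _ _).trans_le
      (Nat.pow_le_pow_right (by norm_num) (not_lt.1 h)))]
    simp [h]

theorem wd_blocks {N b M a : ℕ} {L : List Bool} (y : ℕ → ℕ)
    (h : ∀ i < N, ∀ β < b, bit L ((i * b + β) * M + a) = (y i).testBit β) :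
    wd (N * b) M L a = ∑ i ∈ range N, y i % 2 ^ b * 2 ^ (b * i) := by
  induction N with
  | zero => simp [wd]
  | succ N ih =>
    rw [add_one_mul, wd_add, ih fun i hi => h i (by omega), sum_range_succ, mul_comm b N,
      mul_comm (2 ^ (N * b))]
    congr 2
    refine Nat.eq_of_testBit_eq fun β => ?_
    rw [testBit_wd', Nat.testBit_mod_two_pow, bit_drop]
    by_cases hβ : β < b
    · rw [← h N (by omega) β hβ, add_mul, add_assoc]
    · simp [hβ]

theorem sum_digits (b v K : ℕ) :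
    ∑ k ∈ range K, v / 2 ^ (b * k) % 2 ^ b * 2 ^ (b * k) = v % 2 ^ (b * K) := by
  induction K with
  | zero => simp [Nat.mod_one]
  | succ K ih => rw [sum_range_succ, ih, mul_add, mul_one, pow_add, Nat.mod_mul]; ring

theorem three_digits {b c : ℕ} (h : c < 2 ^ (3 * b)) :
    c = c / 2 ^ (0 * b) % 2 ^ b + 2 ^ b * (c / 2 ^ (1 * b) % 2 ^ b +
      2 ^ b * (c / 2 ^ (2 * b) % 2 ^ b)) := by
  have := sum_digits b c 3
  rw [mul_comm b 3, Nat.mod_eq_of_lt h] at this
  conv_lhs => rw [← this]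
  simp only [sum_range_succ, range_zero, sum_empty, mul_comm b]
  ring

end SP

open SP Q4

theorem split_ex (hT : TransStmt) : ∃ (p : Prog) (C : ℕ), ∀ (B P : ℕ) (r : Prog)
    (j m b N Bt w f : ℕ) (X : List Bool), 1 ≤ P → 1 ≤ b → 1 ≤ N → 1 ≤ Bt → m ≤ N * b →
    f + b ≤ w → C * (w * (N * Bt)) ≤ B → WW ^ j * P ≤ B → X.length = m * Bt →
    ∃ Z : List Bool, Z.length = w * (N * Bt) ∧
      Top B P r p [j, m, b, N, Bt, w, f] X Z
        (C * (w * (N * Bt) + P) * trc j (w * N).size (P / Bt).size) ∧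
      ∀ i < N, ∀ bt < Bt, WR w (N * Bt) Z (i * Bt + bt)
        (2 ^ f * ((wd m Bt X bt / 2 ^ (b * i) % 2 ^ b : ℕ) : ℤ)) := by
  obtain ⟨p₁, C₁, h₁⟩ := resize_ex
  obtain ⟨p₂, C₂, h₂⟩ := hT
  obtain ⟨p₃, C₃, h₃⟩ := zeros_ex
  refine ⟨.call [1, .var 1 * .var 4, .var 3 * .var 2 * .var 4] p₁ ;;
    .call [.var 0, 1, .var 3, .var 2, .var 4] p₂ ;; .call [.var 6 * (.var 3 * .var 4)] p₃ ;;
    .call [1, (.var 6 + .var 2) * (.var 3 * .var 4), .var 5 * (.var 3 * .var 4)] p₁,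
    6 * C₁ + C₂ + C₃ + 7, fun B P r j m b N Bt w f X hP hb hN hBt hm hw hB hWP hX => ?_⟩
  have b0 : w * (N * Bt) ≤ B := le_of_mul (6 * C₁ + C₂ + C₃ + 7) (by omega) hB (by ring)
  have a1 : (f + b) * (N * Bt) ≤ w * (N * Bt) := Nat.mul_le_mul_right _ hw
  have a2 : f * (N * Bt) ≤ w * (N * Bt) := Nat.mul_le_mul_right _ (by omega)
  have a3 : N * b * Bt ≤ w * (N * Bt) :=
    le_of_eq_of_le (by ring) (Nat.mul_le_mul_right (N * Bt) (show b ≤ w by omega))
  have a4 : m * Bt ≤ w * (N * Bt) := (Nat.mul_le_mul_right _ hm).trans a3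
  have a5 : 1 ≤ w * (N * Bt) := one_le (by have : 0 < w := by omega
                                           positivity)
  obtain ⟨L₁, l1, t1, e1⟩ := h₁ B P r 1 (m * Bt) (N * b * Bt) X hP (by rw [hX, one_mul])
  obtain ⟨L₂, l2, t2, e2⟩ := h₂ B P r j 1 N b Bt L₁ hP le_rfl hN hb hBt
    (le_trans (Nat.mul_le_mul (by omega) (by rw [one_mul]; exact a3)) hB) hWP (by rw [l1]; ring)
  obtain ⟨Z, l4, t4, e4⟩ := h₁ B P r 1 ((f + b) * (N * Bt)) (w * (N * Bt))
    (List.replicate (f * (N * Bt)) false ++ L₂) hP (by simp [l2]; ring)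
  have g1 := Go.call (args := [1, .var 1 * .var 4, .var 3 * .var 2 * .var 4])
    (env := [j, m, b, N, Bt, w, f]) rfl (by simp [Ok]; omega) t1
  have g2 := Go.call (args := [.var 0, 1, .var 3, .var 2, .var 4])
    (env := [j, m, b, N, Bt, w, f]) rfl (by simp [Ok]; omega) t2
  have g3 := (Go.call (args := [.var 6 * (.var 3 * .var 4)])
    (env := [j, m, b, N, Bt, w, f]) rfl (by simp [Ok]; omega) (h₃ B P r (f * (N * Bt)) hP)).frame L₂
  have g4 := Go.call
    (args := [1, (.var 6 + .var 2) * (.var 3 * .var 4), .var 5 * (.var 3 * .var 4)])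
    (env := [j, m, b, N, Bt, w, f]) rfl (by simp [Ok]; omega) t4
  refine ⟨Z, by rw [l4, one_mul], (g1.seq (g2.seq (g3.seq g4))).top.mono ?_,
    fun i hi bt hbt => ?_⟩
  · have k0 : (1 : ℝ) ≤ P := by exact_mod_cast hP
    have k1 : (((f + b) * (N * Bt) : ℕ) : ℝ) ≤ (w * (N * Bt) : ℕ) := by exact_mod_cast a1
    have k2 : ((f * (N * Bt) : ℕ) : ℝ) ≤ (w * (N * Bt) : ℕ) := by exact_mod_cast a2
    have k3 : ((N * b * Bt : ℕ) : ℝ) ≤ (w * (N * Bt) : ℕ) := by exact_mod_cast a3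
    have k4 : ((m * Bt : ℕ) : ℝ) ≤ (w * (N * Bt) : ℕ) := by exact_mod_cast a4
    have k5 : trc j (N * b).size (P / Bt).size ≤ trc j (w * N).size (P / Bt).size :=
      trc_mono j (Nat.size_le_size (by nlinarith)) le_rfl
    have k6 := one_le_trc j (N * b).size (P / Bt).size
    have k7 : ((1 : ℕ) : ℝ) * N * b * Bt + P ≤ (w * (N * Bt) : ℕ) + P := by
      push_cast at k3 ⊢; linarith
    have k8 : (0 : ℝ) ≤ (w * (N * Bt) : ℕ) := Nat.cast_nonneg _
    have k9 := mul_le_mul (cle C₂ k7) k5 (by linarith) (by positivity)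
    have c1 := cle C₁ k1; have c3 := cle C₁ k3; have c4 := cle C₁ k4; have c2 := cle C₃ k2
    have c0 := cle C₁ k0
    have c5 : ((6 * C₁ + C₃ + 7 : ℕ) : ℝ) * ((w * (N * Bt) : ℕ) + P) ≤
        (6 * C₁ + C₃ + 7 : ℕ) * ((w * (N * Bt) : ℕ) + P) * trc j (w * N).size (P / Bt).size :=
      le_mul_of_one_le_right (by positivity) (k6.trans k5)
    have c6 : (0 : ℝ) ≤ C₁ * (w * (N * Bt) : ℕ) := by positivity
    push_cast at *
    linarith
  · have hl : i * Bt + bt < N * Bt := lt_mul hi hbt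
    have : wd w (N * Bt) Z (i * Bt + bt) = 2 ^ f * (wd m Bt X bt / 2 ^ (b * i) % 2 ^ b) := by
      refine Nat.eq_of_testBit_eq fun β => ?_
      rw [testBit_wd', Nat.testBit_two_pow_mul, Nat.testBit_mod_two_pow, Nat.testBit_div_two_pow,
        testBit_wd']
      by_cases h1 : β < w
      swap
      · have : ¬(β - f < b) := by omega
        simp [h1, this]
      have := e4 0 one_pos _ (lt_mul h1 hl)
      rw [zero_mul, zero_add, zero_mul, zero_add] at this
      rw [this]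
      by_cases h2 : β < f
      · rw [bit_append_left _ (by rw [List.length_replicate]; exact lt_mul h2 hl), bit_replicate]
        simp [h2.not_ge]
      obtain ⟨β, rfl⟩ : ∃ β', β = f + β' := ⟨β - f, by omega⟩
      rw [Nat.add_sub_cancel_left]
      by_cases h3 : β < b
      swap
      · have : ¬((f + β) * (N * Bt) + (i * Bt + bt) < (f + b) * (N * Bt)) := by
          have := Nat.mul_le_mul_right (N * Bt) (show f + b ≤ f + β by omega)
          omega
        simp [h3, this]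
      have a2 := e2 0 one_pos i hi β h3 bt hbt
      have a1 := e1 0 one_pos _ (lt_mul (lt_mul hi h3) hbt)
      simp only [zero_mul, zero_add] at a1 a2
      rw [decide_eq_true (lt_mul (show f + β < f + b by omega) hl), add_mul f, add_assoc,
        bit_append_right _ (List.length_replicate ..),
        show β * (N * Bt) + (i * Bt + bt) = (β * N + i) * Bt + bt by ring, a2, a1,
        show β + b * i = i * b + β by ring]
      have : decide ((i * b + β) * Bt + bt < m * Bt) = decide (i * b + β < m) := by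
        rw [decide_eq_decide]
        refine ⟨fun h => ?_, fun h => lt_mul h hbt⟩
        by_contra h'
        have := Nat.mul_le_mul_right Bt (not_lt.1 h')
        omega
      simp [this, h1, h3]
    unfold WR
    rw [this]
    push_cast
    rfl

theorem join_ex (hT : TransStmt) : ∃ (p : Prog) (C : ℕ), ∀ (B P : ℕ) (r : Prog)
    (j m b N Bt w : ℕ) (X : List Bool), 1 ≤ P → 1 ≤ b → 1 ≤ N → 1 ≤ Bt → 2 * m ≤ N * b →
    3 * b ≤ w → C * (w * (N * Bt)) ≤ B → WW ^ j * P ≤ B → X.length = w * (N * Bt) →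
    ∃ Z : List Bool, Z.length = 2 * m * Bt ∧
      Top B P r p [j, m, b, N, Bt, w] X Z
        (C * (w * (N * Bt) + P) * trc j (w * N).size (P / Bt).size) ∧
      ∀ bt < Bt, ∀ c : ℕ → ℕ, (∀ i < N, c i < 2 ^ (3 * b) ∧ WR w (N * Bt) X (i * Bt + bt) (c i)) →
        ∑ i ∈ range N, c i * 2 ^ (b * i) < 2 ^ (2 * m) →
        wd (2 * m) Bt Z bt = ∑ i ∈ range N, c i * 2 ^ (b * i) := by
  obtain ⟨p₁, C₁, h₁⟩ := resize_ex
  obtain ⟨p₂, C₂, h₂⟩ := hT
  obtain ⟨p₃, C₃, h₃⟩ := rev_ex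
  obtain ⟨p₄, C₄, h₄⟩ := shl_ex
  obtain ⟨p₅, C₅, h₅⟩ := add2_ex
  refine ⟨.call [1, .var 5 * (.var 3 * .var 4), 3 * .var 2 * .var 3 * .var 4] p₁ ;;
    .call [.var 0, 3, .var 2, .var 3, .var 4] p₂ ;;
    .call [3, .var 3 * .var 2 * .var 4] p₃ ;;
    .call [1, .var 3 * .var 2, .var 4, .var 2] p₄ ;; .call [.var 3 * .var 2, .var 4] p₅ ;;
    .call [1, .var 3 * .var 2, .var 4, .var 2] p₄ ;; .call [.var 3 * .var 2, .var 4] p₅ ;;
    .call [1, .var 3 * .var 2 * .var 4, 2 * .var 1 * .var 4] p₁,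
    6 * C₁ + C₂ + C₃ + 2 * C₄ + 2 * C₅ + 15,
    fun B P r j m b N Bt w X hP hb hN hBt hm hw hB hWP hX => ?_⟩
  have b0 : w * (N * Bt) ≤ B :=
    le_of_mul (6 * C₁ + C₂ + C₃ + 2 * C₄ + 2 * C₅ + 15) (by omega) hB (by ring)
  have a1 : 3 * b * N * Bt ≤ w * (N * Bt) :=
    le_of_eq_of_le (by ring) (Nat.mul_le_mul_right (N * Bt) hw)
  have a2 : 3 * (N * b * Bt) ≤ w * (N * Bt) := le_of_eq_of_le (by ring) a1
  have a4 : 2 * m * Bt ≤ N * b * Bt := Nat.mul_le_mul_right _ hm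
  have a5 : N * b ≤ N * b * Bt := Nat.le_mul_of_pos_right _ hBt
  have a6 : 1 ≤ N * b := one_le (by positivity)
  have a7 : b ≤ N * b := Nat.le_mul_of_pos_left _ hN
  obtain ⟨L₁, l1, t1, e1⟩ := h₁ B P r 1 (w * (N * Bt)) (3 * b * N * Bt) X hP (by rw [hX, one_mul])
  obtain ⟨L₂, l2, t2, e2⟩ := h₂ B P r j 3 b N Bt L₁ hP (by omega) hb hN hBt
    (le_trans (Nat.mul_le_mul (by omega) a1) hB) hWP (by rw [l1]; ring)
  obtain ⟨L₃, l3, t3, e3⟩ := h₃ B P r 3 (N * b * Bt) L₂ hP (by omega) (by rw [l2]; ring)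
  obtain ⟨Y₂, Y₁, Y₀, y2, y1, y0, rfl⟩ : ∃ Y₂ Y₁ Y₀ : List Bool, Y₂.length = N * b * Bt ∧
      Y₁.length = N * b * Bt ∧ Y₀.length = N * b * Bt ∧ L₃ = Y₂ ++ (Y₁ ++ Y₀) :=
    ⟨L₃.take (N * b * Bt), (L₃.drop (N * b * Bt)).take (N * b * Bt),
      (L₃.drop (N * b * Bt)).drop (N * b * Bt), by rw [List.length_take]; omega,
      by rw [List.length_take, List.length_drop]; omega,
      by rw [List.length_drop, List.length_drop]; omega,
      by rw [List.take_append_drop, List.take_append_drop]⟩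
  obtain ⟨U₁, u1, t4, e4⟩ := h₄ B P r 1 (N * b) Bt b Y₂ hP le_rfl a6 hBt a7 (by omega) (by omega)
  obtain ⟨U₂, u2, t5, e5⟩ := h₅ B P r (N * b) Bt U₁ Y₁ hP a6 hBt (by omega) y1
  obtain ⟨U₃, u3, t6, e6⟩ := h₄ B P r 1 (N * b) Bt b U₂ hP le_rfl a6 hBt a7 (by omega) (by omega)
  obtain ⟨U₄, u4, t7, e7⟩ := h₅ B P r (N * b) Bt U₃ Y₀ hP a6 hBt (by omega) y0
  obtain ⟨Z, l8, t8, e8⟩ := h₁ B P r 1 (N * b * Bt) (2 * m * Bt) U₄ hP (by omega)
  have g1 := Go.call (args := [1, .var 5 * (.var 3 * .var 4), 3 * .var 2 * .var 3 * .var 4])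
    (env := [j, m, b, N, Bt, w]) rfl (by simp [Ok]; omega) t1
  have g2 := Go.call (args := [.var 0, 3, .var 2, .var 3, .var 4])
    (env := [j, m, b, N, Bt, w]) rfl (by simp [Ok]; omega) t2
  have g3 := Go.call (args := [3, .var 3 * .var 2 * .var 4])
    (env := [j, m, b, N, Bt, w]) rfl (by simp [Ok]; omega) t3
  have g4 := (Go.call (args := [1, .var 3 * .var 2, .var 4, .var 2])
    (env := [j, m, b, N, Bt, w]) rfl (by simp [Ok]; omega) t4).frame (Y₁ ++ Y₀)
  have g5 := (Go.call (args := [.var 3 * .var 2, .var 4])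
    (env := [j, m, b, N, Bt, w]) rfl (by simp [Ok]; omega) t5).frame Y₀
  have g6 := (Go.call (args := [1, .var 3 * .var 2, .var 4, .var 2])
    (env := [j, m, b, N, Bt, w]) rfl (by simp [Ok]; omega) t6).frame Y₀
  have g7 := Go.call (args := [.var 3 * .var 2, .var 4])
    (env := [j, m, b, N, Bt, w]) rfl (by simp [Ok]; omega) t7
  have g8 := Go.call (args := [1, .var 3 * .var 2 * .var 4, 2 * .var 1 * .var 4])
    (env := [j, m, b, N, Bt, w]) rfl (by simp [Ok]; omega) t8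
  rw [List.append_assoc] at g5
  refine ⟨Z, by rw [l8, one_mul],
    (g1.seq (g2.seq (g3.seq (g4.seq (g5.seq (g6.seq (g7.seq g8))))))).top.mono ?_,
    fun bt hbt c hc hlt => ?_⟩
  · have k0 : (1 : ℝ) ≤ P := by exact_mod_cast hP
    have k1 : ((3 * b * N * Bt : ℕ) : ℝ) ≤ (w * (N * Bt) : ℕ) := by exact_mod_cast a1
    have k3 : ((N * b * Bt : ℕ) : ℝ) ≤ (w * (N * Bt) : ℕ) := by
      exact_mod_cast (by omega : N * b * Bt ≤ w * (N * Bt))
    have k4 : ((2 * m * Bt : ℕ) : ℝ) ≤ (w * (N * Bt) : ℕ) := by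
      exact_mod_cast (by omega : 2 * m * Bt ≤ w * (N * Bt))
    have k5 : trc j (b * N).size (P / Bt).size ≤ trc j (w * N).size (P / Bt).size :=
      trc_mono j (Nat.size_le_size (Nat.mul_le_mul_right _ (by omega))) le_rfl
    have k6 := one_le_trc j (b * N).size (P / Bt).size
    have k7 : ((3 : ℕ) : ℝ) * b * N * Bt + P ≤ (w * (N * Bt) : ℕ) + P := by
      push_cast at k1 ⊢; linarith
    have k8 : (0 : ℝ) ≤ (w * (N * Bt) : ℕ) := Nat.cast_nonneg _
    have k9 := mul_le_mul (cle C₂ k7) k5 (by linarith) (by positivity)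
    have c1 := cle C₁ k1; have c3 := cle C₁ k3; have c4 := cle C₁ k4; have c2 := cle C₃ k1
    have c0 := cle C₁ k0
    have c7 := cle C₄ k3; have c8 := cle C₅ k3
    have c5 : ((6 * C₁ + C₃ + 2 * C₄ + 2 * C₅ + 15 : ℕ) : ℝ) * ((w * (N * Bt) : ℕ) + P) ≤
        (6 * C₁ + C₃ + 2 * C₄ + 2 * C₅ + 15 : ℕ) * ((w * (N * Bt) : ℕ) + P) *
          trc j (w * N).size (P / Bt).size :=
      le_mul_of_one_le_right (by positivity) (k6.trans k5)
    have c6 : (0 : ℝ) ≤ C₁ * (w * (N * Bt) : ℕ) := by positivity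
    push_cast at *
    linarith
  · have hP : ∀ o < 3, wd (N * b) Bt ((Y₂ ++ (Y₁ ++ Y₀)).drop ((3 - 1 - o) * (N * b * Bt))) bt =
        ∑ i ∈ range N, c i / 2 ^ (o * b) % 2 ^ b * 2 ^ (b * i) := fun o ho =>
      wd_blocks (fun i => c i / 2 ^ (o * b)) fun i hi β hβ => by
        have hl : i * Bt + bt < N * Bt := lt_mul hi hbt
        have h3 : o * b + β < 3 * b := lt_mul ho hβ
        have hc1 : wd w (N * Bt) X (i * Bt + bt) = c i := (hc i hi).2.eq_wd
          ((hc i hi).1.trans_le (Nat.pow_le_pow_right (by norm_num) hw))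
        have a2 := e2 o ho β hβ i hi bt hbt
        have hj : ((o * b + β) * N + i) * Bt + bt < 3 * b * N * Bt := lt_mul (lt_mul h3 hi) hbt
        have a1 := e1 0 one_pos _ hj
        simp only [zero_mul, zero_add] at a1
        rw [bit_drop, e3 o ho _ (lt_mul (lt_mul hi hβ) hbt), Nat.testBit_div_two_pow, ← hc1,
          testBit_wd _ _ (by omega),
          show o * (N * b * Bt) + ((i * b + β) * Bt + bt) = ((o * N + i) * b + β) * Bt + bt by ring,
          a2, a1, decide_eq_true (by omega), Bool.true_and]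
        congr 1; ring
    have q2 := hP 2 (by omega)
    have q1 := hP 1 (by omega)
    have q0 := hP 0 (by omega)
    rw [show (3 - 1 - 2) * (N * b * Bt) = 0 by omega, List.drop_zero, wd_append_left _ y2 hbt] at q2
    rw [show (3 - 1 - 1) * (N * b * Bt) = N * b * Bt by omega, List.drop_left' y2,
      wd_append_left _ y1 hbt] at q1
    rw [show (3 - 1 - 0) * (N * b * Bt) = N * b * Bt + N * b * Bt by omega, ← List.drop_drop,
      List.drop_left' y2, List.drop_left' y1] at q0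
    have s4 := e4 0 one_pos bt hbt _ (WR.of_wd _ _ _ _)
    simp only [zero_mul, List.drop_zero] at s4
    have s6 := e6 0 one_pos bt hbt _ (by
      simpa only [zero_mul, List.drop_zero] using e5 bt hbt _ _ s4 (WR.of_wd _ _ _ _))
    simp only [zero_mul, List.drop_zero] at s6
    have s7 := e7 bt hbt _ _ s6 (WR.of_wd _ _ _ _)
    have hs : ∑ i ∈ range N, c i * 2 ^ (b * i) =
        2 ^ b * (2 ^ b * wd (N * b) Bt Y₂ bt + wd (N * b) Bt Y₁ bt) + wd (N * b) Bt Y₀ bt := by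
      rw [q0, q1, q2, mul_sum, ← sum_add_distrib, mul_sum, ← sum_add_distrib]
      refine sum_congr rfl fun i hi => ?_
      conv_lhs => rw [three_digits (hc i (mem_range.1 hi)).1]
      ring
    have s8 : wd (N * b) Bt U₄ bt = ∑ i ∈ range N, c i * 2 ^ (b * i) :=
      WR.eq_wd (by rw [hs]; push_cast; exact s7)
        (hlt.trans_le (Nat.pow_le_pow_right (by norm_num) hm))
    refine Nat.eq_of_testBit_eq fun β => ?_
    rw [testBit_wd']
    by_cases hβ : β < 2 * m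
    · have a8 := e8 0 one_pos _ (lt_mul hβ hbt)
      simp only [zero_mul, zero_add] at a8
      rw [← s8, testBit_wd _ _ (by omega), a8,
        decide_eq_true (lt_mul (show β < N * b by omega) hbt)]
      simp [hβ]
    · rw [Nat.testBit_lt_two_pow (hlt.trans_le (Nat.pow_le_pow_right (by norm_num) (not_lt.1 hβ)))]
      simp [hβ]

/-- The product in terms of digits. -/
theorem digits_conv {m b N n₁ u v : ℕ} (hb : 1 ≤ b) (hm : m ≤ n₁ * b) (hN : 2 * n₁ ≤ N)
    (hn : n₁ ≤ 2 ^ b) (hu : u < 2 ^ m) (hv : v < 2 ^ m) :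
    (∀ i, n₁ ≤ i → u / 2 ^ (b * i) % 2 ^ b = 0) ∧
    (∀ i, ∑ l ∈ range (i + 1), (u / 2 ^ (b * l) % 2 ^ b) * (v / 2 ^ (b * (i - l)) % 2 ^ b) <
      2 ^ (3 * b)) ∧
    ∑ i ∈ range N, (∑ l ∈ range (i + 1),
      (u / 2 ^ (b * l) % 2 ^ b) * (v / 2 ^ (b * (i - l)) % 2 ^ b)) * 2 ^ (b * i) = u * v := by
  have _ := hb
  have big : ∀ {x i : ℕ}, x < 2 ^ m → n₁ ≤ i → x < 2 ^ (b * i) := fun {x i} hx hi =>
    hx.trans_le (Nat.pow_le_pow_right (by norm_num) (hm.trans (by nlinarith)))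
  have h1 : ∀ i, n₁ ≤ i → u / 2 ^ (b * i) % 2 ^ b = 0 := fun i hi => by
    rw [Nat.div_eq_of_lt (big hu hi), Nat.zero_mod]
  refine ⟨h1, fun i => ?_, ?_⟩
  · obtain ⟨t, ht⟩ : ∃ t, 2 ^ b = t + 1 := ⟨2 ^ b - 1, (Nat.sub_add_cancel Nat.one_le_two_pow).symm⟩
    have hd : ∀ x, x % 2 ^ b ≤ t := fun x => by
      have := Nat.mod_lt x (Nat.two_pow_pos b); omega
    calc _ = ∑ l ∈ (range (i + 1)).filter (· < n₁),
          (u / 2 ^ (b * l) % 2 ^ b) * (v / 2 ^ (b * (i - l)) % 2 ^ b) :=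
          (sum_filter_of_ne fun l _ h => by
            by_contra h'
            exact h (by rw [h1 l (not_lt.1 h'), zero_mul])).symm
      _ ≤ ((range (i + 1)).filter (· < n₁)).card • (t * t) :=
          sum_le_card_nsmul _ _ _ fun l _ => Nat.mul_le_mul (hd _) (hd _)
      _ ≤ (t + 1) * (t * t) := by
          rw [smul_eq_mul]
          refine Nat.mul_le_mul_right _ (le_trans ?_ (ht ▸ hn))
          exact (card_le_card fun l hl => mem_range.2 (mem_filter.1 hl).2).trans_eq (card_range _)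
      _ < 2 ^ (3 * b) := by rw [mul_comm 3 b, pow_mul, ht]; nlinarith
  · have := Finset.sum_range_diag_flip N (fun l k => (u / 2 ^ (b * l) % 2 ^ b * 2 ^ (b * l)) *
      (v / 2 ^ (b * k) % 2 ^ b * 2 ^ (b * k)))
    rw [sum_congr rfl fun i _ => (sum_mul _ _ _).trans (sum_congr rfl fun l hl => ?_), this]
    · conv_rhs => rw [← Nat.mod_eq_of_lt (big hu (show n₁ ≤ N by omega)), ← sum_digits, sum_mul]
      refine sum_congr rfl fun l hl => ?_
      by_cases h : l < n₁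
      · rw [← mul_sum, sum_digits, Nat.mod_eq_of_lt (big hv (by omega))]
      · simp [h1 l (not_lt.1 h)]
    · obtain ⟨k, rfl⟩ : ∃ k, i = l + k := ⟨i - l, by have := mem_range.1 hl; omega⟩
      rw [Nat.add_sub_cancel_left, mul_add, pow_add]
      ring

end Crest.Agent.IM
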