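import Crest.Agent.IM.Dft
import Crest.Agent.IM.Crt
import Crest.Agent.IM.Split

/-! Building blocks of one level of the multiplication (helper23). -/

set_option autoImplicit false

namespace Crest.Agent.IM.CO
open Q4 Finset

/-- rounding shift -/
theorem rnd_ex : ∃ (p : Prog) (C : ℕ), ∀ (B P : ℕ) (r : Prog) (w M f : ℕ) (X : List Bool),
    1 ≤ P → P ≤ M → 1 ≤ f → f < w → w * M ≤ B → X.length = w * M →
    ∃ Z : List Bool, Z.length = w * M ∧ Top B P r p [w, M, f] X Z (C * (w * M)) ∧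
      ∀ a < M, ∀ u v : ℤ, WR w M X a u → 2 * |u - 2 ^ f * v| < 2 ^ f → 4 * |u| < 2 ^ w →
        WR w M Z a v := by
  obtain ⟨p₁, C₁, h₁⟩ := fill_ex (Ex.ifEq (.var 0) (.var 2 - 1) (.var 1) 0) 2
  obtain ⟨p₂, C₂, h₂⟩ := add2_ex
  obtain ⟨p₃, C₃, h₃⟩ := asr_ex
  refine ⟨.call [.var 0, .var 1, .var 1, .var 2] p₁ ;; .call [.var 0, .var 1] p₂ ;;
    .call [.var 0, .var 1, .var 2] p₃, 3 * C₁ + 2 * C₂ + 2 * C₃ + 5,
    fun B P r w M f X hP hPM hf hw hB hX => ?_⟩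
  obtain ⟨F, l₁, t₁, e₁⟩ := h₁ B P r w M [M, f] hP rfl (by omega) hB
  obtain ⟨Y, l₂, t₂, e₂⟩ := h₂ B P r w M F X hP (by omega) (by omega) l₁ hX
  obtain ⟨Z, l₃, t₃, e₃⟩ := h₃ B P r w M f Y hP (by omega) hw l₂
  have g1 := Go.call (args := [.var 0, .var 1, .var 1, .var 2]) (env := [w, M, f]) rfl
    (by simp [Ok]) (t₁.frame X)
  have g2 := Go.call (args := [.var 0, .var 1]) (env := [w, M, f]) rfl (by simp [Ok]) t₂
  have g3 := Go.call (args := [.var 0, .var 1, .var 2]) (env := [w, M, f]) rfl (by simp [Ok]) t₃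
  refine ⟨Z, l₃, (g1.seq (g2.seq g3)).top.mono ?_, fun a ha u v hu h1 h2 => ?_⟩
  · have k1 : (1 : ℝ) ≤ P := by exact_mod_cast hP
    have k2 : (w : ℝ) * P ≤ w * M := by exact_mod_cast Nat.mul_le_mul_left w hPM
    have k3 : (P : ℝ) ≤ w * M := by
      exact_mod_cast hPM.trans (Nat.le_mul_of_pos_left M (by omega : 0 < w))
    have a1 := cle C₁ (show (w : ℝ) * M + w * P + P ≤ 3 * (w * M) by linarith)
    have a2 := cle C₂ (show (w : ℝ) * M + P ≤ 2 * (w * M) by linarith)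
    have a3 := cle C₃ (show (w : ℝ) * M + P ≤ 2 * (w * M) by linarith)
    push_cast
    linarith
  · obtain ⟨f, rfl⟩ : ∃ f', f = f' + 1 := ⟨f - 1, by omega⟩
    have hF : wd w M F a = 2 ^ f := by
      unfold wd
      rw [sum_eq_single f (fun β hβ hne => ?_) (fun h => absurd (mem_range.2 (by omega)) h)]
      · rw [e₁ f (by omega) a ha]; simp [ha]
      · rw [e₁ β (mem_range.1 hβ) a ha]; simp [hne]
    have hF' : WR w M F a (2 ^ f) := by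
      have := WR.of_wd w M F a
      rw [hF] at this
      exact_mod_cast this
    have h3 : (2 : ℤ) ^ (f + 1) * 2 ≤ 2 ^ w := by
      rw [← pow_succ]; exact pow_le_pow_right₀ (by norm_num) (by omega)
    have h4 : (0 : ℤ) < 2 ^ f := by positivity
    rw [pow_succ] at h1 h3
    have := e₃ a ha _ (e₂ a ha _ _ hF' hu) (by
      have := abs_add_le (2 ^ f) u
      rw [abs_of_pos h4] at this
      linarith)
    rw [pow_succ] at this
    obtain ⟨h5, h6⟩ := abs_lt.1 (show |u - 2 ^ f * 2 * v| < 2 ^ f by linarith)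
    have h7 : (2 ^ f + u) / (2 ^ f * 2) = v :=
      ((Int.ediv_emod_unique (r := 2 ^ f + u - 2 ^ f * 2 * v) (by positivity)).2
        ⟨by ring, by linarith, by linarith⟩).1
    rwa [h7] at this

theorem nrm_inv_smul {n p : ℕ} (a : RA n) :
    nrm n (((2 : ℂ) ^ p)⁻¹ • a) = nrm n a / 2 ^ p := by
  rw [nrm_smul, div_eq_inv_mul]; simp

theorem apx_mul {n p : ℕ} (hn : 1 ≤ n) {a b A B c : RA n} {ε : ℝ} (hε : 1 ≤ ε)
    (hA : nrm n A ≤ 2 ^ p * ε) (hB : nrm n B ≤ 2 ^ p * ε) (ha : nrm n (a - A) ≤ ε)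
    (hb : nrm n (b - B) ≤ ε) :
    nrm n (a * b) ≤ 4 * n * (2 ^ p * ε) ^ 2 ∧
    nrm n (((2 : ℂ) ^ p)⁻¹ • (A * B)) ≤ 2 ^ p * (5 * n * ε ^ 2) ∧
    (nrm n (c - ((2 : ℂ) ^ p)⁻¹ • (a * b)) ≤ 2 →
      nrm n (c - ((2 : ℂ) ^ p)⁻¹ • (A * B)) ≤ 5 * n * ε ^ 2) := by
  have hn' : (1 : ℝ) ≤ n := by exact_mod_cast hn
  have hq : (1 : ℝ) ≤ 2 ^ p := one_le_pow₀ (by norm_num)
  have h0 : ε ≤ 2 ^ p * ε := le_mul_of_one_le_left (by linarith) hq
  have ha' : nrm n a ≤ 2 * (2 ^ p * ε) := by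
    have := nrm_add_le (a - A) A
    rw [sub_add_cancel] at this
    linarith
  have hb' : nrm n b ≤ 2 * (2 ^ p * ε) := by
    have := nrm_add_le (b - B) B
    rw [sub_add_cancel] at this
    linarith
  have mul_le : ∀ (x y : RA n) (μ ν : ℝ), nrm n x ≤ μ → nrm n y ≤ ν → nrm n (x * y) ≤ n * (μ * ν) :=
    fun x y μ ν hx hy => (nrm_mul_le x y).trans (mul_le_mul_of_nonneg_left
      (mul_le_mul hx hy (nrm_nonneg _) ((nrm_nonneg _).trans hx)) (by positivity))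
  have h1 : 1 ≤ n * ε ^ 2 := one_le_mul_of_one_le_of_one_le hn' (one_le_pow₀ hε)
  refine ⟨(mul_le _ _ _ _ ha' hb').trans (le_of_eq (by ring)), ?_, fun hc => ?_⟩
  · rw [nrm_inv_smul, div_le_iff₀ (by positivity)]
    refine (mul_le _ _ _ _ hA hB).trans ?_
    have : (0 : ℝ) ≤ 2 ^ p * 2 ^ p * (n * ε ^ 2) := by positivity
    nlinarith
  · have e : c - ((2 : ℂ) ^ p)⁻¹ • (A * B) = (c - ((2 : ℂ) ^ p)⁻¹ • (a * b)) +
        ((2 : ℂ) ^ p)⁻¹ • ((a - A) * b + A * (b - B)) := by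
      rw [show (a - A) * b + A * (b - B) = a * b - A * B by ring, smul_sub]; abel
    have h2 : nrm n (((2 : ℂ) ^ p)⁻¹ • ((a - A) * b + A * (b - B))) ≤ 3 * (n * ε ^ 2) := by
      rw [nrm_inv_smul, div_le_iff₀ (by positivity)]
      refine (nrm_add_le _ _).trans ((add_le_add (mul_le _ _ _ _ ha hb')
        (mul_le _ _ _ _ hA hb)).trans (le_of_eq (by ring)))
    rw [e]
    refine (nrm_add_le _ _).trans ?_
    linarith

section
variable {π : Par} {q bb P : ℕ} (ok : π.Ok q bb P)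
include ok

theorem two_n : 2 * π.n = 2 ^ π.e := by
  have := ok.hke
  unfold Par.n
  rw [← pow_succ']; congr 1; omega

theorem N1_le : π.w * (π.S * (2 * π.n) * π.Bt) ≤ π.N0 := by
  unfold Par.N0
  have := ok.S_le
  gcongr

theorem M_pos : 1 ≤ π.S * (2 * π.n) * π.Bt :=
  Nat.mul_pos (Nat.mul_pos π.one_le_S (by have := π.one_le_n; omega)) ok.hBt

theorem P_le_M : P ≤ π.S * (2 * π.n) * π.Bt := by
  have := ok.hPn
  have := π.one_le_S
  nlinarith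

theorem tr_ge {l : ℕ} (h : l ≤ 3 * π.w * (π.S * (2 * π.n))) :
    trc π.jt l.size (P / π.Bt).size ≤ π.tr P := by
  refine trc_mono _ (Nat.size_le_size (h.trans ?_)) le_rfl
  have := ok.S_le
  gcongr

end

theorem tr_le_ov (π : Par) (P : ℕ) : π.tr P ≤ π.ov P := (π.tr_le_ovG P).trans (π.ovG_le_ov P)

theorem one_le_ov (π : Par) (P : ℕ) : 1 ≤ π.ov P := (π.one_le_tr P).trans (tr_le_ov π P)

theorem dtr_le_ov (π : Par) (P : ℕ) : (π.d + 1) * π.tr P ≤ π.ov P := by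
  have := CV.one_le_ovG π P
  unfold Par.ov
  have : (0 : ℝ) ≤ π.np := by positivity
  linarith

/-- approximate pointwise product -/
theorem pm_ex (hT : TransStmt) (mul : Prog) : ∃ (p : Prog) (C : ℕ), ∀ (q bb B P : ℕ) (r : Prog)
    (π : Par) (x₁ : ℝ) (X Y : List Bool), π.Ok q bb P → π.Big C B P → π.Mul1 B P r mul x₁ →
    X.length = π.w * (π.S * (2 * π.n) * π.Bt) → Y.length = π.w * (π.S * (2 * π.n) * π.Bt) →
    ∃ Z : List Bool, Z.length = π.w * (π.S * (2 * π.n) * π.Bt) ∧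
      Top B P r p π.args (X ++ Y) Z (x₁ + C * π.N0 * π.ov P) ∧
      ∀ o < π.S, ∀ bt < π.Bt, ∀ (a b : RA π.n) (ε : ℝ), 1 ≤ ε → ε ≤ 2 ^ π.p →
        Apx π.w (π.S * (2 * π.n) * π.Bt) π.n (sad π.n π.Bt o bt) π.p ε X a →
        Apx π.w (π.S * (2 * π.n) * π.Bt) π.n (sad π.n π.Bt o bt) π.p ε Y b →
        Apx π.w (π.S * (2 * π.n) * π.Bt) π.n (sad π.n π.Bt o bt) π.p (5 * π.n * ε ^ 2) Z
          (((2 : ℂ) ^ π.p)⁻¹ • (a * b)) := by
  obtain ⟨p₁, C₁, h₁⟩ := pmul_ex hT mul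
  obtain ⟨p₂, C₂, h₂⟩ := asr_ex
  refine ⟨.call [.var 5, .var 16, .var 17, .var 14, .var 9] p₁ ;;
    .call [.var 16, .var 17 * (2 * .var 14) * .var 9, .var 15] p₂, 2 * C₁ + 2 * C₂ + 3,
    fun q bb B P r π x₁ X Y ok big m1 hX hY => ?_⟩
  have hw := CV.one_le_w ok
  have hn := π.one_le_n
  have hD := ok.hD
  have hp := ok.le_p
  have hw6 : π.w = 6 * π.p := rfl
  have h2n := two_n ok
  have hN1 := N1_le ok
  have hNB : π.N0 ≤ B := CV.N0_le big (by omega)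
  have hMB : π.S * (2 * π.n) * π.Bt ≤ B := le_of_mul π.w hw (hN1.trans hNB) (mul_comm _ _)
  obtain ⟨Z₁, l₁, t₁, s₁⟩ := h₁ B P r π.jt π.w π.S π.n π.Bt x₁ X Y ok.hP hw π.one_le_S hn ok.hBt
    (by rw [h2n]; exact Nat.pow_le_pow_right (by norm_num) (by omega))
    ((Nat.mul_le_mul (by omega) hN1).trans big.1) big.2.2 (m1 _ le_rfl ok.S_le) hX hY
  obtain ⟨Z, l₂, t₂, s₂⟩ := h₂ B P r π.w _ π.p Z₁ ok.hP (M_pos ok) (by omega) l₁
  have g1 := Go.call (args := [.var 5, .var 16, .var 17, .var 14, .var 9]) (env := π.args) rfl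
    (by simp [Ok, Par.args]) t₁
  have g2 := Go.call (args := [.var 16, .var 17 * (2 * .var 14) * .var 9, .var 15])
    (env := π.args) (by rfl) (by simp [Ok, hMB, Par.args]) t₂
  refine ⟨Z, l₂, (g1.seq g2).top.mono ?_, fun o ho bt hbt a b ε h1 h2 ⟨ha, a', ha1, ha2⟩
    ⟨hb, b', hb1, hb2⟩ => ?_⟩
  · have k3 : (P : ℝ) ≤ π.N0 := by exact_mod_cast ok.P_le_N0
    have k4 : (1 : ℝ) ≤ P := by exact_mod_cast ok.hP
    have k5 : (π.N0 : ℝ) ≤ π.N0 * π.ov P := le_mul_of_one_le_right (by positivity) (one_le_ov π P)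
    have k6 : (π.w : ℝ) * (π.S * (2 * π.n) * π.Bt) ≤ π.N0 := by exact_mod_cast hN1
    have k7 := (tr_ge ok le_rfl).trans (tr_le_ov π P)
    have k8 := one_le_trc π.jt (3 * π.w * (π.S * (2 * π.n))).size (P / π.Bt).size
    push_cast
    generalize trc π.jt (3 * π.w * (π.S * (2 * π.n))).size (P / π.Bt).size = τ at *
    have a0 : ((π.w : ℝ) * (π.S * (2 * π.n) * π.Bt) + P) * τ ≤ 2 * π.N0 * π.ov P :=
      mul_le_mul (by linarith) k7 (by linarith) (by positivity)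
    have a1 := cle C₁ a0
    have a2 := cle C₂ (show (π.w : ℝ) * (π.S * (2 * π.n) * π.Bt) + P ≤ 2 * (π.N0 * π.ov P) by
      linarith)
    linarith
  · obtain ⟨c, hc1, hc2⟩ := AR.asr (D := π.p) hn (s₁ o ho bt hbt _ _ ha1 hb1) (by
      have h3 := (apx_mul (c := 0) hn h1 ha hb ha2 hb2).1
      have h4 : (π.n : ℝ) ≤ 2 ^ π.e := by exact_mod_cast (by omega : π.n ≤ 2 ^ π.e)
      have h5 : 4 * (π.n : ℝ) * (2 ^ π.p * ε) ^ 2 ≤ 4 * 2 ^ π.e * (2 ^ π.p * 2 ^ π.p) ^ 2 := by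
        gcongr
      have h6 : (2 : ℝ) ^ (π.e + 3 + 4 * π.p) < 2 ^ π.w :=
        pow_lt_pow_right₀ (by norm_num) (by
          have : 3 * π.k * π.d ≥ 0 := Nat.zero_le _
          omega)
      have h7 : (2 : ℝ) ^ (π.e + 3 + 4 * π.p) = 2 * (4 * 2 ^ π.e * (2 ^ π.p * 2 ^ π.p) ^ 2) := by
        ring
      linarith) fun c hc => s₂ _ (sad_lt ho hbt hc)
    obtain ⟨-, h4, h5⟩ := apx_mul (c := c) hn h1 ha hb ha2 hb2
    exact ⟨h4, c, hc1, h5 hc2⟩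

/-- division by `S 2 ^ p` with rounding -/
theorem sc_ex (mul : Prog) : ∃ (p : Prog) (C : ℕ), ∀ (q bb B P : ℕ) (r : Prog)
    (π : Par) (x₂ : ℝ) (X : List Bool), π.Ok q bb P → π.Big C B P → π.Mul2 B P r mul x₂ →
    X.length = π.w * (π.S * (2 * π.n) * π.Bt) →
    ∃ Z : List Bool, Z.length = π.w * (π.S * (2 * π.n) * π.Bt) ∧
      Top B P r p π.args X Z (x₂ + C * π.N0 * π.ov P) ∧
      ∀ o < π.S, ∀ bt < π.Bt, ∀ (z : RA π.n) (ε : ℝ), 1 ≤ ε → 16 * ε ≤ 2 ^ π.p → CV.IC π.n z →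
        Apx π.w (π.S * (2 * π.n) * π.Bt) π.n (sad π.n π.Bt o bt) π.p ε X
          ((π.S : ℂ) • (2 : ℂ) ^ π.p • z) →
        AR π.w (π.S * (2 * π.n) * π.Bt) π.n (sad π.n π.Bt o bt) Z z := by
  obtain ⟨eE, eC, eS, C₀, h₀⟩ := exp_ex
  obtain ⟨p₁, C₁, h₁⟩ := rscal_ex (Ex.drop 1 eE) 7 mul
  obtain ⟨p₂, C₂, h₂⟩ := rnd_ex
  refine ⟨.call [.var 16, .var 17, .var 14, .var 9, .var 15, 0, 0, 1, 1, .var 17, .var 15, .var 16]
    p₁ ;; .call [.var 16, .var 17 * (2 * .var 14) * .var 9, .var 15] p₂, C₀ + C₁ + C₂ + 6,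
    fun q bb B P r π x₂ X ok big m2 hX => ?_⟩
  have hw := CV.one_le_w ok
  have hn := π.one_le_n
  have hp := ok.le_p
  have hw6 : π.w = 6 * π.p := rfl
  have hN1 := N1_le ok
  have hNB : π.N0 ≤ B := CV.N0_le big (by omega)
  have hMB : π.S * (2 * π.n) * π.Bt ≤ B := le_of_mul π.w hw (hN1.trans hNB) (mul_comm _ _)
  have h1B : 1 ≤ B := (M_pos ok).trans hMB
  obtain ⟨Z₁, l₁, t₁, s₁⟩ := h₁ B P r π.w π.S π.n π.Bt π.p [0, 0, 1, 1, π.S, π.p, π.w] x₂ X ok.hP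
    rfl π.one_le_S hn ok.hBt (by omega) rfl ok.hPn
    ((Nat.pow_le_pow_right (by norm_num) (by nlinarith)).trans (big.mono (C' := 6) (by omega)).2.1)
    ((Nat.mul_le_mul (by omega) hN1).trans big.1) (m2 _ le_rfl ok.S_le) hX
  obtain ⟨Z, l₂, t₂, s₂⟩ := h₂ B P r π.w _ π.p Z₁ ok.hP (P_le_M ok) (by omega) (by omega)
    (hN1.trans hNB) l₁
  have g1 := Go.call
    (args := [.var 16, .var 17, .var 14, .var 9, .var 15, 0, 0, 1, 1, .var 17, .var 15, .var 16])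
    (env := π.args) rfl (by simp [Ok, Par.args, h1B]) t₁
  have g2 := Go.call (args := [.var 16, .var 17 * (2 * .var 14) * .var 9, .var 15])
    (env := π.args) (by rfl) (by simp [Ok, hMB, Par.args]) t₂
  refine ⟨Z, l₂, (g1.seq g2).top.mono ?_, fun o ho bt hbt z ε h1 h2 hz ⟨ha, a, ha1, ha2⟩ => ?_⟩
  · have k3 : (P : ℝ) ≤ π.N0 := by exact_mod_cast ok.P_le_N0
    have k4 : (1 : ℝ) ≤ P := by exact_mod_cast ok.hP
    have k5 : (π.N0 : ℝ) ≤ π.N0 * π.ov P := le_mul_of_one_le_right (by positivity) (one_le_ov π P)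
    have k6 : (π.w : ℝ) * (π.S * (2 * π.n) * π.Bt) ≤ π.N0 := by exact_mod_cast hN1
    push_cast
    have a0 := cle C₀ (show (0 : ℝ) ≤ π.N0 * π.ov P by linarith)
    have a1 := cle C₁ (k6.trans k5)
    have a2 := cle C₂ (k6.trans k5)
    linarith
  · obtain ⟨c₁, hc1, hc2⟩ := (h₀ B P 0 0 1 1 π.S π.p π.w [] (by omega) le_rfl Nat.one_le_two_pow
      π.one_le_S ok.hS π.one_le_S (Nat.zero_le _) (by omega) (big.mono (C' := C₀) (by omega)).2.1).1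
    have hS : (1 : ℝ) ≤ π.S := by exact_mod_cast π.one_le_S
    have hq : (1 : ℝ) ≤ 2 ^ π.p := one_le_pow₀ (by norm_num)
    have h0 : ε ≤ 2 ^ π.p * ε := le_mul_of_one_le_left (by linarith) hq
    have ha' : nrm π.n a ≤ 2 * (2 ^ π.p * ε) := by
      have := nrm_add_le (a - (π.S : ℂ) • (2 : ℂ) ^ π.p • z) ((π.S : ℂ) • (2 : ℂ) ^ π.p • z)
      rw [sub_add_cancel] at this
      linarith
    have h3 : (2 : ℝ) ^ π.p * (16 * ε) ≤ 2 ^ π.p * 2 ^ π.p := by gcongr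
    have h4 : (2 : ℝ) ^ π.p * 2 ^ π.p ≤ 2 ^ (3 * π.p) := by
      rw [← pow_add]; exact pow_le_pow_right₀ (by norm_num) (by omega)
    have hi : |(π.S : ℝ)⁻¹| ≤ 1 := by
      rw [abs_of_pos (by positivity)]; exact inv_le_one_of_one_le₀ hS
    obtain ⟨a', hb1, hb2⟩ := s₁ o ho bt hbt a (π.S : ℝ)⁻¹ c₁ hc1 (by simpa using hc2)
      (hi.trans hq) ha1 (by nlinarith)
    have e1 : (((π.S : ℝ)⁻¹ : ℝ) : ℂ) • (π.S : ℂ) • (2 : ℂ) ^ π.p • z = (2 : ℂ) ^ π.p • z := by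
      have : (π.S : ℂ) ≠ 0 := by exact_mod_cast (by have := π.one_le_S; omega : π.S ≠ 0)
      rw [smul_smul]; push_cast; rw [inv_mul_cancel₀ this, one_smul]
    have n0 : ∀ y : RA π.n, nrm π.n ((((π.S : ℝ)⁻¹ : ℝ) : ℂ) • y) ≤ nrm π.n y := fun y => by
      rw [nrm_smul, Complex.norm_real, Real.norm_eq_abs]
      exact mul_le_of_le_one_left (nrm_nonneg _) hi
    have n1 : nrm π.n ((2 : ℂ) ^ π.p • z) ≤ 2 ^ π.p * ε := by
      rw [← e1]; exact (n0 _).trans ha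
    have n2 : nrm π.n (a' - (2 : ℂ) ^ π.p • z) ≤ 7 * ε := by
      have e2 : a' - (2 : ℂ) ^ π.p • z = (a' - (((π.S : ℝ)⁻¹ : ℝ) : ℂ) • a) +
          (((π.S : ℝ)⁻¹ : ℝ) : ℂ) • (a - (π.S : ℂ) • (2 : ℂ) ^ π.p • z) := by
        rw [smul_sub, e1]; abel
      have h5 : nrm π.n a / 2 ^ π.p ≤ 2 * ε := by
        rw [div_le_iff₀ (by positivity)]; linarith
      rw [e2]
      have := n0 (a - (π.S : ℂ) • (2 : ℂ) ^ π.p • z)
      refine (nrm_add_le _ _).trans ?_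
      linarith
    intro c hc
    obtain ⟨u, hu1, hu2⟩ := hb1 c hc
    obtain ⟨v, hv⟩ := hz c hc
    have e3 : rco π.n ((2 : ℂ) ^ π.p • z) c = 2 ^ π.p * v := by
      have := rco_smul (2 ^ π.p) z c
      push_cast at this
      rw [this, hv]
    have r1 := (abs_rco_le _ hc).trans n1
    have r2 := (abs_rco_le _ hc).trans n2
    rw [rco_sub, hu1] at r2
    rw [e3] at r1 r2
    refine ⟨v, hv, s₂ _ (sad_lt ho hbt hc) u v hu2 ?_ ?_⟩
    · have : (2 : ℝ) * |(u : ℝ) - 2 ^ π.p * v| < 2 ^ π.p := by linarith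
      exact_mod_cast this
    · have h5 := abs_add_le ((u : ℝ) - 2 ^ π.p * v) (2 ^ π.p * v)
      rw [sub_add_cancel] at h5
      have h6 : (2 : ℝ) ^ (3 * π.p) ≤ 2 ^ π.w := pow_le_pow_right₀ (by norm_num) (by omega)
      have : (4 : ℝ) * |(u : ℝ)| < 2 ^ π.w := by nlinarith
      exact_mod_cast this

end Crest.Agent.IM.CO
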