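import Crest.Agent.IM.Dft
import Crest.Agent.IM.Crt
import Crest.Agent.IM.Split
import Crest.Agent.IM.CoreA

/-! TASK IM-O. One level of the multiplication. `N = 2 n S`. For each factor: `split` (`f = p`),
`crtF`, `dft` with `sgn = 0` (`ε₀ = 2 · 2 ^ b`, `nrm_emb`, `emb_smul`); `exch` in between.
Then `pmul` (`O = S`), `asr p` (`AR.asr`; `ε₂ = 4 n (2 ^ g ε₀) ^ 2`), `dft` with `sgn = 1`
(`dft_conv`, `emb_conv`), `rscal` by `1 / S` (`eE` with `n = 0`, `D = 1`, `u = 1`, `v = S`; error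
`≤ 8 · 2 ^ g ε₂ < 2 ^ (p - 1)`), add `2 ^ (p - 1)` to all lanes (`fill` slice `p - 1`, `add2`),
`asr p` (now exact: `rco_emb_int`), `crtB`, `join` (`digits_conv`). -/

set_option autoImplicit false

namespace Crest.Agent.IM

namespace CO
open Q4 Finset

/-- digits of a number -/
def dg (b u j : ℕ) : ℤ := ((u / 2 ^ (b * j) % 2 ^ b : ℕ) : ℤ)

/-- the transform of one factor -/
theorem fw_ex {q bb : ℕ} (hD : DftStmt q bb) (hT : TransStmt) (mul : Prog) :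
    ∃ (p : Prog) (C : ℕ), ∀ (B P : ℕ) (r : Prog) (π : Par) (m b : ℕ) (x₁ x₂ : ℝ) (X : List Bool),
    π.Ok q bb P → π.Big C B P → 1 ≤ b → m ≤ 2 * π.n * π.S * b → b + π.g + 2 ≤ π.p →
    π.Mul1 B P r mul x₁ → π.Mul2 B P r mul x₂ → X.length = m * π.Bt →
    ∃ Z : List Bool, Z.length = π.w * (π.S * (2 * π.n) * π.Bt) ∧
      Top B P r p (m :: b :: π.args) X Z (x₁ + π.np * x₂ + C * π.N0 * π.ov P) ∧
      ∀ bt < π.Bt, ∀ x ∈ box π.s π.d, Apx π.w (π.S * (2 * π.n) * π.Bt) π.n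
        (sad π.n π.Bt (mr π.s 0 π.d x) bt) π.p (2 ^ π.g * 2 ^ (b + 1)) Z
        (dft 1 π.s π.d (π.emb fun j => 2 ^ π.p * dg b (wd m π.Bt X bt) j) x) := by
  obtain ⟨p₁, C₁, h₁⟩ := split_ex hT
  obtain ⟨p₂, C₂, h₂⟩ := crtF_ex hT
  obtain ⟨p₃, C₃, h₃⟩ := hD mul
  refine ⟨.call [.var 7, .var 0, .var 1, 2 * .var 16 * .var 19, .var 11, .var 18, .var 17] p₁ ;;
    .call (fwd 2 20) p₂ ;; .call (0 :: fwd 2 20) p₃, 2 * C₁ + C₂ + C₃ + 5,
    fun B P r π m b x₁ x₂ X ok big hb hm hbp m1 m2 hX => ?_⟩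
  have hw := CV.one_le_w ok
  have hn := π.one_le_n
  have hw6 : π.w = 6 * π.p := rfl
  have hN1 : π.w * (2 * π.n * π.S * π.Bt) ≤ π.N0 := le_trans (le_of_eq (by ring)) (N1_le ok)
  have hNB : π.N0 ≤ B := CV.N0_le big (by omega)
  have hN0 : 1 ≤ 2 * π.n * π.S := Nat.mul_pos (by omega) π.one_le_S
  have hMB : 2 * π.n * π.S ≤ B :=
    le_of_mul (π.w * π.Bt) (Nat.mul_pos hw ok.hBt) (hN1.trans hNB) (by ring)
  obtain ⟨Z₁, l₁, t₁, s₁⟩ := h₁ B P r π.jt m b (2 * π.n * π.S) π.Bt π.w π.p X ok.hP hb hN0 ok.hBt hm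
    (by omega) ((Nat.mul_le_mul (by omega) hN1).trans big.1) big.2.2 hX
  obtain ⟨Z₂, l₂, t₂, s₂⟩ := h₂ q bb B P r π Z₁ ok (big.mono (by omega)) l₁
  obtain ⟨Z₃, l₃, t₃, s₃⟩ := h₃ B P r π 0 x₁ x₂ Z₂ ok (big.mono (by omega)) (by omega) m1 m2 l₂
  have e1 : (fwd 2 20).map (fun e => e.ev B P (m :: b :: π.args)) = π.args := ev_fwd' _ rfl
  have o1 : ∀ v ∈ π.args, Ok B (m :: b :: π.args) v := fun v hv => Or.inr (by simp [hv])
  have g1 := Go.call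
    (args := [.var 7, .var 0, .var 1, 2 * .var 16 * .var 19, .var 11, .var 18, .var 17])
    (env := m :: b :: π.args) (by rfl) (by simp [Ok, hMB, Par.args]) t₁
  have g2 := Go.call e1 o1 t₂
  have g3 := Go.call (args := 0 :: fwd 2 20) (env := m :: b :: π.args)
    (by simp only [List.map_cons, e1]; rfl) (List.forall_mem_cons.2 ⟨Or.inl (Nat.zero_le _), o1⟩) t₃
  refine ⟨Z₃, l₃, (g1.seq (g2.seq g3)).top.mono ?_, fun bt hbt x hx => ?_⟩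
  · have k3 : (P : ℝ) ≤ π.N0 := by exact_mod_cast ok.P_le_N0
    have k4 : (1 : ℝ) ≤ P := by exact_mod_cast ok.hP
    have k5 : (π.N0 : ℝ) ≤ π.N0 * π.ov P := le_mul_of_one_le_right (by positivity) (one_le_ov π P)
    have k6 : (π.w : ℝ) * ((2 * π.n * π.S : ℕ) * π.Bt) ≤ π.N0 := by exact_mod_cast hN1
    have k7 := (tr_ge ok (l := π.w * (2 * π.n * π.S)) (by nlinarith)).trans (tr_le_ov π P)
    have k8 := one_le_trc π.jt (π.w * (2 * π.n * π.S)).size (P / π.Bt).size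
    generalize trc π.jt (π.w * (2 * π.n * π.S)).size (P / π.Bt).size = τ at *
    have a0 : ((π.w : ℝ) * ((2 * π.n * π.S : ℕ) * π.Bt) + P) * τ ≤ 2 * π.N0 * π.ov P :=
      mul_le_mul (by linarith) k7 (by linarith) (by positivity)
    have a1 := cle C₁ a0
    have a2 : (C₂ : ℝ) * π.N0 * ((π.d + 1) * π.tr P) ≤ C₂ * π.N0 * π.ov P :=
      mul_le_mul_of_nonneg_left (dtr_le_ov π P) (by positivity)
    push_cast at a1 ⊢
    linarith
  · have := s₃ bt hbt (π.emb fun j => 2 ^ π.p * dg b (wd m π.Bt X bt) j) (2 ^ (b + 1))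
      (one_le_pow₀ (by norm_num))
      (by rw [← pow_add, ← pow_succ']; exact pow_le_pow_right₀ (by norm_num) (by omega))
      (fun y hy => ⟨?_, _, s₂ bt hbt (fun j => 2 ^ π.p * dg b (wd m π.Bt X bt) j)
        (fun j hj => s₁ j hj bt hbt) y hy, by
        rw [sub_self, nrm_zero]; positivity⟩) x hx
    · simpa using this
    · refine (ok.nrm_emb _ (μ := 2 ^ π.p * 2 ^ b) (fun j _ => ?_) hy).trans (le_of_eq (by ring))
      have h1 : wd m π.Bt X bt / 2 ^ (b * j) % 2 ^ b ≤ 2 ^ b := (Nat.mod_lt _ (by positivity)).le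
      have h2 : ((wd m π.Bt X bt / 2 ^ (b * j) % 2 ^ b : ℕ) : ℝ) ≤ 2 ^ b := by exact_mod_cast h1
      unfold dg
      rw [Int.cast_mul, Int.cast_natCast, abs_mul, Nat.abs_cast]
      push_cast
      rw [abs_of_pos (by positivity)]
      gcongr

theorem dft_smul {n : ℕ} (σ : ℤ) (ns : ℕ → ℕ) (d : ℕ) (c : ℂ) (z : (ℕ → ℕ) → RA n) (x : ℕ → ℕ) :
    dft σ ns d (fun y => c • z y) x = c • dft σ ns d z x := by
  simp only [dft, tens, smul_sum]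
  exact sum_congr rfl fun y _ => smul_comm _ _ _

theorem dft_prod {π : Par} {q bb P : ℕ} (ok : π.Ok q bb P) (f g : ℕ → ℤ) {n₁ : ℕ}
    (hn : 2 * n₁ ≤ 2 * π.n * π.S) (hf : ∀ j, n₁ ≤ j → f j = 0) (hg : ∀ j, n₁ ≤ j → g j = 0)
    {x : ℕ → ℕ} (hx : x ∈ box π.s π.d) :
    dft (-1) π.s π.d (fun y => ((2 : ℂ) ^ π.p)⁻¹ •
      (dft 1 π.s π.d (π.emb fun j => 2 ^ π.p * f j) y *
        dft 1 π.s π.d (π.emb fun j => 2 ^ π.p * g j) y)) x =
      (π.S : ℂ) • (2 : ℂ) ^ π.p • π.emb (fun i => ∑ j ∈ range (i + 1), f j * g (i - j)) x := by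
  rw [dft_smul, dft_conv (fun i _ => π.one_le_s i) _ _ hx,
    ok.emb_conv _ _ hn (fun j hj => by rw [hf j hj, mul_zero])
      (fun j hj => by rw [hg j hj, mul_zero]) hx,
    π.emb_congr (g := fun i => 2 ^ π.p * (2 ^ π.p * ∑ j ∈ range (i + 1), f j * g (i - j)))
      (fun i _ => by rw [mul_sum, mul_sum]; exact sum_congr rfl fun j _ => by ring),
    π.emb_smul, π.emb_smul, smul_comm]
  push_cast
  rw [inv_smul_smul₀ (pow_ne_zero _ two_ne_zero)]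
  rfl

end CO

/-- One level. -/
def CoreStmt (q bb : ℕ) : Prop :=
  ∀ mul : Prog, ∃ (p : Prog) (C : ℕ), ∀ (B P : ℕ) (r : Prog) (π : Par) (m b n₁ : ℕ) (x₁ x₂ : ℝ)
    (X Y : List Bool), π.Ok q bb P → π.Big C B P → 1 ≤ b → m ≤ n₁ * b →
    2 * n₁ ≤ 2 * π.n * π.S → n₁ ≤ 2 ^ b → 2 * b + 3 * π.g + π.e + 30 ≤ π.p →
    π.Mul1 B P r mul x₁ → π.Mul2 B P r mul x₂ → X.length = m * π.Bt → Y.length = m * π.Bt →
    ∃ Z : List Bool, Z.length = 2 * m * π.Bt ∧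
      Top B P r p (m :: b :: π.args) (X ++ Y) Z
        (4 * x₁ + (3 * π.np + 1) * x₂ + C * π.N0 * π.ov P) ∧
      ∀ a < π.Bt, wd (2 * m) π.Bt Z a = wd m π.Bt X a * wd m π.Bt Y a

theorem core_ex {q bb : ℕ} (hD : DftStmt q bb) (hT : TransStmt) : CoreStmt q bb := by
  intro mul
  obtain ⟨p₁, C₁, h₁⟩ := CO.fw_ex hD hT mul
  obtain ⟨p₂, C₂, h₂⟩ := exch_ex
  obtain ⟨p₃, C₃, h₃⟩ := CO.pm_ex hT mul
  obtain ⟨p₄, C₄, h₄⟩ := hD mul
  obtain ⟨p₅, C₅, h₅⟩ := CO.sc_ex mul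
  obtain ⟨p₆, C₆, h₆⟩ := crtB_ex hT
  obtain ⟨p₇, C₇, h₇⟩ := join_ex hT
  refine ⟨.call (fwd 0 22) p₁ ;;
    .call [.var 18 * (.var 19 * (2 * .var 16) * .var 11), .var 0 * .var 11] p₂ ;;
    .call (fwd 0 22) p₁ ;; .call (fwd 2 20) p₃ ;; .call (1 :: fwd 2 20) p₄ ;;
    .call (fwd 2 20) p₅ ;; .call (fwd 2 20) p₆ ;;
    .call [.var 7, .var 0, .var 1, 2 * .var 16 * .var 19, .var 11, .var 18] p₇,
    2 * C₁ + 3 * C₂ + C₃ + C₄ + C₅ + C₆ + 2 * C₇ + 15,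
    fun B P r π m b n₁ x₁ x₂ X Y ok big hb hm hn₁ hnb hp m1 m2 hX hY => ?_⟩
  have hw := CV.one_le_w ok
  have hn := π.one_le_n
  have hw6 : π.w = 6 * π.p := rfl
  have h2n := CO.two_n ok
  have hN1 : π.w * (2 * π.n * π.S * π.Bt) ≤ π.N0 := le_trans (le_of_eq (by ring)) (CO.N1_le ok)
  have hNB : π.N0 ≤ B := CV.N0_le big (by omega)
  have hN0 : 1 ≤ 2 * π.n * π.S := Nat.mul_pos (by omega) π.one_le_S
  have hMB : 2 * π.n * π.S ≤ B :=
    Q4.le_of_mul (π.w * π.Bt) (Nat.mul_pos hw ok.hBt) (hN1.trans hNB) (by ring)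
  have hm2 : 2 * m ≤ 2 * π.n * π.S * b := by nlinarith
  have hmN : m * π.Bt ≤ π.N0 := by
    refine le_trans ?_ hN1
    calc m * π.Bt ≤ 2 * π.n * π.S * b * π.Bt := Nat.mul_le_mul_right _ (by omega)
      _ = b * (2 * π.n * π.S * π.Bt) := by ring
      _ ≤ _ := Nat.mul_le_mul_right _ (by omega)
  obtain ⟨X₁, l₁, t₁, s₁⟩ := h₁ B P r π m b x₁ x₂ X ok (big.mono (by omega)) hb (by omega)
    (by omega) m1 m2 hX
  have t₂ := h₂ B P r _ _ X₁ Y ok.hP l₁ hY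
  obtain ⟨Y₁, l₁', t₁', s₁'⟩ := h₁ B P r π m b x₁ x₂ Y ok (big.mono (by omega)) hb (by omega)
    (by omega) m1 m2 hY
  obtain ⟨Z₃, l₃, t₃, s₃⟩ := h₃ q bb B P r π x₁ Y₁ X₁ ok (big.mono (by omega)) m1 l₁' l₁
  obtain ⟨Z₄, l₄, t₄, s₄⟩ := h₄ B P r π 1 x₁ x₂ Z₃ ok (big.mono (by omega)) le_rfl m1 m2 l₃
  obtain ⟨Z₅, l₅, t₅, s₅⟩ := h₅ q bb B P r π x₂ Z₄ ok (big.mono (by omega)) m2 l₄
  obtain ⟨Z₆, l₆, t₆, s₆⟩ := h₆ q bb B P r π Z₅ ok (big.mono (by omega)) l₅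
  obtain ⟨Z, l₇, t₇, s₇⟩ := h₇ B P r π.jt m b (2 * π.n * π.S) π.Bt π.w Z₆ ok.hP hb hN0 ok.hBt hm2
    (by omega) ((Nat.mul_le_mul (by omega) hN1).trans big.1) big.2.2 l₆
  have e0 : (fwd 0 22).map (fun e => e.ev B P (m :: b :: π.args)) = m :: b :: π.args :=
    ev_fwd' _ rfl
  have e1 : (fwd 2 20).map (fun e => e.ev B P (m :: b :: π.args)) = π.args := ev_fwd' _ rfl
  have o1 : ∀ v ∈ π.args, Ok B (m :: b :: π.args) v := fun v hv => Or.inr (by simp [hv])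
  have g1 := Go.call e0 (fun v hv => Or.inr hv) (t₁.frame Y)
  have g2 := Go.call (args := [.var 18 * (.var 19 * (2 * .var 16) * .var 11), .var 0 * .var 11])
    (env := m :: b :: π.args) (by rfl)
    (by simp [Ok, (CO.N1_le ok).trans hNB, hmN.trans hNB]) t₂
  have g1' := Go.call e0 (fun v hv => Or.inr hv) (t₁'.frame X₁)
  have g3 := Go.call e1 o1 t₃
  have g4 := Go.call (args := 1 :: fwd 2 20) (env := m :: b :: π.args)
    (by simp only [List.map_cons, e1]; rfl) (List.forall_mem_cons.2 ⟨Or.inl (by omega), o1⟩) t₄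
  have g5 := Go.call e1 o1 t₅
  have g6 := Go.call e1 o1 t₆
  have g7 := Go.call (args := [.var 7, .var 0, .var 1, 2 * .var 16 * .var 19, .var 11, .var 18])
    (env := m :: b :: π.args) (by rfl) (by simp [Ok, hMB, Par.args]) t₇
  refine ⟨Z, l₇, (g1.seq (g2.seq (g1'.seq (g3.seq (g4.seq (g5.seq (g6.seq g7))))))).top.mono ?_,
    fun bt hbt => ?_⟩
  · have k3 : (P : ℝ) ≤ π.N0 := by exact_mod_cast ok.P_le_N0
    have k4 : (1 : ℝ) ≤ P := by exact_mod_cast ok.hP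
    have k5 : (π.N0 : ℝ) ≤ π.N0 * π.ov P :=
      le_mul_of_one_le_right (by positivity) (CO.one_le_ov π P)
    have k6 : (π.w : ℝ) * ((2 * π.n * π.S : ℕ) * π.Bt) ≤ π.N0 := by exact_mod_cast hN1
    have k7 := (CO.tr_ge ok (l := π.w * (2 * π.n * π.S)) (by nlinarith)).trans (CO.tr_le_ov π P)
    have k8 := one_le_trc π.jt (π.w * (2 * π.n * π.S)).size (P / π.Bt).size
    have k9 : ((π.w * (π.S * (2 * π.n) * π.Bt) : ℕ) : ℝ) ≤ π.N0 := by exact_mod_cast CO.N1_le ok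
    have k10 : ((m * π.Bt : ℕ) : ℝ) ≤ π.N0 := by exact_mod_cast hmN
    generalize trc π.jt (π.w * (2 * π.n * π.S)).size (P / π.Bt).size = τ at *
    have a0 : ((π.w : ℝ) * ((2 * π.n * π.S : ℕ) * π.Bt) + P) * τ ≤ 2 * π.N0 * π.ov P :=
      mul_le_mul (by linarith) k7 (by linarith) (by positivity)
    have a7 := Q4.cle C₇ a0
    have a6 : (C₆ : ℝ) * π.N0 * ((π.d + 1) * π.tr P) ≤ C₆ * π.N0 * π.ov P :=
      mul_le_mul_of_nonneg_left (CO.dtr_le_ov π P) (by positivity)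
    have a2 := Q4.cle C₂ (show ((π.w * (π.S * (2 * π.n) * π.Bt) : ℕ) : ℝ) + (m * π.Bt : ℕ) + P ≤
      3 * (π.N0 * π.ov P) by linarith)
    push_cast at a2 a7 ⊢
    linarith
  · obtain ⟨d1, d2, d3⟩ := digits_conv hb hm hn₁ hnb (wd_lt m π.Bt Y bt) (wd_lt m π.Bt X bt)
    have d1' := (digits_conv hb hm hn₁ hnb (wd_lt m π.Bt X bt) (wd_lt m π.Bt Y bt)).1
    have hx : ∀ x ∈ box π.s π.d, mr π.s 0 π.d x < π.S := fun x hx => mr_lt_of_mem_box hx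
    have c0 : (1 : ℝ) ≤ 2 ^ π.g * 2 ^ (b + 1) := by
      rw [← pow_add]; exact one_le_pow₀ (by norm_num)
    have c1 : 5 * (π.n : ℝ) * (2 ^ π.g * 2 ^ (b + 1)) ^ 2 ≤ 2 ^ (π.e + 2 * π.g + 2 * b + 5) := by
      have : (π.n : ℝ) ≤ 2 ^ π.e := by exact_mod_cast (by omega : π.n ≤ 2 ^ π.e)
      calc _ ≤ 8 * 2 ^ π.e * ((2 : ℝ) ^ π.g * 2 ^ (b + 1)) ^ 2 := by gcongr; norm_num
        _ = _ := by ring
    have r₄ := s₄ bt hbt _ (2 ^ (π.e + 2 * π.g + 2 * b + 5)) (one_le_pow₀ (by norm_num))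
      (by rw [← pow_add, ← pow_succ']; exact pow_le_pow_right₀ (by norm_num) (by omega))
      (fun x hx' => (s₃ _ (hx x hx') bt hbt _ _ _ c0
        (by rw [← pow_add]; exact pow_le_pow_right₀ (by norm_num) (by omega))
        (s₁' bt hbt x hx') (s₁ bt hbt x hx')).mono c1)
    have r₆ := s₆ bt hbt (fun i => ∑ j ∈ Finset.range (i + 1),
        CO.dg b (wd m π.Bt Y bt) j * CO.dg b (wd m π.Bt X bt) (i - j)) fun x hx' =>
      s₅ _ (hx x hx') bt hbt _ (2 ^ π.g * 2 ^ (π.e + 2 * π.g + 2 * b + 5))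
        (by rw [← pow_add]; exact one_le_pow₀ (by norm_num))
        (by
          rw [← pow_add, show (16 : ℝ) = 2 ^ 4 by norm_num, ← pow_add]
          exact pow_le_pow_right₀ (by norm_num) (by omega))
        (fun c hc => ok.rco_emb_int _ hx' hc) (by
          have := r₄ x hx'
          rwa [if_neg one_ne_zero, CO.dft_prod ok _ _ hn₁
            (fun j hj => by rw [CO.dg, d1 j hj]; rfl) (fun j hj => by rw [CO.dg, d1' j hj]; rfl)
            hx'] at this)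
    rw [s₇ bt hbt _ (fun i hi => ⟨d2 i, by
        have := r₆ i hi
        unfold CO.dg at this
        exact_mod_cast this⟩) (by
        rw [d3, two_mul, pow_add]
        exact Nat.mul_lt_mul'' (wd_lt _ _ _ _) (wd_lt _ _ _ _)), d3, mul_comm]

end Crest.Agent.IM
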