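import Crest.Agent.IM.CrtM

/-! Auxiliary passes for the Chinese remainder rearrangement: shears and their inverses. -/

set_option autoImplicit false
open Finset

namespace Crest.Agent.IM.CY
open Q4

theorem mod_row {a A i I : ℕ} (t : ℕ) (hi : i < I) :
    (a * I + i + t * I) % (A * I) = (a + t) % A * I + i := by
  have hI : 0 < I := by omega
  rw [show a * I + i + t * I = i + I * (a + t) by ring, mul_comm A I, Nat.mod_mul,
    Nat.add_mul_mod_self_left, Nat.mod_eq_of_lt hi, Nat.add_mul_div_left _ _ hI,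
    Nat.div_eq_of_lt hi, zero_add]
  ring

/-- Transposition followed by a shear. -/
def Sh (O A A' I c : ℕ) (L L' : List Bool) : Prop :=
  ∀ o < O, ∀ a < A, ∀ a' < A', ∀ i < I,
    bit L' (((o * A' + a') * A + (a + c * a') % A) * I + i) =
      bit L (((o * A + a) * A' + a') * I + i)

theorem shear_ex (hT : TransStmt) : ∃ (p p' : Prog) (C : ℕ), ∀ (B P : ℕ) (r : Prog)
    (j O A A' I c N : ℕ) (T : ℝ) (L : List Bool), 1 ≤ P → 1 ≤ O → 1 ≤ A → 1 ≤ A' → 1 ≤ I →
    O * A * A' * I ≤ N → O * A' * P ≤ N → C * N ≤ B → WW ^ j * P ≤ B →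
    trc j (A * A').size (P / I).size ≤ T → L.length = O * A * A' * I →
    (∃ L' : List Bool, L'.length = O * A * A' * I ∧
      Top B P r p [j, O, A, A', I, c] L L' (C * N * T) ∧ Sh O A A' I c L L') ∧
    (∃ L' : List Bool, L'.length = O * A * A' * I ∧
      Top B P r p' [j, O, A, A', I, c] L L' (C * N * T) ∧ Sh O A A' I c L' L) := by
  obtain ⟨p₁, C₁, h₁⟩ := hT
  obtain ⟨p₂, C₂, h₂⟩ := rot_ex (.var 4 * (.var 0 % .var 2) % .var 1 * .var 3) 4
  obtain ⟨p₃, C₃, h₃⟩ := rot_ex ((.var 1 - .var 4 * (.var 0 % .var 2) % .var 1) * .var 3) 4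
  refine ⟨.call [.var 0, .var 1, .var 2, .var 3, .var 4] p₁ ;;
      .call [.var 1 * .var 3, .var 2 * .var 4, .var 2, .var 3, .var 4, .var 5] p₂,
    .call [.var 1 * .var 3, .var 2 * .var 4, .var 2, .var 3, .var 4, .var 5] p₃ ;;
      .call [.var 0, .var 1, .var 3, .var 2, .var 4] p₁,
    2 * C₁ + 3 * C₂ + 3 * C₃ + 3,
    fun B P r j O A A' I c N T L hP hO hA hA' hI hN hN' hB hW hTr hL => ?_⟩
  have hNB : N ≤ B := le_of_mul _ (by omega) hB (mul_comm _ _)
  have hB1 : C₁ * (O * A * A' * I) ≤ B := le_trans (Nat.mul_le_mul (by omega) hN) hB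
  have hAI : 1 ≤ A * I := Nat.mul_pos hA hI
  have hOA : 1 ≤ O * A' := Nat.mul_pos hO hA'
  have e0 : O * A' * (A * I) = O * A * A' * I := by ring
  have b1 : O * A' ≤ B := le_trans (Nat.le_mul_of_pos_right _ hAI) (by rw [e0]; omega)
  have b2 : A * I ≤ B := le_trans (Nat.le_mul_of_pos_left _ hOA) (by rw [e0]; omega)
  have hPN : P ≤ N := le_trans (Nat.le_mul_of_pos_left _ hOA) hN'
  have hT1 : 1 ≤ T := (one_le_trc _ _ _).trans hTr
  have hT0 : 0 ≤ trc j (A * A').size (P / I).size := le_trans zero_le_one (one_le_trc _ _ _)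
  have r1 : (O : ℝ) * A * A' * I ≤ N := by exact_mod_cast hN
  have r2 : (O : ℝ) * A' * P ≤ N := by exact_mod_cast hN'
  have r3 : (P : ℝ) ≤ N := by exact_mod_cast hPN
  have r4 : (1 : ℝ) ≤ P := by exact_mod_cast hP
  have r5 : (N : ℝ) ≤ N * T := le_mul_of_one_le_right (by positivity) hT1
  have k1 : (C₁ : ℝ) * (O * A * A' * I + P) * trc j (A * A').size (P / I).size ≤
      C₁ * (2 * (N * T)) := by
    rw [mul_assoc]
    refine cle _ ?_
    calc _ ≤ (2 * N : ℝ) * T := mul_le_mul (by linarith) hTr hT0 (by positivity)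
      _ = _ := by ring
  have k2 : ∀ C : ℕ, (C : ℝ) * (((O * A' : ℕ) : ℝ) * (A * I : ℕ) + (O * A' : ℕ) * P + P) ≤
      C * (3 * (N * T)) := fun C => cle _ (by push_cast; nlinarith)
  have k3 : ∀ C : ℕ, (0 : ℝ) ≤ C * (N * T) := fun C => by positivity
  constructor
  · obtain ⟨L₁, l₁, t₁, e₁⟩ := h₁ B P r j O A A' I L hP hO hA hA' hI hB1 hW hL
    obtain ⟨L₂, l₂, t₂, e₂⟩ := h₂ B P r (O * A') (A * I) [A, A', I, c] L₁ hP rfl hAI
      (by rw [e0]; omega) (by rw [l₁, e0])
    have g₁ := Go.call (args := [.var 0, .var 1, .var 2, .var 3, .var 4])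
      (env := [j, O, A, A', I, c]) rfl (by simp [Ok]) t₁
    have g₂ := Go.call
      (args := [.var 1 * .var 3, .var 2 * .var 4, .var 2, .var 3, .var 4, .var 5])
      (env := [j, O, A, A', I, c]) rfl (by simp [Ok, b1, b2]) t₂
    refine ⟨L₂, by rw [l₂, e0], ((g₁.seq g₂).mono ?_).top, fun o ho a ha a' ha' i hi => ?_⟩
    · have := k2 C₂
      have := k3 C₃
      push_cast at *
      nlinarith
    · have := e₂ (o * A' + a') (lt_mul ho ha') (a * I + i) (lt_mul ha hi)
      simp only [Ex.ev_mul, Ex.ev_mod, Ex.ev_var, List.getD_cons_succ, List.getD_cons_zero]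
        at this
      rw [Nat.mul_add_mod_of_lt ha', mod_row _ hi, Nat.add_mod_mod] at this
      rw [← e₁ o ho a ha a' ha' i hi]
      convert this using 2 <;> ring
  · obtain ⟨L₁, l₁, t₁, e₁⟩ := h₃ B P r (O * A') (A * I) [A, A', I, c] L hP rfl hAI
      (by rw [e0]; omega) (by rw [hL, e0])
    have e1 : O * A' * A * I = O * A * A' * I := by ring
    obtain ⟨L₂, l₂, t₂, e₂⟩ := h₁ B P r j O A' A I L₁ hP hO hA' hA hI (by rw [e1]; exact hB1) hW
      (by rw [l₁]; ring)
    have g₁ := Go.call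
      (args := [.var 1 * .var 3, .var 2 * .var 4, .var 2, .var 3, .var 4, .var 5])
      (env := [j, O, A, A', I, c]) rfl (by simp [Ok, b1, b2]) t₁
    have g₂ := Go.call (args := [.var 0, .var 1, .var 3, .var 2, .var 4])
      (env := [j, O, A, A', I, c]) rfl (by simp [Ok]) t₂
    refine ⟨L₂, by rw [l₂, e1], ((g₁.seq g₂).mono ?_).top, fun o ho a ha a' ha' i hi => ?_⟩
    · have := k2 C₃
      have := k3 C₂
      rw [mul_comm A' A, show (O : ℝ) * A' * A * I = O * A * A' * I by ring]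
      push_cast at *
      nlinarith
    · have hb : (a + c * a') % A < A := Nat.mod_lt _ hA
      have := e₁ (o * A' + a') (lt_mul ho ha') ((a + c * a') % A * I + i) (lt_mul hb hi)
      simp only [Ex.ev_mul, Ex.ev_mod, Ex.ev_sub, Ex.ev_var, List.getD_cons_succ,
        List.getD_cons_zero] at this
      have e2 : ((a + c * a') % A + (A - c * a' % A)) % A = a := by
        have h1 := Nat.mod_lt (c * a') hA
        have h2 := Nat.div_add_mod (c * a') A
        rw [Nat.mod_add_mod, show a + c * a' + (A - c * a' % A) = a + A * (c * a' / A + 1) by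
          rw [mul_add]; omega, Nat.add_mul_mod_self_left, Nat.mod_eq_of_lt ha]
      rw [Nat.mul_add_mod_of_lt ha', mod_row _ hi, e2] at this
      rw [e₂ o ho a' ha' a ha i hi]
      convert this.symm using 2 <;> ring

/-! ### the passes for the moduli -/

variable (π : Par)

/-- inner size at stage `i` -/
def Ii (i : ℕ) : ℕ := pr π.s 0 i * (2 * π.n) * π.Bt

/-- One stage: compute the sizes and call `p`; the environment is `i :: args`. -/
def body (p : Prog) : Prog :=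
  .lett (1 + (.var 8 + .var 0) * .var 9)
    (.lett (Ex.prod (.var 14 - (.var 1 + 1)) (1 + (.var 10 + (.var 2 + 1 + .var 0)) * .var 11))
      (.lett (Ex.prod (.var 2) (1 + (.var 11 + .var 0) * .var 12) * (2 * .var 17) * .var 12)
        (.lett (Ex.fold (.var 16 - (.var 3 + 1)) (1 % .var 2)
            (.var 0 * ((.var 13 + .var 5) * (.var 13 + .var 5) * (.var 14 / (.var 1 + 1))) % .var 4))
          (.call [.var 10, .var 21, .var 3, .var 2, .var 1, .var 0] p))))

theorem pr_le_S {a b : ℕ} (hab : a ≤ b) (hb : b ≤ π.d) : pr π.s a b ≤ π.S := by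
  have h1 : π.S = pr π.s b π.d * (pr π.s a b * pr π.s 0 a) := by
    rw [Par.S, pr_split (Nat.zero_le b) hb, pr_split (Nat.zero_le a) hab]
  have h2 : 0 < pr π.s b π.d := pr_pos fun i _ _ => π.one_le_s i
  have h3 : 0 < pr π.s 0 a := pr_pos fun i _ _ => π.one_le_s i
  rw [h1]
  exact (Nat.le_mul_of_pos_right _ h3).trans (Nat.le_mul_of_pos_left _ h2)

variable {π}

theorem M_le_N0 {q bb P : ℕ} (h : π.Ok q bb P) : π.w * (π.S * (2 * π.n) * π.Bt) ≤ π.N0 := by
  unfold Par.N0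
  gcongr
  exact h.S_le

theorem one_le_w {q bb P : ℕ} (h : π.Ok q bb P) : 1 ≤ π.w := by
  have := h.le_p; unfold Par.w; omega

theorem d_le_size {q bb B P C : ℕ} (h : π.Ok q bb P) (hB : π.Big C B P) (hC : 1 ≤ C) :
    π.d ≤ B.size := by
  refine Ex.le_size_of_two_pow_le (le_trans (Nat.pow_le_pow_right (by norm_num) ?_) hB.2.1)
  have h1 := h.hα1
  have h2 := h.eight_le_d
  have h3 : π.d ≤ π.p := by
    unfold Par.p
    have : 1 ≤ π.d ^ 4 := Nat.one_le_pow _ _ (by omega)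
    nlinarith
  nlinarith

theorem body_go {q bb B P C : ℕ} {r p : Prog} (h : π.Ok q bb P) (hB : π.Big C B P) (hC : 1 ≤ C)
    {i : ℕ} (hi : i < π.d) {L L' : List Bool} {x : ℝ}
    (hp : Top B P r p [π.jt, π.w, π.s i, pr π.s (i + 1) π.d, Ii π i, π.cc i] L L' x) :
    Go B P r (body p) (i :: π.args) L (i :: π.args) L' (x + 5 * P) := by
  have hd := d_le_size h hB hC
  have hw := one_le_w h
  have hn := π.one_le_n
  have hBt := h.hBt
  have b0 : π.S * (2 * π.n) * π.Bt ≤ B :=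
    (Nat.le_mul_of_pos_left _ hw).trans ((M_le_N0 h).trans
      ((Nat.le_mul_of_pos_left _ hC).trans hB.1))
  have b1 : π.S ≤ B := (Nat.le_mul_of_pos_right _ (by omega)).trans
    ((Nat.le_mul_of_pos_right _ hBt).trans b0)
  have b2 : π.s i ≤ B := by
    have := pr_le_S π (Nat.le_succ i) hi
    rw [pr_single] at this; omega
  have b3 : pr π.s (i + 1) π.d ≤ B := (pr_le_S π hi le_rfl).trans b1
  have b4 : Ii π i ≤ B := le_trans (by
    unfold Ii; gcongr; exact pr_le_S π (Nat.zero_le _) hi.le) b0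
  have b5 : π.cc i ≤ B := (Nat.mod_lt _ (π.one_le_s i)).le.trans b2
  have g1 := Go.call (args := [.var 10, .var 21, .var 3, .var 2, .var 1, .var 0])
    (env := π.cc i :: Ii π i :: pr π.s (i + 1) π.d :: π.s i :: i :: π.args) rfl
    (by simp [Ok, Par.args]) hp
  have g2 := Go.lett (e := Ex.fold (.var 16 - (.var 3 + 1)) (1 % .var 2)
      (.var 0 * ((.var 13 + .var 5) * (.var 13 + .var 5) * (.var 14 / (.var 1 + 1))) % .var 4))
    (env := Ii π i :: pr π.s (i + 1) π.d :: π.s i :: i :: π.args) (by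
      rw [Ex.ev_fold (N := π.d - (i + 1))
        (fun m => (∏ l ∈ range m, (π.a0 + i) ^ 2 * (π.D0 / (l + 1))) % π.s i) rfl (by omega)
        (by simp) (fun l _ => by
          rw [prod_range_succ]
          simp [Par.args, pow_two]) (fun l _ => (Nat.mod_lt _ (π.one_le_s i)).le.trans b2),
        Par.cc, prod_Ico_eq_prod_range]
      congr 1
      refine prod_congr rfl fun l _ => ?_
      congr 2; omega) (Or.inl b5) g1
  have g3 := Go.lett
    (e := Ex.prod (.var 2) (1 + (.var 11 + .var 0) * .var 12) * (2 * .var 17) * .var 12)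
    (env := pr π.s (i + 1) π.d :: π.s i :: i :: π.args) (by
      have e : ∏ l ∈ range i, (1 + (π.a0 + l) * π.D0) = pr π.s 0 i := by
        rw [pr, range_eq_Ico]; rfl
      rw [Ex.ev_mul, Ex.ev_mul, Ex.ev_prod (by simp; omega) (by simp)
        (by simp [Par.args, e]; exact (pr_le_S π (Nat.zero_le _) hi.le).trans b1)]
      simp [Par.args, e, Ii]) (Or.inl b4) g2
  have g4 := Go.lett
    (e := Ex.prod (.var 14 - (.var 1 + 1)) (1 + (.var 10 + (.var 2 + 1 + .var 0)) * .var 11))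
    (env := π.s i :: i :: π.args) (by
      have e : ∏ l ∈ range (π.d - (i + 1)), (1 + (π.a0 + (i + 1 + l)) * π.D0) =
          pr π.s (i + 1) π.d := by
        rw [pr, prod_Ico_eq_prod_range]; rfl
      rw [Ex.ev_prod (by simp [Par.args]; omega) (by simp) (by simp [Par.args, e, b3])]
      simp [Par.args, e]) (Or.inl b3) g3
  have g5 := Go.lett (e := 1 + (.var 8 + .var 0) * .var 9) (env := i :: π.args) rfl (Or.inl b2) g4
  exact g5.mono (le_of_eq (by ring))

/-- address of coefficient `j` at stage `i` -/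
def adr (π : Par) (i j c bt : ℕ) : ℕ :=
  ((j % pr π.s i π.d * pr π.s 0 i + mr π.s 0 i (π.γ j)) * (2 * π.n) + c) * π.Bt + bt

/-- Stage `i` of `L` is stage `i'` of `L'`. -/
def Rel (π : Par) (i i' : ℕ) (L L' : List Bool) : Prop :=
  ∀ β < π.w, ∀ j, ∀ c < 2 * π.n, ∀ bt < π.Bt,
    bit L' (β * (π.S * (2 * π.n) * π.Bt) + adr π i' j c bt) =
      bit L (β * (π.S * (2 * π.n) * π.Bt) + adr π i j c bt)

theorem S_eq {i : ℕ} (hi : i < π.d) : π.S = pr π.s (i + 1) π.d * π.s i * pr π.s 0 i :=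
  pr_three (Nat.zero_le _) hi

theorem rel_of_sh {q bb P : ℕ} (h : π.Ok q bb P) {i : ℕ} (hi : i < π.d) {L L' : List Bool}
    (hs : Sh π.w (π.s i) (pr π.s (i + 1) π.d) (Ii π i) (π.cc i) L L') : Rel π i (i + 1) L L' := by
  intro β hβ j c hc bt hbt
  have e0 : pr π.s i π.d = pr π.s (i + 1) π.d * π.s i := by
    rw [pr_split (Nat.le_succ i) hi, pr_single]
  have hM : 0 < pr π.s (i + 1) π.d := pr_pos fun l _ _ => π.one_le_s l
  have hs0 : 0 < π.s i := π.one_le_s i
  have hm : mr π.s 0 i (π.γ j) < pr π.s 0 i :=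
    mr_lt fun l _ hl => (mem_box.1 (π.γ_mem_box j)).1 l (by omega)
  have e1 : j % pr π.s i π.d =
      j / pr π.s (i + 1) π.d % π.s i * pr π.s (i + 1) π.d + j % pr π.s (i + 1) π.d := by
    rw [e0, Nat.mod_mul]; ring
  have e2 : (j / pr π.s (i + 1) π.d % π.s i + π.cc i * (j % pr π.s (i + 1) π.d)) % π.s i =
      π.γ j i := by
    simp only [Par.γ, if_pos hi]
    rw [Nat.mod_add_mod]
    have k1 := (h.cc_mul hi).mul_right (j / pr π.s (i + 1) π.d)
    rw [one_mul, mul_assoc] at k1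
    have k2 := k1.add_right (π.cc i * (j % pr π.s (i + 1) π.d))
    rw [← mul_add, Nat.div_add_mod] at k2
    exact k2.symm
  have := hs β hβ _ (Nat.mod_lt (j / pr π.s (i + 1) π.d) hs0) _ (Nat.mod_lt j hM)
    ((mr π.s 0 i (π.γ j) * (2 * π.n) + c) * π.Bt + bt) (lt_mul (lt_mul hm hc) hbt)
  rw [e2] at this
  unfold adr
  rw [e1, pr_succ (Nat.zero_le i), mr_succ (Nat.zero_le i), S_eq hi]
  unfold Ii at this
  convert this using 2 <;> ring

theorem trc_le {q bb P : ℕ} (h : π.Ok q bb P) {a I : ℕ} (ha : a ≤ π.S * (2 * π.n))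
    (hI : π.Bt ≤ I) : trc π.jt a.size (P / I).size ≤ π.tr P := by
  refine trc_mono _ (Nat.size_le_size ?_) (Nat.size_le_size (Nat.div_le_div_left hI h.hBt))
  have := one_le_w h
  calc a ≤ 1 * (π.S * (2 * π.n)) := by omega
    _ ≤ _ := by gcongr; exacts [by omega, h.S_le]

theorem loops_ex (hT : TransStmt) : ∃ (p p' : Prog) (C : ℕ), ∀ (q bb B P : ℕ) (r : Prog)
    (π : Par) (L : List Bool), π.Ok q bb P → π.Big C B P →
    L.length = π.w * (π.S * (2 * π.n) * π.Bt) →
    (∃ L' : List Bool, L'.length = π.w * (π.S * (2 * π.n) * π.Bt) ∧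
      Go B P r p π.args L π.args L' (C * π.N0 * ((π.d + 1) * π.tr P)) ∧ Rel π 0 π.d L L') ∧
    (∃ L' : List Bool, L'.length = π.w * (π.S * (2 * π.n) * π.Bt) ∧
      Go B P r p' π.args L π.args L' (C * π.N0 * ((π.d + 1) * π.tr P)) ∧ Rel π 0 π.d L' L) := by
  obtain ⟨p, p', C, hp⟩ := shear_ex hT
  refine ⟨.lett 0 (.loop (.var 13) (body p ;; .set 0 (.var 0 + 1))),
    .lett (.var 12) (.loop (.var 13) (.set 0 (.var 0 - 1) ;; body p')), C + 8,
    fun q bb B P r π L h hB hL => ?_⟩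
  have hd := d_le_size h hB (by omega)
  have hw := one_le_w h
  have hn := π.one_le_n
  have hBt := h.hBt
  have hP := h.hP
  have hdB : π.d ≤ B := by
    refine hd.trans (Nat.size_le.2 Nat.lt_two_pow_self)
  have key : ∀ i < π.d, ∀ L : List Bool, L.length = π.w * (π.S * (2 * π.n) * π.Bt) →
      (∃ L' : List Bool, L'.length = π.w * (π.S * (2 * π.n) * π.Bt) ∧
        Go B P r (body p) (i :: π.args) L (i :: π.args) L' (C * π.N0 * π.tr P + 5 * P) ∧
          Rel π i (i + 1) L L') ∧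
      (∃ L' : List Bool, L'.length = π.w * (π.S * (2 * π.n) * π.Bt) ∧
        Go B P r (body p') (i :: π.args) L (i :: π.args) L' (C * π.N0 * π.tr P + 5 * P) ∧
          Rel π i (i + 1) L' L) := by
    intro i hi L hL
    have e0 : π.w * π.s i * pr π.s (i + 1) π.d * Ii π i = π.w * (π.S * (2 * π.n) * π.Bt) := by
      rw [S_eq hi, Ii]; ring
    have hM : 0 < pr π.s (i + 1) π.d := pr_pos fun l _ _ => π.one_le_s l
    have hM' : 0 < pr π.s 0 i := pr_pos fun l _ _ => π.one_le_s l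
    have hI : π.Bt ≤ Ii π i := Nat.le_mul_of_pos_left _ (by positivity)
    obtain ⟨⟨L₁, l₁, t₁, e₁⟩, ⟨L₂, l₂, t₂, e₂⟩⟩ := hp B P r π.jt π.w (π.s i) (pr π.s (i + 1) π.d)
      (Ii π i) (π.cc i) π.N0 (π.tr P) L hP hw (π.one_le_s i) hM (by omega)
      (by rw [e0]; exact M_le_N0 h)
      (by
        refine le_trans ?_ (M_le_N0 h)
        rw [mul_assoc, mul_assoc π.S]
        gcongr
        exacts [pr_le_S π hi le_rfl, h.hPn])
      ((Nat.mul_le_mul_right _ (by omega)).trans hB.1) hB.2.2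
      (trc_le h (by
        rw [mul_comm, S_eq hi, mul_assoc _ (pr π.s 0 i)]
        exact Nat.le_mul_of_pos_right _ (by positivity)) hI) (by rw [hL, e0])
    exact ⟨⟨L₁, by rw [l₁, e0], body_go h hB (by omega) hi t₁, rel_of_sh h hi e₁⟩,
      ⟨L₂, by rw [l₂, e0], body_go h hB (by omega) hi t₂, rel_of_sh h hi e₂⟩⟩
  have hc : (π.d : ℝ) * (C * π.N0 * π.tr P + 6 * P + 1 + 1) + P + P ≤
      ((C + 8 : ℕ) : ℝ) * π.N0 * ((π.d + 1) * π.tr P) := by
    have r1 : (P : ℝ) ≤ π.N0 := by exact_mod_cast h.P_le_N0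
    have r2 : (1 : ℝ) ≤ P := by exact_mod_cast hP
    have r3 := π.one_le_tr P
    have r4 : (π.N0 : ℝ) ≤ π.N0 * π.tr P := le_mul_of_one_le_right (by positivity) r3
    have r5 : (0 : ℝ) ≤ C * (π.N0 * π.tr P) := by positivity
    have r6 : (π.d : ℝ) * (6 * P + 1 + 1) ≤ π.d * (8 * (π.N0 * π.tr P)) :=
      mul_le_mul_of_nonneg_left (by linarith) (by positivity)
    push_cast
    nlinarith
  constructor
  · obtain ⟨env', L', g, e1, e2, e3⟩ := Go.loop (B := B) (P := P) (r := r)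
      (p := body p ;; .set 0 (.var 0 + 1)) (e := .var 13) (env := 0 :: π.args) (L := L)
      (n := π.d) rfl (fun i env L' => env = i :: π.args ∧
        L'.length = π.w * (π.S * (2 * π.n) * π.Bt) ∧ Rel π 0 i L L')
      (C * π.N0 * π.tr P + 6 * P + 1) ⟨rfl, hL, fun _ _ _ _ _ _ _ => rfl⟩ (by
        rintro i hi env L₁ ⟨rfl, l₁, e₁⟩
        obtain ⟨L₂, l₂, g₂, e₂⟩ := (key i hi L₁ l₁).1
        refine ⟨(i + 1) :: π.args, L₂, (g₂.seq (Go.set (v := i + 1) rfl (Or.inl (by omega)))).mono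
          (le_of_eq (by ring)), rfl, l₂, fun β hβ j c hc bt hbt => ?_⟩
        rw [e₂ β hβ j c hc bt hbt, e₁ β hβ j c hc bt hbt])
    subst e1
    exact ⟨L', e2, (Go.lett (e := 0) (env := π.args) rfl (Or.inl (Nat.zero_le _)) g).mono hc, e3⟩
  · obtain ⟨env', L', g, e1, e2, e3⟩ := Go.loop (B := B) (P := P) (r := r)
      (p := .set 0 (.var 0 - 1) ;; body p') (e := .var 13) (env := π.d :: π.args) (L := L)
      (n := π.d) rfl (fun i env L' => env = (π.d - i) :: π.args ∧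
        L'.length = π.w * (π.S * (2 * π.n) * π.Bt) ∧ Rel π (π.d - i) π.d L' L)
      (C * π.N0 * π.tr P + 6 * P + 1) ⟨rfl, hL, fun _ _ _ _ _ _ _ => rfl⟩ (by
        rintro i hi env L₁ ⟨rfl, l₁, e₁⟩
        obtain ⟨L₂, l₂, g₂, e₂⟩ := (key (π.d - (i + 1)) (by omega) L₁ l₁).2
        refine ⟨(π.d - (i + 1)) :: π.args, L₂, ((Go.set (v := π.d - (i + 1)) rfl
          (Or.inl (by omega))).seq g₂).mono (le_of_eq (by ring)), rfl, l₂,
          fun β hβ j c hc bt hbt => ?_⟩
        rw [show π.d - (i + 1) + 1 = π.d - i by omega] at e₂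
        rw [e₁ β hβ j c hc bt hbt, e₂ β hβ j c hc bt hbt])
    subst e1
    rw [Nat.sub_self] at e3
    exact ⟨L', e2, (Go.lett (e := .var 12) (env := π.args) rfl (Or.inl hdB) g).mono hc, e3⟩

theorem sign_congr {a b R : ℕ} (hR : 0 < R) (h : a ≡ b [MOD 2 * R]) :
    a % R = b % R ∧ (-1 : ℤ) ^ (a / R) = (-1) ^ (b / R) := by
  have h1 : a % R = b % R := h.of_dvd (Dvd.intro_left 2 rfl)
  refine ⟨h1, ?_⟩
  have h2 : a % (R * 2) = b % (R * 2) := by rw [mul_comm]; exact h
  rw [Nat.mod_mul, Nat.mod_mul, h1] at h2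
  have h3 : a / R % 2 = b / R % 2 := Nat.eq_of_mul_eq_mul_left hR (by omega)
  rw [neg_one_pow_eq_pow_mod_two, h3, ← neg_one_pow_eq_pow_mod_two]

end Crest.Agent.IM.CY
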