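import Crest.Agent.IM.Par

/-! TASK IM-Q. The Chinese remainder embedding (pure mathematics).
`y ↦ x ^ αx ∏ z_i ^ (c i)` maps `ℤ[y] / (y ^ N + 1)`, `N = 2 n S`, onto
`ℤ[x, z_i] / (x ^ (2 n) + 1, z_i ^ (s i) - 1)`. Since `(a0 + i) D0 ≡ -1` and
`s l ≡ (l - i) D0 (mod s i)`, `cc i` inverts `pr s (i + 1) d` modulo `s i`; `αx S ≡ 1 (mod 4 n)` by
Euler's theorem (`S` odd, `4 n = 2 ^ (e + 1)`). The map `j ↦ (γ j, αx j % (2 n))` is injective on
`j < N` (the `s i` and `2 n` are pairwise coprime, the multipliers are units), hence onto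
`box × range (2 n)` by counting (`card_box`). `rco_xr_pow_mul`, `rco_one`, `rco_intCast_mul`. -/

set_option autoImplicit false
open Finset

namespace Crest.Agent.IM

namespace Par
variable (π : Par)

/-- inverse of `pr s (i + 1) d` modulo `s i` -/
def cc (i : ℕ) : ℕ := (∏ l ∈ Ico (i + 1) π.d, (π.a0 + i) ^ 2 * (π.D0 / (l - i))) % π.s i

/-- inverse of `S` modulo `4 n` -/
def αx : ℕ := π.S ^ (2 * π.n - 1) % (4 * π.n)

/-- position of the coefficient `j` -/
def γ (j : ℕ) : ℕ → ℕ := fun i => if i < π.d then π.cc i * j % π.s i else 0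

open Classical in
/-- the embedded coefficient sequence -/
noncomputable def emb (f : ℕ → ℤ) (x : ℕ → ℕ) : RA π.n :=
  ∑ j ∈ range (2 * π.n * π.S), if π.γ j = x then (f j : RA π.n) * xr π.n ^ (π.αx * j) else 0

theorem γ_mem_box (j : ℕ) : π.γ j ∈ box π.s π.d := by
  refine mem_box.2 ⟨fun i hi => ?_, fun i hi => ?_⟩
  · simp only [γ, if_pos hi]; exact Nat.mod_lt _ (π.one_le_s i)
  · simp only [γ, if_neg (not_lt.2 hi)]

namespace Ok
variable {π} {q bb P : ℕ} (h : π.Ok q bb P)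
include h

theorem cc_mul {i : ℕ} (hi : i < π.d) : π.cc i * pr π.s (i + 1) π.d ≡ 1 [MOD π.s i] := by
  have key : ∀ l ∈ Ico (i + 1) π.d,
      (π.a0 + i) ^ 2 * (π.D0 / (l - i)) * π.s l ≡ 1 [MOD π.s i] := by
    intro l hl
    obtain ⟨h1, h2⟩ := mem_Ico.1 hl
    obtain ⟨m, rfl⟩ : ∃ m, l = i + m := ⟨l - i, by omega⟩
    obtain ⟨k, hk⟩ := h.hD1 m (by omega) (by omega)
    rw [Nat.add_sub_cancel_left, ← ZMod.natCast_eq_natCast_iff]
    have e1 : π.D0 / m = k := by rw [hk, Nat.mul_div_cancel_left _ (by omega)]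
    have e2 : ((π.s i : ℕ) : ZMod (π.s i)) = 0 := ZMod.natCast_self _
    have e3 : ((π.D0 : ℕ) : ZMod (π.s i)) = m * k := by rw [hk]; push_cast; ring
    rw [e1]
    have e4 : ∀ l : ℕ, ((π.s l : ℕ) : ZMod (π.s i)) = 1 + (π.a0 + l) * π.D0 := fun l => by
      rw [show π.s l = 1 + (π.a0 + l) * π.D0 from rfl]; push_cast; rfl
    rw [e4] at e2
    push_cast
    rw [e4]
    push_cast
    generalize ((π.D0 : ℕ) : ZMod (π.s i)) = D at *
    subst e3
    linear_combination (((π.a0 : ZMod (π.s i)) + i) ^ 2 * k + (π.a0 + i) * (m * k) - 1) * e2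
  have h1 : (∏ l ∈ Ico (i + 1) π.d, (π.a0 + i) ^ 2 * (π.D0 / (l - i))) * pr π.s (i + 1) π.d ≡ 1
      [MOD π.s i] := by
    rw [pr, ← prod_mul_distrib]
    have := Nat.ModEq.prod key
    simpa using this
  exact ((Nat.mod_modEq _ _).mul_right _).trans h1

theorem αx_mul : π.αx * π.S ≡ 1 [MOD 4 * π.n] := by
  have he : 1 ≤ π.e := by have := h.hke; omega
  have e1 : 2 * π.n = 2 ^ π.e := by
    unfold n; rw [← pow_succ']; congr 1; omega
  have e2 : 4 * π.n = 2 ^ (π.e + 1) := by rw [pow_succ', ← e1]; ring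
  have hS : Odd π.S := by
    unfold S pr
    exact Finset.prod_induction _ Odd (fun a b ha hb => ha.mul hb) odd_one fun i _ => h.odd_s i
  have hc : Nat.Coprime π.S (4 * π.n) := by
    rw [e2]; exact Nat.Coprime.pow_right _ (Nat.coprime_two_right.2 hS)
  have ht : Nat.totient (4 * π.n) = 2 * π.n := by
    rw [e2, Nat.totient_prime_pow_succ Nat.prime_two, e1]; simp
  have h1 := Nat.ModEq.pow_totient hc
  rw [ht] at h1
  have h2 : π.S ^ (2 * π.n - 1) * π.S = π.S ^ (2 * π.n) := by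
    rw [← pow_succ]; congr 1; have := π.one_le_n; omega
  exact ((Nat.mod_modEq _ _).mul_right _).trans (h2 ▸ h1)

theorem αx_mul' : π.αx * π.S ≡ 1 [MOD 2 * π.n] :=
  h.αx_mul.of_dvd ⟨2, by ring⟩

theorem crt_inj {j j' : ℕ} (hj : j < 2 * π.n * π.S) (hj' : j' < 2 * π.n * π.S)
    (h1 : π.γ j = π.γ j') (h2 : π.αx * j % (2 * π.n) = π.αx * j' % (2 * π.n)) : j = j' := by
  have canc : ∀ {a b m : ℕ}, a * b ≡ 1 [MOD m] → a * j ≡ a * j' [MOD m] → j ≡ j' [MOD m] := by
    intro a b m e1 e2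
    have e3 := e2.mul_left b
    rw [← mul_assoc, ← mul_assoc, mul_comm b a] at e3
    have e4 := e1.mul_right j
    have e5 := e1.mul_right j'
    rw [one_mul] at e4 e5
    exact e4.symm.trans (e3.trans e5)
  have cop : ∀ {a b m : ℕ}, a * b ≡ 1 [MOD m] → Nat.Coprime b m := fun e =>
    Nat.coprime_of_mul_modEq_one _ (by rwa [mul_comm] at e)
  have k1 : ∀ m ≤ π.d, j ≡ j' [MOD pr π.s (π.d - m) π.d] := by
    intro m hm
    induction m with
    | zero => simp [Nat.modEq_one]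
    | succ m ih =>
      obtain ⟨i, hi⟩ : ∃ i, i = π.d - (m + 1) := ⟨_, rfl⟩
      have hid : i < π.d := by omega
      have e1 : π.d - m = i + 1 := by omega
      rw [← hi, pr_split (Nat.le_succ i) hid, pr_single]
      have ih' := ih (by omega)
      rw [e1] at ih'
      refine (Nat.modEq_and_modEq_iff_modEq_mul (cop (h.cc_mul hid))).1 ⟨ih', ?_⟩
      refine canc (h.cc_mul hid) ?_
      have := congrFun h1 i
      simp only [γ, if_pos hid] at this
      exact this
  have k2 := k1 π.d le_rfl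
  rw [Nat.sub_self] at k2
  have k3 : j ≡ j' [MOD 2 * π.n] := canc h.αx_mul' h2
  have k4 := (Nat.modEq_and_modEq_iff_modEq_mul (cop h.αx_mul').symm).1 ⟨k3, k2⟩
  exact k4.eq_of_lt_of_lt hj hj'

theorem crt_surj {x : ℕ → ℕ} (hx : x ∈ box π.s π.d) {c : ℕ} (hc : c < 2 * π.n) :
    ∃ j < 2 * π.n * π.S, π.γ j = x ∧ π.αx * j % (2 * π.n) = c := by
  classical
  have hn : 0 < 2 * π.n := by have := π.one_le_n; omega
  have := Finset.surjOn_of_injOn_of_card_le (s := range (2 * π.n * π.S))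
    (t := box π.s π.d ×ˢ range (2 * π.n)) (fun j => (π.γ j, π.αx * j % (2 * π.n)))
    (fun j _ => by
      simp only [coe_product, Set.mem_prod, mem_coe, mem_range]
      exact ⟨π.γ_mem_box j, Nat.mod_lt _ hn⟩)
    (fun j hj j' hj' e => h.crt_inj (by simpa using hj) (by simpa using hj')
      (congrArg Prod.fst e) (congrArg Prod.snd e))
    (by rw [card_product, card_box, card_range, card_range, mul_comm]; rfl)
  obtain ⟨j, hj, e⟩ := this (show (x, c) ∈ ((box π.s π.d ×ˢ range (2 * π.n) : Finset _) : Set _) by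
    simp only [coe_product, Set.mem_prod, mem_coe, mem_range]; exact ⟨hx, hc⟩)
  exact ⟨j, by simpa using hj, congrArg Prod.fst e, congrArg Prod.snd e⟩

theorem rco_emb (f : ℕ → ℤ) {j : ℕ} (hj : j < 2 * π.n * π.S) :
    rco π.n (π.emb f (π.γ j)) (π.αx * j % (2 * π.n)) =
      (((-1) ^ (π.αx * j / (2 * π.n)) * f j : ℤ) : ℝ) := by
  have hn : 0 < 2 * π.n := by have := π.one_le_n; omega
  have hc : π.αx * j % (2 * π.n) < 2 * π.n := Nat.mod_lt _ hn
  rw [emb, rco_sum, sum_eq_single j]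
  · rw [if_pos rfl, rco_intCast_mul, rco_xr_pow π.one_le_n _ hc, if_pos rfl]
    push_cast; ring
  · intro k hk hkj
    split_ifs with e
    · rw [rco_intCast_mul, rco_xr_pow π.one_le_n _ hc, if_neg, mul_zero]
      exact fun e' => hkj (h.crt_inj (mem_range.1 hk) hj e e'.symm)
    · exact rco_zero _
  · simp [hj]

theorem rco_emb_int (f : ℕ → ℤ) {x : ℕ → ℕ} (hx : x ∈ box π.s π.d) {c : ℕ} (hc : c < 2 * π.n) :
    ∃ u : ℤ, rco π.n (π.emb f x) c = u := by
  obtain ⟨j, hj, rfl, rfl⟩ := h.crt_surj hx hc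
  exact ⟨_, h.rco_emb f hj⟩

theorem nrm_emb (f : ℕ → ℤ) {μ : ℝ} (hf : ∀ j < 2 * π.n * π.S, |(f j : ℝ)| ≤ μ) {x : ℕ → ℕ}
    (hx : x ∈ box π.s π.d) : nrm π.n (π.emb f x) ≤ 2 * μ := by
  have hn : 0 < 2 * π.n * π.S := Nat.mul_pos (by have := π.one_le_n; omega) π.one_le_S
  refine nrm_le_of_rco ((abs_nonneg _).trans (hf 0 hn)) fun c hc => ?_
  obtain ⟨j, hj, rfl, rfl⟩ := h.crt_surj hx hc
  rw [h.rco_emb f hj]
  push_cast
  rw [abs_mul, abs_pow, abs_neg, abs_one, one_pow, one_mul]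
  exact hf j hj

theorem emb_conv (f g : ℕ → ℤ) {n₁ : ℕ} (hn : 2 * n₁ ≤ 2 * π.n * π.S)
    (hf : ∀ j, n₁ ≤ j → f j = 0) (hg : ∀ j, n₁ ≤ j → g j = 0) {x : ℕ → ℕ}
    (hx : x ∈ box π.s π.d) : cconv π.s π.d (π.emb f) (π.emb g) x =
      π.emb (fun i => ∑ j ∈ range (i + 1), f j * g (i - j)) x := by
  classical
  have key : ∀ j k, π.γ k = csub π.s π.d x (π.γ j) ↔ π.γ (j + k) = x := by
    intro j k
    rw [funext_iff, funext_iff]
    refine forall_congr' fun i => ?_
    by_cases hi : i < π.d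
    · simp only [γ, csub, if_pos hi]
      have h1 := (mem_box.1 hx).1 i hi
      have h2 : π.cc i * j % π.s i < π.s i := Nat.mod_lt _ (π.one_le_s i)
      have h3 : π.cc i * k % π.s i < π.s i := Nat.mod_lt _ (π.one_le_s i)
      rw [mul_add, Nat.add_mod (π.cc i * j)]
      generalize π.cc i * j % π.s i = a at *
      generalize π.cc i * k % π.s i = b at *
      generalize π.s i = m at *
      generalize x i = c at *
      by_cases e1 : a ≤ c
      · rw [show c + m - a = c - a + m by omega, Nat.add_mod_right, Nat.mod_eq_of_lt (by omega)]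
        by_cases e2 : a + b < m
        · rw [Nat.mod_eq_of_lt e2]; omega
        · rw [Nat.mod_eq_sub_mod (by omega), Nat.mod_eq_of_lt (by omega)]; omega
      · rw [Nat.mod_eq_of_lt (by omega : c + m - a < m)]
        by_cases e2 : a + b < m
        · rw [Nat.mod_eq_of_lt e2]; omega
        · rw [Nat.mod_eq_sub_mod (by omega), Nat.mod_eq_of_lt (by omega)]; omega
    · simp only [γ, csub, if_neg hi, (mem_box.1 hx).2 i (not_lt.1 hi)]
  obtain ⟨F, hF⟩ : ∃ F : ℕ → ℕ → RA π.n, F = fun j k => if π.γ (j + k) = x then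
    ((f j * g k : ℤ) : RA π.n) * xr π.n ^ (π.αx * (j + k)) else 0 := ⟨_, rfl⟩
  have e1 : cconv π.s π.d (π.emb f) (π.emb g) x =
      ∑ j ∈ range (2 * π.n * π.S), ∑ k ∈ range (2 * π.n * π.S), F j k := by
    simp only [cconv, emb, sum_mul]
    rw [sum_comm]
    refine sum_congr rfl fun j _ => ?_
    rw [sum_eq_single (π.γ j)]
    · rw [if_pos rfl, mul_sum]
      refine sum_congr rfl fun k _ => ?_
      simp only [hF, key]
      split_ifs
      · push_cast; rw [mul_add, pow_add]; ring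
      · rw [mul_zero]
    · intro y _ hy
      rw [if_neg hy.symm, zero_mul]
    · intro hy; exact absurd (π.γ_mem_box j) hy
  have e2 : π.emb (fun i => ∑ j ∈ range (i + 1), f j * g (i - j)) x =
      ∑ i ∈ range (2 * π.n * π.S), ∑ j ∈ range (i + 1), F j (i - j) := by
    simp only [emb]
    refine sum_congr rfl fun i _ => ?_
    rw [sum_congr rfl (g := fun j => if π.γ i = x then
      ((f j * g (i - j) : ℤ) : RA π.n) * xr π.n ^ (π.αx * i) else 0) fun j hj => by
        simp only [hF, Nat.add_sub_cancel' (Nat.lt_succ_iff.1 (mem_range.1 hj))]]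
    split_ifs
    · rw [← sum_mul]; push_cast; rfl
    · simp
  rw [e1, e2, sum_range_diag_flip]
  refine sum_congr rfl fun j hj => (sum_subset (range_mono (Nat.sub_le _ _)) fun k _ hk => ?_).symm
  have hk' : 2 * π.n * π.S - j ≤ k := by simpa using hk
  have : f j * g k = 0 := by
    by_cases hj' : n₁ ≤ j
    · rw [hf j hj', zero_mul]
    · rw [hg k (by omega), mul_zero]
  simp only [hF, this]
  simp

end Ok

theorem emb_smul (c : ℤ) (f : ℕ → ℤ) (x : ℕ → ℕ) :
    π.emb (fun j => c * f j) x = (c : ℂ) • π.emb f x := by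
  simp only [emb, smul_sum]
  refine sum_congr rfl fun j _ => ?_
  split_ifs
  · rw [Algebra.smul_def]; simp [mul_assoc]
  · simp

theorem emb_congr {f g : ℕ → ℤ} (h : ∀ j < 2 * π.n * π.S, f j = g j) (x : ℕ → ℕ) :
    π.emb f x = π.emb g x := by
  simp only [emb]
  exact sum_congr rfl fun j hj => by rw [h j (mem_range.1 hj)]

end Par

end Crest.Agent.IM
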