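import Crest.Agent.IM.StNA

/-! TASK IM-W. Restriction `t → s i`, rescaling and removal of the aliasing in all directions.
Loop over `c < d`: radices `ns c i = if i < c then s i else t`, ideal array
`Z c = tens s d (fun i => if i < c then Ky i else Kv i) a`. The hypothesis gives, on every line in
direction `c`, `v μ := wG μ • Z c (.. gψ μ ..) = y μ + ∑ μ', Ek c μ μ' • y μ'` with
`y = Z (c + 1)` (factor out place `c` in `tens`); `‖E‖ ≤ 1 / 4`, so `‖y‖ ≤ 2 ‖v‖`.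
Program: `band` (`O = t ^ (d - c - 1)`, `t → s c`, `Oi = pr s 0 c`, `nl = 1`, `σ₁ = σ₀ = 0`,
`ψ = gψ`, weight `wG` by `eE` with `sg = 1`, `n = α ^ 2 m ^ 2`, `D = s ^ 2`, `u = s`, `v = α t`)
gives `V`; `pick` a copy `Y`; `2 d ^ 5` times `Y := V - band_E Y` (`s → s`, `nl = 2 d ^ 2 + 1`,
`ψ = id`, `σ₁ = t`, `σ₀ = d ^ 2 (2 s - t)`, weights `wE` by `eE` with `sg = 0`, `D = s ^ 2`,
`u = 0` for `l = d ^ 2`; `neg`, `pick`, `add2`); `put`. With `ε₁ = 7 · 2 ^ (2 α ^ 2) ε`,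
`η = 64 (d ^ 2 + 1) ε₁`: `e n ≤ ‖E‖ ^ n · 2 · 2 ^ p ε₁ + 2 η`, iterates `≤ 8 · 2 ^ p ε₁`, and
`(α ^ 2 / d) (2 d ^ 5) ≥ p`. The bounds on `wG`, `wE` come from `gauss`. -/

set_option autoImplicit false
open Finset

namespace Crest.Agent.IM

namespace SN

theorem cost_aux {c N P N' C₁ C₂ C₃ C₄ C₅ C₆ C₇ L m x z : ℝ} (hP : 1 ≤ P) (hPN : P ≤ N') (hN : N' ≤ N)
    (h₁ : 0 ≤ C₁) (h₂ : 0 ≤ C₂) (h₃ : 0 ≤ C₃) (h₄ : 0 ≤ C₄) (h₅ : 0 ≤ C₅) (h₆ : 0 ≤ C₆)
    (h₇ : 0 ≤ C₇) (hc : c = C₁ + C₂ + C₃ + C₄ + C₅ + C₆ + C₇ + 2) (hL : 1 ≤ L) (hm : 0 ≤ m)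
    (hz : z = 0) :
    (1 * x + C₁ * (1 + 1) * (N + N') + P) + ((C₇ * (z + N' + P) + P) +
      ((m * (((L * x + C₂ * (L + 1) * (N' + N') + P) + ((C₄ * (N' + P) + P) +
        ((C₃ * (N' + N' + P) + P) + (C₅ * (N' + P) + P) + 1) + 1) + 1) + 1) + P) +
        (C₆ * (z + N' + P) + P) + 1) + 1) + 1 ≤ (m * L + 1) * x + 12 * c * (m * L + 1) * N := by
  subst hz
  have hb : ∀ {C' A k : ℝ}, 0 ≤ C' → A ≤ k * N → C' * A ≤ C' * (k * N) := fun h h' =>
    mul_le_mul_of_nonneg_left h' h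
  have a1 := hb (A := N + N') (k := 2) h₁ (by linarith)
  have a2 := hb (A := N' + P) (k := 2) h₇ (by linarith)
  have a3 := hb (A := N' + P) (k := 2) h₆ (by linarith)
  have a4 := hb (A := N' + P) (k := 2) h₄ (by linarith)
  have a5 := hb (A := N' + N' + P) (k := 3) h₃ (by linarith)
  have a6 := hb (A := N' + P) (k := 2) h₅ (by linarith)
  have a7 := hb (A := (L + 1) * (N' + N')) (k := 4 * L) h₂ (by nlinarith)
  have hN0 : 0 ≤ N := by linarith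
  have b1 := mul_nonneg h₁ hN0
  have b2 := mul_nonneg h₂ hN0
  have b3 := mul_nonneg h₃ hN0
  have b4 := mul_nonneg h₄ hN0
  have b5 := mul_nonneg h₅ hN0
  have b6 := mul_nonneg h₆ hN0
  have b7 := mul_nonneg h₇ hN0
  have e : c * N = C₁ * N + C₂ * N + C₃ * N + C₄ * N + C₅ * N + C₆ * N + C₇ * N + 2 * N := by
    rw [hc]; ring
  have hcN : 0 ≤ c * N := by linarith
  have d1 : c * N ≤ L * (c * N) := by nlinarith
  have d2 : L * (C₂ * N) ≤ L * (c * N) := by gcongr; linarith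
  have body : ((L * x + C₂ * (L + 1) * (N' + N') + P) + ((C₄ * (N' + P) + P) +
        ((C₃ * (N' + N' + P) + P) + (C₅ * (N' + P) + P) + 1) + 1) + 1) + 1 ≤
        L * x + 12 * (L * (c * N)) := by nlinarith
  have := mul_le_mul_of_nonneg_left body hm
  nlinarith

/-- lanes of one line -/
abbrev la (n Bt s Oi o oi bt k : ℕ) : ℕ → ℕ := sad n Bt ((o * s + k) * Oi + oi) bt

theorem first_ex (mul : Prog) : ∃ (p : Prog) (C C₁ : ℕ), ∀ (B P : ℕ) (r : Prog)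
    (w O t s Oi n Bt f α d : ℕ) (x : ℝ) (X : List Bool), Hy C B P w O t s Oi n Bt f α d →
    MulAt B P r mul w (O * s * Oi * (2 * n) * Bt) x →
    X.length = w * (O * t * Oi * (2 * n) * Bt) →
    ∃ V : List Bool, V.length = w * (O * s * Oi * (2 * n) * Bt) ∧
      Go B P r p [w, O, t, s, Oi, n, Bt, f, α, d] X [w, O, t, s, Oi, n, Bt, f, α, d] V
        (1 * x + C₁ * (1 + 1) * ((w * (O * t * Oi * (2 * n) * Bt) : ℕ) +
          (w * (O * s * Oi * (2 * n) * Bt) : ℕ)) + P) ∧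
      ∀ o < O, ∀ oi < Oi, ∀ bt < Bt, ∀ (z : ℕ → RA n) (ε : ℝ),
        1 ≤ ε → 2 * (2 ^ (2 * α ^ 2) * (2 ^ 10 * f) * ε) ≤ 2 ^ f →
        (∀ j < t, Apx w (O * t * Oi * (2 * n) * Bt) n (la n Bt t Oi o oi bt j) f ε X (z j)) →
        ∀ k < s, ∃ a, AR w (O * s * Oi * (2 * n) * Bt) n (la n Bt s Oi o oi bt k) V a ∧
          nrm n (a - (wG s t α k : ℂ) • z (gψ s t k)) ≤ 7 * (2 ^ (2 * α ^ 2) * ε) := by
  obtain ⟨eψ, eG, eW, C₀, hcb⟩ := cb_ex
  obtain ⟨p₁, C₁, h₁⟩ := band_ex eψ eG 6 mul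
  refine ⟨.call [.var 0, .var 1, .var 2, .var 3, .var 4, .var 5, .var 6, .var 7, 1, 0, 0,
      .var 3, .var 2, .var 8, .var 9, .var 7, .var 0] p₁, C₀ + 2 * C₁ + 6, C₁,
    fun B P r w O t s Oi n Bt f α d x X h hmul hX => ?_⟩
  have hd := h.hd
  have hw := h.hw
  have hst := h.hst
  have hcb := hcb B P s t α d f w h.s1 h.hst h.hts h.α1 (by omega) h.hf h.htα (by omega)
    (h.mono (by omega)).hB
  have hB1 : 1 ≤ B := Nat.one_le_two_pow.trans h.hB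
  obtain ⟨V, hV, tV, sV⟩ := h₁ B P r w O t s Oi n Bt f 1 0 0 [s, t, α, d, f, w] x X h.hP rfl h.hO
    (by omega) h.s1 h.hOi h.hn h.hBt (by have := h.fd; have := h.d2; omega) hw h.hPn
    (h.Bw (by omega)) hB1 (h.CB (by omega) le_rfl h.NN)
    (fun k hk => by rw [(hcb k).1]; exact gψ_lt hst hk)
    (fun k _ => by rw [(hcb k).1, (hcb _).1]; exact gψ_mono hst) hmul hX
  clear h₁
  refine ⟨V, hV, (Go.call (by simp) (by simp [Ok, hB1]) tV).mono (le_of_eq (by push_cast; ring)),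
    fun o ho oi hoi bt hbt z ε h1 h2 hz k hk => ?_⟩
  choose! a ha1 ha2 using fun j hj => (hz j hj).2
  obtain ⟨-, -, h3, h4, h5, -⟩ := h.big h1 h2
  have hG := h.wts.1 k hk
  obtain ⟨a', h7, h8⟩ := sV o ho k hk oi hoi bt hbt a (2 * (2 ^ f * ε)) (fun _ => wG s t α k)
    (fun j hj => ⟨ha1 j hj, (nrm_le_add (ha2 j hj) (hz j hj).1).trans (by linarith)⟩) h3
    (fun l _ => ⟨by
      rw [abs_of_nonneg hG.1]; exact hG.2.trans (pow_le_pow_right₀ (by norm_num) h.fα'),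
      ((hcb k).2 hk l).1⟩)
  refine ⟨a', h7, ?_⟩
  have hψ := gψ_lt hst hk
  rw [(hcb k).1, sum_range_one] at h8
  simp only [mul_zero, add_zero, Nat.mod_eq_of_lt hψ] at h8
  exact first_aux hG.1 hG.2 (by positivity) h1 h5 (ha2 _ hψ) h8

theorem iter_ex (mul : Prog) : ∃ (p : Prog) (C C₂ C₃ C₄ C₅ : ℕ), ∀ (B P : ℕ) (r : Prog)
    (w O t s Oi n Bt f α d : ℕ) (x : ℝ) (Y V : List Bool), Hy C B P w O t s Oi n Bt f α d →
    MulAt B P r mul w (O * s * Oi * (2 * n) * Bt) x →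
    ∀ N', N' = w * (O * s * Oi * (2 * n) * Bt) → Y.length = N' → V.length = N' →
    ∃ Y' : List Bool, Y'.length = N' ∧
      Go B P r p [w, O, t, s, Oi, n, Bt, f, α, d] (Y ++ V) [w, O, t, s, Oi, n, Bt, f, α, d]
        (Y' ++ V) (((2 * d ^ 2 + 1 : ℕ) * x + C₂ * ((2 * d ^ 2 + 1 : ℕ) + 1) * (N' + N') + P) +
          ((C₄ * (N' + P) + P) + ((C₃ * (N' + N' + P) + P) + (C₅ * (N' + P) + P) + 1) + 1) + 1) ∧
      ∀ o < O, ∀ oi < Oi, ∀ bt < Bt, ∀ (E : ℕ → ℕ → ℝ) (z y : ℕ → RA n) (ε : ℝ) (m : ℕ),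
        Line n s t α d f E z y → 1 ≤ ε → 2 * (2 ^ (2 * α ^ 2) * (2 ^ 10 * f) * ε) ≤ 2 ^ f →
        (∀ j < t, nrm n (z j) ≤ 2 ^ f * ε) →
        (∀ k < s, ∃ a, AR w (O * s * Oi * (2 * n) * Bt) n (la n Bt s Oi o oi bt k) V a ∧
          nrm n (a - (wG s t α k : ℂ) • z (gψ s t k)) ≤ 7 * (2 ^ (2 * α ^ 2) * ε)) →
        (∀ k < s, ∃ a, AR w (O * s * Oi * (2 * n) * Bt) n (la n Bt s Oi o oi bt k) Y a ∧
          nrm n (a - y k) ≤ eb (2⁻¹ ^ (α ^ 2 / d)) (2 ^ f) (2 * d ^ 2 + 1 : ℕ)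
            (2 ^ (2 * α ^ 2) * ε) m) →
        ∀ k < s, ∃ a, AR w (O * s * Oi * (2 * n) * Bt) n (la n Bt s Oi o oi bt k) Y' a ∧
          nrm n (a - y k) ≤ eb (2⁻¹ ^ (α ^ 2 / d)) (2 ^ f) (2 * d ^ 2 + 1 : ℕ)
            (2 ^ (2 * α ^ 2) * ε) (m + 1) := by
  obtain ⟨eψ, eG, eW, C₀, hcb⟩ := cb_ex
  obtain ⟨p₂, C₂, h₂⟩ := band_ex (.var 0) eW 6 mul
  obtain ⟨p₃, C₃, h₃⟩ := pick_ex
  obtain ⟨p₄, C₄, h₄⟩ := neg_ex
  obtain ⟨p₅, C₅, h₅⟩ := add2_ex
  let eM : Ex := .var 1 * .var 3 * .var 4 * (2 * .var 5) * .var 6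
  let eN : Ex := .var 0 * eM
  refine ⟨.call [.var 0, .var 1, .var 3, .var 3, .var 4, .var 5, .var 6, .var 7,
        2 * (.var 9 * .var 9) + 1, .var 2, .var 9 * .var 9 * (2 * .var 3 - .var 2),
        .var 3, .var 2, .var 8, .var 9, .var 7, .var 0] p₂ ;; .call [.var 0, eM] p₄ ;;
        .call [eN, eN] p₃ ;; .call [.var 0, eM] p₅, C₀ + 2 * C₂ + 6, C₂, C₃, C₄, C₅,
    fun B P r w O t s Oi n Bt f α d x Y V h hmul N' hN' hY hV => ?_⟩
  subst hN'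
  have hd := h.hd
  have hw := h.hw
  have hcb := hcb B P s t α d f w h.s1 h.hst h.hts h.α1 (by omega) h.hf h.htα (by omega)
    (h.mono (by omega)).hB
  have hNB := h.NB (by omega)
  have hnl : 2 * d ^ 2 + 1 ≤ B := by have := h.fd; have := h.d2; have := h.wN; omega
  have hM1 := h.hP.trans h.PM
  obtain ⟨Bd, hBd, tB, sB⟩ := h₂ B P r w O s s Oi n Bt f (2 * d ^ 2 + 1) t (d ^ 2 * (2 * s - t))
    [s, t, α, d, f, w] x Y h.hP rfl h.hO h.s1 h.s1 h.hOi h.hn h.hBt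
    (by have := h.fd; have := h.d2; omega) hw h.hPn (h.Bw (by omega)) hnl
    (h.CB (by omega) h.NN h.NN) (fun k hk => by simpa using hk) (fun k _ => by simp) hmul hY
  obtain ⟨Ng, hNg, tN, sN⟩ := h₄ B P r w _ Bd h.hP h.w1 hM1 hBd
  obtain ⟨Y', hY', tA, sA⟩ := h₅ B P r w _ V Ng h.hP h.w1 hM1 hV hNg
  have tP := h₃ B P r _ _ Ng V h.hP hNg hV
  have tA' := tA.frame V
  rw [List.append_assoc] at tA'
  clear h₂ h₃ h₄ h₅
  refine ⟨Y', hY', ((Go.call (by simp [pow_two]) (by simp [Ok, hnl, h.σN.trans hNB])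
    (tB.frame V)).seq ((Go.call (by simp [eM]) (by simp [Ok, h.MN.trans hNB]) (tN.frame V)).seq
      ((Go.call (by simp [eN, eM]) (by simp [Ok, hNB]) tP).seq
      (Go.call (by simp [eM]) (by simp [Ok, h.MN.trans hNB])
        tA')))).mono
      (le_of_eq (by push_cast; ring)),
    fun o ho oi hoi bt hbt E z y ε m hl h1 h2 hz sV sY k hk => ?_⟩
  obtain ⟨h3, h4, -⟩ := h.big h1 h2
  obtain ⟨a, h5, h6⟩ := sV k hk
  choose! A hA1 hA2 using sY
  have hθ := th_le (by omega) h.hα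
  have hA3 : ∀ j < s, nrm n (A j) ≤ 8 * (2 ^ f * (2 ^ (2 * α ^ 2) * ε)) := fun j hj =>
    (nrm_le_add (hA2 j hj) (h.y_le hl hz j hj)).trans
      (eb_le (by positivity) hθ Hy.L1 (h.Lf.trans Hy.fQ) h3 m)
  obtain ⟨b, h7, h8⟩ := sB o ho k hk oi hoi bt hbt A _
    (fun l => wE s t α (d ^ 2) l k) (fun j hj => ⟨hA1 j hj, hA3 j hj⟩) h4
    (fun l hl => ⟨by
      rw [abs_of_nonneg (h.wts.2 k hk l).1]
      exact (h.wts.2 k hk l).2.trans (one_le_pow₀ (by norm_num)), ((hcb k).2 hk l).2 hl⟩)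
  refine ⟨a + -b, h5.add (h7.neg fun c hc => sN _ (h.lane ho hk hoi hbt hc))
    fun c hc => sA _ (h.lane ho hk hoi hbt hc),
    le_trans ?_ (eb_succ hθ Hy.L1 (h.Lf.trans Hy.fQ) h3 m)⟩
  exact step_bound (E k) (fun l => wE s t α (d ^ 2) l k) (fun l => iE s t (d ^ 2) l k)
    (fun l => Nat.mod_lt _ h.s1) y A _ _ a b (hl.h2 k hk) (by simpa using hl.h1 k hk)
    (hl.h3 k hk) h6 hA2 hA3 h8

theorem dir_ex (mul : Prog) : ∃ (p : Prog) (C : ℕ), ∀ (B P : ℕ) (r : Prog)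
    (w O t s Oi n Bt f α d : ℕ) (x : ℝ) (X : List Bool), Hy C B P w O t s Oi n Bt f α d →
    MulAt B P r mul w (O * s * Oi * (2 * n) * Bt) x →
    X.length = w * (O * t * Oi * (2 * n) * Bt) →
    ∃ Z : List Bool, Z.length = w * (O * s * Oi * (2 * n) * Bt) ∧
      Top B P r p [w, O, t, s, Oi, n, Bt, f, α, d] X Z
        ((2 * d ^ 5 * (2 * d ^ 2 + 1) + 1) * x +
          C * (2 * d ^ 5 * (2 * d ^ 2 + 1) + 1) * (w * (O * t * Oi * (2 * n) * Bt) : ℕ)) ∧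
      ∀ o < O, ∀ oi < Oi, ∀ bt < Bt, ∀ (E : ℕ → ℕ → ℝ) (z y : ℕ → RA n) (ε : ℝ),
        Line n s t α d f E z y → 1 ≤ ε → 2 * (2 ^ (2 * α ^ 2) * (2 ^ 10 * f) * ε) ≤ 2 ^ f →
        (∀ j < t, Apx w (O * t * Oi * (2 * n) * Bt) n (la n Bt t Oi o oi bt j) f ε X (z j)) →
        ∀ k < s, Apx w (O * s * Oi * (2 * n) * Bt) n (la n Bt s Oi o oi bt k) f
          (2 ^ (2 * α ^ 2) * (2 ^ 10 * f) * ε) Z (y k) := by
  obtain ⟨p₁, D₁, C₁, h₁⟩ := first_ex mul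
  obtain ⟨p₂, D₂, C₂, C₃, C₄, C₅, h₂⟩ := iter_ex mul
  obtain ⟨p₃, C₇, h₃⟩ := pick_ex
  obtain ⟨p₆, C₆, h₆⟩ := put_ex
  let eN : Ex := .var 0 * (.var 1 * .var 3 * .var 4 * (2 * .var 5) * .var 6)
  refine ⟨p₁ ;; .call [0, eN] p₃ ;; .loop (2 * (.var 9 * .var 9 * .var 9 * .var 9 * .var 9)) p₂ ;;
    .call [0, eN] p₆, D₁ + D₂ + 12 * (C₁ + C₂ + C₃ + C₄ + C₅ + C₆ + C₇ + 2),
    fun B P r w O t s Oi n Bt f α d x X h hmul hX => ?_⟩
  have hd := h.hd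
  obtain ⟨V, hV, g1, sV⟩ := h₁ B P r w O t s Oi n Bt f α d x X (h.mono (by omega)) hmul hX
  have hNB := h.NB (by omega)
  have hθ := th_le (by omega) h.hα
  have g2 := Go.call (env := [w, O, t, s, Oi, n, Bt, f, α, d]) (args := [0, eN])
    (by simp [eN]) (by simp [Ok, hNB]) (h₃ B P r 0 _ [] V h.hP rfl hV)
  obtain ⟨env', L', g3, rfl, Y, rfl, hY, sY⟩ := Go.loop (B := B) (P := P) (r := r)
    (env := [w, O, t, s, Oi, n, Bt, f, α, d]) (L := V ++ ([] ++ V))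
    (e := 2 * (.var 9 * .var 9 * .var 9 * .var 9 * .var 9)) (n := 2 * d ^ 5)
    (p := p₂) (by simp; ring)
    (fun m env L => env = [w, O, t, s, Oi, n, Bt, f, α, d] ∧ ∃ Y, L = Y ++ V ∧
      Y.length = w * (O * s * Oi * (2 * n) * Bt) ∧
      ∀ o < O, ∀ oi < Oi, ∀ bt < Bt, ∀ (E : ℕ → ℕ → ℝ) (z y : ℕ → RA n) (ε : ℝ),
        Line n s t α d f E z y → 1 ≤ ε → 2 * (2 ^ (2 * α ^ 2) * (2 ^ 10 * f) * ε) ≤ 2 ^ f →
        (∀ j < t, Apx w (O * t * Oi * (2 * n) * Bt) n (la n Bt t Oi o oi bt j) f ε X (z j)) →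
        ∀ k < s, ∃ a, AR w (O * s * Oi * (2 * n) * Bt) n (la n Bt s Oi o oi bt k) Y a ∧
          nrm n (a - y k) ≤ eb (2⁻¹ ^ (α ^ 2 / d)) (2 ^ f) (2 * d ^ 2 + 1 : ℕ)
            (2 ^ (2 * α ^ 2) * ε) m) _
    ⟨rfl, V, rfl, hV, fun o ho oi hoi bt hbt E z y ε hl h1 h2 hz k hk => by
      obtain ⟨a, h3, h4⟩ := sV o ho oi hoi bt hbt z ε h1 h2 hz k hk
      have hy := h.y_le hl fun j hj => (hz j hj).1
      refine ⟨a, h3, le_trans ?_ (eb_zero hθ Hy.L1 (h.Lf.trans Hy.fQ) (h.big h1 h2).1)⟩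
      rw [show a - y k = a - (wG s t α k : ℂ) • z (gψ s t k) + ∑ j ∈ range s, (E k j : ℂ) • y j by
        rw [hl.h3 k hk]; abel]
      exact (nrm_add_le _ _).trans (add_le_add h4 ((nrm_row (E k) y hy).trans
        (mul_le_mul_of_nonneg_right (hl.h2 k hk) ((nrm_nonneg _).trans (hy k hk)))))⟩
    (by
      rintro m - env L ⟨rfl, Y, rfl, hY, sY⟩
      obtain ⟨Y', hY', g, sY'⟩ := h₂ B P r w O t s Oi n Bt f α d x Y V (h.mono (by omega)) hmul _
        rfl hY hV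
      exact ⟨_, _, g, rfl, Y', rfl, hY', fun o ho oi hoi bt hbt E z y ε hl h1 h2 hz =>
        sY' o ho oi hoi bt hbt E z y ε m hl h1 h2 (fun j hj => (hz j hj).1)
          (sV o ho oi hoi bt hbt z ε h1 h2 hz) (sY o ho oi hoi bt hbt E z y ε hl h1 h2 hz)⟩)
  have g4 := Go.call (env := [w, O, t, s, Oi, n, Bt, f, α, d]) (args := [0, eN])
    (by simp [eN]) (by simp [Ok, hNB]) (h₆ B P r 0 _ Y [] V h.hP hY rfl hV)
  clear h₁ h₂ h₃ h₆
  refine ⟨Y, hY, ((g1.seq (g2.seq (g3.seq g4))).mono ?_).top,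
    fun o ho oi hoi bt hbt E z y ε hl h1 h2 hz k hk => ?_⟩
  · refine (cost_aux (by exact_mod_cast h.hP) (by exact_mod_cast h.PM.trans h.MN)
      (by exact_mod_cast h.NN) C₁.cast_nonneg C₂.cast_nonneg C₃.cast_nonneg C₄.cast_nonneg
      C₅.cast_nonneg C₆.cast_nonneg C₇.cast_nonneg rfl Hy.L1 (Nat.cast_nonneg _)
      Nat.cast_zero).trans ?_
    push_cast
    gcongr
    linarith [D₁.cast_nonneg (α := ℝ), D₂.cast_nonneg (α := ℝ)]
  · obtain ⟨h3, -, -, -, -, h6⟩ := h.big h1 h2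
    obtain ⟨a, h4, h5⟩ := sY o ho oi hoi bt hbt E z y ε hl h1 h2 hz k hk
    exact ⟨(h.y_le hl (fun j hj => (hz j hj).1) k hk).trans h6, a, h4, h5.trans
      (fin_aux h3 Hy.L1 h.Lf (by rw [h.hf]; exact th_pow (by omega) h.hα))⟩

/-- radices after `c` directions -/
def ns (s : ℕ → ℕ) (t c : ℕ) : ℕ → ℕ := fun i => if i < c then s i else t

section
variable {s : ℕ → ℕ} {t c d : ℕ}

theorem pr_ns (hc : c < d) : pr (ns s t c) 0 d = t ^ (d - c - 1) * t * pr s 0 c ∧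
    pr (ns s t (c + 1)) 0 d = t ^ (d - c - 1) * s c * pr s 0 c := by
  have e : t ^ (d - c - 1) = pr (fun _ => t) (c + 1) d := by rw [pr_const, Nat.sub_sub]
  rw [pr_three (Nat.zero_le c) hc, pr_three (Nat.zero_le c) hc, e]
  constructor
  · congr 1
    · congr 1
      · exact pr_congr fun i h _ => if_neg (by omega)
      · simp [ns]
    · exact pr_congr fun i _ h => if_pos h
  · congr 1
    · congr 1
      · exact pr_congr fun i h _ => if_neg (by omega)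
      · simp [ns]
    · exact pr_congr fun i _ h => if_pos (by omega)

theorem mr_ns (hc : c < d) (x : ℕ → ℕ) (j : ℕ) :
    mr (ns s t c) 0 d (Function.update x c j) =
      (mr (fun _ => t) (c + 1) d x * t + j) * pr s 0 c + mr s 0 c x ∧
    mr (ns s t (c + 1)) 0 d x =
      (mr (fun _ => t) (c + 1) d x * s c + x c) * pr s 0 c + mr s 0 c x := by
  rw [mr_update (Nat.zero_le c) hc, mr_three (Nat.zero_le c) hc]
  constructor
  · have e1 : mr (ns s t c) (c + 1) d x = mr (fun _ => t) (c + 1) d x :=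
      mr_congr (fun i h _ => if_neg (by omega)) fun _ _ _ => rfl
    have e2 : mr (ns s t c) 0 c x = mr s 0 c x := mr_congr (fun i _ h => if_pos h) fun _ _ _ => rfl
    have e3 : pr (ns s t c) 0 c = pr s 0 c := pr_congr fun i _ h => if_pos h
    rw [e1, e2, e3]; simp [ns]
  · have e1 : mr (ns s t (c + 1)) (c + 1) d x = mr (fun _ => t) (c + 1) d x :=
      mr_congr (fun i h _ => if_neg (by omega)) fun _ _ _ => rfl
    have e2 : mr (ns s t (c + 1)) 0 c x = mr s 0 c x :=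
      mr_congr (fun i _ h => if_pos (by omega)) fun _ _ _ => rfl
    have e3 : pr (ns s t (c + 1)) 0 c = pr s 0 c := pr_congr fun i _ h => if_pos (by omega)
    rw [e1, e2, e3]; simp [ns]

theorem pr_ns_le (hs : ∀ i < d, s i < t) (c : ℕ) :
    pr s 0 d ≤ pr (ns s t c) 0 d ∧ pr (ns s t c) 0 d ≤ t ^ d := by
  constructor
  · refine prod_le_prod' fun i hi => ?_
    unfold ns; split_ifs
    exacts [le_rfl, (hs i (mem_Ico.1 hi).2).le]
  · rw [← Nat.sub_zero d, ← pr_const, Nat.sub_zero]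
    refine prod_le_prod' fun i hi => ?_
    unfold ns; split_ifs
    exacts [(hs i (mem_Ico.1 hi).2).le, le_rfl]

theorem line_eq {n : ℕ} (hc : c < d) (Kv Ky : ℕ → ℕ → ℕ → ℂ) (E : ℕ → ℝ) (g : ℂ) (μ ψ : ℕ)
    (h : ∀ j < s c, g * Kv c ψ j = Ky c μ j + ∑ μ' ∈ range (s c), (E μ' : ℂ) * Ky c μ' j)
    (a : (ℕ → ℕ) → RA n) (x : ℕ → ℕ) :
    g • tens s d (fun i => if i < c then Ky i else Kv i) a (Function.update x c ψ) =
      tens s d (fun i => if i < c + 1 then Ky i else Kv i) a (Function.update x c μ) +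
        ∑ j ∈ range (s c), (E j : ℂ) •
          tens s d (fun i => if i < c + 1 then Ky i else Kv i) a (Function.update x c j) := by
  simp only [tens_line hc, smul_sum, smul_smul, lt_irrefl, if_false, Nat.lt_succ_self, if_true]
  rw [sum_comm, ← sum_add_distrib]
  refine sum_congr rfl fun u hu => ?_
  have e : ∏ i ∈ (range d).erase c, (if i < c + 1 then Ky i else Kv i) (x i) (u i) =
      ∏ i ∈ (range d).erase c, (if i < c then Ky i else Kv i) (x i) (u i) :=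
    prod_congr rfl fun i hi => by
      have := (mem_erase.1 hi).1
      simp only [show i < c + 1 ↔ i < c by omega]
  rw [e, ← sum_smul, ← add_smul, ← mul_assoc, h _ ((mem_box.1 hu).1 c hc), add_mul, sum_mul]
  simp only [mul_assoc]

end

theorem cost_fin {d m x C N P np : ℝ} (hP : 1 ≤ P) (hN : P ≤ N) (hC : 0 ≤ C) (hd : 1 ≤ d)
    (hm : 0 ≤ m) (hnp : d * (m + 1) ≤ np) :
    d * (((m + 1) * x + C * (m + 1) * N + P) + P + 1 + 1) + P + P ≤
      (d * m + d) * x + (C + 6) * N * np := by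
  have h1 : d ≤ np := by nlinarith
  have h2 : C * N * (d * (m + 1)) ≤ C * N * np := by
    have : 0 ≤ C * N := by nlinarith
    gcongr
  have h3 : d * P ≤ N * np := by nlinarith
  have h4 : d ≤ d * P := by nlinarith
  have h5 : P ≤ d * P := by nlinarith
  nlinarith

end SN

open SN in
theorem stN_ex (mul : Prog) : ∃ (p : Prog) (C : ℕ), ∀ (q bb B P : ℕ) (r : Prog) (π : Par)
    (x₂ : ℝ) (X : List Bool), π.Ok q bb P → π.Big C B P → π.Mul2 B P r mul x₂ →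
    X.length = π.N0 →
    ∃ Z : List Bool, Z.length = π.w * (π.S * (2 * π.n) * π.Bt) ∧
      Top B P r p π.args X Z
        ((π.d * (2 * π.d ^ 5) * (2 * π.d ^ 2 + 1) + π.d) * x₂ + C * π.N0 * π.np) ∧
      ∀ (Ek : ℕ → ℕ → ℕ → ℝ) (Kv Ky : ℕ → ℕ → ℕ → ℂ),
      (∀ i < π.d, ∀ μ < π.s i, ∑ j ∈ range (π.s i), |Ek i μ j -
          ∑ l ∈ range (2 * π.d ^ 2 + 1), if iE (π.s i) π.t (π.d ^ 2) l μ = j then
            wE (π.s i) π.t π.α (π.d ^ 2) l μ else 0| ≤ 2⁻¹ ^ π.p) →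
      (∀ i < π.d, ∀ μ < π.s i, ∑ j ∈ range (π.s i), |Ek i μ j| ≤ 2⁻¹ ^ (π.α ^ 2 / π.d)) →
      (∀ i < π.d, ∀ μ < π.s i, ∀ j < π.s i,
        (wG (π.s i) π.t π.α μ : ℂ) * Kv i (gψ (π.s i) π.t μ) j =
          Ky i μ j + ∑ μ' ∈ range (π.s i), (Ek i μ μ' : ℂ) * Ky i μ' j) →
      ∀ bt < π.Bt, ∀ (a : (ℕ → ℕ) → RA π.n) (ε : ℝ), 1 ≤ ε →
        2 * ((2 ^ (2 * π.α ^ 2) * (2 ^ 10 * π.p)) ^ π.d * ε) ≤ 2 ^ π.p →
        (∀ x ∈ box (fun _ => π.t) π.d, Apx π.w (π.t ^ π.d * (2 * π.n) * π.Bt) π.n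
          (sad π.n π.Bt (mr (fun _ => π.t) 0 π.d x) bt) π.p ε X (tens π.s π.d Kv a x)) →
        ∀ x ∈ box π.s π.d, Apx π.w (π.S * (2 * π.n) * π.Bt) π.n
          (sad π.n π.Bt (mr π.s 0 π.d x) bt) π.p
          ((2 ^ (2 * π.α ^ 2) * (2 ^ 10 * π.p)) ^ π.d * ε) Z (tens π.s π.d Ky a x) := by
  obtain ⟨p₁, C₁, h₁⟩ := dir_ex mul
  refine ⟨.lett 0 (.loop (.var 13) (.call [.var 17, .pow (.var 14) (.var 13 - .var 0 - 1), .var 14,
    1 + (.var 8 + .var 0) * .var 9, .prod (.var 0) (1 + (.var 9 + .var 0) * .var 10), .var 15,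
    .var 10, .var 16, .var 7, .var 13] p₁ ;; .set 0 (.var 0 + 1))), C₁ + 6,
    fun q bb B P r π x₂ X h hB hmul hX => ?_⟩
  have hd := h.eight_le_d
  have ht := h.two_le_t
  have hN0 : π.t ^ π.d ≤ π.N0 := by
    have h1 : 1 ≤ π.w := by have := h.le_p; unfold Par.w; omega
    have h2 := π.one_le_n
    have h3 := h.hBt
    calc _ = 1 * (π.t ^ π.d * 1 * 1) := by ring
      _ ≤ _ := by unfold Par.N0; gcongr; omega
  have htB : π.t ^ π.d ≤ B := hN0.trans (le_trans (Nat.le_mul_of_pos_left _ (by omega)) hB.1)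
  have h2B : 2 ^ π.d ≤ B := (Nat.pow_le_pow_left ht _).trans htB
  have hdB : π.d ≤ B := Nat.lt_two_pow_self.le.trans h2B
  set K : ℝ := 2 ^ (2 * π.α ^ 2) * (2 ^ 10 * π.p) with hK
  have hK1 : 1 ≤ K := by
    have : (1 : ℝ) ≤ π.p := by exact_mod_cast (by have := h.le_p; omega : 1 ≤ π.p)
    exact one_le_mul_of_one_le_of_one_le (one_le_pow₀ (by norm_num)) (by linarith)
  obtain ⟨env', Z, g, rfl, hZ, sZ⟩ := Go.loop (B := B) (P := P) (r := r) (env := 0 :: π.args)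
    (L := X) (e := .var 13) (n := π.d)
    (p := .call [.var 17, .pow (.var 14) (.var 13 - .var 0 - 1), .var 14,
      1 + (.var 8 + .var 0) * .var 9, .prod (.var 0) (1 + (.var 9 + .var 0) * .var 10), .var 15,
      .var 10, .var 16, .var 7, .var 13] p₁ ;; .set 0 (.var 0 + 1)) (by simp [Par.args])
    (fun c env L => env = c :: π.args ∧
      L.length = π.w * (pr (ns π.s π.t c) 0 π.d * (2 * π.n) * π.Bt) ∧
      ∀ (Ek : ℕ → ℕ → ℕ → ℝ) (Kv Ky : ℕ → ℕ → ℕ → ℂ),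
      (∀ i < π.d, ∀ μ < π.s i, ∑ j ∈ range (π.s i), |Ek i μ j -
          ∑ l ∈ range (2 * π.d ^ 2 + 1), if iE (π.s i) π.t (π.d ^ 2) l μ = j then
            wE (π.s i) π.t π.α (π.d ^ 2) l μ else 0| ≤ 2⁻¹ ^ π.p) →
      (∀ i < π.d, ∀ μ < π.s i, ∑ j ∈ range (π.s i), |Ek i μ j| ≤ 2⁻¹ ^ (π.α ^ 2 / π.d)) →
      (∀ i < π.d, ∀ μ < π.s i, ∀ j < π.s i,
        (wG (π.s i) π.t π.α μ : ℂ) * Kv i (gψ (π.s i) π.t μ) j =
          Ky i μ j + ∑ μ' ∈ range (π.s i), (Ek i μ μ' : ℂ) * Ky i μ' j) →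
      ∀ bt < π.Bt, ∀ (a : (ℕ → ℕ) → RA π.n) (ε : ℝ), 1 ≤ ε → 2 * (K ^ π.d * ε) ≤ 2 ^ π.p →
        (∀ x ∈ box (fun _ => π.t) π.d, Apx π.w (π.t ^ π.d * (2 * π.n) * π.Bt) π.n
          (sad π.n π.Bt (mr (fun _ => π.t) 0 π.d x) bt) π.p ε X (tens π.s π.d Kv a x)) →
        ∀ x ∈ box (ns π.s π.t c) π.d,
          Apx π.w (pr (ns π.s π.t c) 0 π.d * (2 * π.n) * π.Bt) π.n
            (sad π.n π.Bt (mr (ns π.s π.t c) 0 π.d x) bt) π.p (K ^ c * ε) L
            (tens π.s π.d (fun i => if i < c then Ky i else Kv i) a x))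
    (((2 * π.d ^ 5 * (2 * π.d ^ 2 + 1) + 1) * x₂ +
      C₁ * (2 * π.d ^ 5 * (2 * π.d ^ 2 + 1) + 1) * π.N0 + P) + P + 1)
    (by
      have e : ns π.s π.t 0 = fun _ => π.t := by funext i; simp [ns]
      rw [e, pr_const, Nat.sub_zero]
      exact ⟨rfl, hX, fun Ek Kv Ky _ _ _ bt _ a ε _ _ hx x hx' => by simpa using hx x hx'⟩)
    (by
      rintro c hc env L ⟨rfl, hL, sL⟩
      obtain ⟨e1, e2⟩ := pr_ns (s := π.s) (t := π.t) hc
      have l1 := pr_ns_le h.hs1 c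
      have l2 := pr_ns_le h.hs1 (c + 1)
      rw [e1] at hL sL l1
      rw [e2] at l2 ⊢
      have hO : 1 ≤ π.t ^ (π.d - c - 1) := Nat.one_le_pow _ _ π.one_le_t
      have hOi : 1 ≤ pr π.s 0 c := pr_pos fun i _ _ => π.one_le_s i
      have hNc : π.w * (π.t ^ (π.d - c - 1) * π.t * pr π.s 0 c * (2 * π.n) * π.Bt) ≤ π.N0 := by
        unfold Par.N0; gcongr; exact l1.2
      obtain ⟨Z, hZ, tZ, sZ⟩ := h₁ B P r π.w (π.t ^ (π.d - c - 1)) π.t (π.s c) (pr π.s 0 c) π.n π.Bt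
        π.p π.α π.d x₂ L ⟨h.hP, hO, hOi, π.one_le_n, h.hBt, h.odd_s c, h.hs1 c hc, h.hs2 c hc,
          h.hs3 c hc, hd, h.hα1, rfl, rfl, h.hα3, h.hPn, (hB.mono (by omega)).2.1,
          (Nat.mul_le_mul_left _ hNc).trans (hB.mono (by omega)).1⟩ (hmul _ l2.1 l2.2) hL
      clear h₁
      have b1 : π.t ^ (π.d - c - 1) ≤ B := (Nat.pow_le_pow_right π.one_le_t (by omega)).trans htB
      have b2 : π.s c ≤ B := (h.hs1 c hc).le.trans
        ((Nat.le_self_pow (by omega) _).trans htB)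
      have b3 : pr π.s 0 c ≤ B := le_trans (Nat.le_mul_of_pos_left _
        (Nat.mul_pos hO π.one_le_t)) (l1.2.trans htB)
      have v1 : (Ex.pow (.var 14) (.var 13 - .var 0 - 1)).ev B P (c :: π.args) =
          π.t ^ (π.d - c - 1) := by
        rw [Ex.ev_pow] <;> simp [Par.args, ht, b1]
      have v2 : (Ex.prod (.var 0) (1 + (.var 9 + .var 0) * .var 10)).ev B P (c :: π.args) =
          pr π.s 0 c := by
        have e : ∀ i, (1 + (.var 9 + .var 0) * .var 10 : Ex).ev B P (i :: c :: π.args) = π.s i :=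
          fun i => by simp [Par.args, Par.s]
        have e' : pr π.s 0 c = ∏ i ∈ range c, π.s i := by rw [pr, range_eq_Ico]
        rw [Ex.ev_prod] <;> simp only [e, Ex.ev_var, List.getD_cons_zero, ← e']
        · exact hc.le.trans (Ex.le_size_of_two_pow_le h2B)
        · exact fun i _ => π.one_le_s i
        · exact b3
      refine ⟨_, Z, ((Go.call (by
          simp only [List.map_cons, List.map_nil, v1, v2]; simp [Par.args, Par.s])
        (by simp [Ok, Par.args, b1, b2, b3]) tZ).seq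
        (Go.set (v := c + 1) (by simp) (Or.inl (by omega)))).mono ?_, rfl, hZ,
        fun Ek Kv Ky k1 k2 k3 bt hbt a ε h1 h2 hx x hx' => ?_⟩
      · gcongr
      · have hb := mem_box.1 hx'
        have hKc : 1 ≤ K ^ c := one_le_pow₀ hK1
        have := sZ (mr (fun _ => π.t) (c + 1) π.d x) (by
            rw [Nat.sub_sub, ← pr_const]
            exact mr_lt fun i h1 h2 => by simpa [ns, show ¬ i < c + 1 by omega] using hb.1 i h2)
          (mr π.s 0 c x) (mr_lt fun i _ h2 => by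
            simpa [ns, show i < c + 1 by omega] using hb.1 i (by omega)) bt hbt (Ek c)
          (fun j => tens π.s π.d (fun i => if i < c then Ky i else Kv i) a (Function.update x c j))
          (fun j => tens π.s π.d (fun i => if i < c + 1 then Ky i else Kv i) a
            (Function.update x c j)) (K ^ c * ε)
          ⟨k1 c hc, k2 c hc, fun μ hμ => line_eq hc Kv Ky _ _ _ _ (k3 c hc μ hμ) a x⟩
          (one_le_mul_of_one_le_of_one_le hKc h1)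
          (le_trans (by
            rw [← hK, ← mul_assoc K, ← pow_succ']
            gcongr
            exact hc) h2)
          (fun j hj => by
            have := sL Ek Kv Ky k1 k2 k3 bt hbt a ε h1 h2 hx (Function.update x c j)
              (update_mem_box hx' hc (fun i _ hi => by
                simp only [ns, show i < c + 1 ↔ i < c by omega]) (by simpa [ns] using hj))
            rwa [(mr_ns hc x j).1] at this)
          (x c) (by simpa [ns] using hb.1 c hc)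
        rw [(mr_ns hc x 0).2, pow_succ', mul_assoc K]
        simpa only [Function.update_eq_self] using this)
  have e : pr (ns π.s π.t π.d) 0 π.d = π.S := pr_congr fun i _ hi => if_pos hi
  rw [e] at hZ sZ
  refine ⟨Z, hZ, ((Go.lett (v := 0) (by simp) (Or.inl (Nat.zero_le _)) g).mono ?_).top,
    fun Ek Kv Ky k1 k2 k3 bt hbt a ε h1 h2 hx x hx' => ?_⟩
  · have := cost_fin (d := π.d) (m := 2 * π.d ^ 5 * (2 * π.d ^ 2 + 1)) (x := x₂) (C := C₁)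
      (N := π.N0) (P := P) (np := π.np) (by exact_mod_cast h.hP) (by exact_mod_cast h.P_le_N0)
      C₁.cast_nonneg (by exact_mod_cast (by omega : 1 ≤ π.d)) (by positivity) (by
        have : π.d * (2 * π.d ^ 5 * (2 * π.d ^ 2 + 1) + 1) ≤ π.np := by
          unfold Par.np; nlinarith [Nat.zero_le (π.d * (2 * π.β + 1))]
        exact_mod_cast this)
    push_cast
    linarith
  · have := sZ Ek Kv Ky k1 k2 k3 bt hbt a ε h1 h2 hx x (by
      rwa [box_congr (ns := ns π.s π.t π.d) (ns' := π.s) (d := π.d) fun i hi => if_pos hi])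
    rw [mr_congr (ns := ns π.s π.t π.d) (ns' := π.s) (y := x) (b := π.d) (fun i _ hi => if_pos hi)
      fun _ _ _ => rfl] at this
    rwa [tens_congr (Kn' := Ky) (z' := a) (x' := x) (fun i hi u _ => by simp [hi])
      fun _ _ => rfl] at this

end Crest.Agent.IM
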