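import Crest.Agent.IM.Scal

/-! TASK IM-V. Gaussian resampling `s i → t` in all directions. Loop over `c < d`: radices
`ns c i = if i < c then t else s i`; `band` with `O = pr s (c + 1) d` (`Ex.prod`), sizes
`s c → t`, `Oi = t ^ c`, `nl = 2 β + 1`, `σ₁ = 1`, `σ₀ = s c - β % s c`, `ψ k = k (s c) / t`,
weights `wS` by `eE` of `exp_ex` (`sg = 0`, `n = ((l - β) t - k s % t) ^ 2`, `D = t ^ 2 α ^ 2`,
`u = v = 1`). Ideal array after `c` steps: `tens s d (fun i => if i < c then Sk i else δ) a`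
(`tens_along`, `tens_tens`, `mr_update`); per step the error grows by at most `32 p`. -/

set_option autoImplicit false
open Finset

namespace Crest.Agent.IM
open SK

namespace SV

/-- radices after `c` steps -/
def ns (s : ℕ → ℕ) (t c i : ℕ) : ℕ := if i < c then t else s i

/-- kernels after `c` steps -/
noncomputable def Kc (Sk : ℕ → ℕ → ℕ → ℝ) (c i k j : ℕ) : ℂ :=
  if i < c then (Sk i k j : ℂ) else if k = j then 1 else 0

section
variable {V : Type*} [AddCommMonoid V] [Module ℂ V] {s : ℕ → ℕ} {t d c : ℕ}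

theorem ns_ne {i : ℕ} (h : i ≠ c) : ns s t (c + 1) i = ns s t c i := by
  unfold ns; split_ifs <;> first | rfl | omega

theorem ns_self : ns s t c c = s c := by simp [ns]

theorem ns_succ_self : ns s t (c + 1) c = t := by simp [ns]

theorem tens_zero (hd : 0 < d) (Sk : ℕ → ℕ → ℕ → ℝ) (a : (ℕ → ℕ) → V) {x : ℕ → ℕ}
    (hx : x ∈ box s d) : tens s d (Kc Sk 0) a x = a x := by
  have h := tens_along (R := ℂ) (ns := s) (ns' := s) hd (fun _ _ _ => rfl)
    (fun k j => if k = j then 1 else 0) a hx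
  rw [sum_eq_single (x 0) (fun u _ hu => by simp [hu.symm])
    (fun h => absurd (mem_range.2 ((mem_box.1 hx).1 0 hd)) h)] at h
  simp only [ite_self, if_true, one_smul, Function.update_eq_self] at h
  rw [← h]
  exact tens_congr (fun i _ u _ => by simp [Kc]) fun _ _ => rfl

theorem tens_succ (hc : c < d) (Sk : ℕ → ℕ → ℕ → ℝ) (a : (ℕ → ℕ) → V) {x : ℕ → ℕ}
    (hx : x ∈ box (ns s t (c + 1)) d) : tens s d (Kc Sk (c + 1)) a x =
      ∑ j ∈ range (s c), (Sk c (x c) j : ℂ) • tens s d (Kc Sk c) a (Function.update x c j) := by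
  have h := tens_along (R := ℂ) (ns := ns s t c) hc (fun _ _ h => ns_ne h)
    (fun k j => (Sk c k j : ℂ)) (tens s d (Kc Sk c) a) hx
  rw [ns_self] at h
  rw [← h, tens_tens]
  refine tens_congr (fun i hi u hu => ?_) fun _ _ => rfl
  by_cases hic : i = c
  · subst hic
    rw [ns_self, sum_eq_single u (fun b _ hb => by simp [Kc, hb])
      (fun h => absurd (mem_range.2 hu) h)]
    simp [Kc]
  · have h1 := (mem_box.1 hx).1 i hi
    rw [ns_ne hic] at h1
    rw [sum_eq_single (x i) (fun b _ hb => by simp [hic, hb.symm])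
      (fun h => absurd (mem_range.2 h1) h)]
    simp only [hic, if_false, if_true, one_mul, Kc]
    split_ifs <;> first | rfl | omega

theorem pr_in (hc : c < d) : pr (ns s t c) 0 d = pr s (c + 1) d * s c * t ^ c := by
  rw [pr_three (Nat.zero_le c) hc, ns_self,
    pr_congr (ns' := s) fun i h _ => by simp [ns]; omega,
    pr_congr (ns' := fun _ => t) (b := c) fun i _ h => by simp [ns, h], pr_const, Nat.sub_zero]

theorem pr_out (hc : c < d) : pr (ns s t (c + 1)) 0 d = pr s (c + 1) d * t * t ^ c := by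
  rw [pr_three (Nat.zero_le c) hc, ns_succ_self,
    pr_congr (ns' := s) fun i h _ => by simp [ns]; omega,
    pr_congr (ns' := fun _ => t) (b := c) fun i _ h => by simp [ns]; omega, pr_const, Nat.sub_zero]

theorem mr_in (hc : c < d) (x : ℕ → ℕ) (j : ℕ) : mr (ns s t c) 0 d (Function.update x c j) =
    (mr s (c + 1) d x * s c + j) * t ^ c + mr (fun _ => t) 0 c x := by
  rw [mr_update (Nat.zero_le c) hc, ns_self,
    mr_congr (ns' := s) (y := x) (fun i h _ => by simp [ns]; omega) fun _ _ _ => rfl,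
    pr_congr (ns' := fun _ => t) (b := c) fun i _ h => by simp [ns, h], pr_const, Nat.sub_zero,
    mr_congr (ns' := fun _ => t) (b := c) (y := x) (fun i _ h => by simp [ns, h]) fun _ _ _ => rfl]

theorem mr_out (hc : c < d) (x : ℕ → ℕ) : mr (ns s t (c + 1)) 0 d x =
    (mr s (c + 1) d x * t + x c) * t ^ c + mr (fun _ => t) 0 c x := by
  rw [mr_three (Nat.zero_le c) hc, ns_succ_self,
    mr_congr (ns' := s) (y := x) (fun i h _ => by simp [ns]; omega) fun _ _ _ => rfl,
    pr_congr (ns' := fun _ => t) (b := c) fun i _ h => by simp [ns]; omega, pr_const, Nat.sub_zero,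
    mr_congr (ns' := fun _ => t) (b := c) (y := x) (fun i _ h => by simp [ns]; omega)
      fun _ _ _ => rfl]

theorem le_pr (h : ∀ i < d, s i < t) : pr s 0 d ≤ pr (ns s t c) 0 d :=
  prod_le_prod' fun i hi => by
    have := h i (mem_Ico.1 hi).2
    unfold ns; split_ifs <;> omega

theorem pr_le (h : ∀ i < d, s i < t) : pr (ns s t c) 0 d ≤ t ^ d := by
  rw [← Nat.sub_zero d, ← pr_const, Nat.sub_zero]
  exact prod_le_prod' fun i hi => by
    have := h i (mem_Ico.1 hi).2
    unfold ns; split_ifs <;> omega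

end

/-- The error analysis of one step. -/
theorem step_err {n s nl p : ℕ} (z a : ℕ → RA n) (a' : RA n) (ι : ℕ → ℕ) (wt S : ℕ → ℝ) {ε : ℝ}
    (hε : 1 ≤ ε) (hι : ∀ l, ι l < s) (hw : ∀ l, |wt l| ≤ 1)
    (hS : ∑ j ∈ range s, |S j - ∑ l ∈ range nl, if ι l = j then wt l else 0| ≤ 2⁻¹ ^ p)
    (hz : ∀ j < s, nrm n (z j) ≤ 2 ^ p * ε) (ha : ∀ j < s, nrm n (a j - z j) ≤ ε)
    (ha' : nrm n (a' - ∑ l ∈ range nl, (wt l : ℂ) • a (ι l)) ≤
      nl * (2 * (1 + 2 ^ p * (2 * ε) / 2 ^ p))) :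
    nrm n (∑ j ∈ range s, (S j : ℂ) • z j) ≤ 2 ^ p * ((nl + 1) * ε) ∧
      nrm n (a' - ∑ j ∈ range s, (S j : ℂ) • z j) ≤ (7 * nl + 1) * ε := by
  have h2 : (1 : ℝ) ≤ 2 ^ p := one_le_pow₀ (by norm_num)
  have hn : (0 : ℝ) ≤ nl := Nat.cast_nonneg _
  have key : ∀ (b : ℕ → RA n) (μ : ℝ), (∀ j < s, nrm n (b j) ≤ μ) →
      nrm n (∑ l ∈ range nl, (wt l : ℂ) • b (ι l)) ≤ nl * μ := fun b μ hb => by
    refine (nrm_sum_le _ _).trans ((sum_le_card_nsmul _ _ μ fun l _ => ?_).trans (by simp))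
    rw [nrm_smul, Complex.norm_real, Real.norm_eq_abs]
    exact (mul_le_of_le_one_left (nrm_nonneg _) (hw l)).trans (hb _ (hι l))
  have e1 : ∑ l ∈ range nl, (wt l : ℂ) • z (ι l) =
      ∑ j ∈ range s, ((∑ l ∈ range nl, if ι l = j then wt l else 0 : ℝ) : ℂ) • z j := by
    simp only [Complex.ofReal_sum, sum_smul]
    rw [sum_comm]
    refine sum_congr rfl fun l _ => ?_
    rw [sum_eq_single (ι l) (fun j _ hj => by simp [hj.symm])
      (fun h => absurd (mem_range.2 (hι l)) h)]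
    simp
  have k1 : nrm n (∑ j ∈ range s, (S j : ℂ) • z j - ∑ l ∈ range nl, (wt l : ℂ) • z (ι l)) ≤ ε := by
    rw [e1, ← sum_sub_distrib]
    refine (nrm_sum_le _ _).trans ?_
    calc _ ≤ ∑ j ∈ range s, |S j - ∑ l ∈ range nl, if ι l = j then wt l else 0| * (2 ^ p * ε) :=
          sum_le_sum fun j hj => by
            rw [← sub_smul, nrm_smul, ← Complex.ofReal_sub, Complex.norm_real, Real.norm_eq_abs]
            exact mul_le_mul_of_nonneg_left (hz j (mem_range.1 hj)) (abs_nonneg _)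
      _ ≤ 2⁻¹ ^ p * (2 ^ p * ε) := by rw [← sum_mul]; gcongr
      _ = ε := by rw [← mul_assoc, ← mul_pow]; simp
  have k2 := key z _ hz
  have k3 := key (fun j => a j - z j) _ ha
  simp only [smul_sub, sum_sub_distrib] at k3
  rw [mul_div_cancel_left₀ _ (by positivity)] at ha'
  generalize ∑ j ∈ range s, (S j : ℂ) • z j = A at *
  generalize ∑ l ∈ range nl, (wt l : ℂ) • z (ι l) = Bz at *
  generalize ∑ l ∈ range nl, (wt l : ℂ) • a (ι l) = Ba at *
  constructor
  · have := nrm_add_le (A - Bz) Bz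
    rw [sub_add_cancel] at this
    nlinarith
  · have h3 := nrm_add_le (a' - Ba) (Ba - Bz)
    have h4 := nrm_sub_le (a' - Ba + (Ba - Bz)) (A - Bz)
    rw [show a' - Ba + (Ba - Bz) - (A - Bz) = a' - A by ring] at h4
    nlinarith

theorem abs_wS_le (s t α β l k : ℕ) : |wS s t α β l k| ≤ 1 := by
  unfold wS
  rw [abs_of_pos (Real.exp_pos _), Real.exp_le_one_iff, neg_mul, neg_div, neg_nonpos]
  positivity

/-- natural absolute difference -/
theorem cast_dist (a b : ℕ) : (((a - b + (b - a)) * (a - b + (b - a)) : ℕ) : ℝ) =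
    ((a : ℝ) - b) ^ 2 := by
  rcases le_total a b with h | h
  · rw [Nat.sub_eq_zero_of_le h, zero_add]; push_cast [h]; ring
  · rw [Nat.sub_eq_zero_of_le h, add_zero]; push_cast [h]; ring

end SV
open SV

theorem stS_ex (mul : Prog) : ∃ (p : Prog) (C : ℕ), ∀ (q bb B P : ℕ) (r : Prog) (π : Par)
    (x₂ : ℝ) (X : List Bool), π.Ok q bb P → π.Big C B P → π.Mul2 B P r mul x₂ →
    X.length = π.w * (π.S * (2 * π.n) * π.Bt) →
    ∃ Z : List Bool, Z.length = π.N0 ∧
      Top B P r p π.args X Z (π.d * (2 * π.β + 1) * x₂ + C * π.N0 * π.np) ∧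
      ∀ Sk : ℕ → ℕ → ℕ → ℝ, (∀ i < π.d, ∀ k < π.t, ∑ j ∈ range (π.s i), |Sk i k j -
          ∑ l ∈ range (2 * π.β + 1), if iS (π.s i) π.t π.β l k = j then
            wS (π.s i) π.t π.α π.β l k else 0| ≤ 2⁻¹ ^ π.p) →
      ∀ bt < π.Bt, ∀ (a : (ℕ → ℕ) → RA π.n) (ε : ℝ), 1 ≤ ε →
        2 * ((32 * π.p) ^ π.d * ε) ≤ 2 ^ π.p →
        (∀ x ∈ box π.s π.d, Apx π.w (π.S * (2 * π.n) * π.Bt) π.n
          (sad π.n π.Bt (mr π.s 0 π.d x) bt) π.p ε X (a x)) →
        ∀ x ∈ box (fun _ => π.t) π.d, Apx π.w (π.t ^ π.d * (2 * π.n) * π.Bt) π.n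
          (sad π.n π.Bt (mr (fun _ => π.t) 0 π.d x) bt) π.p ((32 * π.p) ^ π.d * ε) Z
          (tens π.s π.d (fun i k j => (Sk i k j : ℂ)) a x) := by
  obtain ⟨eE, eC, eS, C₁, h₁⟩ := exp_ex
  let eA : Ex := .var 1 * .var 3
  let eB : Ex := .var 5 * .var 3 + .var 0 * .var 2 % .var 3
  let eD : Ex := eA - eB + (eB - eA)
  obtain ⟨p₂, C₂, h₂⟩ := band_ex (.var 0 * .var 1 / .var 2)
    (.app [0, eD * eD, .var 3 * .var 3 * (.var 4 * .var 4), 1, 1, .var 6, .var 7] eE) 6 mul
  let eO : Ex := .prod (.var 13 - (.var 0 + 1)) (1 + (.var 9 + (.var 1 + 1 + .var 0)) * .var 10)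
  let es : Ex := 1 + (.var 8 + .var 0) * .var 9
  let eβ : Ex := .var 13 * .var 13 * (.var 7 * .var 7)
  let eT : Ex := .pow (.var 14) (.var 0)
  let ar : List Ex := [.var 17, eO, es, .var 14, eT, .var 15, .var 10, .var 16, 2 * eβ + 1, 1,
    es - eβ % es, es, .var 14, .var 7, eβ, .var 16, .var 17]
  refine ⟨.lett 0 (.loop (.var 13) (.call ar p₂ ;; .set 0 (.var 0 + 1))), 2 * C₂ + C₁ + 6,
    fun q bb B P r π x₂ X hπ hB hmul hX => ?_⟩
  have hP := hπ.hP
  have hp := hπ.le_p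
  have hβ := hπ.β_le_p
  have hd := hπ.eight_le_d
  have ht := hπ.two_le_t
  have hBt := hπ.hBt
  have hn := π.one_le_n
  have hPN := hπ.P_le_N0
  have hα : 1 ≤ π.α ^ 2 := by have := hπ.hα1; omega
  have hβ1 : 1 ≤ π.β := by have := hπ.le_β; omega
  have hw : π.w = 6 * π.p := rfl
  have hNB : π.N0 ≤ B := by simpa using le_B hB.1 (k := 1) (by omega)
  have hI : 1 ≤ 2 * π.n * π.Bt := Nat.mul_pos (by omega) hBt
  have htd : 1 ≤ π.t ^ π.d := Nat.one_le_pow _ _ (by omega)
  have eN : π.N0 = π.w * π.t ^ π.d * (2 * π.n * π.Bt) := by unfold Par.N0; ring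
  have b1 : π.w * π.t ^ π.d ≤ π.N0 := eN ▸ Nat.le_mul_of_pos_right _ hI
  have b2 : π.t ^ π.d ≤ B := (Nat.le_mul_of_pos_left _ (by omega)).trans (b1.trans hNB)
  have b3 : π.w ≤ π.N0 := (Nat.le_mul_of_pos_right _ htd).trans b1
  have b4 : π.t ≤ B := (Nat.le_self_pow (by omega) _).trans b2
  have b5 : 2 ^ π.d ≤ B := (Nat.pow_le_pow_left ht _).trans b2
  have b6 : π.d ≤ B := Nat.lt_two_pow_self.le.trans b5
  have b7 : 2 ^ π.w ≤ B :=
    (Nat.pow_le_pow_right (by norm_num) (by rw [hw]; nlinarith)).trans hB.2.1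
  have b8 : 2 ^ (C₁ * (π.p + 1) ^ 2) ≤ B := (hB.mono (by omega)).2.1
  have b9 : ∀ c, π.w * (pr (ns π.s π.t c) 0 π.d * (2 * π.n) * π.Bt) ≤ π.N0 := fun c => by
    unfold Par.N0; gcongr; exact pr_le hπ.hs1
  obtain ⟨env, Z, g₁, rfl, l₁, s₁⟩ := Go.loop (B := B) (P := P) (r := r)
    (p := .call ar p₂ ;; .set 0 (.var 0 + 1)) (e := .var 13) (env := 0 :: π.args) (L := X)
    (n := π.d) rfl
    (fun c env L => env = c :: π.args ∧
      L.length = π.w * (pr (ns π.s π.t c) 0 π.d * (2 * π.n) * π.Bt) ∧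
      ∀ Sk : ℕ → ℕ → ℕ → ℝ, (∀ i < π.d, ∀ k < π.t, ∑ j ∈ range (π.s i), |Sk i k j -
          ∑ l ∈ range (2 * π.β + 1), if iS (π.s i) π.t π.β l k = j then
            wS (π.s i) π.t π.α π.β l k else 0| ≤ 2⁻¹ ^ π.p) →
      ∀ bt < π.Bt, ∀ (a : (ℕ → ℕ) → RA π.n) (ε : ℝ), 1 ≤ ε →
        2 * ((32 * π.p) ^ π.d * ε) ≤ 2 ^ π.p →
        (∀ x ∈ box π.s π.d, Apx π.w (π.S * (2 * π.n) * π.Bt) π.n
          (sad π.n π.Bt (mr π.s 0 π.d x) bt) π.p ε X (a x)) →
        ∀ x ∈ box (ns π.s π.t c) π.d, Apx π.w (pr (ns π.s π.t c) 0 π.d * (2 * π.n) * π.Bt) π.n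
          (sad π.n π.Bt (mr (ns π.s π.t c) 0 π.d x) bt) π.p ((32 * π.p) ^ c * ε) L
          (tens π.s π.d (Kc Sk c) a x))
    ((2 * π.β + 1) * x₂ + (2 * C₂ * (2 * π.β + 2) + 3) * π.N0)
    ⟨rfl, hX, fun Sk _ bt _ a ε _ _ ha x hx => by
      rw [tens_zero (s := π.s) (by omega) Sk a hx, pow_zero, one_mul]; exact ha x hx⟩
    (by
      rintro c hc env L ⟨rfl, hL, hz⟩
      have hs1 := hπ.hs1 c hc
      have hs0 := π.one_le_s c
      have hO : 1 ≤ pr π.s (c + 1) π.d := pr_pos fun i _ _ => π.one_le_s i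
      have hT : 1 ≤ π.t ^ c := Nat.one_le_pow _ _ (by omega)
      have i1 := b9 c
      have i2 := b9 (c + 1)
      have i3 : pr (ns π.s π.t (c + 1)) 0 π.d ≤ π.t ^ π.d := pr_le hπ.hs1
      have i4 : π.S ≤ pr (ns π.s π.t (c + 1)) 0 π.d := le_pr hπ.hs1
      rw [pr_in hc] at i1 hL hz
      rw [pr_out hc] at i2 i3 i4 ⊢
      have i5 : pr π.s (c + 1) π.d ≤ B :=
        ((Nat.le_mul_of_pos_right _ (by omega)).trans (Nat.le_mul_of_pos_right _ hT)).trans
          (i3.trans b2)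
      have i6 : π.t ^ c ≤ B := (Nat.pow_le_pow_right (by omega) hc.le).trans b2
      obtain ⟨Z, l₂, t₂, s₂⟩ := h₂ B P r π.w (pr π.s (c + 1) π.d) (π.s c) π.t (π.t ^ c) π.n π.Bt π.p
        (2 * π.β + 1) 1 (π.s c - π.β % π.s c) [π.s c, π.t, π.α, π.β, π.p, π.w] x₂ L hP rfl hO hs0
        (by omega) hT hn hBt (by omega) hw hπ.hPn b7 (by omega)
        ((Nat.mul_le_mul_left _ (add_le_add i1 i2)).trans
          (by rw [← two_mul, ← mul_assoc, mul_comm C₂]; exact le_B hB.1 (by omega)))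
        (fun k hk => by
          simp only [Ex.ev_div, Ex.ev_mul, Ex.ev_var, List.getD_cons_succ, List.getD_cons_zero]
          exact Nat.div_lt_of_lt_mul (Nat.mul_lt_mul_of_pos_right hk hs0))
        (fun k _ => by
          simp only [Ex.ev_div, Ex.ev_mul, Ex.ev_var, List.getD_cons_succ, List.getD_cons_zero]
          exact Nat.div_le_div_right (Nat.mul_le_mul_right _ (Nat.le_succ k)))
        (hmul _ i4 i3) hL
      have vO : eO.ev B P (c :: π.args) = pr π.s (c + 1) π.d := by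
        have e1 : ∏ i ∈ range (π.d - (c + 1)), (1 + (π.a0 + (c + 1 + i)) * π.D0) =
            pr π.s (c + 1) π.d := by rw [pr, prod_Ico_eq_prod_range]; rfl
        rw [Ex.ev_prod]
        · exact e1
        · exact (Nat.sub_le _ _).trans (Ex.le_size_of_two_pow_le b5)
        · exact fun i _ => Nat.le_add_right _ _
        · exact e1.le.trans i5
      have vT : eT.ev B P (c :: π.args) = π.t ^ c := Ex.ev_pow ht i6
      have vs : es.ev B P (c :: π.args) = π.s c := rfl
      have vβ : eβ.ev B P (c :: π.args) = π.β := by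
        show π.d * π.d * (π.α * π.α) = _
        unfold Par.β; ring
      have g₂ := Go.call (args := ar) (env := c :: π.args)
        (by
          simp only [ar, List.map_cons, List.map_nil, Ex.ev_add, Ex.ev_mul, Ex.ev_sub, Ex.ev_mod,
            Ex.ev_ofNat, vO, vT, vs, vβ]
          rfl)
        (ok_le (by omega) (ok_le i5 (ok_le (by omega) (ok_le b4 (ok_le i6
          (ok_mem (by simp [Par.args]) (ok_mem (by simp [Par.args]) (ok_le (by omega)
          (ok_le (by omega) (ok_le (by omega) (ok_le (by omega) (ok_le (by omega) (ok_le b4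
          (ok_mem (by simp [Par.args]) (ok_le (by omega) (ok_le (by omega) (ok_le (by omega)
          ok_nil))))))))))))))))) t₂
      have g₃ := Go.set (B := B) (P := P) (r := r) (i := 0) (e := .var 0 + 1) (L := Z)
        (env := c :: π.args) (v := c + 1) rfl (Or.inl (by omega))
      refine ⟨_, _, (g₂.seq g₃).mono ?_, rfl, l₂, fun Sk hS bt hbt a ε hε hb ha x hx => ?_⟩
      · have k1 : ((π.w * (pr π.s (c + 1) π.d * π.s c * π.t ^ c * (2 * π.n) * π.Bt) +
            π.w * (pr π.s (c + 1) π.d * π.t * π.t ^ c * (2 * π.n) * π.Bt) : ℕ) : ℝ) ≤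
            (2 * π.N0 : ℕ) := by exact_mod_cast (by omega)
        have k2 : ((2 * P + 1 : ℕ) : ℝ) ≤ (3 * π.N0 : ℕ) := by exact_mod_cast (by omega)
        push_cast at k1 k2 ⊢
        have k3 := mul_le_mul_of_nonneg_left k1
          (by positivity : (0 : ℝ) ≤ C₂ * (2 * π.β + 1 + 1))
        linarith
      · have hx' := (mem_box.1 hx).1
        have hk : x c < π.t := by simpa [ns_succ_self] using hx' c hc
        have ho : mr π.s (c + 1) π.d x < pr π.s (c + 1) π.d := mr_lt fun i h1 h2 => by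
          have := hx' i h2
          rwa [ns, if_neg (by omega)] at this
        have hoi : mr (fun _ => π.t) 0 c x < π.t ^ c := by
          have := mr_lt (ns := fun _ => π.t) (a := 0) (b := c) (x := x) fun i _ h2 => by
            have := hx' i (by omega)
            rwa [ns, if_pos (by omega)] at this
          rwa [pr_const, Nat.sub_zero] at this
        have hy : ∀ j < π.s c, Function.update x c j ∈ box (ns π.s π.t c) π.d := fun j hj =>
          update_mem_box hx hc (fun _ _ h => ns_ne h) (by rwa [ns_self])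
        have hy' := fun j hj => hz Sk hS bt hbt a ε hε hb ha _ (hy j hj)
        simp only [mr_in hc] at hy'
        choose! a₁ r₁ n₁ using fun j hj => (hy' j hj).2
        have hp' : (1 : ℝ) ≤ 32 * π.p := by exact_mod_cast (by omega : 1 ≤ 32 * π.p)
        have e1 : (1 : ℝ) ≤ (32 * π.p) ^ c * ε := one_le_mul_of_one_le_of_one_le (one_le_pow₀ hp') hε
        have e2 : 2 * ((32 * π.p) ^ c * ε) ≤ (2 : ℝ) ^ π.p :=
          le_trans (by gcongr) hb
        have e3 : (1 : ℝ) ≤ 2 ^ π.p := one_le_pow₀ (by norm_num)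
        rw [show (32 * (π.p : ℝ)) ^ (c + 1) * ε = 32 * π.p * ((32 * π.p) ^ c * ε) by ring]
        generalize (32 * (π.p : ℝ)) ^ c * ε = η at *
        obtain ⟨a', r₂, n₂⟩ := s₂ _ ho _ hk _ hoi bt hbt a₁ (2 ^ π.p * (2 * η))
          (fun l => wS (π.s c) π.t π.α π.β l (x c))
          (fun j hj => ⟨r₁ j hj, by
            have h1 := nrm_add_le (a₁ j - tens π.s π.d (Kc Sk c) a (Function.update x c j))
              (tens π.s π.d (Kc Sk c) a (Function.update x c j))
            rw [sub_add_cancel] at h1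
            have h2 := (hy' j hj).1
            have h3 := n₁ j hj
            nlinarith⟩)
          (by
            rw [show 3 * π.p = π.p + π.p + π.p by ring, pow_add, pow_add]
            calc _ ≤ (2 : ℝ) ^ π.p * 2 ^ π.p * 1 := by rw [mul_one]; gcongr
              _ ≤ _ := by gcongr)
          (fun l hl => ⟨(abs_wS_le _ _ _ _ _ _).trans e3, by
            have h1 : x c * π.s c % π.t < π.t := Nat.mod_lt _ (by omega)
            have h2 : l * π.t - (π.β * π.t + x c * π.s c % π.t) +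
                (π.β * π.t + x c * π.s c % π.t - l * π.t) ≤ 2 * (π.β * π.t) := by
              have h3 : l * π.t ≤ 2 * π.β * π.t := Nat.mul_le_mul_right _ (by omega)
              have h4 : π.t ≤ π.β * π.t := Nat.le_mul_of_pos_left _ hβ1
              rw [mul_assoc] at h3
              omega
            obtain ⟨c₁, h3, h4⟩ := (h₁ B P 0 _ (π.t * π.t * (π.α * π.α)) 1 1 π.p π.w
              [x c, l, π.s c, π.t, π.α, π.β, π.p, π.w] (by omega)
              (Nat.mul_pos (Nat.mul_pos (by omega) (by omega)) (by rw [← sq]; omega))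
              (by rw [← sq, ← sq]; exact hπ.hα3) le_rfl Nat.one_le_two_pow le_rfl
              ((Nat.mul_le_mul h2 h2).trans (by
                calc _ = 4 * (π.t * π.t * (π.α * π.α) * π.p) := by unfold Par.β Par.p; ring
                  _ ≤ _ := by rw [mul_assoc 16]; omega)) (by omega) b8).1
            refine ⟨c₁, h3, le_of_eq_of_le ?_ h4⟩
            rw [cast_dist, wS]
            push_cast
            congr 4
            simp only [if_true, div_one, one_mul]
            congr 1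
            ring⟩)
        obtain ⟨k1, k2⟩ := step_err (fun j => tens π.s π.d (Kc Sk c) a (Function.update x c j)) a₁
          a' (fun l => iS (π.s c) π.t π.β l (x c)) (fun l => wS (π.s c) π.t π.α π.β l (x c))
          (Sk c (x c)) e1 (fun l => Nat.mod_lt _ hs0) (fun l => abs_wS_le _ _ _ _ _ _)
          (hS c hc _ hk) (fun j hj => (hy' j hj).1) n₁ n₂
        have e4 : ((7 * (2 * π.β + 1) + 1 : ℕ) : ℝ) ≤ (32 * π.p : ℕ) := by
          exact_mod_cast (by omega)
        have e5 : (0 : ℝ) ≤ π.β := Nat.cast_nonneg _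
        push_cast at e4 k1 k2
        rw [tens_succ hc Sk a hx, mr_out hc]
        exact ⟨k1.trans (by gcongr; linarith), a', r₂, k2.trans (by gcongr)⟩)
  have e1 : ∀ i < π.d, ns π.s π.t π.d i = π.t := fun i hi => if_pos hi
  have e2 : pr (ns π.s π.t π.d) 0 π.d = π.t ^ π.d := by
    rw [pr_congr (ns' := fun _ => π.t) fun i _ hi => e1 i hi, pr_const, Nat.sub_zero]
  rw [e2] at l₁ s₁
  refine ⟨Z, l₁, ((Go.lett (e := 0) rfl (Or.inl (Nat.zero_le _)) g₁).mono ?_).top,
    fun Sk hS bt hbt a ε hε hb ha x hx => ?_⟩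
  · have k1 : ((π.d * ((2 * C₂ * (2 * π.β + 2) + 3) * π.N0 + 1) + P + P : ℕ) : ℝ) ≤
        ((2 * C₂ + C₁ + 6) * π.N0 * π.np : ℕ) := by
      have k2 : π.d * (2 * π.β + 2) + 10 ≤ π.np := by
        unfold Par.np; rw [show π.d * (2 * π.β + 2) = π.d * (2 * π.β + 1) + π.d by ring]; omega
      have k3 : π.d ≤ π.d * (2 * π.β + 2) := Nat.le_mul_of_pos_right _ (by omega)
      have k4 : π.d * 1 ≤ π.d * π.N0 := Nat.mul_le_mul_left _ (by omega)
      have k5 : π.N0 * (π.d * (2 * π.β + 2) + 10) ≤ π.N0 * π.np := Nat.mul_le_mul_left _ k2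
      have k6 : π.N0 * π.d ≤ π.N0 * (π.d * (2 * π.β + 2)) := Nat.mul_le_mul_left _ k3
      have k7 : C₂ * (π.N0 * (π.d * (2 * π.β + 2))) ≤ C₂ * (π.N0 * π.np) :=
        Nat.mul_le_mul_left _ (Nat.mul_le_mul_left _ (by omega))
      exact_mod_cast (by nlinarith [Nat.zero_le (C₁ * π.N0 * π.np)])
    push_cast at k1 ⊢
    linarith
  · have := s₁ Sk hS bt hbt a ε hε hb ha x (by rwa [box_congr e1])
    rw [mr_congr (ns' := fun _ => π.t) (y := x) (fun i _ hi => e1 i hi) fun _ _ _ => rfl] at this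
    rwa [tens_congr (Kn' := Kc Sk π.d) (z' := a) (x' := x) (fun i hi u _ => by simp [Kc, hi])
      fun _ _ => rfl]

end Crest.Agent.IM
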