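import Crest.Agent.IM.Blue
import Crest.Agent.IM.StS
import Crest.Agent.IM.StN

/-! Approximate DFT on `∏ ℤ / s i` (helper18). -/

set_option autoImplicit false

namespace Crest.Agent.IM

/-- Approximate DFT of the coprime lengths. -/
def DftStmt (q bb : ℕ) : Prop :=
  ∀ mul : Prog, ∃ (p : Prog) (C : ℕ), ∀ (B P : ℕ) (r : Prog) (π : Par) (sgn : ℕ) (x₁ x₂ : ℝ)
    (X : List Bool), π.Ok q bb P → π.Big C B P → sgn ≤ 1 → π.Mul1 B P r mul x₁ →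
    π.Mul2 B P r mul x₂ → X.length = π.w * (π.S * (2 * π.n) * π.Bt) →
    ∃ Z : List Bool, Z.length = π.w * (π.S * (2 * π.n) * π.Bt) ∧
      Top B P r p (sgn :: π.args) X Z (x₁ + π.np * x₂ + C * π.N0 * π.ov P) ∧
      ∀ bt < π.Bt, ∀ (a : (ℕ → ℕ) → RA π.n) (ε : ℝ), 1 ≤ ε → 2 * (2 ^ π.g * ε) ≤ 2 ^ π.p →
        (∀ x ∈ box π.s π.d, Apx π.w (π.S * (2 * π.n) * π.Bt) π.n
          (sad π.n π.Bt (mr π.s 0 π.d x) bt) π.p ε X (a x)) →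
        ∀ x ∈ box π.s π.d, Apx π.w (π.S * (2 * π.n) * π.Bt) π.n
          (sad π.n π.Bt (mr π.s 0 π.d x) bt) π.p (2 ^ π.g * ε) Z
          (dft (if sgn = 0 then 1 else -1) π.s π.d a x)

theorem MulAt.nonneg {B P : ℕ} {r mul : Prog} {m M : ℕ} {x : ℝ} (h : MulAt B P r mul m M x) :
    0 ≤ x :=
  let ⟨_, _, h, _⟩ := h (List.replicate (m * M) false) (List.replicate (m * M) false)
    List.length_replicate List.length_replicate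
  h.nonneg

theorem Par.Ok.err_le {π : Par} {q bb P : ℕ} (h : π.Ok q bb P) :
    ((2 : ℝ) ^ (2 * π.α ^ 2) * (2 ^ 10 * π.p)) ^ π.d *
      (2 ^ (π.k * π.d + π.e + 20) * (32 * π.p) ^ π.d) ≤ 2 ^ π.g := by
  have h1 : (2 : ℝ) ^ 20 * π.p ^ 2 ≤ 2 ^ (π.α ^ 2) := by exact_mod_cast h.hα2
  have h2 : (2 : ℝ) ^ (2 * π.α ^ 2) * (2 ^ 10 * π.p) * (32 * π.p) ≤ 2 ^ (3 * π.α ^ 2) := by
    calc (2 : ℝ) ^ (2 * π.α ^ 2) * (2 ^ 10 * π.p) * (32 * π.p)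
        = (2 : ℝ) ^ (2 * π.α ^ 2) * (2 ^ 15 * π.p ^ 2) := by ring
      _ ≤ (2 : ℝ) ^ (2 * π.α ^ 2) * (2 ^ 20 * π.p ^ 2) := by gcongr <;> norm_num
      _ ≤ (2 : ℝ) ^ (2 * π.α ^ 2) * 2 ^ (π.α ^ 2) := by gcongr
      _ = _ := by rw [← pow_add]; congr 1; ring
  calc _ = ((2 : ℝ) ^ (2 * π.α ^ 2) * (2 ^ 10 * π.p) * (32 * π.p)) ^ π.d *
        2 ^ (π.k * π.d + π.e + 20) := by rw [mul_pow _ (32 * (π.p : ℝ))]; ring
    _ ≤ (2 ^ (3 * π.α ^ 2)) ^ π.d * 2 ^ (π.k * π.d + π.e + 20) := by gcongr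
    _ = _ := by rw [← pow_mul, ← pow_add, Par.g]; congr 1; ring

theorem dft_ex {q bb : ℕ} (hB : BlueStmt q bb) : DftStmt q bb := by
  intro mul
  obtain ⟨p₁, C₁, H₁⟩ := stS_ex mul
  obtain ⟨p₂, C₂, H₂⟩ := hB mul
  obtain ⟨p₃, C₃, H₃⟩ := stN_ex mul
  refine ⟨.call (fwd 1 20) p₁ ;; .call (fwd 0 21) p₂ ;; .call (fwd 1 20) p₃, C₁ + C₂ + C₃ + 5,
    fun B P r π sgn x₁ x₂ X ok big hs m1 m2 hX => ?_⟩
  obtain ⟨Z₁, l₁, t₁, s₁⟩ := H₁ q bb B P r π x₂ X ok (big.mono (by omega)) m2 hX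
  obtain ⟨Z₂, l₂, t₂, s₂⟩ := H₂ B P r π sgn x₁ x₂ Z₁ ok (big.mono (by omega)) hs m1 m2 l₁
  obtain ⟨Z₃, l₃, t₃, s₃⟩ := H₃ q bb B P r π x₂ Z₂ ok (big.mono (by omega)) m2 l₂
  have e1 : (fwd 1 20).map (fun e => e.ev B P (sgn :: π.args)) = π.args :=
    ev_fwd' _ rfl
  have e0 : (fwd 0 21).map (fun e => e.ev B P (sgn :: π.args)) = sgn :: π.args :=
    ev_fwd' _ rfl
  have o1 : ∀ v ∈ π.args, Ok B (sgn :: π.args) v := fun v hv => Or.inr (List.mem_cons_of_mem _ hv)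
  refine ⟨Z₃, l₃, (((Go.call e1 o1 t₁).seq ((Go.call e0 (fun v hv => Or.inr hv) t₂).seq
    (Go.call e1 o1 t₃))).mono ?_).top, fun bt hbt a ε hε hg ha => ?_⟩
  · have hx : 0 ≤ x₂ := (m2 _ le_rfl ok.S_le).nonneg
    have hP1 : (1 : ℝ) ≤ P := by exact_mod_cast ok.hP
    have hPN : (P : ℝ) ≤ π.N0 := by exact_mod_cast ok.P_le_N0
    have h1 := π.one_le_tr P
    have h2 := π.tr_le_ovG P
    have h3 := π.ovG_le_ov P
    have h4 : (π.np : ℝ) ≤ π.ov P := by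
      unfold Par.ov
      have : (0 : ℝ) ≤ (π.d + 1) * π.tr P := by positivity
      linarith
    have h5 : (π.np : ℝ) = π.d * (2 * π.β + 1) + π.d * (2 * π.d ^ 5) * (2 * π.d ^ 2 + 1) +
        π.d + 10 := by unfold Par.np; push_cast; ring
    have a1 : (C₁ : ℝ) * π.N0 * π.np ≤ C₁ * π.N0 * π.ov P := by gcongr
    have a2 : (C₂ : ℝ) * π.N0 * π.ovG P ≤ C₂ * π.N0 * π.ov P := by gcongr
    have a3 : (C₃ : ℝ) * π.N0 * π.np ≤ C₃ * π.N0 * π.ov P := by gcongr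
    have a4 : (π.N0 : ℝ) ≤ π.N0 * π.ov P := le_mul_of_one_le_right (by positivity) (by linarith)
    push_cast
    rw [h5] at *
    nlinarith
  · have hd := ok.eight_le_d
    choose! Sk Ek g1 g2 g3 g4 g5 g6 using fun i (hi : i < π.d) =>
      gauss π.d π.α (π.s i) π.t (by omega) ok.hα1 (ok.odd_s i) (ok.hs1 i hi) (ok.hs2 i hi)
        (ok.hs3 i hi)
    have hp : (1 : ℝ) ≤ π.p := by have := ok.le_p; exact_mod_cast (by omega : 1 ≤ π.p)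
    have f1 : (1 : ℝ) ≤ (32 * π.p) ^ π.d := one_le_pow₀ (by linarith)
    have f2 : (1 : ℝ) ≤ 2 ^ (π.k * π.d + π.e + 20) := one_le_pow₀ (by norm_num)
    have f3 : (1 : ℝ) ≤ ((2 : ℝ) ^ (2 * π.α ^ 2) * (2 ^ 10 * π.p)) ^ π.d :=
      one_le_pow₀ (one_le_mul_of_one_le_of_one_le (one_le_pow₀ (by norm_num)) (by linarith))
    have hE := ok.err_le
    generalize ((2 : ℝ) ^ (2 * π.α ^ 2) * (2 ^ 10 * π.p)) ^ π.d = F₃ at *
    generalize (2 : ℝ) ^ (π.k * π.d + π.e + 20) = F₂ at *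
    generalize ((32 : ℝ) * π.p) ^ π.d = F₁ at *
    have b3 : F₃ * (F₂ * (F₁ * ε)) ≤ 2 ^ π.g * ε := by
      have := mul_le_mul_of_nonneg_right hE (by linarith : 0 ≤ ε)
      linarith
    have c1 : 1 ≤ F₁ * ε := one_le_mul_of_one_le_of_one_le f1 hε
    have c2 : 1 ≤ F₂ * (F₁ * ε) := one_le_mul_of_one_le_of_one_le f2 c1
    have b2 : F₂ * (F₁ * ε) ≤ F₃ * (F₂ * (F₁ * ε)) := le_mul_of_one_le_left (by linarith) f3
    have b1 : F₁ * ε ≤ F₂ * (F₁ * ε) := le_mul_of_one_le_left (by linarith) f2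
    have r₁ := s₁ Sk g1 bt hbt a ε hε (by linarith) ha
    have r₂ := s₂ bt hbt _ _ c1 (by linarith) r₁
    intro x hx
    refine (s₃ Ek (fun i k' j => ∑ k ∈ Finset.range π.t,
        ee (if sgn = 0 then 1 else -1) π.t (k' * k) * (Sk i k j : ℂ))
      (fun i μ j => ee (if sgn = 0 then 1 else -1) (π.s i) (μ * j)) g2 g3
      (fun i hi μ hμ j hj => g6 i hi _ (by split_ifs <;> simp) μ hμ j hj) bt hbt a _ c2
      (by linarith) (fun y hy => ?_) x hx).mono b3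
    have := r₂ y hy
    rwa [dft, tens_tens] at this

end Crest.Agent.IM
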