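import Mathlib

/-! Fixed-point approximations of `π`, `exp`, `cos`, `sin` on natural numbers. -/

set_option autoImplicit false
open Finset

namespace Crest.Agent.IM.E

theorem abs_div_le (a b : ℕ) (hb : 0 < b) : |((a / b : ℕ) : ℝ) - a / b| ≤ 1 := by
  have h1 : ((a / b : ℕ) : ℝ) ≤ a / b := Nat.cast_div_le
  have h2 : (a : ℝ) / b < (a / b : ℕ) + 1 := by
    rw [div_lt_iff₀ (by exact_mod_cast hb)]
    exact_mod_cast (by have := Nat.lt_div_mul_add (a := a) hb; nlinarith : a < (a / b + 1) * b)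
  rw [abs_le]; constructor <;> linarith

theorem signed_sum (N : ℕ) (sp sn t : ℕ → ℕ) (r : ℕ → ℝ) (e : ℝ) (hs : ∀ k, sp k + sn k ≤ 1)
    (h : ∀ k < N, |(t k : ℝ) - r k| ≤ e) :
    |((∑ k ∈ range N, sp k * t k : ℕ) : ℝ) - ((∑ k ∈ range N, sn k * t k : ℕ) : ℝ) -
      ∑ k ∈ range N, ((sp k : ℝ) - sn k) * r k| ≤ N * e := by
  push_cast
  rw [← sum_sub_distrib, ← sum_sub_distrib]
  refine (abs_sum_le_sum_abs _ _).trans ?_
  refine (sum_le_card_nsmul _ _ e fun k hk => ?_).trans (by simp)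
  have h1 := h k (mem_range.1 hk)
  have h2 : |(sp k : ℝ) - sn k| ≤ 1 := by
    have : (sp k : ℝ) + sn k ≤ 1 := by exact_mod_cast hs k
    have h3 : (0 : ℝ) ≤ sp k := Nat.cast_nonneg _
    have h4 : (0 : ℝ) ≤ sn k := Nat.cast_nonneg _
    rw [abs_le]; constructor <;> linarith
  rw [show (sp k : ℝ) * t k - sn k * t k - (sp k - sn k) * r k = (sp k - sn k) * (t k - r k) by
    ring, abs_mul]
  nlinarith [abs_nonneg ((sp k : ℝ) - sn k), abs_nonneg ((t k : ℝ) - r k)]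

theorem parity (k : ℕ) : ((1 - k % 2 : ℕ) : ℝ) - (k % 2 : ℕ) = (-1) ^ k := by
  rcases Nat.mod_two_eq_zero_or_one k with h | h
  · rw [Even.neg_one_pow (Nat.even_iff.2 h), h]; simp
  · rw [Odd.neg_one_pow (Nat.odd_iff.2 h), h]; simp

/-- terms of the arctangent series -/
def piT (q k : ℕ) : ℕ :=
  4 * 2 ^ q / (2 ^ (2 * k + 1) * (2 * k + 1)) + 4 * 2 ^ q / (3 ^ (2 * k + 1) * (2 * k + 1))

/-- approximation of `2 ^ q π` -/
def piA (q : ℕ) : ℕ :=
  ∑ k ∈ range q, (1 - k % 2) * piT q k - ∑ k ∈ range q, k % 2 * piT q k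

theorem piT_le (q k : ℕ) : piT q k ≤ 2 ^ (q + 3) := by
  have h1 := Nat.div_le_self (4 * 2 ^ q) (2 ^ (2 * k + 1) * (2 * k + 1))
  have h2 := Nat.div_le_self (4 * 2 ^ q) (3 ^ (2 * k + 1) * (2 * k + 1))
  rw [piT, pow_add 2 q 3]; omega

theorem piA_err (q : ℕ) : |(piA q : ℝ) - 2 ^ q * Real.pi| ≤ 2 * q + 6 := by
  set r : ℕ → ℝ := fun k => 4 * 2 ^ q / (2 ^ (2 * k + 1) * (2 * k + 1)) +
    4 * 2 ^ q / (3 ^ (2 * k + 1) * (2 * k + 1)) with hr
  have h1 := signed_sum q (fun k => 1 - k % 2) (fun k => k % 2) (piT q) r 2 (fun k => by omega)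
    (fun k _ => by
      have a1 := abs_div_le (4 * 2 ^ q) (2 ^ (2 * k + 1) * (2 * k + 1)) (by positivity)
      have a2 := abs_div_le (4 * 2 ^ q) (3 ^ (2 * k + 1) * (2 * k + 1)) (by positivity)
      rw [piT, Nat.cast_add, hr]
      push_cast at a1 a2 ⊢
      rw [abs_le] at *
      constructor <;> linarith)
  simp only [parity] at h1
  have h2 : HasSum (fun k => (-1 : ℝ) ^ k * r k) (2 ^ q * Real.pi) := by
    have := ((Real.hasSum_arctan (x := 2⁻¹) (by norm_num)).add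
      (Real.hasSum_arctan (x := 3⁻¹) (by norm_num))).mul_left (4 * 2 ^ q)
    rw [Real.arctan_inv_2_add_arctan_inv_3] at this
    rw [show (2 : ℝ) ^ q * Real.pi = 4 * 2 ^ q * (Real.pi / 4) by ring]
    refine this.congr_fun fun k => ?_
    simp only [hr, inv_pow]
    push_cast
    field_simp
  have h3 := norm_sub_le_of_geometric_bound_of_hasSum (C := 4 * 2 ^ q) (r := 1 / 4) (by norm_num)
    (fun k => by
      have e : (4 * 2 ^ q * (1 / 4) ^ k : ℝ) = 4 * 2 ^ q / 2 ^ (2 * k + 1) +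
          4 * 2 ^ q / 2 ^ (2 * k + 1) := by
        rw [pow_succ, pow_mul, one_div, inv_pow]; field_simp; norm_num; ring
      have hk : (1 : ℝ) ≤ 2 * k + 1 := by have := Nat.cast_nonneg (α := ℝ) k; linarith
      rw [norm_mul, norm_pow, norm_neg, norm_one, one_pow, one_mul,
        Real.norm_of_nonneg (by positivity), e]
      refine add_le_add ?_ ?_
      · gcongr; exact le_mul_of_one_le_right (by positivity) hk
      · gcongr
        exact le_trans (pow_le_pow_left₀ (by norm_num) (by norm_num) _)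
          (le_mul_of_one_le_right (by positivity) hk)) h2 q
  have h4 : (4 * 2 ^ q * (1 / 4) ^ q / (1 - 1 / 4) : ℝ) ≤ 6 := by
    rw [mul_assoc, ← mul_pow]
    have : (2 * (1 / 4) : ℝ) ^ q ≤ 1 := pow_le_one₀ (by norm_num) (by norm_num)
    rw [div_le_iff₀ (by norm_num)]
    linarith
  rw [Real.norm_eq_abs] at h3
  have hp : (0 : ℝ) ≤ 2 ^ q * Real.pi := by positivity
  rw [piA]
  generalize (∑ k ∈ range q, (1 - k % 2) * piT q k) = a at *
  generalize (∑ k ∈ range q, k % 2 * piT q k) = b at *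
  rw [abs_le] at *
  rcases le_total b a with h | h
  · rw [Nat.cast_sub h]; constructor <;> linarith
  · have : (a : ℝ) ≤ b := by exact_mod_cast h
    rw [Nat.sub_eq_zero_of_le h]; constructor <;> push_cast <;> linarith

theorem le_two_pow {p c k : ℕ} (hp : 1 ≤ p) (hc : c ≤ 2 ^ k) : c * p ≤ 2 ^ ((k + 1) * p) := by
  have h1 : p ≤ 2 ^ p := Nat.lt_two_pow_self.le
  have h2 : 2 ^ k ≤ 2 ^ (k * p) := Nat.pow_le_pow_right (by norm_num) (by nlinarith)
  rw [add_mul, one_mul, pow_add]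
  exact Nat.mul_le_mul (hc.trans h2) h1

theorem piA_err' {p : ℕ} (hp : 1 ≤ p) :
    |(piA (150 * p) : ℝ) / 2 ^ (150 * p) - Real.pi| ≤ 1 / 2 ^ (140 * p) := by
  have h1 := piA_err (150 * p)
  have h2 : ((306 * p : ℕ) : ℝ) ≤ (2 ^ ((9 + 1) * p) : ℕ) := by
    exact_mod_cast le_two_pow hp (by norm_num)
  have h3 : (1 : ℝ) ≤ p := by exact_mod_cast hp
  push_cast at h1 h2
  rw [show (piA (150 * p) : ℝ) / 2 ^ (150 * p) - Real.pi =
    (piA (150 * p) - 2 ^ (150 * p) * Real.pi) / 2 ^ (150 * p) by field_simp, abs_div,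
    abs_of_pos (by positivity : (0 : ℝ) < 2 ^ (150 * p)),
    div_le_div_iff₀ (by positivity) (by positivity), one_mul,
    show 150 * p = 10 * p + 140 * p by ring, pow_add] at *
  gcongr
  linarith

theorem piA_le' {p : ℕ} (hp : 1 ≤ p) : (piA (150 * p) : ℝ) / 2 ^ (150 * p) ≤ 4 := by
  have h1 := (abs_le.1 (piA_err' hp)).2
  have h2 : (1 : ℝ) / 2 ^ (140 * p) ≤ 1 / 2 ^ 1 := by
    gcongr
    · norm_num
    · omega
  have := Real.pi_lt_d2
  linarith

theorem piA_le {p : ℕ} (hp : 1 ≤ p) : piA (150 * p) ≤ 4 * 2 ^ (150 * p) := by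
  have := piA_le' hp
  rw [div_le_iff₀ (by positivity)] at this
  exact_mod_cast this

theorem exp_le_two_pow (m : ℕ) : Real.exp m ≤ 2 ^ (2 * m) := by
  rw [← Real.exp_one_pow, pow_mul]
  have := Real.exp_one_lt_d9
  gcongr
  linarith

/-- Taylor polynomial at the approximate argument. -/
theorem taylor {p : ℕ} (hp : 1 ≤ p) {ζ : ℂ} (hζ : ‖ζ‖ ≤ 1) {a y : ℝ} (ha0 : 0 ≤ a) (ha4 : a ≤ 4)
    (ha : |a - Real.pi| ≤ 1 / 2 ^ (140 * p)) (hy0 : 0 ≤ y) (hy : y ≤ 16 * p) :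
    2 ^ p * ‖∑ k ∈ range (261 * p), ζ ^ k * (((a * y) ^ k / k.factorial : ℝ) : ℂ) -
      Complex.exp (ζ * (Real.pi * y : ℝ))‖ ≤ 3 / 8 := by
  have hp' : (1 : ℝ) ≤ p := by exact_mod_cast hp
  have hx : ‖ζ * (a * y : ℝ)‖ ≤ 64 * p := by
    rw [norm_mul, Complex.norm_real, Real.norm_of_nonneg (by positivity)]
    have : a * y ≤ 4 * (16 * p) := by gcongr
    have : 0 ≤ a * y := by positivity
    nlinarith
  have h1 := Complex.exp_bound' (x := ζ * (a * y : ℝ)) (n := 261 * p) (by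
    rw [div_le_iff₀ (by positivity), Nat.cast_succ, Nat.cast_mul, Nat.cast_ofNat]; linarith)
  have h2 : ‖ζ * (a * y : ℝ)‖ ^ (261 * p) / (261 * p).factorial ≤ 1 / 2 ^ (5 * p) := by
    have h3 := Real.pow_div_factorial_le_exp (128 * p) (by positivity) (261 * p)
    have h4 := exp_le_two_pow (128 * p)
    push_cast at h4
    calc _ ≤ (64 * p : ℝ) ^ (261 * p) / (261 * p).factorial := by gcongr
      _ = (128 * p : ℝ) ^ (261 * p) / (261 * p).factorial / 2 ^ (261 * p) := by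
        rw [show (128 * p : ℝ) = 64 * p * 2 by ring, mul_pow _ (2 : ℝ)]; field_simp
      _ ≤ 2 ^ (2 * (128 * p)) / 2 ^ (261 * p) := by gcongr; linarith
      _ = _ := by rw [show 261 * p = 2 * (128 * p) + 5 * p by ring, pow_add]; field_simp
  have h5 : ‖ζ * (a * y : ℝ) - ζ * (Real.pi * y : ℝ)‖ ≤ 16 * p / 2 ^ (140 * p) := by
    rw [← mul_sub, ← Complex.ofReal_sub, ← sub_mul, norm_mul, Complex.norm_real, norm_mul,
      Real.norm_eq_abs, Real.norm_of_nonneg hy0]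
    calc _ ≤ 1 * (1 / 2 ^ (140 * p) * (16 * p : ℝ)) := by gcongr
      _ = _ := by ring
  have h6 : ((128 * p : ℕ) : ℝ) ≤ (2 ^ ((7 + 1) * p) : ℕ) := by
    exact_mod_cast le_two_pow hp (by norm_num)
  push_cast at h6
  have h7 : (2 : ℝ) ^ (8 * p) ≤ 2 ^ (11 * p) := by gcongr <;> norm_num
  have h8 : (16 * p / 2 ^ (140 * p) : ℝ) ≤ 1 := by
    rw [div_le_one (by positivity)]
    have : (2 : ℝ) ^ (8 * p) ≤ 2 ^ (140 * p) := by gcongr <;> norm_num
    linarith
  have h9 : ‖Complex.exp (ζ * (a * y : ℝ)) - Complex.exp (ζ * (Real.pi * y : ℝ))‖ ≤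
      2 ^ (128 * p) * (2 * (16 * p / 2 ^ (140 * p))) := by
    rw [show Complex.exp (ζ * (a * y : ℝ)) - Complex.exp (ζ * (Real.pi * y : ℝ)) =
      Complex.exp (ζ * (Real.pi * y : ℝ)) *
        (Complex.exp (ζ * (a * y : ℝ) - ζ * (Real.pi * y : ℝ)) - 1) by
      rw [mul_sub, ← Complex.exp_add]; simp, norm_mul]
    refine mul_le_mul ?_ ((Complex.norm_exp_sub_one_le (h5.trans h8)).trans (by linarith))
      (norm_nonneg _) (by positivity)
    refine (Complex.norm_exp_le_exp_norm _).trans ?_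
    have h4 := exp_le_two_pow (64 * p)
    rw [show 2 * (64 * p) = 128 * p by ring] at h4
    refine le_trans (Real.exp_le_exp.2 ?_) h4
    rw [norm_mul, Complex.norm_real, Real.norm_of_nonneg (by positivity)]
    have : Real.pi * y ≤ 4 * (16 * p) := by gcongr; exact Real.pi_le_four
    have : 0 ≤ Real.pi * y := by positivity
    push_cast
    nlinarith
  have e : ∑ k ∈ range (261 * p), ζ ^ k * (((a * y) ^ k / k.factorial : ℝ) : ℂ) =
      ∑ k ∈ range (261 * p), (ζ * (a * y : ℝ)) ^ k / k.factorial :=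
    sum_congr rfl fun k _ => by push_cast; ring
  rw [e]
  have h10 := norm_sub_le_norm_sub_add_norm_sub
    (∑ k ∈ range (261 * p), (ζ * (a * y : ℝ)) ^ k / (k.factorial : ℂ))
    (Complex.exp (ζ * (a * y : ℝ))) (Complex.exp (ζ * (Real.pi * y : ℝ)))
  rw [norm_sub_rev] at h1
  have h11 : (2 : ℝ) ^ p * (1 / 2 ^ (5 * p) * 2) ≤ 1 / 8 := by
    have : (2 : ℝ) ^ 4 ≤ 2 ^ (4 * p) := by gcongr <;> [norm_num; omega]
    rw [show 5 * p = p + 4 * p by ring, pow_add]
    field_simp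
    linarith
  have h12 : (2 : ℝ) ^ p * (2 ^ (128 * p) * (2 * (16 * p / 2 ^ (140 * p)))) ≤ 1 / 4 := by
    rw [show 140 * p = p + (128 * p + 11 * p) by ring, pow_add, pow_add]
    field_simp
    linarith
  calc _ ≤ (2 : ℝ) ^ p * (1 / 2 ^ (5 * p) * 2 + 2 ^ (128 * p) * (2 * (16 * p / 2 ^ (140 * p)))) := by
        gcongr; linarith
    _ ≤ _ := by linarith

/-- scaled Taylor terms -/
def tau (p a n D U W k : ℕ) : ℕ :=
  2 ^ p * (2088 * p) * U * (a * n) ^ k / (W * (2 ^ (150 * p) * D) ^ k * k.factorial)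

/-- rounding of a signed number -/
def rnd (w p pos neg : ℕ) : ℕ := (2 ^ w * neg * (2088 * p) + pos + 1044 * p - neg) / (2088 * p)

theorem rnd_spec {p : ℕ} (hp : 1 ≤ p) (w pos neg : ℕ) : ∃ c : ℤ,
    (rnd w p pos neg : ℤ) ≡ c [ZMOD 2 ^ w] ∧ |(c : ℝ) - (pos - neg) / (2088 * p)| ≤ 1 / 2 := by
  have h1 : neg ≤ 2 ^ w * neg * (2088 * p) := by
    have : 1 ≤ 2 ^ w := Nat.one_le_two_pow
    calc neg = 1 * neg * 1 := by ring
      _ ≤ _ := by gcongr; omega
  refine ⟨rnd w p pos neg - 2 ^ w * neg, Int.modEq_iff_dvd.2 ⟨-neg, by ring⟩, ?_⟩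
  have hp' : (0 : ℝ) < 2088 * p := by positivity
  have h2 := Nat.div_add_mod (2 ^ w * neg * (2088 * p) + pos + 1044 * p - neg) (2088 * p)
  have h3 := Nat.mod_lt (2 ^ w * neg * (2088 * p) + pos + 1044 * p - neg)
    (show 0 < 2088 * p by omega)
  rw [rnd]
  generalize (2 ^ w * neg * (2088 * p) + pos + 1044 * p - neg) / (2088 * p) = x at *
  generalize (2 ^ w * neg * (2088 * p) + pos + 1044 * p - neg) % (2088 * p) = y at *
  have h4 : 2088 * p * x + y + neg = 2 ^ w * neg * (2088 * p) + pos + 1044 * p := by omega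
  have h5 : (2088 * p * x + y + neg : ℝ) = 2 ^ w * neg * (2088 * p) + pos + 1044 * p := by
    exact_mod_cast h4
  have h6 : (y : ℝ) < 2088 * p := by exact_mod_cast h3
  have h7 : (0 : ℝ) ≤ y := Nat.cast_nonneg _
  push_cast
  rw [show (x : ℝ) - 2 ^ w * neg - (pos - neg) / (2088 * p) = 1 / 2 - y / (2088 * p) by
    field_simp; linarith, abs_le]
  have h8 : (y : ℝ) / (2088 * p) ≤ 1 := by rw [div_le_one hp']; exact h6.le
  have h9 : 0 ≤ (y : ℝ) / (2088 * p) := by positivity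
  constructor <;> linarith

theorem val_spec {p a n D U W : ℕ} (w : ℕ) (hp : 1 ≤ p) (hD : 1 ≤ D) (hW : 1 ≤ W) (hU : U ≤ W)
    (sp sn : ℕ → ℕ) (hs : ∀ k, sp k + sn k ≤ 1) {g : ℝ}
    (hg : 2 ^ p * |∑ k ∈ range (261 * p), ((sp k : ℝ) - sn k) *
      ((a / 2 ^ (150 * p) * (n / D)) ^ k / k.factorial) - g| ≤ 3 / 8) :
    ∃ c : ℤ, (rnd w p (∑ k ∈ range (261 * p), sp k * tau p a n D U W k)
      (∑ k ∈ range (261 * p), sn k * tau p a n D U W k) : ℤ) ≡ c [ZMOD 2 ^ w] ∧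
      |(c : ℝ) - 2 ^ p * (U / W * g)| ≤ 1 := by
  obtain ⟨c, h1, h2⟩ := rnd_spec hp w (∑ k ∈ range (261 * p), sp k * tau p a n D U W k)
    (∑ k ∈ range (261 * p), sn k * tau p a n D U W k)
  refine ⟨c, h1, ?_⟩
  have hp' : (0 : ℝ) < p := by positivity
  have hW' : (0 : ℝ) < W := by positivity
  have h3 := signed_sum (261 * p) sp sn (tau p a n D U W)
    (fun k => 2088 * p * (2 ^ p * (U / W)) * ((a / 2 ^ (150 * p) * (n / D)) ^ k / k.factorial)) 1
    hs (fun k _ => by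
      have := abs_div_le (2 ^ p * (2088 * p) * U * (a * n) ^ k)
        (W * (2 ^ (150 * p) * D) ^ k * k.factorial) (by positivity)
      refine le_of_eq_of_le ?_ this
      congr 2
      push_cast
      simp only [mul_pow, div_pow]
      field_simp)
  simp only [mul_left_comm ((sp _ : ℝ) - sn _), ← mul_sum] at h3
  generalize (∑ k ∈ range (261 * p), ((sp k : ℝ) - sn k) *
      ((a / 2 ^ (150 * p) * (n / D)) ^ k / k.factorial)) = S at *
  generalize ((∑ k ∈ range (261 * p), sp k * tau p a n D U W k : ℕ) : ℝ) -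
    ((∑ k ∈ range (261 * p), sn k * tau p a n D U W k : ℕ) : ℝ) = X at *
  have h4 : |X / (2088 * p) - 2 ^ p * (U / W) * S| ≤ 1 / 8 := by
    rw [show X / (2088 * p) - 2 ^ p * (U / W) * S =
      (X - 2088 * p * (2 ^ p * (U / W)) * S) / (2088 * p) by field_simp, abs_div,
      abs_of_pos (by positivity : (0 : ℝ) < 2088 * p), div_le_iff₀ (by positivity)]
    push_cast at h3
    linarith
  have h5 : |2 ^ p * (U / W) * S - 2 ^ p * (U / W * g)| ≤ 3 / 8 := by
    rw [show 2 ^ p * (U / W) * S - 2 ^ p * (U / W * g) = U / W * (2 ^ p * (S - g)) by ring,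
      abs_mul, abs_mul, abs_of_nonneg (by positivity : (0 : ℝ) ≤ U / W),
      abs_of_pos (by positivity : (0 : ℝ) < 2 ^ p)]
    have : (U : ℝ) / W ≤ 1 := by rw [div_le_one hW']; exact_mod_cast hU
    have : (0 : ℝ) ≤ U / W := by positivity
    nlinarith
  rw [abs_le] at *
  constructor <;> linarith

end Crest.Agent.IM.E
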