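import Crest.Agent.IM.Base
import Crest.Agent.IM.ExpA

/-! TASK IM-E. Fixed-point values of `exp`, `cos`, `sin` as control expressions.
Plan: an expression for a rational approximation `a / 2 ^ p'` of `π` (Machin:
`Real.arctan_inv_2_add_arctan_inv_3` with the arctan series, or any other method), then the
Taylor polynomial with `T = O(p)` terms evaluated exactly (common denominator; positive and
negative terms summed separately; `Ex.fold`/`Ex.sum`/`Ex.pow`; `Complex.exp_bound'`), then one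
division. A negative result `-c` is returned as `2 ^ w * K - c`. All intermediate numbers have
`O(p ^ 2)` bits. -/

set_option autoImplicit false

namespace Crest.Agent.IM

namespace E
open Finset Ex

/-- `piT`, in the environment `k :: sg :: n :: D :: u :: v :: p :: …` -/
def piTE : Ex :=
  4 * pow 2 (150 * var 6) / (pow 2 (2 * var 0 + 1) * (2 * var 0 + 1)) +
    4 * pow 2 (150 * var 6) / (pow 3 (2 * var 0 + 1) * (2 * var 0 + 1))

/-- `piA (150 p)` -/
def piE : Ex :=
  sum (150 * var 5) ((1 - var 0 % 2) * piTE) - sum (150 * var 5) (var 0 % 2 * piTE)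

/-- `tau`, in the environment `k :: a :: sg :: n :: D :: u :: v :: p :: …` -/
def tauE (U W : Ex) : Ex :=
  pow 2 (var 7) * (2088 * var 7) * U * pow (var 1 * var 3) (var 0) /
    (W * pow (pow 2 (150 * var 7) * var 4) (var 0) * prod (var 0) (var 0 + 1))

/-- the rounded signed sum -/
def valE (sp sn U W : Ex) : Ex :=
  cb piE 0 ((pow 2 (var 7) * sum (261 * var 6) (sn * tauE U W) * (2088 * var 6) +
    sum (261 * var 6) (sp * tauE U W) + 1044 * var 6 - sum (261 * var 6) (sn * tauE U W)) /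
      (2088 * var 6))

variable {B P sg n D u v p w : ℕ} {rest : List ℕ}

theorem le_B (hB : 2 ^ (42000 * (p + 1) ^ 2) ≤ B) {m : ℕ} (hm : m ≤ 42000 * (p + 1) ^ 2) :
    2 ^ m ≤ B := (Nat.pow_le_pow_right (by norm_num) hm).trans hB

theorem ev_pow_le {env : List ℕ} {a m : Ex} {z : ℕ} (hz : 1 ≤ z) (ha : a.ev B P env ≤ 2 ^ z)
    (hb : 2 ^ (z * m.ev B P env) ≤ B) : (pow a m).ev B P env = a.ev B P env ^ m.ev B P env := by
  refine ev_fold (fun M => a.ev B P env ^ M) rfl (le_size_of_two_pow_le (le_trans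
    (Nat.pow_le_pow_right (by norm_num) (Nat.le_mul_of_pos_left _ hz)) hb)) (by simp)
    (fun i _ => by simp [pow_succ]) (fun i hi => le_trans ?_ hb)
  calc _ ≤ (2 ^ z) ^ i := Nat.pow_le_pow_left ha _
    _ ≤ _ := by rw [← pow_mul]; exact Nat.pow_le_pow_right (by norm_num) (by gcongr)

theorem ev_sum_le {env : List ℕ} {m f : Ex} {N z : ℕ} (t : ℕ → ℕ) (hm : m.ev B P env = N)
    (hf : ∀ i < N, f.ev B P (i :: env) = t i) (ht : ∀ i < N, t i ≤ 2 ^ z)
    (hb : 2 ^ (N + z) ≤ B) : (sum m f).ev B P env = ∑ i ∈ range N, t i := by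
  have e : ∑ i ∈ range N, f.ev B P (i :: env) = ∑ i ∈ range N, t i :=
    sum_congr rfl fun i hi => hf i (mem_range.1 hi)
  rw [ev_sum, hm, e]
  · rw [hm]
    exact le_size_of_two_pow_le ((Nat.pow_le_pow_right (by norm_num) (by omega)).trans hb)
  · rw [hm, e]
    refine (sum_le_card_nsmul _ _ (2 ^ z) fun i hi => ht i (mem_range.1 hi)).trans
      (le_trans ?_ hb)
    rw [card_range, smul_eq_mul, pow_add]
    exact Nat.mul_le_mul_right _ Nat.lt_two_pow_self.le

theorem ev_piE (hB : 2 ^ (42000 * (p + 1) ^ 2) ≤ B) :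
    piE.ev B P (sg :: n :: D :: u :: v :: p :: w :: rest) = piA (150 * p) := by
  have ht : ∀ k < 150 * p,
      piTE.ev B P (k :: sg :: n :: D :: u :: v :: p :: w :: rest) = piT (150 * p) k := by
    intro k hk
    simp only [piTE, ev_add, ev_div, ev_mul]
    rw [ev_pow_le (z := 1) le_rfl (by simp) (by simpa using le_B hB (by nlinarith)),
      ev_pow_le (z := 1) le_rfl (by simp) (by simpa using le_B hB (by nlinarith)),
      ev_pow_le (z := 2) (by norm_num) (by simp) (by simpa using le_B hB (by nlinarith))]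
    simp [piT]
  have hs : ∀ k, piT (150 * p) k ≤ 2 ^ (150 * p + 3) := piT_le _
  rw [piE, ev_sub, piA,
    ev_sum_le (N := 150 * p) (z := 150 * p + 3) (fun k => (1 - k % 2) * piT (150 * p) k) (by simp)
      (fun k hk => by simp [ht k hk])
      (fun k _ => le_trans (mul_le_of_le_one_left' (by omega)) (hs k)) (le_B hB (by nlinarith)),
    ev_sum_le (N := 150 * p) (z := 150 * p + 3) (fun k => k % 2 * piT (150 * p) k) (by simp)
      (fun k hk => by simp [ht k hk])
      (fun k _ => le_trans (mul_le_of_le_one_left' (by omega)) (hs k)) (le_B hB (by nlinarith))]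

theorem ev_valE (hp : 1 ≤ p) (hD : D ≤ 2 ^ p) (hn : n ≤ 16 * D * p) (hw : w ≤ 8 * p)
    (hB : 2 ^ (42000 * (p + 1) ^ 2) ≤ B) {sp sn U W : Ex} (sp' sn' : ℕ → ℕ) {U' W' : ℕ}
    (hs : ∀ k, sp' k + sn' k ≤ 1) (hU' : U' ≤ 2 ^ p)
    (h : ∀ k a, sp.ev B P (k :: a :: sg :: n :: D :: u :: v :: p :: w :: rest) = sp' k ∧
      sn.ev B P (k :: a :: sg :: n :: D :: u :: v :: p :: w :: rest) = sn' k ∧
      U.ev B P (k :: a :: sg :: n :: D :: u :: v :: p :: w :: rest) = U' ∧
      W.ev B P (k :: a :: sg :: n :: D :: u :: v :: p :: w :: rest) = W') :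
    (valE sp sn U W).ev B P (sg :: n :: D :: u :: v :: p :: w :: rest) =
      rnd w p (∑ k ∈ range (261 * p), sp' k * tau p (piA (150 * p)) n D U' W' k)
        (∑ k ∈ range (261 * p), sn' k * tau p (piA (150 * p)) n D U' W' k) := by
  have ha := piA_le hp
  rw [valE, ev_cb, ev_piE hB, List.drop_zero]
  generalize piA (150 * p) = a at *
  have h1 : a * n ≤ 2 ^ (158 * p) := by
    have h2 := le_two_pow hp (c := 64) (k := 6) le_rfl
    calc a * n ≤ 4 * 2 ^ (150 * p) * (16 * 2 ^ p * p) := by gcongr; exact hn.trans (by gcongr)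
      _ = 64 * p * (2 ^ (150 * p) * 2 ^ p) := by ring
      _ ≤ 2 ^ ((6 + 1) * p) * (2 ^ (150 * p) * 2 ^ p) := by gcongr
      _ = _ := by rw [← pow_add, ← pow_add]; congr 1; ring
  have h2 : 2 ^ (150 * p) * D ≤ 2 ^ (151 * p) := by
    rw [show 151 * p = 150 * p + p by ring, pow_add]; gcongr
  have ht : ∀ k < 261 * p,
      (tauE U W).ev B P (k :: a :: sg :: n :: D :: u :: v :: p :: w :: rest) =
        tau p a n D U' W' k := by
    intro k hk
    have e1 : (pow 2 (150 * var 7)).ev B P (k :: a :: sg :: n :: D :: u :: v :: p :: w :: rest) =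
        2 ^ (150 * p) := by
      rw [ev_pow_le (z := 1) le_rfl (by simp) (by simpa using le_B hB (by nlinarith))]; simp
    have e2 : k.factorial ≤ B := by
      refine le_trans (Nat.factorial_le_pow k) (le_trans ?_ (le_B hB (m := (9 + 1) * p * k)
        (by nlinarith)))
      rw [pow_mul]
      exact Nat.pow_le_pow_left (hk.le.trans (le_two_pow hp (by norm_num))) _
    simp only [tauE, ev_div, ev_mul, (h k a).2.2.1, (h k a).2.2.2]
    rw [ev_pow_le (z := 1) le_rfl (by simp) (by simpa using le_B hB (by nlinarith)),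
      ev_pow_le (z := 158 * p) (by omega) (by simpa using h1)
        (by simpa using le_B hB (by nlinarith)),
      ev_pow_le (z := 151 * p) (by omega) (by simpa [e1] using h2)
        (by simpa using le_B hB (by nlinarith)),
      ev_prod (by simpa using le_size_of_two_pow_le (le_B hB (by nlinarith))) (by simp)
        (by simpa [prod_range_add_one_eq_factorial] using e2)]
    simp [tau, e1, prod_range_add_one_eq_factorial]
  have hb : ∀ k < 261 * p, tau p a n D U' W' k ≤ 2 ^ (15 * p + 158 * p * (261 * p)) := by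
    intro k hk
    have h3 := le_two_pow hp (c := 2088) (k := 12) (by norm_num)
    calc _ ≤ 2 ^ p * (2088 * p) * U' * (a * n) ^ k := Nat.div_le_self _ _
      _ ≤ 2 ^ p * 2 ^ ((12 + 1) * p) * 2 ^ p * (2 ^ (158 * p)) ^ k := by gcongr
      _ ≤ _ := by
        rw [← pow_mul, ← pow_add, ← pow_add, ← pow_add]
        exact Nat.pow_le_pow_right (by norm_num) (by nlinarith)
  simp only [ev_div, ev_sub, ev_add, ev_mul]
  rw [ev_sum_le (N := 261 * p) (fun k => sn' k * tau p a n D U' W' k) (by simp)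
      (fun k hk => by rw [ev_mul, ht k hk, (h k a).2.1])
      (fun k hk => le_trans (mul_le_of_le_one_left' (by have := hs k; omega)) (hb k hk))
      (le_B hB (by nlinarith)),
    ev_sum_le (N := 261 * p) (fun k => sp' k * tau p a n D U' W' k) (by simp)
      (fun k hk => by rw [ev_mul, ht k hk, (h k a).1])
      (fun k hk => le_trans (mul_le_of_le_one_left' (by have := hs k; omega)) (hb k hk))
      (le_B hB (by nlinarith)),
    ev_pow_le (z := 1) le_rfl (by simp) (by simpa using le_B hB (by nlinarith))]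
  simp [rnd]

theorem I_pow_re (k : ℕ) : ((if k % 4 = 0 then 1 else 0 : ℕ) : ℝ) -
    ((if k % 4 = 2 then 1 else 0 : ℕ) : ℝ) = (Complex.I ^ k).re := by
  rw [Complex.I_pow_eq_pow_mod]
  have : k % 4 < 4 := Nat.mod_lt _ (by norm_num)
  generalize k % 4 = j at *
  interval_cases j <;> simp [pow_succ]

theorem I_pow_im (k : ℕ) : ((if k % 4 = 1 then 1 else 0 : ℕ) : ℝ) -
    ((if k % 4 = 3 then 1 else 0 : ℕ) : ℝ) = (Complex.I ^ k).im := by
  rw [Complex.I_pow_eq_pow_mod]
  have : k % 4 < 4 := Nat.mod_lt _ (by norm_num)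
  generalize k % 4 = j at *
  interval_cases j <;> simp [pow_succ]

end E

theorem exp_ex : ∃ (eE eC eS : Ex) (C : ℕ), ∀ (B P sg n D u v p w : ℕ) (rest : List ℕ),
    1 ≤ p → 1 ≤ D → D ≤ 2 ^ p → 1 ≤ v → v ≤ 2 ^ p → u ≤ v → n ≤ 16 * D * p → w ≤ 8 * p →
    2 ^ (C * (p + 1) ^ 2) ≤ B →
    (∃ c : ℤ, (eE.ev B P (sg :: n :: D :: u :: v :: p :: w :: rest) : ℤ) ≡ c [ZMOD 2 ^ w] ∧
      |(c : ℝ) - 2 ^ p * (u / v * Real.exp ((if sg = 0 then -1 else 1) * Real.pi * n / D))| ≤ 1) ∧
    (∃ c : ℤ, (eC.ev B P (sg :: n :: D :: u :: v :: p :: w :: rest) : ℤ) ≡ c [ZMOD 2 ^ w] ∧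
      |(c : ℝ) - 2 ^ p * Real.cos (Real.pi * n / D)| ≤ 1) ∧
    (∃ c : ℤ, (eS.ev B P (sg :: n :: D :: u :: v :: p :: w :: rest) : ℤ) ≡ c [ZMOD 2 ^ w] ∧
      |(c : ℝ) - 2 ^ p * Real.sin (Real.pi * n / D)| ≤ 1) := by
  refine ⟨E.valE (.ite (.var 2) 1 (1 - .var 0 % 2)) (.ite (.var 2) 0 (.var 0 % 2)) (.var 5) (.var 6),
    E.valE (.ifEq (.var 0 % 4) 0 1 0) (.ifEq (.var 0 % 4) 2 1 0) 1 1,
    E.valE (.ifEq (.var 0 % 4) 1 1 0) (.ifEq (.var 0 % 4) 3 1 0) 1 1, 42000,
    fun B P sg n D u v p w rest hp hD hD' hv hv' hu hn hw hB => ?_⟩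
  have hy : (n : ℝ) / D ≤ 16 * p := by
    rw [div_le_iff₀ (by positivity)]
    exact_mod_cast (by linarith : n ≤ 16 * p * D)
  have key := fun (ζ : ℂ) (hζ : ‖ζ‖ ≤ 1) => E.taylor hp hζ (by positivity) (E.piA_le' hp)
    (E.piA_err' hp) (by positivity) hy
  have h2 : (0 : ℝ) ≤ 2 ^ p := by positivity
  refine ⟨?_, ?_, ?_⟩
  · have hs : ∀ k, (if sg = 0 then 1 - k % 2 else 1) + (if sg = 0 then k % 2 else 0) ≤ 1 :=
      fun k => by split_ifs <;> omega
    rw [E.ev_valE (W' := v) hp hD' hn hw hB _ _ hs (hu.trans hv') (fun k a => by simp)]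
    refine E.val_spec w hp hD hv hu _ _ hs (le_trans (mul_le_mul_of_nonneg_left
      (le_of_eq_of_le ?_ (Complex.abs_re_le_norm _)) h2)
      (key ((if sg = 0 then -1 else 1 : ℝ) : ℂ) (by split_ifs <;> simp)))
    rw [Complex.sub_re, ← Complex.ofReal_mul, Complex.exp_ofReal_re, Complex.re_sum]
    congr 2
    · refine Finset.sum_congr rfl fun k _ => ?_
      rw [← Complex.ofReal_pow, ← Complex.ofReal_mul, Complex.ofReal_re]
      split_ifs
      · rw [E.parity]
      · simp
    · congr 1; ring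
  · have hs : ∀ k, (if k % 4 = 0 then 1 else 0) + (if k % 4 = 2 then 1 else 0) ≤ 1 :=
      fun k => by split_ifs <;> omega
    rw [E.ev_valE (W' := 1) hp hD' hn hw hB _ _ hs Nat.one_le_two_pow (fun k a => by simp)]
    simpa using E.val_spec (g := Real.cos (Real.pi * n / D)) w hp hD le_rfl le_rfl _ _ hs
      (le_trans (mul_le_mul_of_nonneg_left (le_of_eq_of_le (by
        rw [Complex.sub_re, mul_comm Complex.I, Complex.exp_ofReal_mul_I_re, Complex.re_sum,
          mul_div_assoc]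
        simp only [E.I_pow_re, Complex.re_mul_ofReal]) (Complex.abs_re_le_norm _)) h2)
      (key Complex.I (by simp)))
  · have hs : ∀ k, (if k % 4 = 1 then 1 else 0) + (if k % 4 = 3 then 1 else 0) ≤ 1 :=
      fun k => by split_ifs <;> omega
    rw [E.ev_valE (W' := 1) hp hD' hn hw hB _ _ hs Nat.one_le_two_pow (fun k a => by simp)]
    simpa using E.val_spec (g := Real.sin (Real.pi * n / D)) w hp hD le_rfl le_rfl _ _ hs
      (le_trans (mul_le_mul_of_nonneg_left (le_of_eq_of_le (by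
        rw [Complex.sub_im, mul_comm Complex.I, Complex.exp_ofReal_mul_I_im, Complex.im_sum,
          mul_div_assoc]
        simp only [E.I_pow_im, Complex.im_mul_ofReal]) (Complex.abs_im_le_norm _)) h2)
      (key Complex.I (by simp)))

end Crest.Agent.IM
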