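import Crest.Agent.IM.Ring

/-! TASK IM-F. The synthetic radix-2 transform on `(ℤ / 2 ^ k) ^ d` (pure algebra).
`X ^ 2 ^ k = -1`, so `ω = X ^ 2` has order `2 ^ k`. Plan: by `tens_tens`, `Gf n a` is `tens` of
the one-dimensional kernel `K n x y = [x ≡ y mod 2 ^ (k - n)] ω ^ (y * rev_n (x / 2 ^ (k - n)))`
(`rev_n` = reversal of `n` bits; only `K k x y = ω ^ (y * rev x)` matters, a character in `y`, so
`Gf k (cconv a b) = Gf k a * Gf k b` on the box); `∑ u, Mb ρ x u * Mf ρ u y = 2 [x = y]` for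
`x, y < 2 ^ k`, so `Gb k (Gf k c) = 2 ^ (k d) c` (peel matching layers; `tens_congr`). -/

set_option autoImplicit false
open Finset

namespace Crest.Agent.IM

/-- Hadamard kernel on bit `ρ`. -/
def Hk (ρ x y : ℕ) : ℤ :=
  if x / 2 ^ (ρ + 1) = y / 2 ^ (ρ + 1) ∧ x % 2 ^ ρ = y % 2 ^ ρ then
    (if x / 2 ^ ρ % 2 = 1 ∧ y / 2 ^ ρ % 2 = 1 then -1 else 1) else 0

/-- Twiddle exponent. -/
def twe (k ρ x : ℕ) : ℕ := x / 2 ^ ρ % 2 * (x % 2 ^ ρ * 2 ^ (k - ρ))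

namespace F

theorem bits {P h β l : ℕ} (hβ : β < 2) (hl : l < P) :
    (h * (P * 2) + β * P + l) / (P * 2) = h ∧ (h * (P * 2) + β * P + l) / P % 2 = β ∧
      (h * (P * 2) + β * P + l) % P = l := by
  have hP : 0 < P := by omega
  have e : h * (P * 2) + β * P + l = l + P * (2 * h + β) := by ring
  have h1 : (h * (P * 2) + β * P + l) / P = 2 * h + β := by
    rw [e, Nat.add_mul_div_left _ _ hP, Nat.div_eq_of_lt hl, zero_add]
  refine ⟨?_, ?_, ?_⟩
  · rw [← Nat.div_div_eq_div_mul, h1]; omega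
  · rw [h1]; omega
  · rw [e, Nat.add_mul_mod_self_left, Nat.mod_eq_of_lt hl]

theorem dec (P x : ℕ) : x = x / (P * 2) * (P * 2) + x / P % 2 * P + x % P := by
  have h1 := Nat.div_add_mod x P
  have h2 := Nat.div_add_mod (x / P) 2
  rw [Nat.div_div_eq_div_mul] at h2
  calc x = P * (x / P) + x % P := h1.symm
    _ = P * (2 * (x / (P * 2)) + x / P % 2) + x % P := by rw [h2]
    _ = _ := by ring

/-- `x` with bit `ρ` set to `β` -/
def st (ρ x β : ℕ) : ℕ := x / (2 ^ ρ * 2) * (2 ^ ρ * 2) + β * 2 ^ ρ + x % 2 ^ ρ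

theorem st_bits (ρ x : ℕ) {β : ℕ} (hβ : β < 2) : st ρ x β / (2 ^ ρ * 2) = x / (2 ^ ρ * 2) ∧
    st ρ x β / 2 ^ ρ % 2 = β ∧ st ρ x β % 2 ^ ρ = x % 2 ^ ρ :=
  bits hβ (Nat.mod_lt _ (by positivity))

theorem st_lt {k ρ x β : ℕ} (hρ : ρ < k) (hx : x < 2 ^ k) (hβ : β < 2) : st ρ x β < 2 ^ k := by
  obtain ⟨m, rfl⟩ : ∃ m, k = ρ + 1 + m := ⟨k - ρ - 1, by omega⟩
  have h1 : x / (2 ^ ρ * 2) < 2 ^ m := by
    rw [Nat.div_lt_iff_lt_mul (by positivity)]
    calc x < _ := hx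
      _ = _ := by ring
  rw [← (st_bits ρ x hβ).1, Nat.div_lt_iff_lt_mul (by positivity)] at h1
  calc _ < _ := h1
    _ = _ := by ring

theorem Hk_st (ρ x : ℕ) {β : ℕ} (hβ : β < 2) :
    Hk ρ x (st ρ x β) = if x / 2 ^ ρ % 2 = 1 ∧ β = 1 then -1 else 1 := by
  obtain ⟨h1, h2, h3⟩ := st_bits ρ x hβ
  simp only [Hk, pow_succ, h1, h2, h3, and_self, if_true]

theorem Hk_supp {ρ x u : ℕ} (h : Hk ρ x u ≠ 0) : u = st ρ x 0 ∨ u = st ρ x 1 := by
  unfold Hk at h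
  split_ifs at h with h1 h2
  all_goals first | exact absurd rfl h | skip
  all_goals
    rw [pow_succ] at h1
    have h3 := dec (2 ^ ρ) u
    rw [← h1.1, ← h1.2] at h3
    rcases Nat.mod_two_eq_zero_or_one (u / 2 ^ ρ) with h4 | h4 <;> rw [h4] at h3
    · exact Or.inl h3
    · exact Or.inr h3

theorem st_ne (ρ x : ℕ) : st ρ x 0 ≠ st ρ x 1 := by
  intro h
  have h1 := (st_bits ρ x (β := 0) (by norm_num)).2.1
  rw [h, (st_bits ρ x (β := 1) (by norm_num)).2.1] at h1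
  exact one_ne_zero h1

theorem sum_Hk {A : Type} [CommRing A] {k ρ x : ℕ} (hρ : ρ < k) (hx : x < 2 ^ k) (f : ℕ → A) :
    ∑ u ∈ range (2 ^ k), (Hk ρ x u : A) * f u =
      f (st ρ x 0) + (if x / 2 ^ ρ % 2 = 1 then -1 else 1) * f (st ρ x 1) := by
  rw [sum_eq_add_of_mem (st ρ x 0) (st ρ x 1) (mem_range.2 (st_lt hρ hx (by norm_num)))
    (mem_range.2 (st_lt hρ hx (by norm_num))) (st_ne ρ x)]
  · rw [Hk_st ρ x (by norm_num), Hk_st ρ x (by norm_num)]; simp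
  · intro u _ hu
    by_cases h : Hk ρ x u = 0
    · simp [h]
    · exact absurd (Hk_supp h) (not_or.2 hu)

theorem abs_Hk_le (ρ x u : ℕ) : |Hk ρ x u| ≤ 1 := by
  unfold Hk; split_ifs <;> simp

theorem sum_abs_Hk (N ρ x : ℕ) : ∑ u ∈ range N, |(Hk ρ x u : ℝ)| ≤ 2 := by
  calc ∑ u ∈ range N, |(Hk ρ x u : ℝ)| ≤ ∑ u ∈ {st ρ x 0, st ρ x 1}, |(Hk ρ x u : ℝ)| := by
        rw [← sum_filter_ne_zero]
        refine sum_le_sum_of_subset_of_nonneg (fun u hu => ?_) fun _ _ _ => abs_nonneg _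
        have : Hk ρ x u ≠ 0 := fun h => (mem_filter.1 hu).2 (by simp [h])
        simpa using Hk_supp this
    _ ≤ 2 := by
        rw [sum_pair (st_ne ρ x)]
        have h1 : |(Hk ρ x (st ρ x 0) : ℝ)| ≤ 1 := by exact_mod_cast abs_Hk_le _ _ _
        have h2 : |(Hk ρ x (st ρ x 1) : ℝ)| ≤ 1 := by exact_mod_cast abs_Hk_le _ _ _
        linarith

theorem Hk_Hk {A : Type} [CommRing A] {k ρ x : ℕ} (hρ : ρ < k) (hx : x < 2 ^ k) (y : ℕ) :
    ∑ u ∈ range (2 ^ k), (Hk ρ x u : A) * (Hk ρ u y : A) = if x = y then 2 else 0 := by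
  rw [sum_Hk hρ hx]
  obtain ⟨h1, h2, h3⟩ := st_bits ρ x (β := 0) (by norm_num)
  obtain ⟨h4, h5, h6⟩ := st_bits ρ x (β := 1) (by norm_num)
  simp only [Hk, pow_succ, h1, h2, h3, h4, h5, h6]
  have dx := dec (2 ^ ρ) x
  have dy := dec (2 ^ ρ) y
  by_cases h : x / (2 ^ ρ * 2) = y / (2 ^ ρ * 2) ∧ x % 2 ^ ρ = y % 2 ^ ρ
  · have hxy : x = y ↔ x / 2 ^ ρ % 2 = y / 2 ^ ρ % 2 :=
      ⟨fun g => by rw [g], fun g => by rw [dx, dy, ← h.1, ← h.2, ← g, ← dx]⟩
    simp only [h, and_self, if_true, hxy]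
    rcases Nat.mod_two_eq_zero_or_one (x / 2 ^ ρ) with g1 | g1 <;>
      rcases Nat.mod_two_eq_zero_or_one (y / 2 ^ ρ) with g2 | g2 <;> simp [g1, g2] <;> norm_num
  · have hxy : x ≠ y := by rintro rfl; exact h ⟨rfl, rfl⟩
    simp [h, hxy]

theorem tens_diag {R V : Type*} [CommSemiring R] [AddCommMonoid V] [Module R V] {ns : ℕ → ℕ}
    {d : ℕ} (c : ℕ → R) (z : (ℕ → ℕ) → V) {x : ℕ → ℕ} (hx : x ∈ box ns d) :
    tens ns d (fun i a b => if a = b then c i else 0) z x = (∏ i ∈ range d, c i) • z x := by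
  unfold tens
  rw [sum_eq_single x (fun y hy hne => ?_) (fun h => absurd hx h)]
  · simp
  · obtain ⟨i, hi⟩ := Function.ne_iff.1 hne
    have hid : i < d := by
      by_contra h
      exact hi (by rw [(mem_box.1 hx).2 i (by omega), (mem_box.1 hy).2 i (by omega)])
    rw [prod_eq_zero (mem_range.2 hid) (if_neg (Ne.symm hi)), zero_smul]

theorem sub_mod_cancel {n w y : ℕ} (hw : w < n) (hy : y < n) : (y + (w + n - y) % n) % n = w := by
  rw [Nat.add_mod_mod, show y + (w + n - y) = w + n by omega, Nat.add_mod_right,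
    Nat.mod_eq_of_lt hw]

theorem add_mod_cancel {n z y : ℕ} (hz : z < n) (hy : y < n) : ((y + z) % n + n - y) % n = z := by
  rw [Nat.add_sub_assoc hy.le, Nat.mod_add_mod, show y + z + (n - y) = z + n by omega,
    Nat.add_mod_right, Nat.mod_eq_of_lt hz]

theorem tens_cconv {R A : Type} [CommRing R] [CommRing A] [Algebra R A] {ns : ℕ → ℕ} {d : ℕ}
    (hn : ∀ i < d, 0 < ns i) (Kn : ℕ → ℕ → ℕ → R) (x : ℕ → ℕ) (ω : ℕ → R)
    (hω : ∀ i < d, ω i ^ ns i = 1) (hK : ∀ i < d, ∀ u < ns i, Kn i (x i) u = ω i ^ u)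
    (a b : (ℕ → ℕ) → A) :
    tens ns d Kn (cconv ns d a b) x = tens ns d Kn a x * tens ns d Kn b x := by
  have e : ∀ z : (ℕ → ℕ) → A, tens ns d Kn z x = tens ns d (fun i _ u => ω i ^ u) z x :=
    fun z => tens_congr hK fun _ _ => rfl
  rw [e, e, e]
  simp only [tens, cconv, smul_sum, sum_mul, mul_sum]
  rw [sum_comm, sum_comm (s := box ns d) (t := box ns d)
    (f := fun z y => (∏ i ∈ range d, ω i ^ y i) • a y * (∏ i ∈ range d, ω i ^ z i) • b z)]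
  refine sum_congr rfl fun y hy => ?_
  have hy' := mem_box.1 hy
  refine sum_nbij' (fun w => csub ns d w y) (fun z i => if i < d then (y i + z i) % ns i else 0)
    (fun w _ => csub_mem_box hn w y) (fun z _ => ?_) (fun w hw => ?_) (fun z hz => ?_)
    (fun w hw => ?_)
  · exact mem_box.2 ⟨fun i hi => by simpa [hi] using Nat.mod_lt _ (hn i hi),
      fun i hi => by simp [not_lt.2 hi]⟩
  · funext i
    by_cases hi : i < d
    · simp only [csub, hi, if_true]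
      exact sub_mod_cancel ((mem_box.1 hw).1 i hi) (hy'.1 i hi)
    · simp only [hi, if_false]
      exact ((mem_box.1 hw).2 i (by omega)).symm
  · funext i
    by_cases hi : i < d
    · simp only [csub, hi, if_true]
      exact add_mod_cancel ((mem_box.1 hz).1 i hi) (hy'.1 i hi)
    · simp only [csub, hi, if_false]
      exact ((mem_box.1 hz).2 i (by omega)).symm
  · rw [smul_mul_smul_comm, ← prod_mul_distrib]
    congr 1
    refine prod_congr rfl fun i hi => ?_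
    have hi' := mem_range.1 hi
    rw [← pow_add, pow_eq_pow_mod (y i + _) (hω i hi'), csub, if_pos hi',
      sub_mod_cancel ((mem_box.1 hw).1 i hi') (hy'.1 i hi')]

end F

open F

section
variable {A : Type} [CommRing A]

/-- Forward layer. -/
def Mf (X : A) (k ρ x y : ℕ) : A := X ^ twe k ρ x * (Hk ρ x y : A)

/-- Backward layer. -/
def Mb (X : A) (k ρ x y : ℕ) : A := (Hk ρ x y : A) * X ^ (2 * 2 ^ k - twe k ρ y)

/-- The first `n` forward layers (bits `k - 1, k - 2, …`). -/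
def Gf (X : A) (k d : ℕ) : ℕ → ((ℕ → ℕ) → A) → (ℕ → ℕ) → A
  | 0, a => a
  | n + 1, a => tens (fun _ => 2 ^ k) d (fun _ => Mf X k (k - 1 - n)) (Gf X k d n a)

/-- The first `n` backward layers (bits `0, 1, …`). -/
def Gb (X : A) (k d : ℕ) : ℕ → ((ℕ → ℕ) → A) → (ℕ → ℕ) → A
  | 0, a => a
  | n + 1, a => tens (fun _ => 2 ^ k) d (fun _ => Mb X k n) (Gb X k d n a)

theorem Gb_congr (X : A) (k d n : ℕ) {a b : (ℕ → ℕ) → A}
    (h : ∀ y ∈ box (fun _ => 2 ^ k) d, a y = b y) :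
    ∀ x ∈ box (fun _ => 2 ^ k) d, Gb X k d n a x = Gb X k d n b x := by
  induction n with
  | zero => exact h
  | succ n ih => exact fun x _ => tens_congr (fun _ _ _ _ => rfl) ih

namespace F

/-- one-dimensional kernel of the first `n` forward layers -/
def K1 (X : A) (k : ℕ) : ℕ → ℕ → ℕ → A
  | 0, x, y => if x = y then 1 else 0
  | n + 1, x, y => ∑ u ∈ range (2 ^ k), Mf X k (k - 1 - n) x u * K1 X k n u y

theorem Gf_eq (X : A) (k d n : ℕ) (a : (ℕ → ℕ) → A) :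
    ∀ x ∈ box (fun _ => 2 ^ k) d,
      Gf X k d n a x = tens (fun _ => 2 ^ k) d (fun _ => K1 X k n) a x := by
  induction n with
  | zero =>
    intro x hx
    have := tens_diag (fun _ => (1 : A)) a hx
    simp only [prod_const_one, one_smul] at this
    exact this.symm
  | succ n ih =>
    intro x _
    rw [Gf, tens_congr (fun _ _ _ _ => rfl) ih, tens_tens]
    rfl

theorem K1_eq {X : A} {k : ℕ} (hX : X ^ 2 ^ k = -1) (n : ℕ) (hn : n ≤ k) :
    ∃ e : ℕ → ℕ, ∀ x < 2 ^ k, ∀ y < 2 ^ k, K1 X k n x y =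
      if x % 2 ^ (k - n) = y % 2 ^ (k - n) then X ^ (2 * e (x / 2 ^ (k - n)) * y) else 0 := by
  induction n with
  | zero =>
    refine ⟨fun _ => 0, fun x hx y hy => ?_⟩
    simp [K1, Nat.mod_eq_of_lt hx, Nat.mod_eq_of_lt hy]
  | succ n ih =>
    obtain ⟨e, he⟩ := ih (by omega)
    refine ⟨fun h => h % 2 * 2 ^ n + e (h / 2), fun x hx y hy => ?_⟩
    obtain ⟨ρ, rfl⟩ : ∃ ρ, k = ρ + 1 + n := ⟨k - 1 - n, by omega⟩
    have e1 : ρ + 1 + n - 1 - n = ρ := by omega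
    have e2 : ρ + 1 + n - n = ρ + 1 := by omega
    have e3 : ρ + 1 + n - (n + 1) = ρ := by omega
    have e4 : ρ + 1 + n - ρ = n + 1 := by omega
    have hρ : ρ < ρ + 1 + n := by omega
    simp only [K1, Mf, e1, e3, mul_assoc, ← mul_sum]
    rw [sum_Hk hρ hx, he _ (st_lt hρ hx (by norm_num)) y hy, he _ (st_lt hρ hx (by norm_num)) y hy]
    have hm : ∀ z : ℕ, z % (2 ^ ρ * 2) = z % 2 ^ ρ + 2 ^ ρ * (z / 2 ^ ρ % 2) := fun z => Nat.mod_mul
    obtain ⟨h1, h2, h3⟩ := st_bits ρ x (β := 0) (by norm_num)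
    obtain ⟨h4, h5, h6⟩ := st_bits ρ x (β := 1) (by norm_num)
    simp only [e2, pow_succ 2 ρ, hm, h1, h2, h3, h4, h5, h6, Nat.div_div_eq_div_mul, twe, e4]
    have hxl : x % 2 ^ ρ < 2 ^ ρ := Nat.mod_lt _ (by positivity)
    have hyl : y % 2 ^ ρ < 2 ^ ρ := Nat.mod_lt _ (by positivity)
    have dy := dec (2 ^ ρ) y
    set yh := y / (2 ^ ρ * 2)
    set E := e (x / (2 ^ ρ * 2))
    have hX2 : X ^ (2 ^ ρ * 2 ^ (n + 1)) = -1 := by rw [← hX]; congr 1; ring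
    by_cases g : x % 2 ^ ρ = y % 2 ^ ρ
    · rw [if_pos g, g]
      set yl := y % 2 ^ ρ
      rcases Nat.mod_two_eq_zero_or_one (x / 2 ^ ρ) with g1 | g1 <;>
        rcases Nat.mod_two_eq_zero_or_one (y / 2 ^ ρ) with g2 | g2 <;> rw [g2] at dy <;>
        simp only [g1, g2]
      · simp [mul_assoc]
      · simp [mul_assoc]
      · have : 2 * ((1 * 2 ^ n + E) * y) =
            yl * 2 ^ (n + 1) + 2 * (E * y) + 2 ^ ρ * 2 ^ (n + 1) * (2 * yh) := by
          rw [add_mul, mul_add]; nth_rewrite 1 [dy]; ring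
        rw [this, pow_add X, pow_add X, pow_mul X (2 ^ ρ * 2 ^ (n + 1)), hX2]
        simp [mul_assoc]
      · have : 2 * ((1 * 2 ^ n + E) * y) =
            yl * 2 ^ (n + 1) + 2 * (E * y) + 2 ^ ρ * 2 ^ (n + 1) * (2 * yh + 1) := by
          rw [add_mul, mul_add]; nth_rewrite 1 [dy]; ring
        rw [this, pow_add X, pow_add X, pow_mul X (2 ^ ρ * 2 ^ (n + 1)), hX2, pow_succ (-1 : A)]
        simp [mul_assoc]
    · have g3 : ¬ x % 2 ^ ρ + 2 ^ ρ * 0 = y % 2 ^ ρ + 2 ^ ρ * (y / 2 ^ ρ % 2) := by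
        rcases Nat.mod_two_eq_zero_or_one (y / 2 ^ ρ) with g2 | g2 <;> rw [g2] <;> omega
      have g4 : ¬ x % 2 ^ ρ + 2 ^ ρ * 1 = y % 2 ^ ρ + 2 ^ ρ * (y / 2 ^ ρ % 2) := by
        rcases Nat.mod_two_eq_zero_or_one (y / 2 ^ ρ) with g2 | g2 <;> rw [g2] <;> omega
      rw [if_neg g, if_neg g3, if_neg g4]
      simp

theorem Mb_Mf {X : A} {k : ℕ} (hX : X ^ 2 ^ k = -1) {ρ x : ℕ} (hρ : ρ < k) (hx : x < 2 ^ k)
    (y : ℕ) : ∑ u ∈ range (2 ^ k), Mb X k ρ x u * Mf X k ρ u y = if x = y then 2 else 0 := by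
  rw [← Hk_Hk hρ hx y]
  refine sum_congr rfl fun u _ => ?_
  have h1 : twe k ρ u ≤ 2 * 2 ^ k := by
    have h2 : u % 2 ^ ρ * 2 ^ (k - ρ) ≤ 2 ^ k := by
      calc _ ≤ 2 ^ ρ * 2 ^ (k - ρ) :=
            Nat.mul_le_mul_right _ (Nat.mod_lt _ (by positivity)).le
        _ = _ := by rw [← pow_add]; congr 1; omega
    exact Nat.mul_le_mul (Nat.mod_lt _ (by norm_num)).le h2
  have h2 : X ^ (2 * 2 ^ k - twe k ρ u) * X ^ twe k ρ u = 1 := by
    rw [← pow_add, Nat.sub_add_cancel h1, mul_comm, pow_mul, hX]; simp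
  unfold Mb Mf
  linear_combination ((Hk ρ x u : A) * (Hk ρ u y : A)) * h2

theorem Gb_Gf {X : A} {k : ℕ} (hX : X ^ 2 ^ k = -1) (d : ℕ) (c : (ℕ → ℕ) → A) (n : ℕ)
    (hn : n ≤ k) : ∀ x ∈ box (fun _ => 2 ^ k) d,
      Gb X k d n (Gf X k d k c) x = 2 ^ (n * d) * Gf X k d (k - n) c x := by
  induction n with
  | zero => intro x _; simp [Gb]
  | succ n ih =>
    intro x hx
    rw [Gb, tens_congr (fun _ _ _ _ => rfl) (ih (by omega))]
    have e1 : k - n = (k - (n + 1)) + 1 := by omega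
    have e2 : k - 1 - (k - (n + 1)) = n := by omega
    have e3 : ∀ (Kn : ℕ → ℕ → ℕ → A) (z : (ℕ → ℕ) → A) (r : A),
        tens (fun _ => 2 ^ k) d Kn (fun y => r * z y) x = r * tens (fun _ => 2 ^ k) d Kn z x := by
      intro Kn z r
      simp only [tens, mul_sum, smul_eq_mul]
      exact sum_congr rfl fun _ _ => by ring
    rw [e3, e1, Gf, e2, tens_tens, tens_congr (Kn' := fun _ a b => if a = b then 2 else 0)
      (x' := x) (fun i hi u _ => Mb_Mf hX (by omega) ((mem_box.1 hx).1 i hi) u) (fun _ _ => rfl),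
      tens_diag (fun _ => (2 : A)) _ hx]
    simp only [prod_const, card_range, smul_eq_mul]
    ring

end F

theorem fft_conv {X : A} {k : ℕ} (hX : X ^ 2 ^ k = -1) (d : ℕ) (a b : (ℕ → ℕ) → A)
    {x : ℕ → ℕ} (hx : x ∈ box (fun _ => 2 ^ k) d) :
    Gb X k d k (fun y => Gf X k d k a y * Gf X k d k b y) x =
      2 ^ (k * d) * cconv (fun _ => 2 ^ k) d a b x := by
  obtain ⟨e, he⟩ := K1_eq hX k le_rfl
  have h1 := Gb_Gf hX d (cconv (fun _ => 2 ^ k) d a b) k le_rfl x hx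
  rw [Nat.sub_self] at h1
  rw [← show _ = 2 ^ (k * d) * cconv (fun _ => 2 ^ k) d a b x from h1]
  refine Gb_congr X k d k (fun y hy => ?_) x hx
  rw [Gf_eq _ _ _ _ _ y hy, Gf_eq _ _ _ _ _ y hy, Gf_eq _ _ _ _ _ y hy]
  refine (tens_cconv (fun _ _ => by positivity) _ y (fun i => X ^ (2 * e (y i)))
    (fun i _ => ?_) (fun i hi u hu => ?_) a b).symm
  · rw [← pow_mul, mul_comm, pow_mul, hX, pow_mul]; simp
  · rw [he _ ((mem_box.1 hy).1 i hi) u hu]
    simp [Nat.mod_one, pow_mul]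

end

theorem F.nrm_tens {n : ℕ} {N d ρ : ℕ} (Kn : ℕ → ℕ → RA n) (e : ℕ → ℕ → ℕ)
    (hK : ∀ x u, Kn x u = xr n ^ e x u * (Hk ρ x u : RA n)) (z : (ℕ → ℕ) → RA n) {μ : ℝ}
    (hz : ∀ y ∈ box (fun _ => N) d, nrm n (z y) ≤ μ) {x : ℕ → ℕ} (hx : x ∈ box (fun _ => N) d) :
    nrm n (tens (fun _ => N) d (fun _ => Kn) z x) ≤ 2 ^ d * μ := by
  have hμ : 0 ≤ μ := (nrm_nonneg _).trans (hz x hx)
  refine (nrm_sum_le _ _).trans ?_
  have h1 : ∀ y ∈ box (fun _ => N) d, nrm n ((∏ i ∈ range d, Kn (x i) (y i)) • z y) ≤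
      (∏ i ∈ range d, |(Hk ρ (x i) (y i) : ℝ)|) * μ := by
    intro y hy
    simp only [hK, prod_mul_distrib, prod_pow_eq_pow_sum, smul_eq_mul, mul_assoc, nrm_xr_pow_mul]
    rw [← Int.cast_prod, ← zsmul_eq_mul, ← Int.cast_smul_eq_zsmul ℂ, nrm_smul, Complex.norm_intCast,
      Int.cast_prod, abs_prod]
    exact mul_le_mul_of_nonneg_left (hz y hy) (prod_nonneg fun _ _ => abs_nonneg _)
  refine (sum_le_sum h1).trans ?_
  rw [← sum_mul, sum_box_prod (fun _ => N) d (fun i u => |(Hk ρ (x i) u : ℝ)|)]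
  refine mul_le_mul_of_nonneg_right ?_ hμ
  refine (prod_le_prod (fun _ _ => sum_nonneg fun _ _ => abs_nonneg _)
    fun i _ => sum_abs_Hk N ρ (x i)).trans ?_
  simp

theorem nrm_Gf {n : ℕ} (c k d m : ℕ) (hm : m ≤ k) (a : (ℕ → ℕ) → RA n) {μ : ℝ}
    (ha : ∀ y ∈ box (fun _ => 2 ^ k) d, nrm n (a y) ≤ μ) :
    ∀ x ∈ box (fun _ => 2 ^ k) d, nrm n (Gf (xr n ^ c) k d m a x) ≤ 2 ^ (m * d) * μ := by
  induction m with
  | zero => simpa [Gf] using ha
  | succ m ih =>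
    intro x hx
    refine (F.nrm_tens (ρ := k - 1 - m) _ (fun x _ => c * twe k (k - 1 - m) x)
      (fun x u => by rw [Mf, pow_mul]) _ (ih (by omega)) hx).trans (le_of_eq ?_)
    ring

theorem nrm_Gb {n : ℕ} (c k d m : ℕ) (hm : m ≤ k) (a : (ℕ → ℕ) → RA n) {μ : ℝ}
    (ha : ∀ y ∈ box (fun _ => 2 ^ k) d, nrm n (a y) ≤ μ) :
    ∀ x ∈ box (fun _ => 2 ^ k) d, nrm n (Gb (xr n ^ c) k d m a x) ≤ 2 ^ (m * d) * μ := by
  induction m with
  | zero => simpa [Gb] using ha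
  | succ m ih =>
    intro x hx
    refine (F.nrm_tens (ρ := m) _ (fun _ u => c * (2 * 2 ^ k - twe k m u))
      (fun x u => by rw [Mb, pow_mul, mul_comm]) _ (ih (by omega)) hx).trans (le_of_eq ?_)
    ring

/-- `exp (σ 2 π i a / n)` -/
noncomputable def ee (σ : ℤ) (n a : ℕ) : ℂ := Complex.exp (σ * (2 * Real.pi * Complex.I) * a / n)

/-- The discrete Fourier transform on a box, with sign `σ`. -/
noncomputable def dft {V : Type} [AddCommGroup V] [Module ℂ V] (σ : ℤ) (ns : ℕ → ℕ) (d : ℕ)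
    (a : (ℕ → ℕ) → V) : (ℕ → ℕ) → V :=
  tens ns d (fun i x y => ee σ (ns i) (x * y)) a

theorem F.ee_pow (σ : ℤ) (n a : ℕ) : ee σ n a = ee σ n 1 ^ a := by
  unfold ee
  rw [← Complex.exp_nat_mul]; congr 1; push_cast; ring

theorem F.ee_add (σ : ℤ) (n a b : ℕ) : ee σ n (a + b) = ee σ n a * ee σ n b := by
  rw [ee_pow σ n (a + b), ee_pow σ n a, ee_pow σ n b, pow_add]

theorem F.ee_orth {n x y : ℕ} (hx : x < n) (hy : y < n) :
    ∑ u ∈ range n, ee (-1) n (x * u) * ee 1 n (u * y) = if x = y then (n : ℂ) else 0 := by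
  have hn : n ≠ 0 := by omega
  have hp := Complex.isPrimitiveRoot_exp n hn
  set ω := Complex.exp (2 * Real.pi * Complex.I / n) with hω
  have h0 : ω ≠ 0 := Complex.exp_ne_zero _
  have h1 : ee 1 n 1 = ω := by rw [hω, ee]; congr 1; push_cast; ring
  have h2 : ee (-1) n 1 = ω⁻¹ := by rw [hω, ee, ← Complex.exp_neg]; congr 1; push_cast; ring
  have h3 : ∀ u, ee (-1) n (x * u) * ee 1 n (u * y) = (ω⁻¹ ^ x * ω ^ y) ^ u := by
    intro u
    rw [ee_pow, ee_pow 1, h1, h2, mul_pow, ← pow_mul, ← pow_mul, mul_comm y]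
  simp only [h3]
  split_ifs with h
  · subst h
    rw [← mul_pow, inv_mul_cancel₀ h0]; simp
  · have h4 : ω⁻¹ ^ x * ω ^ y ≠ 1 := by
      intro g
      rw [inv_pow, inv_mul_eq_one₀ (pow_ne_zero _ h0)] at g
      exact h (hp.pow_inj hx hy g)
    rw [geom_sum_eq h4, mul_pow, ← pow_mul, ← pow_mul, mul_comm x, mul_comm y, pow_mul, pow_mul,
      inv_pow, hp.pow_eq_one]
    simp

/-- The convolution theorem. -/
theorem dft_conv {A : Type} [CommRing A] [Algebra ℂ A] {ns : ℕ → ℕ} {d : ℕ}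
    (hn : ∀ i < d, 0 < ns i) (a b : (ℕ → ℕ) → A) {x : ℕ → ℕ} (hx : x ∈ box ns d) :
    dft (-1) ns d (fun y => dft 1 ns d a y * dft 1 ns d b y) x =
      (pr ns 0 d : ℂ) • cconv ns d a b x := by
  have h1 : ∀ y, dft 1 ns d a y * dft 1 ns d b y = dft 1 ns d (cconv ns d a b) y := fun y =>
    (tens_cconv hn _ y (fun i => ee 1 (ns i) (y i)) (fun i hi => by
      rw [ee_pow, ← pow_mul, mul_comm, pow_mul, ← ee_pow 1 (ns i) (ns i)]
      have : (ns i : ℂ) ≠ 0 := by exact_mod_cast (hn i hi).ne'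
      have h2 : ee 1 (ns i) (ns i) = 1 := by
        rw [ee, mul_div_assoc, div_self this]; simp
      rw [h2, one_pow])
      (fun i _ u _ => by rw [ee_pow, pow_mul, ← ee_pow]) a b).symm
  simp only [h1]
  unfold dft
  rw [tens_tens, tens_congr (Kn' := fun i a b => if a = b then (ns i : ℂ) else 0) (x' := x)
    (fun i hi u hu => ee_orth ((mem_box.1 hx).1 i hi) hu) (fun _ _ => rfl), tens_diag _ _ hx]
  simp [pr]

/-- The chirp `exp (σ π i (∑ x_i ^ 2) / t)`. -/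
noncomputable def chirp (σ : ℤ) (t d : ℕ) (x : ℕ → ℕ) : ℂ :=
  ee σ (2 * t) (∑ i ∈ range d, x i ^ 2)

theorem F.chirp_eq (σ : ℤ) (t d : ℕ) (x : ℕ → ℕ) :
    chirp σ t d x = ∏ i ∈ range d, ee σ (2 * t) (x i ^ 2) := by
  rw [chirp, ee_pow, ← prod_pow_eq_pow_sum]
  exact prod_congr rfl fun i _ => (ee_pow _ _ _).symm

theorem F.blue1 (σ : ℤ) {t x y : ℕ} (he : Even t) (hx : x < t) (hy : y < t) :
    ee σ t (x * y) = ee σ (2 * t) (x ^ 2) *
      (ee σ (2 * t) (y ^ 2) * ee (-σ) (2 * t) (((x + t - y) % t) ^ 2)) := by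
  have ht : (t : ℂ) ≠ 0 := by exact_mod_cast (by omega : t ≠ 0)
  unfold ee
  rw [← Complex.exp_add, ← Complex.exp_add]
  by_cases h : y ≤ x
  · have : (x + t - y) % t = x - y := by
      rw [show x + t - y = x - y + t by omega, Nat.add_mod_right, Nat.mod_eq_of_lt (by omega)]
    rw [this]
    congr 1
    push_cast [Nat.cast_sub h]
    field_simp
    ring
  · have : (x + t - y) % t = x + t - y := Nat.mod_eq_of_lt (by omega)
    obtain ⟨r, hr⟩ := he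
    rw [this, Complex.exp_eq_exp_iff_exists_int]
    refine ⟨σ * (x - y + r), ?_⟩
    have hr' : (r : ℂ) = t / 2 := by rw [hr]; push_cast; ring
    push_cast [Nat.cast_sub (show y ≤ x + t by omega)]
    rw [hr']
    field_simp
    ring

set_option linter.unusedVariables false in
/-- Bluestein's identity. -/
theorem bluestein {A : Type} [CommRing A] [Algebra ℂ A] (σ : ℤ) {t : ℕ} (ht : 0 < t)
    (he : Even t) (d : ℕ) (a : (ℕ → ℕ) → A) {x : ℕ → ℕ} (hx : x ∈ box (fun _ => t) d) :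
    dft σ (fun _ => t) d a x = chirp σ t d x • cconv (fun _ => t) d
      (fun y => chirp σ t d y • a y) (fun y => chirp (-σ) t d y • (1 : A)) x := by
  simp only [dft, tens, cconv, smul_sum, smul_mul_smul_comm, mul_one, smul_smul, chirp_eq]
  refine sum_congr rfl fun y hy => ?_
  congr 1
  rw [← prod_mul_distrib, ← prod_mul_distrib]
  refine prod_congr rfl fun i hi => ?_
  have hi' := mem_range.1 hi
  rw [csub, if_pos hi']
  exact blue1 σ he ((mem_box.1 hx).1 i hi') ((mem_box.1 hy).1 i hi')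

end Crest.Agent.IM
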