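import Crest.Agent.IM.GadA

/-! TASK IM-X. XOR of selected address bits by packed rotations.
Layout `(β < w, b : d digits base Qg, x : d digits base S', y < H * Qg ^ d * Y)`, where `y` is
`(h < H, c : d digits base Qg, y₀ < Y)`. Let `n = mu ^ j`, `z i' ∈ {0, 1}` the control bits,
`a i' = x (tgt + i')`. Four rotations (`rot`, amounts by `Ex.sum`), no carries between digits:
(1) `a += z (2 b + 1) 2 ^ ρ`; exchange the low `n` digits of `b` and of `c` (`SwapStmt` at level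
`j + jg`, `F = Qg ^ n`); (2) `b += 1 - bit ρ a`; exchange back; (3) `a -= 2 z b 2 ^ ρ`; exchange;
(4) `b -= 1 - bit ρ a`; exchange back. Track one good address through the eight passes.
`xs_ex`, `tr_ex` are sequences of gadgets (`seqs` over the list of chunks, `Go.seqs_map`). -/

set_option autoImplicit false

namespace Crest.Agent.IM

/-- Address in the network layout. -/
def nad (Qg S' d Yt : ℕ) (b x : ℕ → ℕ) (y : ℕ) : ℕ :=
  (mr (fun _ => Qg) 0 d b * S' ^ d + mr (fun _ => S') 0 d x) * Yt + y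

/-- Number of lanes in the network layout. -/
def nM (Qg S' d H Y : ℕ) : ℕ := Qg ^ d * S' ^ d * (H * Qg ^ d * Y)

/-- The pass moves the good address `x` to `σ x`. -/
def Moves (w d Qg S' H Y k : ℕ) (σ : (ℕ → ℕ) → ℕ → ℕ) (L L' : List Bool) : Prop :=
  L'.length = w * nM Qg S' d H Y ∧
  ∀ β < w, ∀ b x : ℕ → ℕ, (∀ i < d, b i + 2 ≤ Qg) → (∀ i < d, x i < 2 ^ k) →
    ∀ y < H * Qg ^ d * Y,
      bit L' (β * nM Qg S' d H Y + nad Qg S' d (H * Qg ^ d * Y) b (σ x) y) =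
        bit L (β * nM Qg S' d H Y + nad Qg S' d (H * Qg ^ d * Y) b x y)

/-- Side conditions of the gadget. -/
structure GadOk (q C B P w d jg Qg S' H Y k ρ j : ℕ) : Prop where
  hP : 1 ≤ P
  hw : 1 ≤ w
  hH : 1 ≤ H
  hQ : Qg = q ^ mu ^ jg
  hρ : ρ < k
  hS : 2 ^ k + 2 * Qg * 2 ^ ρ ≤ S'
  hY : WW ^ (j + jg) ∣ Y
  hPY : P * WW ^ (j + jg) ≤ Y
  hB : C * (w * nM Qg S' d H Y) ≤ B

namespace GA

theorem pw {B P : ℕ} {env : List ℕ} {a n : Ex} {x m : ℕ} (ha : a.ev B P env = x)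
    (hn : n.ev B P env = m) (h2 : 2 ≤ x) (hb : x ^ m ≤ B) : (Ex.pow a n).ev B P env = x ^ m := by
  subst ha hn; exact Ex.ev_pow h2 hb

theorem dv {x N B : ℕ} (hN : 0 < N) (hB : N ≤ B) (k : ℕ) (e : N = x * k) : x ≤ B :=
  (Nat.le_of_dvd hN ⟨k, e⟩).trans hB

theorem _root_.Crest.Agent.IM.GadOk.mono {q C C' B P w d jg Qg S' H Y k ρ j : ℕ}
    (h : GadOk q C B P w d jg Qg S' H Y k ρ j) (hC : C' ≤ C) :
    GadOk q C' B P w d jg Qg S' H Y k ρ j :=
  { h with hB := (Nat.mul_le_mul_right _ hC).trans h.hB }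

theorem facts {q C B P w d jg Qg S' H Y k ρ j : ℕ} (hq : 2 ≤ q)
    (h : GadOk q C B P w d jg Qg S' H Y k ρ j) :
    2 ≤ Qg ∧ 2 ≤ S' ∧ 1 ≤ Y ∧ P ≤ Y ∧ 2 ^ ρ ≤ S' ∧ 1 ≤ mu ^ j := by
  have h1 : 1 ≤ mu ^ jg := Nat.one_le_pow _ _ (by have := two_le_mu; omega)
  have h2 : 2 ≤ Qg := by
    rw [h.hQ]; exact hq.trans (Nat.le_self_pow (by omega) _)
  have h3 : 1 ≤ 2 ^ ρ := Nat.one_le_two_pow
  have h4 := h.hS
  have h5 : 1 ≤ WW ^ (j + jg) := Nat.one_le_pow _ _ (by have := two_le_WW; omega)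
  have h6 := h.hPY
  have h7 := h.hP
  have h8 : P ≤ Y := le_trans (Nat.le_mul_of_pos_right _ h5) h6
  have h9 : 0 ≤ 2 ^ k := Nat.zero_le _
  exact ⟨h2, by nlinarith, by omega, h8, by nlinarith,
    Nat.one_le_pow _ _ (by have := two_le_mu; omega)⟩

/-- control bit -/
def zb (md ctl ρ : ℕ) (x : ℕ → ℕ) (i : ℕ) : ℕ := if md ≠ 0 then 1 else x (ctl + i) / 2 ^ ρ % 2

/-- passes (1) and (3) -/
theorem pa_ex {q : ℕ} (hq : 2 ≤ q) (sb : Bool) : ∃ (p : Prog) (C : ℕ), ∀ (B P : ℕ) (r : Prog)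
    (n w d jg Qg S' H Y k ρ j tgt ctl md : ℕ) (L : List Bool),
    GadOk q 1 B P w d jg Qg S' H Y k ρ j → n = mu ^ j → tgt + n ≤ d →
    (md ≠ 0 ∨ (tgt + n ≤ ctl ∧ ctl + n ≤ d)) → L.length = w * nM Qg S' d H Y →
    ∃ L' : List Bool, L'.length = w * nM Qg S' d H Y ∧
      Go B P r p [n, w, d, jg, Qg, S', H, Y, k, ρ, j, tgt, ctl, md] L
        [n, w, d, jg, Qg, S', H, Y, k, ρ, j, tgt, ctl, md] L' (C * (w * nM Qg S' d H Y : ℕ)) ∧
      ∀ β < w, ∀ b x x' : ℕ → ℕ, (∀ i < d, b i < Qg) → (∀ i < d, x i < S' ∧ x' i < S') →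
        (∀ i, ¬(tgt ≤ i ∧ i < tgt + n) → x' i = x i) →
        (∀ i < n, if sb then x (tgt + i) = x' (tgt + i) + zb md ctl ρ x i * (2 * b i) * 2 ^ ρ
          else x' (tgt + i) = x (tgt + i) + zb md ctl ρ x i * (2 * b i + 1) * 2 ^ ρ) →
        ∀ y < H * Qg ^ d * Y,
        bit L' (β * nM Qg S' d H Y + nad Qg S' d (H * Qg ^ d * Y) b x' y) =
          bit L (β * nM Qg S' d H Y + nad Qg S' d (H * Qg ^ d * Y) b x y) := by
  set zE : Ex := Ex.ite (.var 11) 1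
    (.var 1 / Ex.pow (.var 3) (.var 9 - .var 10 + .var 0) % .var 3 / .var 8 % 2) with hzE
  set bE : Ex := .var 1 / .var 6 / Ex.pow (.var 7) (.var 0) % .var 7 with hbE
  obtain ⟨p, C, h⟩ := rotd_ex (zE * (if sb then 2 * bE else 2 * bE + 1) * .var 8) 6 sb
  set eE : Ex := Ex.pow (.var 5) (.var 2 - .var 11 - .var 0) with heE
  set eQ : Ex := Ex.pow (.var 4) (.var 2) with heQ
  set eI : Ex := Ex.pow (.var 5) (.var 11) * (.var 6 * eQ * .var 7) with heI
  set eA : Ex := Ex.pow (.var 5) (.var 0) * eI with heA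
  refine ⟨.call [.var 1 * eQ * eE, eA, eA, .var 5, .var 0, eI, eE, .var 4, Ex.pow 2 (.var 9),
    .var 12, .var 11 + .var 0, .var 13] p, 3 * C + 1,
    fun B P r n w d jg Qg S' H Y k ρ j tgt ctl md L hG hn ht hm hL => ?_⟩
  obtain ⟨hQ, hS, hY, hPY, hR, hn1⟩ := facts hq hG
  rw [← hn] at hn1
  have hw := hG.hw
  have hH := hG.hH
  have hP := hG.hP
  have hB := hG.hB
  rw [one_mul] at hB
  obtain ⟨D, rfl⟩ : ∃ D, d = tgt + n + D := ⟨d - (tgt + n), by omega⟩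
  set d := tgt + n + D with hd
  set Yt := H * Qg ^ d * Y with hYt
  have hSd : S' ^ d = S' ^ D * S' ^ n * S' ^ tgt := by rw [hd, pow_add, pow_add]; ring
  have hN : w * nM Qg S' d H Y = w * Qg ^ d * S' ^ D * (S' ^ n * (S' ^ tgt * Yt)) := by
    rw [nM, hSd]; ring
  have hYt1 : Y ≤ Yt := Nat.le_mul_of_pos_left _ (by positivity)
  have hN0 : 0 < w * nM Qg S' d H Y := by rw [hN]; positivity
  have b0 : S' ^ d ≤ B := dv hN0 hB (w * Qg ^ d * Yt) (by rw [nM]; ring)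
  have bS : ∀ m ≤ d, S' ^ m ≤ B := fun m hm => (Nat.pow_le_pow_right (by omega) hm).trans b0
  have b1 : Qg ^ d ≤ B := dv hN0 hB (w * S' ^ d * Yt) (by rw [nM]; ring)
  have bQ : ∀ m ≤ d, Qg ^ m ≤ B := fun m hm => (Nat.pow_le_pow_right (by omega) hm).trans b1
  have b2 : 2 ^ ρ ≤ B := hR.trans (by simpa using bS 1 (by omega))
  have b3 : w * Qg ^ d * S' ^ D ≤ B := dv hN0 hB _ hN
  have b4 : S' ^ n * (S' ^ tgt * Yt) ≤ B := dv hN0 hB _ (hN.trans (mul_comm _ _))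
  have b5 : S' ^ tgt * Yt ≤ B := dv hN0 hB (w * Qg ^ d * S' ^ D * S' ^ n) (by rw [hN]; ring)
  have b6 : tgt + n ≤ B :=
    le_trans (by omega) ((Nat.lt_two_pow_self (n := d)).le.trans
      ((Nat.pow_le_pow_left hS _).trans b0))
  obtain ⟨L', l1, t1, e1⟩ := h B P r (w * Qg ^ d * S' ^ D) (S' ^ n * (S' ^ tgt * Yt)) S' n
    (S' ^ tgt * Yt) [S' ^ D, Qg, 2 ^ ρ, ctl, tgt + n, md] L hP rfl hS
    (Q4.one_le (by positivity)) (Q4.one_le (by positivity)) rfl (hN ▸ hB) (hN ▸ hL)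
  set env := [n, w, d, jg, Qg, S', H, Y, k, ρ, j, tgt, ctl, md] with henv
  have vE : eE.ev B P env = S' ^ D :=
    pw (by simp [henv]) (by simp [henv, hd]; omega) hS (bS _ (by omega))
  have vQ : eQ.ev B P env = Qg ^ d := pw (by simp [henv]) (by simp [henv]) hQ b1
  have vI : eI.ev B P env = S' ^ tgt * Yt := by
    rw [heI, Ex.ev_mul, pw (x := S') (m := tgt) (by simp [henv]) (by simp [henv]) hS
      (bS _ (by omega)), Ex.ev_mul, Ex.ev_mul, vQ]
    simp [henv, hYt]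
  have vA : eA.ev B P env = S' ^ n * (S' ^ tgt * Yt) := by
    rw [heA, Ex.ev_mul, pw (x := S') (m := n) (by simp [henv]) (by simp [henv]) hS
      (bS _ (by omega)), vI]
  have vR : (Ex.pow 2 (.var 9)).ev B P env = 2 ^ ρ :=
    pw (by simp) (by simp [henv]) le_rfl b2
  have g1 := Go.call (args := [.var 1 * eQ * eE, eA, eA, .var 5, .var 0, eI, eE, .var 4,
    Ex.pow 2 (.var 9), .var 12, .var 11 + .var 0, .var 13]) (env := env)
    (by simp only [List.map_cons, List.map_nil, Ex.ev_mul, Ex.ev_add, vE, vQ, vI, vA, vR]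
        simp [henv])
    (by simp [Ok, henv, b3, b4, b5, b2, b6, bS D (by omega)]) t1
  refine ⟨L', hN ▸ l1, g1.mono ?_, fun β hβ b x x' hb hx hxx hc y hy => ?_⟩
  · have k1 : w * Qg ^ d * S' ^ D * P ≤ w * nM Qg S' d H Y := by
      rw [hN]
      refine Nat.mul_le_mul_left _ ((hPY.trans hYt1).trans ?_)
      rw [← mul_assoc]
      exact Nat.le_mul_of_pos_left _ (by positivity)
    have k2 : P ≤ w * nM Qg S' d H Y :=
      le_trans (Nat.le_mul_of_pos_left _ (by positivity)) k1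
    have k3 : C * (w * Qg ^ d * S' ^ D * (S' ^ n * (S' ^ tgt * Yt)) + w * Qg ^ d * S' ^ D * P + P)
        + P ≤ (3 * C + 1) * (w * nM Qg S' d H Y) := by
      rw [← hN]; nlinarith
    exact_mod_cast k3
  · have hbl : mr (fun _ => Qg) 0 d b < Qg ^ d := by
      simpa using mr_ltc (a := 0) fun i _ hi => hb i hi
    have hxh : mr (fun _ => S') (tgt + n) d x < S' ^ D := by
      simpa [hd] using mr_ltc (a := tgt + n) (b := d) fun i _ hi => (hx i hi).1
    have hxl : mr (fun _ => S') 0 tgt x < S' ^ tgt := by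
      simpa using mr_ltc (a := 0) (b := tgt) fun i _ hi => (hx i (by omega)).1
    have sp : ∀ x : ℕ → ℕ, mr (fun _ => S') 0 d x = (mr (fun _ => S') (tgt + n) d x * S' ^ n +
        mr (fun _ => S') 0 n (fun i => x (tgt + i))) * S' ^ tgt + mr (fun _ => S') 0 tgt x :=
      fun x => by
        rw [mr_splitc S' (Nat.zero_le tgt) (by omega : tgt ≤ d),
          mr_splitc S' (Nat.le_add_right tgt n) (by omega : tgt + n ≤ d), mr_shift S' tgt n]
        simp
    have c1 : mr (fun _ => S') (tgt + n) d x' = mr (fun _ => S') (tgt + n) d x :=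
      mr_congr (fun _ _ _ => rfl) fun i h1 _ => hxx i (by omega)
    have c2 : mr (fun _ => S') 0 tgt x' = mr (fun _ => S') 0 tgt x :=
      mr_congr (fun _ _ _ => rfl) fun i _ h1 => hxx i (by omega)
    set o := (β * Qg ^ d + mr (fun _ => Qg) 0 d b) * S' ^ D + mr (fun _ => S') (tgt + n) d x
      with ho
    have a1 := e1 o (Q4.lt_mul (Q4.lt_mul hβ hbl) hxh) (fun i => x (tgt + i))
      (fun i => x' (tgt + i)) (fun i hi => ⟨(hx _ (by omega)).1, (hx _ (by omega)).2, ?_⟩)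
      (mr (fun _ => S') 0 tgt x * Yt + y) (Q4.lt_mul hxl hy)
    · refine Eq.trans (Eq.trans ?_ a1) ?_ <;> congr 1
      · rw [nad, nM, sp x', c1, c2, ho, hSd]; ring
      · rw [nad, nM, sp x, ho, hSd]; ring
    · set en := i :: o :: (S' ^ n * (S' ^ tgt * Yt)) :: S' :: n :: (S' ^ tgt * Yt) ::
        [S' ^ D, Qg, 2 ^ ρ, ctl, tgt + n, md] with hen
      have vb : bE.ev B P en = b i := by
        rw [hbE, Ex.ev_mod, Ex.ev_div, pw (x := Qg) (m := i) (by simp [hen]) (by simp [hen]) hQ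
          (bQ _ (by omega))]
        have := digc (a := 0) (b := d) (i := i) β (x := b) (Nat.zero_le _) (by omega)
          fun l _ hl => hb l hl
        simpa [hen, ho, div_lo hxh] using this
      have vz : zE.ev B P en = zb md ctl ρ x i := by
        rw [hzE, zb, Ex.ev_ite]
        by_cases h0 : md = 0
        · obtain ⟨h1, h2⟩ := hm.resolve_left (by simp [h0])
          rw [if_pos (by simp [hen, h0]), if_neg (by simp [h0]), Ex.ev_mod, Ex.ev_div, Ex.ev_mod,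
            Ex.ev_div, pw (x := S') (m := ctl + i - (tgt + n)) (by simp [hen])
              (by simp [hen]; omega) hS (bS _ (by omega))]
          have := digc (a := tgt + n) (b := d) (i := ctl + i)
            (β * Qg ^ d + mr (fun _ => Qg) 0 d b) (x := x) (by omega) (by omega)
            fun l _ hl => (hx l hl).1
          rw [show d - (tgt + n) = D by omega, ← ho] at this
          simp [hen, this]
        · rw [if_neg (by simp [hen, h0]), if_pos h0]; simp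
      have := hc i hi
      cases sb <;> simp only [Ex.ev_mul, Ex.ev_add, vb, vz, if_true, Bool.false_eq_true,
        if_false] at this ⊢ <;> simpa [hen] using this

/-- passes (2) and (4), with the two exchanges -/
theorem pb_ex {q : ℕ} (hq : 2 ≤ q) (hs : SwapStmt q) (sb : Bool) : ∃ (p : Prog) (C : ℕ),
    ∀ (B P : ℕ) (r : Prog) (n w d jg Qg S' H Y k ρ j tgt ctl md : ℕ) (L : List Bool),
    GadOk q C B P w d jg Qg S' H Y k ρ j → n = mu ^ j → tgt + n ≤ d →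
    L.length = w * nM Qg S' d H Y →
    ∃ L' : List Bool, L'.length = w * nM Qg S' d H Y ∧
      Go B P r p [n, w, d, jg, Qg, S', H, Y, k, ρ, j, tgt, ctl, md] L
        [n, w, d, jg, Qg, S', H, Y, k, ρ, j, tgt, ctl, md] L'
        (C * sg ^ (j + jg) * (w * nM Qg S' d H Y : ℕ)) ∧
      ∀ β < w, ∀ b b' x : ℕ → ℕ, (∀ i < d, b i < Qg ∧ b' i < Qg) → (∀ i < d, x i < S') →
        (∀ i, n ≤ i → b' i = b i) →
        (∀ i < n, if sb then b i = b' i + (1 - x (tgt + i) / 2 ^ ρ % 2)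
          else b' i = b i + (1 - x (tgt + i) / 2 ^ ρ % 2)) →
        ∀ y < H * Qg ^ d * Y,
        bit L' (β * nM Qg S' d H Y + nad Qg S' d (H * Qg ^ d * Y) b' x y) =
          bit L (β * nM Qg S' d H Y + nad Qg S' d (H * Qg ^ d * Y) b x y) := by
  set fE : Ex := 1 - .var 1 / .var 6 / Ex.pow (.var 7) (.var 9 + .var 0) % .var 7 / .var 8 % 2
    with hfE
  obtain ⟨p, C, h⟩ := rotd_ex fE 4 sb
  obtain ⟨s, C', h'⟩ := hs
  set eF : Ex := Ex.pow (.var 4) (.var 0) with heF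
  set eG : Ex := Ex.pow (.var 4) (.var 2 - .var 0) with heG
  set eM : Ex := Ex.pow (.var 5) (.var 2) * (.var 6 * eG) with heM
  set sw : Prog := .call [.var 10 + .var 3, .var 1 * eG, eF, eM, .var 7] s with hsw
  refine ⟨sw ;; .call [.var 1 * eG * eF * eM, eF * .var 7, eF * .var 7, .var 4, .var 0, .var 7,
    .var 6 * eG, .var 5, Ex.pow 2 (.var 9), .var 11] p ;; sw, 3 * C + 2 * C' + 5,
    fun B P r n w d jg Qg S' H Y k ρ j tgt ctl md L hG hn ht hL => ?_⟩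
  obtain ⟨hQ, hS, hY, hPY, hR, hn1⟩ := facts hq hG
  rw [← hn] at hn1
  have hw := hG.hw
  have hH := hG.hH
  have hP := hG.hP
  have hB : w * nM Qg S' d H Y ≤ B := by simpa using (hG.mono (C' := 1) (by omega)).hB
  have hB' := (hG.mono (C' := C') (by omega)).hB
  obtain ⟨D, hd⟩ : ∃ D, d = n + D := ⟨d - n, by omega⟩
  have hQd : Qg ^ d = Qg ^ D * Qg ^ n := by rw [hd, pow_add]; ring
  have hN : w * nM Qg S' d H Y = w * Qg ^ D * Qg ^ n * (S' ^ d * (H * Qg ^ D)) * Qg ^ n * Y := by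
    rw [nM, hQd]; ring
  have hN' : w * nM Qg S' d H Y = w * Qg ^ D * Qg ^ n * (S' ^ d * (H * Qg ^ D)) * (Qg ^ n * Y) := by
    rw [hN]; ring
  have hN0 : 0 < w * nM Qg S' d H Y := by rw [hN]; positivity
  have b0 : S' ^ d ≤ B := dv hN0 hB (w * Qg ^ d * (H * Qg ^ d * Y)) (by rw [nM]; ring)
  have bS : ∀ m ≤ d, S' ^ m ≤ B := fun m hm => (Nat.pow_le_pow_right (by omega) hm).trans b0
  have b1 : Qg ^ d ≤ B := dv hN0 hB (w * S' ^ d * (H * Qg ^ d * Y)) (by rw [nM]; ring)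
  have bQ : ∀ m ≤ d, Qg ^ m ≤ B := fun m hm => (Nat.pow_le_pow_right (by omega) hm).trans b1
  have b2 : 2 ^ ρ ≤ B := hR.trans (by simpa using bS 1 (by omega))
  have b3 : w * Qg ^ D * Qg ^ n * (S' ^ d * (H * Qg ^ D)) ≤ B := dv hN0 hB _ hN'
  have b4 : Qg ^ n * Y ≤ B := dv hN0 hB _ (hN'.trans (mul_comm _ _))
  have b5 : H * Qg ^ D ≤ B :=
    dv hN0 hB (w * Qg ^ D * Qg ^ n * S' ^ d * (Qg ^ n * Y)) (by rw [hN]; ring)
  have b6 : w * Qg ^ D ≤ B :=
    dv hN0 hB (Qg ^ n * (S' ^ d * (H * Qg ^ D)) * Qg ^ n * Y) (by rw [hN]; ring)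
  have b7 : S' ^ d * (H * Qg ^ D) ≤ B :=
    dv hN0 hB (w * Qg ^ D * Qg ^ n * Qg ^ n * Y) (by rw [hN]; ring)
  have b8 : j + jg ≤ B := by
    have h1 : WW ^ (j + jg) ≤ Y := le_trans (Nat.le_mul_of_pos_left _ hP) hG.hPY
    have h2 := Nat.pow_le_pow_left two_le_WW (j + jg)
    have h3 := Nat.lt_two_pow_self (n := j + jg)
    have h4 : Y ≤ Qg ^ n * Y := Nat.le_mul_of_pos_left _ (by positivity)
    omega
  have hsw' := h' B P r (j + jg) (w * Qg ^ D) (Qg ^ n) (S' ^ d * (H * Qg ^ D)) Y hP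
    (Q4.one_le (by positivity)) (Q4.one_le (by positivity))
    (by rw [hG.hQ, hn, ← pow_mul, pow_add, mul_comm]) hG.hY hG.hPY (hN ▸ hB')
  obtain ⟨L₁, l1, t1, e1⟩ := hsw' L (hN ▸ hL)
  obtain ⟨L₂, l2, t2, e2⟩ := h B P r (w * Qg ^ D * Qg ^ n * (S' ^ d * (H * Qg ^ D))) (Qg ^ n * Y)
    Qg n Y [H * Qg ^ D, S', 2 ^ ρ, tgt] L₁ hP rfl hQ (Q4.one_le (by positivity)) hY rfl
    (hN' ▸ hB) (by rw [l1]; ring)
  obtain ⟨L₃, l3, t3, e3⟩ := hsw' L₂ (by rw [l2]; ring)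
  set env := [n, w, d, jg, Qg, S', H, Y, k, ρ, j, tgt, ctl, md] with henv
  have vF : eF.ev B P env = Qg ^ n := pw (by simp [henv]) (by simp [henv]) hQ (bQ _ (by omega))
  have vG : eG.ev B P env = Qg ^ D :=
    pw (by simp [henv]) (by simp [henv]; omega) hQ (bQ _ (by omega))
  have vM : eM.ev B P env = S' ^ d * (H * Qg ^ D) := by
    rw [heM, Ex.ev_mul, pw (x := S') (m := d) (by simp [henv]) (by simp [henv]) hS b0,
      Ex.ev_mul, vG]
    simp [henv]
  have vR : (Ex.pow 2 (.var 9)).ev B P env = 2 ^ ρ :=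
    pw (by simp) (by simp [henv]) le_rfl b2
  have hv : [Ex.var 10 + .var 3, .var 1 * eG, eF, eM, .var 7].map (fun a => a.ev B P env) =
      [j + jg, w * Qg ^ D, Qg ^ n, S' ^ d * (H * Qg ^ D), Y] := by
    simp only [List.map_cons, List.map_nil, Ex.ev_mul, Ex.ev_add, vF, vG, vM]
    simp [henv]
  have hok : ∀ v ∈ [j + jg, w * Qg ^ D, Qg ^ n, S' ^ d * (H * Qg ^ D), Y], Ok B env v := by
    simp [Ok, henv, b6, b7, b8, bQ n (by omega)]
  have g1 := Go.call hv hok t1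
  have g3 := Go.call hv hok t3
  have g2 := Go.call (args := [.var 1 * eG * eF * eM, eF * .var 7, eF * .var 7, .var 4, .var 0,
    .var 7, .var 6 * eG, .var 5, Ex.pow 2 (.var 9), .var 11]) (env := env)
    (by simp only [List.map_cons, List.map_nil, Ex.ev_mul, vF, vG, vM, vR]
        simp [henv])
    (by simp [Ok, henv, b2, b3, b4, b5]) t2
  refine ⟨L₃, hN ▸ l3, (g1.seq (g2.seq g3)).mono ?_, fun β hβ b b' x hb hx hbb hc y hy => ?_⟩
  · have k1 : w * Qg ^ D * Qg ^ n * (S' ^ d * (H * Qg ^ D)) * P ≤ w * nM Qg S' d H Y := by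
      rw [hN']
      exact Nat.mul_le_mul_left _ (hPY.trans (Nat.le_mul_of_pos_left _ (by positivity)))
    have k2 : P ≤ w * nM Qg S' d H Y :=
      le_trans (Nat.le_mul_of_pos_left _ (by positivity)) k1
    have k3 : C * (w * Qg ^ D * Qg ^ n * (S' ^ d * (H * Qg ^ D)) * (Qg ^ n * Y) +
        w * Qg ^ D * Qg ^ n * (S' ^ d * (H * Qg ^ D)) * P + P) + 3 * P + 2 ≤
        (3 * C + 5) * (w * nM Qg S' d H Y) := by
      rw [← hN']; nlinarith
    have k4 : (1 : ℝ) ≤ sg ^ (j + jg) := one_le_pow₀ (by linarith [two_le_sg])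
    have k5 : (((w * Qg ^ D : ℕ) : ℝ) * (Qg ^ n : ℕ) * (S' ^ d * (H * Qg ^ D) : ℕ) * (Qg ^ n : ℕ)
        * Y) = (w * nM Qg S' d H Y : ℕ) := by rw [hN]; push_cast; ring
    have k6 : (C : ℝ) * ((w * Qg ^ D * Qg ^ n * (S' ^ d * (H * Qg ^ D)) : ℕ) * (Qg ^ n * Y : ℕ) +
        (w * Qg ^ D * Qg ^ n * (S' ^ d * (H * Qg ^ D)) : ℕ) * P + P) + 3 * P + 2 ≤
        (3 * C + 5) * (w * nM Qg S' d H Y : ℕ) := by exact_mod_cast k3
    rw [k5]
    have k7 := mul_le_mul_of_nonneg_left k4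
      (show (0 : ℝ) ≤ (3 * C + 5) * (w * nM Qg S' d H Y : ℕ) by positivity)
    push_cast at k6 k7 ⊢
    linarith
  · have hbh : mr (fun _ => Qg) n d b < Qg ^ D := by
      simpa [hd] using mr_ltc (a := n) (b := d) fun i _ hi => (hb i hi).1
    have hbl : mr (fun _ => Qg) 0 n b < Qg ^ n := by
      simpa using mr_ltc (a := 0) (b := n) fun i _ hi => (hb i (by omega)).1
    have hbl' : mr (fun _ => Qg) 0 n b' < Qg ^ n := by
      simpa using mr_ltc (a := 0) (b := n) fun i _ hi => (hb i (by omega)).2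
    have hxl : mr (fun _ => S') 0 d x < S' ^ d := by
      simpa using mr_ltc (a := 0) (b := d) fun i _ hi => hx i hi
    have c1 : mr (fun _ => Qg) n d b' = mr (fun _ => Qg) n d b :=
      mr_congr (fun _ _ _ => rfl) fun i h1 _ => hbb i h1
    have sp : ∀ b : ℕ → ℕ, mr (fun _ => Qg) 0 d b =
        mr (fun _ => Qg) n d b * Qg ^ n + mr (fun _ => Qg) 0 n b := fun b => by
      rw [mr_splitc Qg (Nat.zero_le n) (by omega : n ≤ d)]; simp
    obtain ⟨y₁, c, y₀, h1, h2, h3, rfl⟩ : ∃ y₁ c y₀, y₁ < H * Qg ^ D ∧ c < Qg ^ n ∧ y₀ < Y ∧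
        y = (y₁ * Qg ^ n + c) * Y + y₀ := by
      refine ⟨y / Y / Qg ^ n, y / Y % Qg ^ n, y % Y, ?_, Nat.mod_lt _ (by positivity),
        Nat.mod_lt _ hY, by rw [Nat.div_add_mod', Nat.div_add_mod']⟩
      rw [Nat.div_lt_iff_lt_mul (by positivity), Nat.div_lt_iff_lt_mul hY]
      rwa [hQd, ← mul_assoc] at hy
    have ho := Q4.lt_mul hβ hbh
    have hm := Q4.lt_mul hxl h1
    set o := β * Qg ^ D + mr (fun _ => Qg) n d b with ho'
    set m := mr (fun _ => S') 0 d x * (H * Qg ^ D) + y₁ with hm'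
    have a1 := e1 o ho _ hbl m hm c h2 y₀ h3
    have a3 := e3 o ho c h2 m hm _ hbl' y₀ h3
    have a2 := e2 ((o * Qg ^ n + c) * (S' ^ d * (H * Qg ^ D)) + m)
      (Q4.lt_mul (Q4.lt_mul ho h2) hm) b b'
      (fun i hi => ⟨(hb _ (by omega)).1, (hb _ (by omega)).2, ?_⟩) y₀ h3
    · refine Eq.trans (Eq.trans ?_ a3) (Eq.trans (Eq.trans ?_ a2) (Eq.trans (Eq.trans ?_ a1) ?_))
        <;> congr 1
      · rw [nad, nM, sp b', c1, ho', hm', hQd]; ring
      · ring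
      · ring
      · rw [nad, nM, sp b, ho', hm', hQd]; ring
    · set en := i :: ((o * Qg ^ n + c) * (S' ^ d * (H * Qg ^ D)) + m) :: (Qg ^ n * Y) :: Qg :: n ::
        Y :: [H * Qg ^ D, S', 2 ^ ρ, tgt] with hen
      have vf : fE.ev B P en = 1 - x (tgt + i) / 2 ^ ρ % 2 := by
        rw [hfE, Ex.ev_sub, Ex.ev_mod, Ex.ev_div, Ex.ev_mod, Ex.ev_div,
          pw (x := S') (m := tgt + i) (by simp [hen]) (by simp [hen]) hS (bS _ (by omega))]
        have := digc (a := 0) (b := d) (i := tgt + i) (o * Qg ^ n + c) (x := x) (Nat.zero_le _)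
          (by omega) fun l _ hl => hx l hl
        have e : ((o * Qg ^ n + c) * (S' ^ d * (H * Qg ^ D)) + m) / (H * Qg ^ D) =
            (o * Qg ^ n + c) * S' ^ d + mr (fun _ => S') 0 d x := by
          rw [← div_lo (K := (o * Qg ^ n + c) * S' ^ d + mr (fun _ => S') 0 d x) h1, hm']
          congr 1; ring
        simp only [Nat.sub_zero] at this
        simp [hen, e, this]
      rw [vf]; exact hc i hi

theorem arith {a b ρ z : ℕ} (hz : z = 0 ∨ z = 1) :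
    a + z * (2 * b + 1) * 2 ^ ρ = (a ^^^ z * 2 ^ ρ) +
      z * (2 * (b + (1 - (a + z * (2 * b + 1) * 2 ^ ρ) / 2 ^ ρ % 2))) * 2 ^ ρ ∧
    (a + z * (2 * b + 1) * 2 ^ ρ) / 2 ^ ρ % 2 = (a ^^^ z * 2 ^ ρ) / 2 ^ ρ % 2 := by
  rcases hz with rfl | rfl
  · simp
  · have hR : 0 < 2 ^ ρ := by positivity
    have h1 := Nat.div_add_mod (a ^^^ 2 ^ ρ) (2 ^ ρ)
    have h2 := Nat.div_add_mod a (2 ^ ρ)
    simp only [one_mul, Nat.add_mul_div_right _ _ hR, Nat.xor_div_two_pow, Nat.xor_mod_two_pow,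
      Nat.div_self hR, Nat.mod_self, Nat.xor_zero] at h1 ⊢
    rw [← h1]
    generalize a / 2 ^ ρ = h at h2 ⊢
    generalize a % 2 ^ ρ = l at h2 ⊢
    subst h2
    rcases Nat.even_or_odd' h with ⟨m, rfl | rfl⟩
    · rw [Nat.xor_one_of_even ⟨m, by ring⟩, show (2 * m + (2 * b + 1)) % 2 = 1 by omega]
      exact ⟨by simp only [Nat.sub_self]; ring, by omega⟩
    · rw [Nat.xor_one_of_odd ⟨m, rfl⟩, show (2 * m + 1 + (2 * b + 1)) % 2 = 0 by omega]
      exact ⟨by simp only [Nat.add_sub_cancel, Nat.sub_zero]; ring, by omega⟩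

theorem xor_lt {a k ρ z : ℕ} (ha : a < 2 ^ k) (hρ : ρ < k) (hz : z = 0 ∨ z = 1) :
    a ^^^ z * 2 ^ ρ < 2 ^ k := by
  refine Nat.xor_lt_two_pow ha ?_
  rcases hz with rfl | rfl
  · simp
  · simpa using Nat.pow_lt_pow_right (by norm_num) hρ

theorem zb_le (md ctl ρ : ℕ) (x : ℕ → ℕ) (i : ℕ) : zb md ctl ρ x i = 0 ∨ zb md ctl ρ x i = 1 := by
  unfold zb; split_ifs <;> omega

end GA

theorem gad_ex {q : ℕ} (hq : 2 ≤ q) (h : SwapStmt q) :
    ∃ (p : Prog) (C : ℕ), ∀ (B P : ℕ) (r : Prog) (w d jg Qg S' H Y k ρ j tgt ctl md : ℕ)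
      (L : List Bool), GadOk q C B P w d jg Qg S' H Y k ρ j → tgt + mu ^ j ≤ d →
      (md ≠ 0 ∨ (tgt + mu ^ j ≤ ctl ∧ ctl + mu ^ j ≤ d)) → L.length = w * nM Qg S' d H Y →
      ∃ L' : List Bool, Top B P r p [w, d, jg, Qg, S', H, Y, k, ρ, j, tgt, ctl, md] L L'
          (C * sg ^ (j + jg) * (w * nM Qg S' d H Y)) ∧
        Moves w d Qg S' H Y k (fun x i => if tgt ≤ i ∧ i < tgt + mu ^ j then
          x i ^^^ ((if md ≠ 0 then 1 else x (ctl + (i - tgt)) / 2 ^ ρ % 2) * 2 ^ ρ) else x i)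
          L L' := by
  obtain ⟨p₁, C₁, h₁⟩ := GA.pa_ex hq false
  obtain ⟨p₂, C₂, h₂⟩ := GA.pb_ex hq h false
  obtain ⟨p₃, C₃, h₃⟩ := GA.pa_ex hq true
  obtain ⟨p₄, C₄, h₄⟩ := GA.pb_ex hq h true
  refine ⟨.lett (Ex.pow (.cst mu) (.var 9)) (p₁ ;; p₂ ;; p₃ ;; p₄), C₁ + C₂ + C₃ + C₄ + 4,
    fun B P r w d jg Qg S' H Y k ρ j tgt ctl md L hG ht hm hL => ?_⟩
  obtain ⟨hQ, hS, hY, hPY, hR, hn1⟩ := GA.facts hq hG
  have hw := hG.hw
  have hH := hG.hH
  have hG1 := hG.mono (C' := 1) (by omega)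
  have hB : w * nM Qg S' d H Y ≤ B := by simpa using hG1.hB
  have hN0 : 0 < w * nM Qg S' d H Y := by rw [nM]; positivity
  have hPN : P ≤ w * nM Qg S' d H Y := hPY.trans
    (GA.dv hN0 le_rfl (w * Qg ^ d * S' ^ d * H * Qg ^ d) (by rw [nM]; ring))
  have bn : mu ^ j ≤ B := le_trans (by omega) ((Nat.lt_two_pow_self (n := d)).le.trans
    ((Nat.pow_le_pow_left hS _).trans
      (GA.dv hN0 hB (w * Qg ^ d * (H * Qg ^ d * Y)) (by rw [nM]; ring))))
  set n := mu ^ j with hn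
  obtain ⟨L₁, l1, g1, e1⟩ := h₁ B P r n w d jg Qg S' H Y k ρ j tgt ctl md L hG1 hn ht hm hL
  obtain ⟨L₂, l2, g2, e2⟩ := h₂ B P r n w d jg Qg S' H Y k ρ j tgt ctl md L₁
    (hG.mono (by omega)) hn ht l1
  obtain ⟨L₃, l3, g3, e3⟩ := h₃ B P r n w d jg Qg S' H Y k ρ j tgt ctl md L₂ hG1 hn ht hm l2
  obtain ⟨L₄, l4, g4, e4⟩ := h₄ B P r n w d jg Qg S' H Y k ρ j tgt ctl md L₃
    (hG.mono (by omega)) hn ht l3
  have g := Go.lett (e := Ex.pow (.cst mu) (.var 9))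
    (env := [w, d, jg, Qg, S', H, Y, k, ρ, j, tgt, ctl, md])
    (GA.pw (by simp) (by simp) two_le_mu bn) (Or.inl bn) (g1.seq (g2.seq (g3.seq g4)))
  refine ⟨L₄, g.top.mono ?_, l4, fun β hβ b x hb hx y hy => ?_⟩
  · have k4 : (1 : ℝ) ≤ sg ^ (j + jg) := one_le_pow₀ (by linarith [two_le_sg])
    have k1 : (P : ℝ) ≤ (w * nM Qg S' d H Y : ℕ) := by exact_mod_cast hPN
    have k2 : (1 : ℝ) ≤ (w * nM Qg S' d H Y : ℕ) := by exact_mod_cast hN0
    have k7 := mul_le_mul_of_nonneg_left k4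
      (show (0 : ℝ) ≤ (C₁ + C₃ + 4) * (w * nM Qg S' d H Y : ℕ) by positivity)
    push_cast at k1 k2 k7 ⊢
    linarith
  · set z := GA.zb md ctl ρ x with hz
    have hz1 := GA.zb_le md ctl ρ x
    set x₁ : ℕ → ℕ := fun i => if tgt ≤ i ∧ i < tgt + n then
      x i + z (i - tgt) * (2 * b (i - tgt) + 1) * 2 ^ ρ else x i with hx₁
    set x₂ : ℕ → ℕ := fun i => if tgt ≤ i ∧ i < tgt + n then x i ^^^ (z (i - tgt) * 2 ^ ρ)
      else x i with hx₂
    set b₁ : ℕ → ℕ := fun i => if i < n then b i + (1 - x₁ (tgt + i) / 2 ^ ρ % 2) else b i with hb₁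
    have hS' := hG.hS
    have p1 : ∀ i < d, x i < S' := fun i hi => by have := hx i hi; omega
    have p2 : ∀ i < d, x₁ i < S' := fun i hi => by
      simp only [hx₁]
      split_ifs with h0
      · have h1 := hx i hi
        have h2 := hb (i - tgt) (by omega)
        have h3 : z (i - tgt) * (2 * b (i - tgt) + 1) ≤ 2 * Qg := by
          rcases hz1 (i - tgt) with h | h <;> rw [hz, h] <;> omega
        have := Nat.mul_le_mul_right (2 ^ ρ) h3
        omega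
      · exact p1 i hi
    have p3 : ∀ i < d, x₂ i < S' := fun i hi => by
      simp only [hx₂]
      split_ifs with h0
      · exact (GA.xor_lt (hx i hi) hG.hρ (hz1 (i - tgt))).trans_le (by omega)
      · exact p1 i hi
    have p4 : ∀ i < d, b i < Qg := fun i hi => by have := hb i hi; omega
    have p5 : ∀ i < d, b₁ i < Qg := fun i hi => by
      have := hb i hi
      simp only [hb₁]
      split_ifs <;> omega
    have v1 : ∀ i < n, x₁ (tgt + i) = x (tgt + i) + z i * (2 * b i + 1) * 2 ^ ρ := fun i hi => by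
      simp [hx₁, hi]
    have v2 : ∀ i < n, x₂ (tgt + i) = x (tgt + i) ^^^ (z i * 2 ^ ρ) := fun i hi => by
      simp [hx₂, hi]
    have v3 : ∀ i < n, b₁ i = b i + (1 - x₁ (tgt + i) / 2 ^ ρ % 2) := fun i hi => by
      simp [hb₁, hi]
    have v4 : ∀ i < n, GA.zb md ctl ρ x₁ i = z i := fun i hi => by
      rw [hz, GA.zb, GA.zb]
      split_ifs with h0
      · rfl
      · obtain ⟨h1, _⟩ := hm.resolve_left h0
        simp only [hx₁]
        rw [if_neg (by omega)]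
    have a1 := e1 β hβ b x x₁ p4 (fun i hi => ⟨p1 i hi, p2 i hi⟩)
      (fun i hi => by simp only [hx₁]; rw [if_neg hi]) (fun i hi => by simpa using v1 i hi) y hy
    have a2 := e2 β hβ b b₁ x₁ (fun i hi => ⟨p4 i hi, p5 i hi⟩) p2
      (fun i hi => by simp only [hb₁]; rw [if_neg (by omega)])
      (fun i hi => by simpa using v3 i hi) y hy
    have a3 := e3 β hβ b₁ x₁ x₂ p5 (fun i hi => ⟨p2 i hi, p3 i hi⟩)
      (fun i hi => by simp only [hx₁, hx₂]; rw [if_neg hi, if_neg hi])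
      (fun i hi => by
        rw [if_pos rfl, v4 i hi, v3 i hi, v1 i hi, v2 i hi]; exact (GA.arith (hz1 i)).1) y hy
    have a4 := e4 β hβ b₁ b x₂ (fun i hi => ⟨p5 i hi, p4 i hi⟩) p3
      (fun i hi => by simp only [hb₁]; rw [if_neg (by omega)])
      (fun i hi => by
        rw [if_pos rfl, v3 i hi, v1 i hi, v2 i hi, (GA.arith (hz1 i)).2]) y hy
    exact a4.trans (a3.trans (a2.trans a1))

/-- XOR bit `ρ` of chunk `c₀` into the other chunks `c` with `v c` odd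
(chunk `c` = places `off + c n, …, off + c n + n - 1`). -/
def xsm (v : Fin mu → ℤ) (c₀ : Fin mu) (ρ off n : ℕ) (x : ℕ → ℕ) : ℕ → ℕ := fun i =>
  if h : off ≤ i ∧ (i - off) / n < mu ∧ 0 < n then
    (if Odd (v ⟨(i - off) / n, h.2.1⟩) ∧ (i - off) / n ≠ c₀ then
      x i ^^^ (x (off + c₀ * n + (i - off) % n) / 2 ^ ρ % 2 * 2 ^ ρ) else x i)
  else x i

/-- Flip bit `ρ` in the chunks `c` with `v c` odd. -/
def trm (v : Fin mu → ℤ) (ρ off n : ℕ) (x : ℕ → ℕ) : ℕ → ℕ := fun i =>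
  if h : off ≤ i ∧ (i - off) / n < mu ∧ 0 < n then
    (if Odd (v ⟨(i - off) / n, h.2.1⟩) then x i ^^^ 2 ^ ρ else x i)
  else x i

namespace GA

/-- the map realised by a list of gadgets -/
def sqm (l : List ℕ) (c₀ md ρ off n : ℕ) (x : ℕ → ℕ) : ℕ → ℕ := fun i =>
  if off ≤ i ∧ (i - off) / n ∈ l then
    x i ^^^ (zb md (off + c₀ * n) ρ x ((i - off) % n) * 2 ^ ρ) else x i

theorem seq_ex {q : ℕ} (hq : 2 ≤ q) (h : SwapStmt q) (c₀ md : ℕ) (hc₀ : c₀ < mu) (hmd : md ≤ 1)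
    (l : List ℕ) (hl : l.Nodup) (hc : ∀ c ∈ l, c < mu ∧ (md ≠ 0 ∨ c < c₀)) :
    ∃ (p : Prog) (C : ℕ), ∀ (B P : ℕ) (r : Prog) (w d jg Qg S' H Y k ρ j off : ℕ)
      (L : List Bool), GadOk q (C + 1) B P w d jg Qg S' H Y k ρ j → off + mu ^ (j + 1) ≤ d →
      L.length = w * nM Qg S' d H Y →
      ∃ L' : List Bool, Go B P r p [w, d, jg, Qg, S', H, Y, k, ρ, j, off] L
          [w, d, jg, Qg, S', H, Y, k, ρ, j, off] L'
          ((C + 1 : ℕ) * sg ^ (j + jg) * (w * nM Qg S' d H Y)) ∧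
        Moves w d Qg S' H Y k (sqm l c₀ md ρ off (mu ^ j)) L L' := by
  have aux : ∀ {C B P w d jg Qg S' H Y k ρ j : ℕ}, GadOk q (C + 1) B P w d jg Qg S' H Y k ρ j →
      d ≤ B ∧ (P : ℝ) ≤ sg ^ (j + jg) * (w * nM Qg S' d H Y) ∧ (1 : ℝ) ≤ P := by
    intro C B P w d jg Qg S' H Y k ρ j hG
    obtain ⟨hQ, hS, hY, hPY, hR, hn1⟩ := facts hq hG
    have hw := hG.hw
    have hH := hG.hH
    have hB : w * nM Qg S' d H Y ≤ B := by simpa using (hG.mono (C' := 1) (by omega)).hB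
    have hN0 : 0 < w * nM Qg S' d H Y := by rw [nM]; positivity
    have hPN : P ≤ w * nM Qg S' d H Y := hPY.trans
      (dv hN0 le_rfl (w * Qg ^ d * S' ^ d * H * Qg ^ d) (by rw [nM]; ring))
    have k4 : (1 : ℝ) ≤ sg ^ (j + jg) := one_le_pow₀ (by linarith [two_le_sg])
    have k1 : (P : ℝ) ≤ w * nM Qg S' d H Y := by exact_mod_cast hPN
    refine ⟨(Nat.lt_two_pow_self (n := d)).le.trans ((Nat.pow_le_pow_left hS _).trans
      (dv hN0 hB (w * Qg ^ d * (H * Qg ^ d * Y)) (by rw [nM]; ring))),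
      k1.trans (le_mul_of_one_le_left (by positivity) k4), by exact_mod_cast hG.hP⟩
  induction l with
  | nil =>
    refine ⟨.skip, 0, fun B P r w d jg Qg S' H Y k ρ j off L hG ho hL =>
      ⟨L, Go.skip.mono ?_, hL, fun β _ b x _ _ y _ => ?_⟩⟩
    · obtain ⟨_, h2, h3⟩ := aux hG
      push_cast; linarith
    · congr 3; funext i; simp [sqm]
  | cons c l ih =>
    obtain ⟨p₂, C₂, h₂⟩ := ih (List.nodup_cons.1 hl).2 fun c hc' => hc c (by simp [hc'])
    obtain ⟨p₁, C₁, h₁⟩ := gad_ex hq h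
    obtain ⟨hc1, hc2⟩ := hc c (by simp)
    set eN : Ex := Ex.pow (.cst mu) (.var 9) with heN
    refine ⟨.call [.var 0, .var 1, .var 2, .var 3, .var 4, .var 5, .var 6, .var 7, .var 8, .var 9,
      .var 10 + .cst c * eN, .var 10 + .cst c₀ * eN, .cst md] p₁ ;; p₂, C₁ + C₂ + 2,
      fun B P r w d jg Qg S' H Y k ρ j off L hG ho hL => ?_⟩
    obtain ⟨bd, k2, k3⟩ := aux hG
    obtain ⟨-, -, -, -, -, hn1⟩ := facts hq hG
    rw [pow_succ] at ho
    set n := mu ^ j with hn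
    have hlt : ∀ c < mu, off + c * n + n ≤ d := fun c hc => by nlinarith
    have t1 := hlt c hc1
    have t0 := hlt c₀ hc₀
    obtain ⟨L₁, g1, l1, e1⟩ := h₁ B P r w d jg Qg S' H Y k ρ j (off + c * n) (off + c₀ * n) md L
      (hG.mono (by omega)) t1 (hc2.imp_right fun h => ⟨by nlinarith, t0⟩) hL
    obtain ⟨L₂, g2, l2, e2⟩ := h₂ B P r w d jg Qg S' H Y k ρ j off L₁ (hG.mono (by omega))
      (by rw [pow_succ]; exact ho) l1
    have vN : eN.ev B P [w, d, jg, Qg, S', H, Y, k, ρ, j, off] = n :=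
      pw (by simp) (by simp) two_le_mu (by omega)
    have g := Go.call (args := [.var 0, .var 1, .var 2, .var 3, .var 4, .var 5, .var 6, .var 7,
      .var 8, .var 9, .var 10 + .cst c * eN, .var 10 + .cst c₀ * eN, .cst md])
      (env := [w, d, jg, Qg, S', H, Y, k, ρ, j, off])
      (by simp only [List.map_cons, List.map_nil, Ex.ev_mul, Ex.ev_add, vN]; simp)
      (by
        have b1 : off + c * n ≤ B := by omega
        have b2 : off + c₀ * n ≤ B := by omega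
        have b3 : md ≤ B := by omega
        simp [Ok, b1, b2, b3]) g1
    refine ⟨L₂, (g.seq g2).mono ?_, l2, fun β hβ b x hb hx y hy => ?_⟩
    · push_cast; linarith
    · set x₁ : ℕ → ℕ := fun i => if off + c * n ≤ i ∧ i < off + c * n + n then
        x i ^^^ (zb md (off + c₀ * n) ρ x (i - (off + c * n)) * 2 ^ ρ) else x i with hx₁
      have hx' : ∀ i < d, x₁ i < 2 ^ k := fun i hi => by
        simp only [hx₁]
        split_ifs
        · exact xor_lt (hx i hi) hG.hρ (zb_le _ _ _ _ _)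
        · exact hx i hi
      have key : ∀ i, (off + c * n ≤ i ∧ i < off + c * n + n) ↔ (off ≤ i ∧ (i - off) / n = c) :=
        fun i => by
          rw [Nat.div_eq_iff hn1]
          omega
      have e : sqm (c :: l) c₀ md ρ off n x = sqm l c₀ md ρ off n x₁ := by
        funext i
        have hz : zb md (off + c₀ * n) ρ x₁ ((i - off) % n) =
            zb md (off + c₀ * n) ρ x ((i - off) % n) := by
          unfold zb
          split_ifs with h0
          · rfl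
          · have := hc2.resolve_left h0
            simp only [hx₁]
            rw [if_neg (by
              have : c * n + n ≤ c₀ * n := by nlinarith
              omega)]
        simp only [sqm]
        rw [hz]
        simp only [hx₁, key, List.mem_cons]
        by_cases h1 : off ≤ i
        · by_cases h2 : (i - off) / n = c
          · have h3 : (i - off) % n = i - (off + c * n) := by
              have := Nat.div_add_mod' (i - off) n
              rw [h2] at this; omega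
            simp [h1, h2, (List.nodup_cons.1 hl).1, h3]
          · simp [h1, h2]
        · simp [h1]
      rw [e]
      exact (e2 β hβ b x₁ hb hx' y hy).trans (e1 β hβ b x hb hx y hy)

end GA

theorem xs_ex {q : ℕ} (hq : 2 ≤ q) (h : SwapStmt q) (v : Fin mu → ℤ) (c₀ : Fin mu)
    (hc : ∀ c, Odd (v c) → c ≤ c₀) :
    ∃ (p : Prog) (C : ℕ), ∀ (B P : ℕ) (r : Prog) (w d jg Qg S' H Y k ρ j off : ℕ)
      (L : List Bool), GadOk q C B P w d jg Qg S' H Y k ρ j → off + mu ^ (j + 1) ≤ d →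
      L.length = w * nM Qg S' d H Y →
      ∃ L' : List Bool, Top B P r p [w, d, jg, Qg, S', H, Y, k, ρ, j, off] L L'
          (C * sg ^ (j + jg) * (w * nM Qg S' d H Y)) ∧
        Moves w d Qg S' H Y k (xsm v c₀ ρ off (mu ^ j)) L L' := by
  obtain ⟨p, C, hp⟩ := GA.seq_ex hq h c₀ 0 c₀.2 (by omega)
    ((List.range mu).filter fun c => decide (∃ h : c < mu, Odd (v ⟨c, h⟩) ∧ c ≠ c₀))
    (List.nodup_range.filter _) (fun c hc' => by
      obtain ⟨h1, h2, h3⟩ := of_decide_eq_true (List.mem_filter.1 hc').2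
      exact ⟨h1, Or.inr (lt_of_le_of_ne (hc _ h2) h3)⟩)
  refine ⟨p, C + 1, fun B P r w d jg Qg S' H Y k ρ j off L hG ho hL => ?_⟩
  obtain ⟨L', g, e⟩ := hp B P r w d jg Qg S' H Y k ρ j off L hG ho hL
  refine ⟨L', g.top, ?_⟩
  have hn := (GA.facts hq hG).2.2.2.2.2
  convert e using 1
  funext x i
  simp only [xsm, GA.sqm, GA.zb, List.mem_filter, List.mem_range, decide_eq_true_eq]
  by_cases h1 : off ≤ i ∧ (i - off) / mu ^ j < mu
  · rw [dif_pos ⟨h1.1, h1.2, hn⟩]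
    simp [h1.1, h1.2]
  · rw [dif_neg fun h => h1 ⟨h.1, h.2.1⟩, if_neg fun h => h1 ⟨h.1, h.2.1⟩]

theorem tr_ex {q : ℕ} (hq : 2 ≤ q) (h : SwapStmt q) (v : Fin mu → ℤ) :
    ∃ (p : Prog) (C : ℕ), ∀ (B P : ℕ) (r : Prog) (w d jg Qg S' H Y k ρ j off : ℕ)
      (L : List Bool), GadOk q C B P w d jg Qg S' H Y k ρ j → off + mu ^ (j + 1) ≤ d →
      L.length = w * nM Qg S' d H Y →
      ∃ L' : List Bool, Top B P r p [w, d, jg, Qg, S', H, Y, k, ρ, j, off] L L'
          (C * sg ^ (j + jg) * (w * nM Qg S' d H Y)) ∧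
        Moves w d Qg S' H Y k (trm v ρ off (mu ^ j)) L L' := by
  obtain ⟨p, C, hp⟩ := GA.seq_ex hq h 0 1 (by have := two_le_mu; omega) le_rfl
    ((List.range mu).filter fun c => decide (∃ h : c < mu, Odd (v ⟨c, h⟩)))
    (List.nodup_range.filter _) (fun c hc' =>
      ⟨List.mem_range.1 (List.mem_filter.1 hc').1, Or.inl one_ne_zero⟩)
  refine ⟨p, C + 1, fun B P r w d jg Qg S' H Y k ρ j off L hG ho hL => ?_⟩
  obtain ⟨L', g, e⟩ := hp B P r w d jg Qg S' H Y k ρ j off L hG ho hL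
  refine ⟨L', g.top, ?_⟩
  have hn := (GA.facts hq hG).2.2.2.2.2
  convert e using 1
  funext x i
  simp only [trm, GA.sqm, GA.zb, List.mem_filter, List.mem_range, decide_eq_true_eq]
  by_cases h1 : off ≤ i ∧ (i - off) / mu ^ j < mu
  · rw [dif_pos ⟨h1.1, h1.2, hn⟩]
    simp [h1.1, h1.2]
  · rw [dif_neg fun h => h1 ⟨h.1, h.2.1⟩, if_neg fun h => h1 ⟨h.1, h.2.1⟩]

end Crest.Agent.IM
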