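import Crest.Agent.IM.Swap

/-! Auxiliary passes for the XOR gadget: digitwise packed rotations. -/

set_option autoImplicit false
open Finset

namespace Crest.Agent.IM.GA

theorem mr_add {Q n : ℕ} {u u' g : ℕ → ℕ} (h : ∀ i < n, u' i = u i + g i) :
    mr (fun _ => Q) 0 n u' = mr (fun _ => Q) 0 n u + mr (fun _ => Q) 0 n g := by
  unfold mr
  rw [← sum_add_distrib]
  exact sum_congr rfl fun i hi => by rw [h i (mem_Ico.1 hi).2]; ring

theorem mr_ltc {Q a b : ℕ} {u : ℕ → ℕ} (h : ∀ i, a ≤ i → i < b → u i < Q) :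
    mr (fun _ => Q) a b u < Q ^ (b - a) := by
  rw [← pr_const]; exact mr_lt h

theorem mr_shift (Q t n : ℕ) (x : ℕ → ℕ) :
    mr (fun _ => Q) t (t + n) x = mr (fun _ => Q) 0 n (fun i => x (t + i)) := by
  induction n with
  | zero => simp
  | succ n ih =>
    rw [← add_assoc, mr_succ (Nat.le_add_right _ _), mr_succ (Nat.zero_le _), ih, pr_const,
      pr_const]
    simp

theorem mr_splitc (Q : ℕ) {a b c : ℕ} (h1 : a ≤ b) (h2 : b ≤ c) (x : ℕ → ℕ) :
    mr (fun _ => Q) a c x = mr (fun _ => Q) b c x * Q ^ (b - a) + mr (fun _ => Q) a b x := by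
  rw [mr_split h1 h2, pr_const]

theorem digc {Q a b i : ℕ} (K : ℕ) {x : ℕ → ℕ} (h1 : a ≤ i) (h2 : i < b)
    (h : ∀ l, a ≤ l → l < b → x l < Q) :
    (K * Q ^ (b - a) + mr (fun _ => Q) a b x) / Q ^ (i - a) % Q = x i := by
  have hQ : 0 < Q := lt_of_le_of_lt (Nat.zero_le _) (h i h1 h2)
  have e : Q ^ (b - a) = Q ^ (b - i - 1) * Q * Q ^ (i - a) := by
    rw [← pow_succ, ← pow_add]; congr 1; omega
  have := mr_digit (ns := fun _ => Q) (x := x) h1 h2 fun l h3 h4 => h l h3 (by omega)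
  rw [pr_const] at this
  rw [e, ← mul_assoc, add_comm, Nat.add_mul_div_right _ _ (by positivity), ← mul_assoc,
    Nat.add_mul_mod_self_right, this]

theorem div_lo {K m y : ℕ} (h : y < m) : (K * m + y) / m = K := by
  rw [add_comm, Nat.add_mul_div_right _ _ (by omega), Nat.div_eq_of_lt h, zero_add]

/-- digitwise addition or subtraction without carries -/
theorem rotd_ex (f : Ex) (nx : ℕ) (sb : Bool) : ∃ (p : Prog) (C : ℕ), ∀ (B P : ℕ) (r : Prog)
    (O A Q n I : ℕ) (xs : List ℕ) (L : List Bool), 1 ≤ P → xs.length = nx → 2 ≤ Q → 1 ≤ O →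
    1 ≤ I → A = Q ^ n * I → O * A ≤ B → L.length = O * A →
    ∃ L' : List Bool, L'.length = O * A ∧
      Top B P r p (O :: A :: A :: Q :: n :: I :: xs) L L' (C * (O * A + O * P + P)) ∧
      ∀ o < O, ∀ u u' : ℕ → ℕ, (∀ i < n, u i < Q ∧ u' i < Q ∧
        (if sb then u i = u' i + f.ev B P (i :: o :: A :: Q :: n :: I :: xs)
          else u' i = u i + f.ev B P (i :: o :: A :: Q :: n :: I :: xs))) → ∀ y < I,
        bit L' (o * A + (mr (fun _ => Q) 0 n u' * I + y)) =
          bit L (o * A + (mr (fun _ => Q) 0 n u * I + y)) := by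
  set S : Ex := Ex.sum (.var 3) (f * Ex.pow (.var 3) (.var 0) * .var 5) with hS
  obtain ⟨p, C, h⟩ := rot_ex (if sb then .var 1 - S else S) (nx + 4)
  refine ⟨p, C, fun B P r O A Q n I xs L hP hx hQ hO hI hA hB hL => ?_⟩
  have hA1 : 1 ≤ A := by rw [hA]; exact Q4.one_le (by positivity)
  obtain ⟨L', l1, t1, e1⟩ := h B P r O A (A :: Q :: n :: I :: xs) L hP (by simp [hx]) hA1 hB hL
  refine ⟨L', l1, t1, fun o ho u u' hu y hy => ?_⟩
  set g : ℕ → ℕ := fun i => f.ev B P (i :: o :: A :: Q :: n :: I :: xs) with hg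
  have hAB : A ≤ B := Q4.le_of_mul O hO hB (by ring)
  have hQn : Q ^ n ≤ B := Q4.le_of_mul I hI hAB hA
  have hgl : ∀ i, 0 ≤ i → i < n → g i < Q := fun i _ hi => by
    obtain ⟨h1, h2, h3⟩ := hu i hi
    simp only [hg]
    split_ifs at h3 <;> omega
  have hterm : ∀ i ∈ range n, (f * Ex.pow (.var 3) (.var 0) * .var 5).ev B P
      (i :: o :: A :: Q :: n :: I :: xs) = g i * Q ^ i * I := fun i hi => by
    rw [Ex.ev_mul, Ex.ev_mul, Ex.ev_pow (by simpa using hQ) (by
      simpa using (Nat.pow_le_pow_right (by omega) (mem_range.1 hi).le).trans hQn)]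
    simp [hg]
  have hsum : ∑ i ∈ range n, (f * Ex.pow (.var 3) (.var 0) * .var 5).ev B P
      (i :: o :: A :: Q :: n :: I :: xs) = mr (fun _ => Q) 0 n g * I := by
    rw [sum_congr rfl hterm, mr, sum_mul, range_eq_Ico]
    exact sum_congr rfl fun i _ => by rw [pr_const]; simp
  have hlt : ∀ v : ℕ → ℕ, (∀ i, 0 ≤ i → i < n → v i < Q) → ∀ y < I,
      mr (fun _ => Q) 0 n v * I + y < A := fun v hv y hy => by
    rw [hA]; exact Q4.lt_mul (by simpa using mr_ltc hv) hy
  have hgA := hlt g hgl 0 hI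
  have hSv : S.ev B P (o :: A :: Q :: n :: I :: xs) = mr (fun _ => Q) 0 n g * I := by
    rw [hS, Ex.ev_sum]
    · simpa using hsum
    · simpa using Ex.le_size_of_two_pow_le ((Nat.pow_le_pow_left hQ _).trans hQn)
    · simp only [Ex.ev_var, List.getD_cons_succ, List.getD_cons_zero]
      rw [hsum]; omega
  have h1 := hlt u (fun i _ hi => (hu i hi).1) y hy
  have h2 := hlt u' (fun i _ hi => (hu i hi).2.1) y hy
  rw [← e1 o ho _ h1]
  congr 2
  cases sb with
  | true =>
    have := mr_add (Q := Q) (n := n) (u := u') (u' := u) (g := g) fun i hi => by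
      simpa using (hu i hi).2.2
    simp only [if_true, Ex.ev_sub, hSv, Ex.ev_var, List.getD_cons_succ, List.getD_cons_zero]
    have e : mr (fun _ => Q) 0 n u * I + y + (A - mr (fun _ => Q) 0 n g * I) =
        mr (fun _ => Q) 0 n u' * I + y + A := by
      rw [this, add_mul]; omega
    rw [e, Nat.add_mod_right, Nat.mod_eq_of_lt h2]
  | false =>
    have := mr_add (Q := Q) (n := n) (u := u) (u' := u') (g := g) fun i hi => by
      simpa using (hu i hi).2.2
    simp only [Bool.false_eq_true, if_false, hSv]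
    have e : mr (fun _ => Q) 0 n u * I + y + mr (fun _ => Q) 0 n g * I =
        mr (fun _ => Q) 0 n u' * I + y := by
      rw [this, add_mul]; omega
    rw [e, Nat.mod_eq_of_lt h2]

end Crest.Agent.IM.GA
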