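import Crest.Agent.IM.GaussA

/-! TASK IM-G. Gaussian resampling in one dimension (pure analysis).
Take `S k j = ∑' n : ℤ, exp (-π (j + n s - k s / t) ^ 2 / α ^ 2)` and
`E μ j = ∑' l : ℤ, [l ≠ 0 ∧ μ + l t ≡ j mod s] exp (-π α ^ 2 l t (2 m + l t) / s ^ 2)`, `m = gm s μ`.
Poisson summation (`Complex.tsum_exp_neg_quadratic`) gives
`S k j = (α / s) ∑' M : ℤ, exp (-π α ^ 2 M ^ 2 / s ^ 2) e (M (k / t - j / s))`; summing against
`ee σ t (gψ μ * k)` keeps `M ≡ -σ m mod t`. Bounds: `|2 m| < s`, so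
`l t (2 m + l t) ≥ |l| t (|l| t - s) ≥ s ^ 2 (|l| / (2 d) + |l| (|l| - 1))`; tails are geometric,
`exp (-π) ≤ 2⁻¹ ^ 4`. -/

set_option autoImplicit false
open Finset

namespace Crest.Agent.IM

/-- centred representative -/
def gm (s μ : ℕ) : ℤ := if 2 * μ < s then μ else (μ : ℤ) - s

/-- its residue modulo `t` -/
def gψ (s t μ : ℕ) : ℕ := if 2 * μ < s then μ else μ + t - s

/-- resampling weights -/
noncomputable def wS (s t α β l k : ℕ) : ℝ :=
  Real.exp (-Real.pi * (((l : ℝ) - β) * t - (k * s % t : ℕ)) ^ 2 / ((t : ℝ) ^ 2 * α ^ 2))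

/-- resampling indices `⌊k s / t⌋ + l - β mod s` -/
def iS (s t β l k : ℕ) : ℕ := (k * s / t + (l * 1 + (s - β % s))) % s

/-- rescaling weights -/
noncomputable def wG (s t α μ : ℕ) : ℝ :=
  s / (α * t) * Real.exp (Real.pi * α ^ 2 * (gm s μ : ℝ) ^ 2 / s ^ 2)

/-- aliasing weights -/
noncomputable def wE (s t α lam l μ : ℕ) : ℝ :=
  if l = lam then 0 else
    Real.exp (-Real.pi * α ^ 2 * (((l : ℝ) - lam) * t * (2 * gm s μ + ((l : ℝ) - lam) * t)) / s ^ 2)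

/-- aliasing indices `μ + (l - lam) t mod s` -/
def iE (s t lam l μ : ℕ) : ℕ := (μ + (l * t + lam * (2 * s - t))) % s

namespace G

/-- unfolded resampling weights -/
noncomputable def fS (s t α k : ℕ) (z : ℤ) : ℝ :=
  Real.exp (-Real.pi * ((z : ℝ) * t - (k * s % t : ℕ)) ^ 2 / ((t : ℝ) ^ 2 * α ^ 2))

/-- unfolded aliasing weights -/
noncomputable def gE (s t α μ : ℕ) (z : ℤ) : ℝ :=
  if z = 0 then 0 else
    Real.exp (-Real.pi * α ^ 2 * ((z : ℝ) * t * (2 * gm s μ + (z : ℝ) * t)) / s ^ 2)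

theorem gE_nonneg (s t α μ : ℕ) (z : ℤ) : 0 ≤ gE s t α μ z := by
  unfold gE; split_ifs; exacts [le_rfl, (Real.exp_pos _).le]

theorem abs_gm {s μ : ℕ} (h : μ < s) : |2 * (gm s μ : ℝ)| ≤ s := by
  have : |2 * gm s μ| ≤ (s : ℤ) := by unfold gm; split_ifs <;> rw [abs_le] <;> omega
  exact_mod_cast this

theorem sixteen (D n : ℕ) : (16⁻¹ : ℝ) ^ (D + n) ≤ 16⁻¹ ^ D * 2⁻¹ ^ n := by
  rw [pow_add]
  exact mul_le_mul_of_nonneg_left (pow_le_pow_left₀ (by norm_num) (by norm_num) n) (by positivity)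

theorem fS_tail {s t α d : ℕ} (ht : 0 < t) (hα : 0 < α) (hd : 1 ≤ d) (k : ℕ) (z : ℤ)
    (hz : d ^ 2 * α ^ 2 < z.natAbs) :
    fS s t α k z ≤ 16⁻¹ ^ (d ^ 4 * α ^ 2) * 2⁻¹ ^ (z.natAbs - (d ^ 2 * α ^ 2 + 1)) := by
  obtain ⟨n, hn⟩ : ∃ n, z.natAbs = d ^ 2 * α ^ 2 + 1 + n := ⟨_, (Nat.add_sub_cancel' hz).symm⟩
  rw [hn, Nat.add_sub_cancel_left]
  refine le_trans ?_ (sixteen _ _)
  rw [fS, mul_div_assoc]
  refine exp_le_pow ?_
  have ht' : (0 : ℝ) < t := by exact_mod_cast ht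
  have hα' : (1 : ℝ) ≤ α := by exact_mod_cast hα
  have hd' : (1 : ℝ) ≤ d := by exact_mod_cast hd
  have hr : ((k * s % t : ℕ) : ℝ) ≤ t := by exact_mod_cast (Nat.mod_lt _ ht).le
  have hr0 : (0 : ℝ) ≤ (k * s % t : ℕ) := Nat.cast_nonneg _
  have hz' : |(z : ℝ)| = d ^ 2 * α ^ 2 + 1 + n := by
    rw [← Int.cast_abs, ← Int.natCast_natAbs, hn]; push_cast; ring
  have hn0 : (0 : ℝ) ≤ n := Nat.cast_nonneg _
  have h1 : (d ^ 2 * α ^ 2 + n) * t ≤ |(z : ℝ) * t - (k * s % t : ℕ)| := by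
    have := abs_sub_abs_le_abs_sub ((z : ℝ) * t) (k * s % t : ℕ)
    rw [abs_mul, hz', abs_of_pos ht', abs_of_nonneg hr0] at this
    linarith
  rw [le_div_iff₀ (by positivity), ← sq_abs ((z : ℝ) * t - _)]
  refine le_trans ?_ (pow_le_pow_left₀ (by positivity) h1 2)
  rw [mul_pow, mul_comm ((t : ℝ) ^ 2), ← mul_assoc]
  refine mul_le_mul_of_nonneg_right ?_ (by positivity)
  push_cast
  have h2 : (1 : ℝ) ≤ d ^ 2 := one_le_pow₀ hd'
  have h3 : (0 : ℝ) ≤ n * α ^ 2 := by positivity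
  nlinarith [mul_le_mul_of_nonneg_left h2 h3, sq_nonneg (n : ℝ)]

theorem quad_ge {s t μ : ℕ} (hμ : μ < s) (z : ℝ) :
    |z| * t * (|z| * t - s) ≤ z * t * (2 * gm s μ + z * t) := by
  have h1 := abs_gm hμ
  have h2 : -(|z| * t * s) ≤ z * t * (2 * gm s μ) := by
    have := neg_abs_le (z * t * (2 * gm s μ))
    rw [abs_mul, abs_mul, Nat.abs_cast] at this
    have h3 := mul_le_mul_of_nonneg_left h1 (by positivity : 0 ≤ |z| * t)
    linarith
  have h3 : |z| * t * (|z| * t) = z * t * (z * t) := by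
    linear_combination ((t : ℝ) * t) * abs_mul_abs_self z
  linarith

theorem gE_le {s t α μ : ℕ} (hμ : μ < s) (hst : s < t) (z : ℤ) {n : ℕ} (hn : z.natAbs = n + 1) :
    gE s t α μ z ≤ Real.exp (-Real.pi * (α ^ 2 * ((n + 1) * (((t : ℝ) - s) / s + n)))) := by
  rw [gE, if_neg (by omega)]
  refine Real.exp_le_exp.2 ?_
  have hs : (0 : ℝ) < s := by exact_mod_cast (by omega : 0 < s)
  have hst' : (s : ℝ) ≤ t := by exact_mod_cast hst.le
  have hz' : |(z : ℝ)| = n + 1 := by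
    rw [← Int.cast_abs, ← Int.natCast_natAbs, hn]; push_cast; ring
  have h1 := quad_ge (t := t) hμ (z : ℝ)
  rw [hz'] at h1
  have hn0 : (0 : ℝ) ≤ n := Nat.cast_nonneg _
  have h2 : ((n : ℝ) + 1) * ((t - s) / s + n) * s ^ 2 ≤ (n + 1) * t * ((n + 1) * t - s) := by
    have e : ((n : ℝ) + 1) * ((t - s) / s + n) * s ^ 2 = (n + 1) * s * (t - s + n * s) := by
      field_simp
    rw [e]
    refine mul_le_mul (by gcongr) (by nlinarith) (by nlinarith) (by nlinarith)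
  rw [mul_assoc, mul_div_assoc, mul_div_assoc]
  refine mul_le_mul_of_nonpos_left ?_ (by linarith [Real.pi_pos])
  refine mul_le_mul_of_nonneg_left ?_ (by positivity)
  rw [le_div_iff₀ (by positivity)]
  exact h2.trans h1

theorem gE_tail {s t α μ d : ℕ} (hμ : μ < s) (hst : s < t) (hα : 0 < α) (z : ℤ)
    (hz : d ^ 2 < z.natAbs) :
    gE s t α μ z ≤ 16⁻¹ ^ (d ^ 4 * α ^ 2) * 2⁻¹ ^ (z.natAbs - (d ^ 2 + 1)) := by
  obtain ⟨n, hn⟩ : ∃ n, z.natAbs = d ^ 2 + 1 + n := ⟨_, (Nat.add_sub_cancel' hz).symm⟩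
  refine (gE_le hμ hst z (n := d ^ 2 + n) (by omega)).trans ?_
  rw [hn, Nat.add_sub_cancel_left]
  refine le_trans (exp_le_pow ?_) (sixteen _ _)
  have hst' : (s : ℝ) ≤ t := by exact_mod_cast hst.le
  have h1 : 0 ≤ ((t : ℝ) - s) / s := div_nonneg (by linarith) (Nat.cast_nonneg _)
  have hα' : (1 : ℝ) ≤ α ^ 2 := one_le_pow₀ (by exact_mod_cast hα)
  have hn0 : (0 : ℝ) ≤ n := Nat.cast_nonneg _
  have hd : (0 : ℝ) ≤ d ^ 2 := by positivity
  push_cast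
  have h2 : (d : ℝ) ^ 4 + n ≤ (d ^ 2 + n + 1) * ((t - s) / s + (d ^ 2 + n)) := by
    nlinarith [mul_nonneg hd hn0, mul_nonneg hd h1, mul_nonneg hn0 h1, mul_nonneg hn0 hn0]
  nlinarith [mul_le_mul_of_nonneg_left h2 (by positivity : (0 : ℝ) ≤ α ^ 2)]

theorem gE_tail0 {s t α μ d : ℕ} (hμ : μ < s) (hst : s < t) (hα : 0 < α) (hd : 0 < d)
    (hθ : s ≤ 2 * d * (t - s)) (z : ℤ) (hz : 0 < z.natAbs) :
    gE s t α μ z ≤ 4⁻¹ ^ (α ^ 2 / d) * 2⁻¹ ^ (z.natAbs - (0 + 1)) := by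
  obtain ⟨n, hn⟩ : ∃ n, z.natAbs = n + 1 := ⟨z.natAbs - 1, by omega⟩
  refine (gE_le hμ hst z hn).trans ?_
  rw [hn, zero_add, Nat.add_sub_cancel]
  have hs : (0 : ℝ) < s := by exact_mod_cast (by omega : 0 < s)
  have hst' : (s : ℝ) ≤ t := by exact_mod_cast hst.le
  have hθ' : (s : ℝ) ≤ 2 * d * (t - s) := by
    have : ((s : ℕ) : ℝ) ≤ ((2 * d * (t - s) : ℕ) : ℝ) := by exact_mod_cast hθ
    rwa [Nat.cast_mul, Nat.cast_mul, Nat.cast_sub hst.le] at this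
  have hq : ((α ^ 2 / d : ℕ) : ℝ) * d ≤ α ^ 2 := by exact_mod_cast Nat.div_mul_le_self _ _
  have hα' : (1 : ℝ) ≤ α ^ 2 := one_le_pow₀ (by exact_mod_cast hα)
  have hn0 : (0 : ℝ) ≤ n := Nat.cast_nonneg _
  have hd' : (0 : ℝ) < d := by exact_mod_cast hd
  set q := α ^ 2 / d
  have hq0 : (0 : ℝ) ≤ q := Nat.cast_nonneg _
  set θ : ℝ := ((t : ℝ) - s) / s with hθd
  have h1 : 1 ≤ 2 * d * θ := by rw [hθd, ← mul_div_assoc, le_div_iff₀ hs]; linarith
  have h0 : 0 ≤ θ := div_nonneg (by linarith) hs.le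
  have h2 : (q : ℝ) ≤ 2 * (α ^ 2 * θ) := by
    have := mul_le_mul_of_nonneg_left h1 hq0
    nlinarith [mul_le_mul_of_nonneg_right hq h0]
  have h3 : ((q + 2 * n : ℕ) : ℝ) ≤ 2 * (α ^ 2 * ((n + 1) * (θ + n))) := by
    push_cast
    have h4 : θ + n ≤ (n + 1) * (θ + n) := by nlinarith
    nlinarith [mul_le_mul_of_nonneg_left h4 (by positivity : (0 : ℝ) ≤ α ^ 2)]
  have h5 := exp_le_pow h3
  rw [← mul_assoc, mul_comm _ (2 : ℝ), mul_assoc, show (2 : ℝ) = (2 : ℕ) by norm_num,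
    Real.exp_nat_mul, show (16⁻¹ : ℝ) = 4⁻¹ ^ 2 by norm_num, ← pow_mul, mul_comm 2, pow_mul] at h5
  refine (le_of_sq_le_sq h5 (by positivity)).trans ?_
  rw [pow_add, pow_mul]
  exact mul_le_mul_of_nonneg_left (pow_le_pow_left₀ (by norm_num) (by norm_num) n) (by positivity)

theorem iS_iff {s : ℕ} (hs : 0 < s) (t β l k j : ℕ) :
    iS s t β l k = j ↔ (((k * s / t : ℕ) : ℤ) + ((l : ℤ) - β)) % s = j := by
  have : (((k * s / t : ℕ) : ℤ) + ((l : ℤ) - β)) % s = (iS s t β l k : ℕ) := by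
    rw [iS, Int.natCast_mod]
    refine Int.modEq_iff_dvd.2 ⟨1 + (β / s : ℕ), ?_⟩
    have h1 : ((β % s : ℕ) : ℤ) + s * (β / s : ℕ) = β := by exact_mod_cast Nat.mod_add_div β s
    rw [Nat.cast_add, Nat.cast_add, Nat.cast_sub (Nat.mod_lt _ hs).le, mul_one]
    linarith
  rw [this, Nat.cast_inj]

theorem iE_iff {s t : ℕ} (hts : t ≤ 2 * s) (lam l μ j : ℕ) :
    iE s t lam l μ = j ↔ ((μ : ℤ) + ((l : ℤ) - lam) * t) % s = j := by
  have : ((μ : ℤ) + ((l : ℤ) - lam) * t) % s = (iE s t lam l μ : ℕ) := by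
    rw [iE, Int.natCast_mod]
    refine Int.modEq_iff_dvd.2 ⟨2 * lam, ?_⟩
    push_cast [Nat.cast_sub hts]
    ring
  rw [this, Nat.cast_inj]

theorem wE_eq (s t α lam l μ : ℕ) : wE s t α lam l μ = gE s t α μ ((l : ℤ) - lam) := by
  unfold wE gE
  by_cases h : l = lam
  · simp [h]
  · rw [if_neg h, if_neg (by omega)]; push_cast; rfl

theorem four_mul_le {D : ℕ} (hD : 1 ≤ D) : 4 * (16⁻¹ : ℝ) ^ D ≤ 2⁻¹ ^ D := by
  rw [show (16⁻¹ : ℝ) = 8⁻¹ * 2⁻¹ by norm_num, mul_pow, ← mul_assoc]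
  refine mul_le_of_le_one_left (by positivity) ?_
  have : (8⁻¹ : ℝ) ^ D ≤ 8⁻¹ ^ 1 := pow_le_pow_of_le_one (by norm_num) (by norm_num) hD
  linarith

theorem main {s t α μ j : ℕ} (hα : 0 < α) (hμ : μ < s) (hst : s < t) (hj : j < s) {σ : ℤ}
    (hσ : σ * σ = 1) (hg : Summable (gE s t α μ)) :
    (wG s t α μ : ℂ) * ∑ k ∈ range t, ee σ t (gψ s t μ * k) *
        (fold s (fun z => ((k * s / t : ℕ) : ℤ) + z) (fS s t α k) j : ℝ) =
      ee σ s (μ * j) + ∑ μ' ∈ range s,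
        (fold s (fun z => (μ : ℤ) + z * t) (gE s t α μ) μ' : ℂ) * ee σ s (μ' * j) := by
  have hs : 0 < s := by omega
  have ht : 0 < t := by omega
  have hα' : (α : ℂ) ≠ 0 := by exact_mod_cast hα.ne'
  have hs' : (s : ℂ) ≠ 0 := by exact_mod_cast hs.ne'
  have ht' : (t : ℂ) ≠ 0 := by exact_mod_cast ht.ne'
  set G : ℤ → ℝ := fun M => Real.exp (-Real.pi * ((α : ℝ) ^ 2 / s ^ 2) * (M : ℝ) ^ 2) with hG
  have hGs : Summable G := summable_gauss (by positivity)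
  have hsum : ∀ c : ℤ → ℂ, (∀ M, ‖c M‖ = 1) → Summable fun M => (G M : ℂ) * c M := by
    intro c hc
    refine Summable.of_norm (hGs.congr fun M => ?_)
    rw [norm_mul, hc, mul_one, Complex.norm_real, Real.norm_of_nonneg (Real.exp_pos _).le]
  have e1 : ∀ k : ℕ, ((fold s (fun z => ((k * s / t : ℕ) : ℤ) + z) (fS s t α k) j : ℝ) : ℂ) =
      α / s * ∑' M : ℤ, (G M : ℂ) * (ce t (M * k) * ce s (-(M * j))) := by
    intro k
    rw [fold_shift hj, ← poisson hα hs ht k j]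
    congr 1
    refine tsum_congr fun n => ?_
    have h1 : ((k * s % t : ℕ) : ℝ) + t * (k * s / t : ℕ) = k * s := by
      exact_mod_cast Nat.mod_add_div (k * s) t
    unfold fS
    congr 3
    rw [Int.cast_sub, Int.cast_add, Int.cast_mul, Int.cast_natCast, Int.cast_natCast,
      Int.cast_natCast]
    congr 1
    linarith
  obtain ⟨ε, hε⟩ : ∃ ε : ℤ, (gψ s t μ : ℤ) = gm s μ + ε * t := by
    unfold gψ gm
    split_ifs
    · exact ⟨0, by simp⟩
    · exact ⟨1, by omega⟩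
  obtain ⟨ε', hε'⟩ : ∃ ε : ℤ, gm s μ = μ + ε * s := by
    unfold gm
    split_ifs
    · exact ⟨0, by simp⟩
    · exact ⟨-1, by omega⟩
  set m := gm s μ with hm
  have e2 : ∑ k ∈ range t, ee σ t (gψ s t μ * k) *
      (fold s (fun z => ((k * s / t : ℕ) : ℤ) + z) (fS s t α k) j : ℝ) =
      α / s * ∑' M : ℤ, (if (t : ℤ) ∣ σ * gψ s t μ + M then
        (t : ℂ) * (G M * ce s (-(M * j))) else 0) := by
    have h0 : ∀ k : ℕ, ee σ t (gψ s t μ * k) *
        (fold s (fun z => ((k * s / t : ℕ) : ℤ) + z) (fS s t α k) j : ℝ) = α / s *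
        ∑' M : ℤ, ee σ t (gψ s t μ * k) * (G M * (ce t (M * k) * ce s (-(M * j)))) := by
      intro k; rw [e1, tsum_mul_left]; ring
    simp only [h0]
    rw [← mul_sum, ← Summable.tsum_finsetSum fun (k : ℕ) _ =>
      (hsum (fun M => ce t (M * k) * ce s (-(M * j))) fun M => by
        rw [norm_mul, norm_ce, norm_ce, one_mul]).mul_left _]
    congr 1
    refine tsum_congr fun M => ?_
    have h1 : ∀ k : ℕ, ee σ t (gψ s t μ * k) * (G M * (ce t (M * k) * ce s (-(M * j)))) =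
        ce t ((σ * gψ s t μ + M) * k) * (G M * ce s (-(M * j))) := by
      intro k
      rw [ee_eq, add_mul, ce_add, Nat.cast_mul, mul_assoc σ]; ring
    simp only [h1, ← sum_mul, sum_ce ht]
    split_ifs <;> simp
  have hinj : Function.Injective fun z : ℤ => -σ * (m + z * t) := by
    intro a b h
    have h1 : σ ≠ 0 := by rintro rfl; simp at hσ
    have h2 := mul_left_cancel₀ (neg_ne_zero.2 h1) h
    exact mul_right_cancel₀ (by omega : (t : ℤ) ≠ 0) (add_left_cancel h2)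
  rw [e2, ← hinj.tsum_eq]
  swap
  · intro M hM
    have h1 : (t : ℤ) ∣ σ * gψ s t μ + M := by
      by_contra h
      exact hM (if_neg h)
    obtain ⟨c, hc⟩ := h1
    refine ⟨ε - σ * c, ?_⟩
    simp only
    rw [hε] at hc
    linear_combination (-1 : ℤ) * hc + (c * t) * hσ
  rw [fold_pair hs _ hg fun μ' => ee σ s (μ' * j), ← mul_assoc, ← tsum_mul_left]
  have e3 : ∀ z : ℤ, (wG s t α μ : ℂ) * (α / s) *
      (if (t : ℤ) ∣ σ * gψ s t μ + -σ * (m + z * t) then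
        (t : ℂ) * (G (-σ * (m + z * t)) * ce s (-(-σ * (m + z * t) * j))) else 0) =
      (if z = 0 then ee σ s (μ * j) else 0) +
        gE s t α μ z * ee σ s ((((μ : ℤ) + z * t) % s).toNat * j) := by
    intro z
    rw [if_pos ⟨σ * (ε - z), by rw [hε]; ring⟩]
    have h1 : ce s (-(-σ * (m + z * t) * j)) = ee σ s ((((μ : ℤ) + z * t) % s).toNat * j) := by
      rw [ee_eq]
      refine ce_congr hs ⟨σ * j * (ε' + ((μ : ℤ) + z * t) / s), ?_⟩
      have := Int.emod_add_mul_ediv ((μ : ℤ) + z * t) s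
      rw [Nat.cast_mul, Int.toNat_of_nonneg (Int.emod_nonneg _ (by omega)), hε']
      linear_combination (-σ * j) * this
    have h2 : wG s t α μ * (α / s) * (t * G (-σ * (m + z * t))) =
        Real.exp (-Real.pi * α ^ 2 * ((z : ℝ) * t * (2 * m + (z : ℝ) * t)) / s ^ 2) := by
      have h3 : (σ : ℝ) * σ = 1 := by exact_mod_cast hσ
      have h4 : G (-σ * (m + z * t)) = Real.exp (-(Real.pi * α ^ 2 * (m : ℝ) ^ 2 / s ^ 2)) *
          Real.exp (-Real.pi * α ^ 2 * ((z : ℝ) * t * (2 * m + (z : ℝ) * t)) / s ^ 2) := by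
        rw [← Real.exp_add, hG]
        simp only
        congr 1
        push_cast
        linear_combination (-Real.pi * ((α : ℝ) ^ 2 / s ^ 2) * (m + z * t) ^ 2) * h3
      have h5 : (α : ℝ) ≠ 0 := by positivity
      have h6 : (s : ℝ) ≠ 0 := by positivity
      have h7 : (t : ℝ) ≠ 0 := by positivity
      rw [h4, wG, Real.exp_neg, ← hm]
      field_simp
    have h3 := congrArg (fun x : ℝ => (x : ℂ)) h2
    simp only [Complex.ofReal_mul, Complex.ofReal_div, Complex.ofReal_natCast] at h3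
    rw [h1, ← mul_assoc (t : ℂ), ← mul_assoc, h3, gE]
    split_ifs with hz
    · subst hz
      have : ((μ : ℤ) % s).toNat = μ := by
        rw [Int.emod_eq_of_lt (by omega) (by omega), Int.toNat_natCast]
      simp [this]
    · simp [hm]
  simp only [e3]
  rw [Summable.tsum_add (hasSum_ite_eq (0 : ℤ) _).summable, tsum_ite_eq]
  refine Summable.of_norm (hg.congr fun z => ?_)
  rw [norm_mul, ee_eq, norm_ce, mul_one, Complex.norm_real, Real.norm_of_nonneg (gE_nonneg ..)]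

end G

open G in
theorem gauss (d α s t : ℕ) (hd : 2 ≤ d) (hα : 2 * d ≤ α ^ 2) (hs : Odd s) (hst : s < t)
    (hts : t ≤ 2 * s) (hθ : s ≤ 2 * d * (t - s)) :
    ∃ S E : ℕ → ℕ → ℝ,
      (∀ k < t, ∑ j ∈ range s, |S k j - ∑ l ∈ range (2 * (d ^ 2 * α ^ 2) + 1),
          if iS s t (d ^ 2 * α ^ 2) l k = j then wS s t α (d ^ 2 * α ^ 2) l k else 0| ≤
        2⁻¹ ^ (d ^ 4 * α ^ 2)) ∧
      (∀ μ < s, ∑ j ∈ range s, |E μ j - ∑ l ∈ range (2 * d ^ 2 + 1),
          if iE s t (d ^ 2) l μ = j then wE s t α (d ^ 2) l μ else 0| ≤ 2⁻¹ ^ (d ^ 4 * α ^ 2)) ∧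
      (∀ μ < s, ∑ j ∈ range s, |E μ j| ≤ 2⁻¹ ^ (α ^ 2 / d)) ∧
      (∀ μ < s, 0 ≤ wG s t α μ ∧ wG s t α μ ≤ 2 ^ (2 * α ^ 2)) ∧
      (∀ μ < s, ∀ l, 0 ≤ wE s t α (d ^ 2) l μ ∧ wE s t α (d ^ 2) l μ ≤ 1) ∧
      ∀ σ : ℤ, σ = 1 ∨ σ = -1 → ∀ μ < s, ∀ j < s,
        (wG s t α μ : ℂ) * ∑ k ∈ range t, ee σ t (gψ s t μ * k) * S k j =
          ee σ s (μ * j) + ∑ μ' ∈ range s, (E μ μ' : ℂ) * ee σ s (μ' * j) := by
  have hs0 : 0 < s := hs.pos
  have hα0 : 0 < α := by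
    rcases Nat.eq_zero_or_pos α with h | h
    · subst h; omega
    · exact h
  have hD : 1 ≤ d ^ 4 * α ^ 2 := Nat.mul_pos (by positivity) (by positivity)
  have hg : ∀ μ < s, Summable (gE s t α μ) := fun μ hμ =>
    summable_of_tail (summable_tail (gE_nonneg s t α μ) (gE_tail (d := d) hμ hst hα0))
  refine ⟨fun k j => fold s (fun z => ((k * s / t : ℕ) : ℤ) + z) (fS s t α k) j,
    fun μ j => fold s (fun z => (μ : ℤ) + z * t) (gE s t α μ) j, fun k _ => ?_, fun μ hμ => ?_,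
    fun μ hμ => ?_, fun μ hμ => ?_, fun μ hμ l => ?_, fun σ hσ μ hμ j hj => ?_⟩
  · refine le_trans (le_of_eq ?_) ((fold_approx hs0 (fun z => ((k * s / t : ℕ) : ℤ) + z)
      (fun z => (Real.exp_pos _).le) (fS_tail (s := s) (d := d) (by omega : 0 < t) hα0 (by omega) k)).trans
      (four_mul_le hD))
    refine sum_congr rfl fun j _ => ?_
    congr 2
    refine sum_congr rfl fun l _ => ?_
    simp only [iS_iff hs0]
    congr 1
    unfold wS
    rw [Int.cast_sub, Int.cast_natCast, Int.cast_natCast]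
  · refine le_trans (le_of_eq ?_) ((fold_approx hs0 (fun z => (μ : ℤ) + z * t)
      (gE_nonneg s t α μ) (gE_tail (d := d) hμ hst hα0)).trans (four_mul_le hD))
    simp only [iE_iff hts, wE_eq]
  · rw [sum_abs_fold hs0 _ (gE_nonneg s t α μ) (hg μ hμ)]
    have h1 := tsum_tail (gE_nonneg s t α μ) (gE_tail0 hμ hst hα0 (by omega : 0 < d) hθ)
    have h2 : ∀ z : ℤ, (if 0 < z.natAbs then gE s t α μ z else 0) = gE s t α μ z := by
      intro z
      split_ifs with h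
      · rfl
      · rw [gE, if_pos (by omega)]
    simp only [h2] at h1
    refine h1.trans ?_
    have h3 : 2 ≤ α ^ 2 / d := (Nat.le_div_iff_mul_le (by omega)).2 hα
    rw [show (4⁻¹ : ℝ) = 2⁻¹ * 2⁻¹ by norm_num, mul_pow, ← mul_assoc]
    refine mul_le_of_le_one_left (by positivity) ?_
    have : (2⁻¹ : ℝ) ^ (α ^ 2 / d) ≤ 2⁻¹ ^ 2 := pow_le_pow_of_le_one (by norm_num) (by norm_num) h3
    linarith
  · refine ⟨by unfold wG; positivity, ?_⟩
    have h1 : (s : ℝ) / (α * t) ≤ 1 := by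
      refine div_le_one_of_le₀ ?_ (by positivity)
      have : s ≤ α * t := hst.le.trans (Nat.le_mul_of_pos_left _ hα0)
      exact_mod_cast this
    refine (mul_le_of_le_one_left (Real.exp_pos _).le h1).trans ?_
    have h2 : (2 * (gm s μ : ℝ)) ^ 2 ≤ (s : ℝ) ^ 2 := by
      rw [← sq_abs]; exact pow_le_pow_left₀ (abs_nonneg _) (abs_gm hμ) 2
    have h3 : Real.pi * α ^ 2 * (gm s μ : ℝ) ^ 2 / s ^ 2 ≤ ((α ^ 2 : ℕ) : ℝ) * 1 := by
      rw [div_le_iff₀ (by positivity)]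
      push_cast
      have h4 : Real.pi * (gm s μ : ℝ) ^ 2 ≤ (s : ℝ) ^ 2 := by
        nlinarith [Real.pi_le_four, sq_nonneg (gm s μ : ℝ)]
      nlinarith [mul_le_mul_of_nonneg_left h4 (by positivity : (0 : ℝ) ≤ α ^ 2)]
    refine (Real.exp_le_exp.2 h3).trans ?_
    rw [Real.exp_nat_mul, pow_mul]
    exact pow_le_pow_left₀ (Real.exp_pos _).le (by linarith [Real.exp_one_lt_d9]) _
  · rw [wE_eq]
    refine ⟨gE_nonneg .., ?_⟩
    by_cases h : (l : ℤ) - (d ^ 2 : ℕ) = 0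
    · rw [gE, if_pos h]; norm_num
    · refine (gE_le hμ hst _ (n := ((l : ℤ) - (d ^ 2 : ℕ)).natAbs - 1) (by omega)).trans ?_
      rw [Real.exp_le_one_iff]
      have h1 : 0 ≤ ((t : ℝ) - s) / s :=
        div_nonneg (sub_nonneg.2 (by exact_mod_cast hst.le)) (Nat.cast_nonneg _)
      exact mul_nonpos_of_nonpos_of_nonneg (by linarith [Real.pi_pos]) (by positivity)
  · exact main hα0 hμ hst hj (by rcases hσ with rfl | rfl <;> norm_num) (hg μ hμ)

end Crest.Agent.IM
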