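import Crest.Agent.IM.Fft

/-! Auxiliary lemmas for IM-G: folded sums over `ℤ`, geometric tails, characters, Poisson. -/

set_option autoImplicit false
open Finset

namespace Crest.Agent.IM.G

theorem hasSum_geo (β : ℕ) :
    HasSum (fun z : ℤ => if β < z.natAbs then (2⁻¹ : ℝ) ^ (z.natAbs - (β + 1)) else 0) 4 := by
  have h1 : HasSum (fun n : ℕ => if β < n + 1 then (2⁻¹ : ℝ) ^ (n + 1 - (β + 1)) else 0) 2 := by
    rw [← hasSum_nat_add_iff' β]
    rw [sum_eq_zero fun i hi => if_neg (by have := mem_range.1 hi; omega), sub_zero]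
    have e : (fun n : ℕ => if β < n + β + 1 then (2⁻¹ : ℝ) ^ (n + β + 1 - (β + 1)) else 0) =
        fun n : ℕ => (1 / 2 : ℝ) ^ n := by
      funext n
      rw [if_pos (by omega), show n + β + 1 - (β + 1) = n by omega, one_div]
    rw [e]
    exact hasSum_geometric_two
  have h2 := HasSum.of_add_one_of_neg_add_one
    (f := fun z : ℤ => if β < z.natAbs then (2⁻¹ : ℝ) ^ (z.natAbs - (β + 1)) else 0)
    (m := 2) (m' := 2) (by simpa [Int.natAbs_add_of_nonneg] using h1)
    (by simpa only [Int.natAbs_neg] using (by simpa [Int.natAbs_add_of_nonneg] using h1))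
  norm_num at h2 ⊢
  exact h2

section tail
variable {f : ℤ → ℝ} {β : ℕ} {c : ℝ} (h0 : ∀ z, 0 ≤ f z)
  (hf : ∀ z : ℤ, β < z.natAbs → f z ≤ c * 2⁻¹ ^ (z.natAbs - (β + 1)))
include h0 hf

omit h0 in
theorem tail_le (z : ℤ) : (if β < z.natAbs then f z else 0) ≤
    c * if β < z.natAbs then (2⁻¹ : ℝ) ^ (z.natAbs - (β + 1)) else 0 := by
  split_ifs with h
  · exact hf z h
  · simp

theorem summable_tail : Summable fun z : ℤ => if β < z.natAbs then f z else 0 :=
  Summable.of_nonneg_of_le (fun z => by split_ifs; exacts [h0 z, le_rfl]) (tail_le hf)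
    ((hasSum_geo β).summable.mul_left c)

theorem tsum_tail : ∑' z : ℤ, (if β < z.natAbs then f z else 0) ≤ 4 * c := by
  refine ((summable_tail h0 hf).tsum_le_tsum (tail_le hf)
    ((hasSum_geo β).summable.mul_left c)).trans ?_
  rw [tsum_mul_left, (hasSum_geo β).tsum_eq, mul_comm]

end tail

theorem hasSum_head (f : ℤ → ℝ) (β : ℕ) :
    HasSum (fun z : ℤ => if β < z.natAbs then 0 else f z)
      (∑ l ∈ range (2 * β + 1), f ((l : ℤ) - β)) := by
  have h1 : ∑ l ∈ range (2 * β + 1), f ((l : ℤ) - β) =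
      ∑ z ∈ Finset.Icc (-(β : ℤ)) β, if β < z.natAbs then 0 else f z := by
    refine sum_nbij' (fun l => (l : ℤ) - β) (fun z => (z + β).toNat) ?_ ?_ ?_ ?_ ?_
    · intro l hl; simp only [mem_range, mem_Icc] at *; omega
    · intro l hl; simp only [mem_range, mem_Icc] at *; omega
    · intro l _; simp
    · intro l hl; simp only [mem_Icc] at *; omega
    · intro l hl; rw [if_neg (by simp only [mem_range] at *; omega)]
  rw [h1]
  exact hasSum_sum_of_ne_finset_zero fun z hz => if_pos (by simp only [mem_Icc] at *; omega)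

theorem summable_of_tail {f : ℤ → ℝ} {β : ℕ}
    (h : Summable fun z : ℤ => if β < z.natAbs then f z else 0) : Summable f := by
  convert h.add (hasSum_head f β).summable using 2 with z
  split_ifs <;> simp

/-- `f` folded modulo `s` along `r` -/
noncomputable def fold (s : ℕ) (r : ℤ → ℤ) (f : ℤ → ℝ) (j : ℕ) : ℝ :=
  ∑' z, if r z % s = j then f z else 0

theorem summable_ite {f : ℤ → ℝ} (hf : Summable f) (p : ℤ → Prop) [DecidablePred p] :
    Summable fun z => if p z then f z else 0 := by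
  exact (hf.indicator {z | p z}).congr fun z => by simp [Set.indicator_apply]

theorem sum_ite_mod {V : Type} [AddCommMonoid V] {s : ℕ} (hs : 0 < s) (a : ℤ) (g : ℕ → V) :
    ∑ j ∈ range s, (if a % s = j then g j else 0) = g (a % s).toNat := by
  have h1 : 0 ≤ a % s := Int.emod_nonneg _ (by omega)
  have h2 : a % s < s := Int.emod_lt_of_pos _ (by omega)
  rw [sum_eq_single (a % s).toNat (fun j _ hj => if_neg (by omega))
    (fun h => absurd (mem_range.2 (by omega)) h), if_pos (by omega)]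

theorem sum_abs_fold {s : ℕ} (hs : 0 < s) (r : ℤ → ℤ) {f : ℤ → ℝ} (h0 : ∀ z, 0 ≤ f z)
    (hf : Summable f) : ∑ j ∈ range s, |fold s r f j| = ∑' z, f z := by
  rw [sum_congr rfl fun j _ => abs_of_nonneg (tsum_nonneg fun z => by
    split_ifs; exacts [h0 z, le_rfl])]
  unfold fold
  rw [← Summable.tsum_finsetSum fun j _ => summable_ite hf _]
  exact tsum_congr fun z => sum_ite_mod hs _ fun _ => f z

theorem fold_approx {s : ℕ} (hs : 0 < s) (r : ℤ → ℤ) {f : ℤ → ℝ} {β : ℕ} {c : ℝ}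
    (h0 : ∀ z, 0 ≤ f z) (hf : ∀ z : ℤ, β < z.natAbs → f z ≤ c * 2⁻¹ ^ (z.natAbs - (β + 1))) :
    ∑ j ∈ range s, |fold s r f j - ∑ l ∈ range (2 * β + 1),
      if r ((l : ℤ) - β) % s = j then f ((l : ℤ) - β) else 0| ≤ 4 * c := by
  have h1 := summable_tail h0 hf
  refine le_trans (le_of_eq ?_) (tsum_tail h0 hf)
  rw [← sum_abs_fold hs r (fun z => by split_ifs; exacts [h0 z, le_rfl]) h1]
  refine sum_congr rfl fun j _ => ?_
  congr 1
  have h2 := hasSum_head (fun z => if r z % s = j then f z else 0) β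
  rw [sub_eq_iff_eq_add, ← h2.tsum_eq, fold, fold, ← (summable_ite h1 _).tsum_add h2.summable]
  exact tsum_congr fun z => by split_ifs <;> simp

theorem fold_pair {s : ℕ} (hs : 0 < s) (r : ℤ → ℤ) {f : ℤ → ℝ} (hf : Summable f) (g : ℕ → ℂ) :
    ∑ j ∈ range s, (fold s r f j : ℂ) * g j = ∑' z, (f z : ℂ) * g (r z % s).toNat := by
  simp only [fold, Complex.ofReal_tsum, ← tsum_mul_right]
  rw [← Summable.tsum_finsetSum fun j _ =>
    (Complex.summable_ofReal.2 (summable_ite hf _)).mul_right _]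
  refine tsum_congr fun z => ?_
  rw [← sum_ite_mod hs (r z) fun j => (f z : ℂ) * g j]
  exact sum_congr rfl fun j _ => by split_ifs <;> simp

theorem fold_shift {s j : ℕ} (hj : j < s) (q : ℤ) (f : ℤ → ℝ) :
    fold s (fun z => q + z) f j = ∑' n : ℤ, f (j + n * s - q) := by
  have hinj : Function.Injective fun n : ℤ => (j : ℤ) + n * s - q := by
    intro a b h
    have : a * s = b * s := by simp only at h; omega
    exact mul_right_cancel₀ (by omega) this
  rw [fold, ← hinj.tsum_eq]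
  · refine tsum_congr fun n => if_pos ?_
    rw [show q + (j + n * s - q) = j + n * s by ring, Int.add_mul_emod_self_right,
      Int.emod_eq_of_lt (by omega) (by omega)]
  · intro z hz
    have h1 : (q + z) % s = j := by
      by_contra h
      exact hz (if_neg h)
    refine ⟨(q + z) / s, ?_⟩
    have := Int.emod_add_ediv_mul (q + z) s
    simp only
    omega

/-- `exp (2 π i a / n)` -/
noncomputable def ce (n : ℕ) (a : ℤ) : ℂ := Complex.exp (2 * Real.pi * Complex.I * a / n)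

theorem ee_eq (σ : ℤ) (n a : ℕ) : ee σ n a = ce n (σ * a) := by
  unfold ee ce; congr 1; push_cast; ring

theorem ce_add (n : ℕ) (a b : ℤ) : ce n (a + b) = ce n a * ce n b := by
  unfold ce; rw [← Complex.exp_add]; congr 1; push_cast; ring

theorem ce_eq_one_iff {n : ℕ} (hn : 0 < n) (a : ℤ) : ce n a = 1 ↔ (n : ℤ) ∣ a := by
  have h0 : (n : ℂ) ≠ 0 := by exact_mod_cast hn.ne'
  have h1 : (2 * Real.pi * Complex.I : ℂ) ≠ 0 := Complex.two_pi_I_ne_zero
  rw [ce, Complex.exp_eq_one_iff]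
  refine exists_congr fun c => ?_
  rw [div_eq_iff h0, show (c : ℂ) * (2 * Real.pi * Complex.I) * n =
    2 * Real.pi * Complex.I * ((n * c : ℤ) : ℂ) by push_cast; ring, mul_right_inj' h1,
    Int.cast_inj]

theorem ce_congr {n : ℕ} (hn : 0 < n) {a b : ℤ} (h : (n : ℤ) ∣ a - b) : ce n a = ce n b := by
  rw [show a = b + (a - b) by ring, ce_add, (ce_eq_one_iff hn _).2 h, mul_one]

theorem sum_ce {n : ℕ} (hn : 0 < n) (a : ℤ) :
    ∑ k ∈ range n, ce n (a * k) = if (n : ℤ) ∣ a then (n : ℂ) else 0 := by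
  have h1 : ∀ k : ℕ, ce n (a * k) = ce n a ^ k := by
    intro k; unfold ce; rw [← Complex.exp_nat_mul]; congr 1; push_cast; ring
  simp only [h1]
  split_ifs with h
  · simp [(ce_eq_one_iff hn a).2 h]
  · rw [geom_sum_eq (mt (ce_eq_one_iff hn a).1 h), ← h1,
      (ce_eq_one_iff hn _).2 (Dvd.intro_left _ rfl)]
    simp

theorem norm_ce (n : ℕ) (a : ℤ) : ‖ce n a‖ = 1 := by
  rw [ce, show (2 * Real.pi * Complex.I * a / n : ℂ) = ((2 * Real.pi * a / n : ℝ) : ℂ) * Complex.I by
    push_cast; ring, Complex.norm_exp_ofReal_mul_I]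

theorem exp_le_pow {x : ℝ} {n : ℕ} (h : (n : ℝ) ≤ x) :
    Real.exp (-Real.pi * x) ≤ (16⁻¹ : ℝ) ^ n := by
  have h1 : Real.exp (-Real.pi) ≤ 16⁻¹ := by
    rw [Real.exp_neg]
    refine inv_anti₀ (by norm_num) ?_
    have h2 : Real.exp 3 ≤ Real.exp Real.pi := Real.exp_le_exp.2 Real.pi_gt_three.le
    have h3 : Real.exp 3 = Real.exp 1 ^ 3 := by rw [← Real.exp_nat_mul]; norm_num
    have h4 : (2.7 : ℝ) ^ 3 ≤ Real.exp 1 ^ 3 :=
      pow_le_pow_left₀ (by norm_num) (by linarith [Real.exp_one_gt_d9]) 3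
    linarith
  calc Real.exp (-Real.pi * x) ≤ Real.exp (n * -Real.pi) :=
        Real.exp_le_exp.2 (by nlinarith [Real.pi_pos])
    _ = Real.exp (-Real.pi) ^ n := Real.exp_nat_mul _ _
    _ ≤ _ := pow_le_pow_left₀ (Real.exp_pos _).le h1 n

theorem summable_gauss {a : ℝ} (ha : 0 < a) :
    Summable fun M : ℤ => Real.exp (-Real.pi * a * (M : ℝ) ^ 2) := by
  have h : Summable fun n : ℕ => Real.exp (-Real.pi * a * ((n : ℝ) + 1) ^ 2) := by
    refine Summable.of_nonneg_of_le (fun _ => (Real.exp_pos _).le) (fun n => ?_)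
      (summable_geometric_of_lt_one (r := Real.exp (-Real.pi * a)) (Real.exp_pos _).le
        (Real.exp_lt_one_iff.2 (by nlinarith [Real.pi_pos])))
    rw [← Real.exp_nat_mul]
    refine Real.exp_le_exp.2 ?_
    have : 0 < Real.pi * a := mul_pos Real.pi_pos ha
    have : (0 : ℝ) ≤ n := Nat.cast_nonneg n
    nlinarith [mul_nonneg this this]
  refine Summable.of_add_one_of_neg_add_one ?_ ?_
  · simpa using h
  · simpa only [Int.cast_neg, even_two, Even.neg_pow] using (by simpa using h)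

/-- Poisson summation in the form used. -/
theorem poisson {α s t : ℕ} (hα : 0 < α) (hs : 0 < s) (ht : 0 < t) (k j : ℕ) :
    ((∑' n : ℤ, Real.exp (-Real.pi * ((j + n * s : ℝ) * t - k * s) ^ 2 / ((t : ℝ) ^ 2 * α ^ 2)) : ℝ)
      : ℂ) = α / s * ∑' M : ℤ, (Real.exp (-Real.pi * ((α : ℝ) ^ 2 / s ^ 2) * (M : ℝ) ^ 2) : ℂ) *
        (ce t (M * k) * ce s (-(M * j))) := by
  have hα' : (α : ℂ) ≠ 0 := by exact_mod_cast hα.ne'
  have hs' : (s : ℂ) ≠ 0 := by exact_mod_cast hs.ne'
  have ht' : (t : ℂ) ≠ 0 := by exact_mod_cast ht.ne'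
  have hre : 0 < ((α : ℂ) / s).re := by
    rw [show (α : ℂ) / s = ((α / s : ℝ) : ℂ) by push_cast; rfl, Complex.ofReal_re]; positivity
  have hre2 : 0 < (((α : ℂ) / s) ^ 2).re := by
    rw [show ((α : ℂ) / s) ^ 2 = (((α / s) ^ 2 : ℝ) : ℂ) by push_cast; rfl, Complex.ofReal_re]
    positivity
  have h := Complex.tsum_exp_neg_quadratic hre2 (-Complex.I * (j / s - k / t))
  rw [one_div (2 : ℂ), Complex.sq_cpow_two_inv hre] at h
  have e1 : ∀ M : ℤ, (Real.exp (-Real.pi * ((α : ℝ) ^ 2 / s ^ 2) * (M : ℝ) ^ 2) : ℂ) *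
      (ce t (M * k) * ce s (-(M * j))) = Complex.exp (-Real.pi * ((α : ℂ) / s) ^ 2 * M ^ 2 +
        2 * Real.pi * (-Complex.I * (j / s - k / t)) * M) := by
    intro M
    rw [Complex.ofReal_exp, ce, ce, ← Complex.exp_add, ← Complex.exp_add]
    congr 1
    push_cast
    ring
  simp only [e1]
  rw [h, ← mul_assoc, mul_one_div_cancel (div_ne_zero hα' hs'), one_mul, Complex.ofReal_tsum]
  refine tsum_congr fun n => ?_
  rw [Complex.ofReal_exp]
  congr 1
  push_cast
  rw [← mul_assoc Complex.I, mul_neg, Complex.I_mul_I]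
  field_simp
  ring

end Crest.Agent.IM.G
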