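import Crest.Agent.IM.LayerA

/-! TASK IM-L. One layer of the synthetic transform in the network layout
(`M' = nM Qg S' d (2 ^ k) Y` lanes). With `X = xr ^ ρx` (`X ^ (t / 2) = i`), `D = diag (1, i)`:
`H = (1 - i) D C D` for `C = Cop`, and `(1 - i) ^ d = 2 ^ (d / 2)` as `8 ∣ d`. Program: `tw`
(`O = Qg ^ d S' ^ d`, `R = t`, `I = Qg ^ d Y`, exponent = `Ex.sum` over the places of
`bit ρ (x i) * (t / 2 + [dir ≠ 0] (2 t - (x i % 2 ^ ρ) 2 ^ (k - ρ)))`); then either the network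
at level `J` followed by `asr (Dn bb J - d / 2)`, or (if the padding condition fails) the `d` calls
at level `0` followed by `asr (d - d / 2)`; then `tw` with exponent
`∑ bit ρ (x i) * (t / 2 + [dir = 0] (x i % 2 ^ ρ) 2 ^ (k - ρ))`. Pass between `AR` and `CR` with
`co_eq_rco` (the real coefficients `c` and `c + n` sit at distance `2 ^ (k - 1) Qg ^ d Y`);
`rco_xr_pow_mul` with exponent `ρx φ` matches `tw`; `Cops_eq_tens`, `mu_pow_le_Dn`. The shifted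
value is an exact multiple of the power of two. -/

set_option autoImplicit false

namespace Crest.Agent.IM

/-- One layer. -/
def LayerStmt (q bb : ℕ) : Prop :=
  ∃ (p : Prog) (C : ℕ), ∀ (B P : ℕ) (r : Prog) (π : Par) (dir ρ : ℕ) (L : List Bool),
    π.Ok q bb P → π.Big C B P → dir ≤ 1 → ρ < π.k →
    L.length = π.w * nM π.Qg π.S' π.d (2 ^ π.k) π.Y →
    ∃ L' : List Bool, L'.length = π.w * nM π.Qg π.S' π.d (2 ^ π.k) π.Y ∧
      Top B P r p (dir :: ρ :: π.args) L L' (C * π.N0 *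
        (if 2 ^ π.k + 2 * π.Qg * 2 ^ ρ ≤ π.S' then (π.J + 1) * sg ^ (π.J + π.jg)
          else π.d * sg ^ π.jg)) ∧
      ∀ bt < π.Bt, ∀ (a : (ℕ → ℕ) → RA π.n) (μ : ℝ),
        (∀ x ∈ box (fun _ => 2 ^ π.k) π.d,
          AR π.w (nM π.Qg π.S' π.d (2 ^ π.k) π.Y) π.n (π.nad' bt x) L (a x) ∧ nrm π.n (a x) ≤ μ) →
        μ * 2 ^ (Dn bb π.J + π.d + 1) < 2 ^ π.w →
        ∀ x ∈ box (fun _ => 2 ^ π.k) π.d,
          AR π.w (nM π.Qg π.S' π.d (2 ^ π.k) π.Y) π.n (π.nad' bt x) L'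
            (tens (fun _ => 2 ^ π.k) π.d (fun _ => if dir = 0 then Mf (xr π.n ^ π.ρx) π.k ρ
              else Mb (xr π.n ^ π.ρx) π.k ρ) a x)

namespace LY
open Q4 Finset

/-- twiddle exponent of a row, in the environment `[o, m, ρ, k, d, S', t]` -/
def twE : Ex :=
  Ex.sum (.var 4) (Ex.cb (.var 1 % Ex.pow (.var 6) (.var 5) / Ex.pow (.var 6) (.var 0) % .var 6) 0
    (.var 0 / Ex.pow 2 (.var 4) % 2 * (.var 8 / 2 + Ex.ite (.var 3) (Ex.ifEq (.var 3) 1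
      (.var 0 % Ex.pow 2 (.var 4) * Ex.pow 2 (.var 5 - .var 4))
      (2 * .var 8 - .var 0 % Ex.pow 2 (.var 4) * Ex.pow 2 (.var 5 - .var 4))) 0)))

theorem ex1_le {m k ρ u : ℕ} (hρ : ρ < k) : ex1 m k ρ u ≤ 3 * 2 ^ k := by
  have h1 : u % 2 ^ ρ * 2 ^ (k - ρ) ≤ 2 ^ k := by
    calc _ ≤ 2 ^ ρ * 2 ^ (k - ρ) := Nat.mul_le_mul_right _ (Nat.mod_lt _ (by positivity)).le
      _ = _ := by rw [← pow_add]; congr 1; omega
  unfold ex1
  rcases Nat.mod_two_eq_zero_or_one (u / 2 ^ ρ) with h | h <;> rw [h] <;> split_ifs <;> omega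

theorem ev_twE {B P m ρ k d S z : ℕ} {x : ℕ → ℕ} (hρ : ρ < k) (hS : 2 ^ k ≤ S) (h1 : S ^ d ≤ B)
    (h2 : d * (3 * 2 ^ k) ≤ B) (h3 : 2 ^ k ≤ B) (hx : x ∈ box (fun _ => 2 ^ k) d) :
    twE.ev B P [z * S ^ d + mr (fun _ => S) 0 d x, m, ρ, k, d, S, 2 ^ k] =
      ∑ i ∈ range d, ex1 m k ρ (x i) := by
  have hx' : ∀ i < d, x i < S := fun i hi => ((mem_box.1 hx).1 i hi).trans_le hS
  have hS2 : 2 ≤ S := le_trans (Nat.le_self_pow (by omega) 2) hS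
  have k0 : mr (fun _ => S) 0 d x < S ^ d := by
    have := mr_lt (ns := fun _ => S) (a := 0) (b := d) (x := x) (fun l _ hl => hx' l hl)
    rwa [pr_const] at this
  have k3 : 2 ^ ρ ≤ B := (Nat.pow_le_pow_right (by norm_num) hρ.le).trans h3
  have k4 : 2 ^ (k - ρ) ≤ B := (Nat.pow_le_pow_right (by norm_num) (Nat.sub_le _ _)).trans h3
  have e : ∀ i ∈ range d, (Ex.cb (.var 1 % Ex.pow (.var 6) (.var 5) / Ex.pow (.var 6) (.var 0) %
      .var 6) 0 (.var 0 / Ex.pow 2 (.var 4) % 2 * (.var 8 / 2 + Ex.ite (.var 3) (Ex.ifEq (.var 3) 1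
      (.var 0 % Ex.pow 2 (.var 4) * Ex.pow 2 (.var 5 - .var 4))
      (2 * .var 8 - .var 0 % Ex.pow 2 (.var 4) * Ex.pow 2 (.var 5 - .var 4))) 0))).ev B P
      [i, z * S ^ d + mr (fun _ => S) 0 d x, m, ρ, k, d, S, 2 ^ k] = ex1 m k ρ (x i) :=
    fun i hi => by
    have hi' := mem_range.1 hi
    have k1 : S ^ i ≤ B := (Nat.pow_le_pow_right (by omega) hi'.le).trans h1
    have k2 := mr_digit (ns := fun _ => S) (x := x) (Nat.zero_le i) hi'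
      (fun l _ hl => hx' l (by omega))
    rw [pr_const, Nat.sub_zero] at k2
    simp [Ex.ev_pow, hS2, k1, h1, k2, k3, k4, Nat.mod_eq_of_lt k0, ex1]
  rw [twE, Ex.ev_sum]
  · exact sum_congr rfl e
  · simpa using Ex.le_size_of_two_pow_le ((Nat.pow_le_pow_left hS2 _).trans h1)
  · refine le_trans (le_of_eq (sum_congr rfl e)) (le_trans ?_ h2)
    simpa using sum_le_card_nsmul (range d) _ (3 * 2 ^ k) (fun i _ => ex1_le hρ)

variable {q bb P : ℕ} {π : Par}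

theorem hb2 (h : π.Ok q bb P) (z i : ℕ) : dig (fun _ => π.Qg - 1) 0 π.d z i + 2 ≤ π.Qg := by
  have := h.hQ3
  have := dig_lt (ns := fun _ => π.Qg - 1) (a := 0) (b := π.d) (i := i) (n := z) (by omega)
  omega

theorem row_lt (h : π.Ok q bb P) (z : ℕ) {x : ℕ → ℕ} (hx : x ∈ box (fun _ => 2 ^ π.k) π.d) :
    mr (fun _ => π.Qg) 0 π.d (dig (fun _ => π.Qg - 1) 0 π.d z) * π.S' ^ π.d +
      mr (fun _ => π.S') 0 π.d x < π.Qg ^ π.d * π.S' ^ π.d := by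
  have k1 := mr_lt (ns := fun _ => π.Qg) (a := 0) (b := π.d)
    (x := dig (fun _ => π.Qg - 1) 0 π.d z) (fun l _ _ => by have := hb2 h z l; omega)
  have k2 := mr_lt (ns := fun _ => π.S') (a := 0) (b := π.d) (x := x)
    (fun l _ hl => ((mem_box.1 hx).1 l hl).trans_le π.t_le_S')
  rw [pr_const] at k1 k2
  exact lt_mul k1 k2

theorem nad'_eq (π : Par) (bt : ℕ) (x : ℕ → ℕ) (c : ℕ) : π.nad' bt x c =
    ((mr (fun _ => π.Qg) 0 π.d (dig (fun _ => π.Qg - 1) 0 π.d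
      ((c % π.ρx * π.Bt + bt) / (π.Qg ^ π.d * π.Y))) * π.S' ^ π.d +
      mr (fun _ => π.S') 0 π.d x) * 2 ^ π.k + c / π.ρx) * (π.Qg ^ π.d * π.Y) +
      (c % π.ρx * π.Bt + bt) % (π.Qg ^ π.d * π.Y) := by
  unfold Par.nad' nad; ring

theorem nM_eq (π : Par) : nM π.Qg π.S' π.d (2 ^ π.k) π.Y =
    π.Qg ^ π.d * π.S' ^ π.d * 2 ^ π.k * (π.Qg ^ π.d * π.Y) := by
  unfold nM; ring

theorem I_pos (h : π.Ok q bb P) : 0 < π.Qg ^ π.d * π.Y := by
  have := h.hQ3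
  have := h.one_le_Y
  have : 0 < π.Qg := by omega
  positivity

theorem nad'_lt (h : π.Ok q bb P) (bt : ℕ) {x : ℕ → ℕ} (hx : x ∈ box (fun _ => 2 ^ π.k) π.d)
    {c : ℕ} (hc : c < 2 * π.n) : π.nad' bt x c < nM π.Qg π.S' π.d (2 ^ π.k) π.Y := by
  rw [nad'_eq, nM_eq]
  refine lt_mul (lt_mul (row_lt h _ hx) ?_) (Nat.mod_lt _ (I_pos h))
  rw [Nat.div_lt_iff_lt_mul π.one_le_ρx]
  exact hc.trans_eq h.t_mul_ρx.symm

theorem wM_le (h : π.Ok q bb P) : π.w * nM π.Qg π.S' π.d (2 ^ π.k) π.Y ≤ 8 * π.N0 := by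
  calc _ ≤ π.w * (8 * (π.t ^ π.d * (2 * π.n) * π.Bt)) := Nat.mul_le_mul_left _ h.nM_le
    _ = _ := by unfold Par.N0; ring

theorem d_le_w (h : π.Ok q bb P) : π.d ≤ π.w := by
  have := mu_pow_le_Dn bb π.J
  have := h.hD
  unfold Par.w Par.d at *
  omega

theorem tw2_ex (q bb : ℕ) : ∃ (p : Prog) (C : ℕ), ∀ (B P : ℕ) (r : Prog) (π : Par) (m ρ : ℕ)
    (L : List Bool), π.Ok q bb P → 24 * π.N0 ≤ B → ρ < π.k →
    L.length = π.w * nM π.Qg π.S' π.d (2 ^ π.k) π.Y →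
    ∃ Z : List Bool, Z.length = π.w * nM π.Qg π.S' π.d (2 ^ π.k) π.Y ∧
      Top B P r p (m :: ρ :: π.args) L Z (C * π.N0) ∧
      ∀ bt, ∀ x ∈ box (fun _ => 2 ^ π.k) π.d, ∀ a : RA π.n,
        AR π.w (nM π.Qg π.S' π.d (2 ^ π.k) π.Y) π.n (π.nad' bt x) L a →
        AR π.w (nM π.Qg π.S' π.d (2 ^ π.k) π.Y) π.n (π.nad' bt x) Z
          (xr π.n ^ (π.ρx * ∑ i ∈ range π.d, ex1 m π.k ρ (x i)) * a) := by
  obtain ⟨p, C, hp⟩ := tw_ex twE 6
  refine ⟨.call [.var 18, Ex.pow (.var 12) (.var 14) * Ex.pow (.var 20) (.var 14), .var 15,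
    Ex.pow (.var 12) (.var 14) * .var 13, .var 0, .var 1, .var 3, .var 14, .var 20, .var 15] p,
    16 * C + 1, fun B P r π m ρ L h hB hρ hL => ?_⟩
  have h1 := wM_le h
  have h2 := I_pos h
  have h3 := h.hQ3
  have h4 := h.one_le_Y
  have h5 := d_le_w h
  have h6 := h.eight_le_d
  have hQ : 0 < π.Qg := by omega
  have hS : 2 ≤ π.S' := h.two_le_t.trans π.t_le_S'
  have hS0 : 0 < π.S' := by omega
  have hw : 0 < π.w := by omega
  rw [nM_eq] at h1 hL ⊢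
  have hB1 : 3 * (π.w * (π.Qg ^ π.d * π.S' ^ π.d * 2 ^ π.k * (π.Qg ^ π.d * π.Y))) ≤ B := by omega
  have b1 : π.Qg ^ π.d * π.S' ^ π.d ≤ B := le_of_mul (3 * π.w * 2 ^ π.k * (π.Qg ^ π.d * π.Y))
    (one_le (by positivity)) hB1 (by ring)
  have b2 : π.Qg ^ π.d * π.Y ≤ B := le_of_mul (3 * π.w * 2 ^ π.k * (π.Qg ^ π.d * π.S' ^ π.d))
    (one_le (by positivity)) hB1 (by ring)
  have b3 : π.Qg ^ π.d ≤ B := le_of_mul _ h4 b2 rfl
  have b4 : π.S' ^ π.d ≤ B := le_of_mul (π.Qg ^ π.d) (one_le (by positivity)) b1 (mul_comm _ _)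
  have b5 : π.w * (3 * 2 ^ π.k) ≤ B := le_of_mul (π.Qg ^ π.d * π.S' ^ π.d * (π.Qg ^ π.d * π.Y))
    (one_le (by positivity)) hB1 (by ring)
  have b6 : π.d * (3 * 2 ^ π.k) ≤ B := (Nat.mul_le_mul_right _ h5).trans b5
  have b7 : 2 ^ π.k ≤ B := le_of_mul (3 * π.w) (by omega) b5 (by ring)
  obtain ⟨Z, l1, t1, e⟩ := hp B P r π.w (π.Qg ^ π.d * π.S' ^ π.d) (2 ^ π.k) (π.Qg ^ π.d * π.Y)
    [m, ρ, π.k, π.d, π.S', 2 ^ π.k] L h.hP rfl hw (one_le (by positivity)) (one_le (by positivity))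
    h2 (by omega) hL
  have g1 := Go.call (args := [.var 18, Ex.pow (.var 12) (.var 14) * Ex.pow (.var 20) (.var 14),
    .var 15, Ex.pow (.var 12) (.var 14) * .var 13, .var 0, .var 1, .var 3, .var 14, .var 20,
    .var 15]) (env := m :: ρ :: π.args)
    (by simp [Par.args, Ex.ev_pow, hS, show 2 ≤ π.Qg by omega, b3, b4, Par.t])
    (by simp [Ok, Par.args, b1, b2, b7]) t1
  refine ⟨Z, l1, g1.top.mono ?_, fun bt x hx a ha => SK.ar_tw _ ha (fun j hj u hu => ?_)⟩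
  · have k1 : (P : ℝ) ≤ π.N0 := by exact_mod_cast h.P_le_N0
    have k2 : P ≤ 2 ^ π.k * (π.Qg ^ π.d * π.Y) := by
      have : 1 ≤ WW ^ (π.J + π.jg) := Nat.one_le_pow _ _ (by have := two_le_WW; omega)
      calc P ≤ π.Y := (Nat.le_mul_of_pos_right _ this).trans h.hY4
        _ ≤ _ := by rw [← mul_assoc]; exact Nat.le_mul_of_pos_left _ (by positivity)
    have k3 : π.w * (π.Qg ^ π.d * π.S' ^ π.d * 2 ^ π.k * (π.Qg ^ π.d * π.Y)) +
        π.w * (π.Qg ^ π.d * π.S' ^ π.d) * P ≤ 16 * π.N0 := by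
      have := Nat.mul_le_mul_left (π.w * (π.Qg ^ π.d * π.S' ^ π.d)) k2
      linarith
    have k4 := cle C (Nat.cast_le (α := ℝ).2 k3)
    push_cast at k4 ⊢
    linarith
  · have hj' : j / π.ρx < 2 ^ π.k := by
      rw [Nat.div_lt_iff_lt_mul π.one_le_ρx]
      exact hj.trans_eq h.t_mul_ρx.symm
    rw [nad'_eq] at hu
    have := e _ (row_lt h _ hx) _ hj' _ (Nat.mod_lt _ h2) u hu
    rw [ev_twE hρ π.t_le_S' b4 b6 b7 hx] at this
    rw [nad'_eq, ← h.t_mul_ρx, mul_comm π.t, Nat.mod_mul_right_mod, Nat.mod_mul_right_div_self,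
      ← Nat.div_div_eq_div_mul _ π.ρx π.t, Nat.add_mul_mod_self_left,
      Nat.add_mul_div_left _ _ π.one_le_ρx]
    exact this

theorem Dn_mono (bb : ℕ) {i j : ℕ} (h : i ≤ j) : Dn bb i ≤ Dn bb j := by
  induction j, h using Nat.le_induction with
  | base => rfl
  | succ j _ ih =>
    have : 0 < WW * mu := Nat.mul_pos (by have := two_le_WW; omega) (by have := two_le_mu; omega)
    rw [Dn]
    exact ih.trans ((Nat.le_mul_of_pos_left _ this).trans (Nat.le_add_right _ _))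

theorem net2_ex {q bb : ℕ} (hN : NetStmt q bb) : ∃ (p : Prog) (C : ℕ), ∀ (B P : ℕ) (r : Prog)
    (π : Par) (ρ : ℕ) (L : List Bool), π.Ok q bb P → π.Big C B P → ρ < π.k →
    L.length = π.w * nM π.Qg π.S' π.d (2 ^ π.k) π.Y →
    ∃ Z : List Bool, Z.length = π.w * nM π.Qg π.S' π.d (2 ^ π.k) π.Y ∧
      Top B P r p (ρ :: π.args) L Z (C * π.N0 *
        (if 2 ^ π.k + 2 * π.Qg * 2 ^ ρ ≤ π.S' then (π.J + 1) * sg ^ (π.J + π.jg)
          else π.d * sg ^ π.jg)) ∧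
      ∀ b : ℕ → ℕ, (∀ i < π.d, b i + 2 ≤ π.Qg) → ∀ y < 2 ^ (π.k - 1) * π.Qg ^ π.d * π.Y,
        ∀ z : (ℕ → ℕ) → ℂ,
        (∀ x ∈ box (fun _ => 2 ^ π.k) π.d, CR π.w (nM π.Qg π.S' π.d (2 ^ π.k) π.Y)
          (2 ^ (π.k - 1) * π.Qg ^ π.d * π.Y) L
          (nad π.Qg π.S' π.d (2 ^ π.k * π.Qg ^ π.d * π.Y) b x y) (z x)) →
        ∀ x ∈ box (fun _ => 2 ^ π.k) π.d, CR π.w (nM π.Qg π.S' π.d (2 ^ π.k) π.Y)
          (2 ^ (π.k - 1) * π.Qg ^ π.d * π.Y) Z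
          (nad π.Qg π.S' π.d (2 ^ π.k * π.Qg ^ π.d * π.Y) b x y)
          (2 ^ (if 2 ^ π.k + 2 * π.Qg * 2 ^ ρ ≤ π.S' then Dn bb π.J else π.d) *
            Cops ρ 0 π.d z x) := by
  obtain ⟨p, C, hp⟩ := hN
  refine ⟨.ite (.var 14 + 2 * .var 11 * Ex.pow 2 (.var 0) - .var 19)
    (.lett 0 (.loop (.var 14) (.call [0, .var 0, .var 18, .var 14, .var 5, .var 12, .var 20, .var 3,
      .var 13, .var 1] p ;; .set 0 (.var 0 + 1))))
    (.call [.var 1, 0, .var 17, .var 13, .var 4, .var 11, .var 19, .var 2, .var 12, .var 0] p),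
    8 * C + 8, fun B P r π ρ L h hB hρ hL => ?_⟩
  have h1 := wM_le h
  have h5 := d_le_w h
  have h6 := h.eight_le_d
  have h7 := h.hD
  have hB1 : C * (π.w * nM π.Qg π.S' π.d (2 ^ π.k) π.Y) ≤ B := by
    have := hB.1; nlinarith [Nat.mul_le_mul_left C h1]
  have hpB : ∀ e ≤ 2 * π.p, 2 ^ e ≤ B := fun e he =>
    le_trans (Nat.pow_le_pow_right (by norm_num) (by nlinarith)) hB.2.1
  have b1 : 2 ^ ρ ≤ B := hpB _ (by nlinarith)
  have b2 : π.d ≤ B := Nat.lt_two_pow_self.le.trans (hpB π.d (by omega))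
  have k1 : (P : ℝ) ≤ π.N0 := by exact_mod_cast h.P_le_N0
  have k0 : (1 : ℝ) ≤ P := by exact_mod_cast h.hP
  have k2 : (π.w : ℝ) * nM π.Qg π.S' π.d (2 ^ π.k) π.Y ≤ 8 * π.N0 := by exact_mod_cast h1
  have hs : ∀ e, (1 : ℝ) ≤ sg ^ e := fun e => one_le_pow₀ (by linarith [two_le_sg])
  have hc : (Ex.var 14 + 2 * .var 11 * Ex.pow 2 (.var 0) - .var 19).ev B P (ρ :: π.args) =
      2 ^ π.k + 2 * π.Qg * 2 ^ ρ - π.S' := by simp [Par.args, Ex.ev_pow, b1, Par.t]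
  split_ifs with hf
  · obtain ⟨Z, l1, t1, e⟩ := hp B P r π.J 0 π.w π.d π.jg π.Qg π.S' π.k π.Y ρ L h.hP
      (by unfold Par.w; omega) h.hQ hρ (by simp [Par.d]) π.t_le_S' (Or.inr hf) h.hY3 h.hY4 hB1 hL
    refine ⟨Z, l1, (Go.iteF (by rw [hc]; omega) (Go.call (env := ρ :: π.args)
      (by simp [Par.args]) (by simp [Ok, Par.args]) t1)).top.mono ?_, e⟩
    have k3 : (1 : ℝ) ≤ (π.J + 1) * sg ^ (π.J + π.jg) :=
      one_le_mul_of_one_le_of_one_le (by linarith [Nat.cast_nonneg (α := ℝ) π.J]) (hs _)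
    rw [mul_assoc (C : ℝ)]
    generalize ((π.J : ℝ) + 1) * sg ^ (π.J + π.jg) = F at *
    have k4 := cle C (mul_le_mul_of_nonneg_left k2 (show 0 ≤ F by linarith))
    have k5 : (π.N0 : ℝ) ≤ π.N0 * F := le_mul_of_one_le_right (by linarith) k3
    push_cast
    linarith
  · obtain ⟨env', Z, g1, rfl, l1, e⟩ := Go.loop (B := B) (P := P) (r := r)
      (p := .call [0, .var 0, .var 18, .var 14, .var 5, .var 12, .var 20, .var 3,
        .var 13, .var 1] p ;; .set 0 (.var 0 + 1))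
      (e := .var 14) (env := 0 :: ρ :: π.args) (L := L) (n := π.d) rfl
      (fun i env Z => env = i :: ρ :: π.args ∧ Z.length = π.w * nM π.Qg π.S' π.d (2 ^ π.k) π.Y ∧
        ∀ b : ℕ → ℕ, (∀ i < π.d, b i + 2 ≤ π.Qg) → ∀ y < 2 ^ (π.k - 1) * π.Qg ^ π.d * π.Y,
        ∀ z : (ℕ → ℕ) → ℂ,
        (∀ x ∈ box (fun _ => 2 ^ π.k) π.d, CR π.w (nM π.Qg π.S' π.d (2 ^ π.k) π.Y)
          (2 ^ (π.k - 1) * π.Qg ^ π.d * π.Y) L
          (nad π.Qg π.S' π.d (2 ^ π.k * π.Qg ^ π.d * π.Y) b x y) (z x)) →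
        ∀ x ∈ box (fun _ => 2 ^ π.k) π.d, CR π.w (nM π.Qg π.S' π.d (2 ^ π.k) π.Y)
          (2 ^ (π.k - 1) * π.Qg ^ π.d * π.Y) Z
          (nad π.Qg π.S' π.d (2 ^ π.k * π.Qg ^ π.d * π.Y) b x y) (2 ^ i * Cops ρ 0 i z x))
      (C * sg ^ π.jg * (π.w * nM π.Qg π.S' π.d (2 ^ π.k) π.Y) + P + P + 1)
      ⟨rfl, hL, fun b _ y _ z hz x hx => by simpa [Cops] using hz x hx⟩ (by
        rintro i hi _ L₁ ⟨rfl, l1, e1⟩
        have hW : WW ^ (0 + π.jg) ∣ WW ^ (π.J + π.jg) := pow_dvd_pow _ (by omega)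
        obtain ⟨Z, l2, t2, e2⟩ := hp B P r 0 i π.w π.d π.jg π.Qg π.S' π.k π.Y ρ L₁ h.hP
          (by simp [Dn]; omega) h.hQ hρ (by simpa using hi) π.t_le_S' (Or.inl rfl)
          (hW.trans h.hY3) (le_trans (Nat.mul_le_mul_left _ (Nat.le_of_dvd
            (pow_pos (by have := two_le_WW; omega) _) hW)) h.hY4) hB1 l1
        have g1 := Go.call (args := [0, .var 0, .var 18, .var 14, .var 5, .var 12, .var 20, .var 3,
          .var 13, .var 1]) (env := i :: ρ :: π.args) (by simp [Par.args])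
          (by simp [Ok, Par.args]) t2
        have g2 : Go B P r (.set 0 (.var 0 + 1)) (i :: ρ :: π.args) Z _ Z P :=
          Go.set (v := i + 1) rfl (Or.inl (by omega))
        refine ⟨_, Z, (g1.seq g2).mono (le_of_eq (by simp)), rfl, l2,
          fun b hb y hy z hz x hx => ?_⟩
        have := e2 b hb y hy _ (e1 b hb y hy z hz) x hx
        rw [Cops_smul, ← mul_assoc, ← pow_add] at this
        simpa [Dn, Cops, add_comm] using this)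
    refine ⟨Z, l1, (Go.iteT (by rw [hc]; omega)
      (Go.lett (v := 0) rfl (Or.inl (Nat.zero_le _)) g1)).top.mono ?_, e⟩
    have k3 := hs π.jg
    have k6 : (1 : ℝ) ≤ π.d := by exact_mod_cast (by omega : 1 ≤ π.d)
    generalize sg ^ π.jg = F at *
    have k4 := cle C (mul_le_mul_of_nonneg_left k2 (show 0 ≤ F by linarith))
    have k5 : (π.N0 : ℝ) ≤ π.N0 * F := le_mul_of_one_le_right (by linarith) k3
    have k7 : C * F * (π.w * nM π.Qg π.S' π.d (2 ^ π.k) π.Y) + P + P + 1 + 1 ≤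
        (8 * C + 4) * (π.N0 * F) := by linarith
    have k8 := mul_le_mul_of_nonneg_left k7 (show (0 : ℝ) ≤ π.d by linarith)
    have k9 : π.N0 * F ≤ π.d * (π.N0 * F) := le_mul_of_one_le_left (by linarith) k6
    push_cast
    linarith

end LY

open LY Q4 Finset

theorem layer_ex {q bb : ℕ} (hq : 2 ≤ q) (h : NetStmt q bb) : LayerStmt q bb := by
  have _ := hq
  obtain ⟨p₁, C₁, h₁⟩ := tw2_ex q bb
  obtain ⟨p₂, C₂, h₂⟩ := net2_ex h
  obtain ⟨p₃, C₃, h₃⟩ := asr_ex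
  refine ⟨.call ((2 * .var 0) :: fwd 1 21) p₁ ;; .call (fwd 1 21) p₂ ;;
    .call [.var 18, Ex.pow (.var 12) (.var 14) * Ex.pow (.var 20) (.var 14) *
      (.var 15 * Ex.pow (.var 12) (.var 14) * .var 13),
      Ex.ite (.var 15 + 2 * .var 12 * Ex.pow 2 (.var 1) - .var 20) (.var 14)
        (Ex.fold (.var 2) 1 (.cst (WW * mu) * .var 0 + .cst bb)) - .var 14 / 2] p₃ ;;
    .call ((1 - .var 0) :: fwd 1 21) p₁, 2 * C₁ + C₂ + 9 * C₃ + 24,
    fun B P r π dir ρ L h hB hd hρ hL => ?_⟩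
  have h1 := wM_le h
  have h2 := I_pos h
  have h3 := h.hQ3
  have h4 := h.one_le_Y
  have h5 := d_le_w h
  have h6 := h.eight_le_d
  have h7 := h.hD
  have h8 : π.d ≤ Dn bb π.J := mu_pow_le_Dn bb π.J
  have h9 := h.hP.trans h.P_le_N0
  have hQ : 0 < π.Qg := by omega
  have hS : 2 ≤ π.S' := h.two_le_t.trans π.t_le_S'
  have hS0 : 0 < π.S' := by omega
  have hw : π.w = 6 * π.p := rfl
  have hB0 : 24 * π.N0 ≤ B := le_trans (Nat.mul_le_mul_right _ (by omega)) hB.1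
  have hpB : ∀ e ≤ 2 * π.p, 2 ^ e ≤ B := fun e he =>
    le_trans (Nat.pow_le_pow_right (by norm_num) (by nlinarith)) hB.2.1
  have b1 : 2 ^ ρ ≤ B := hpB _ (by nlinarith)
  have b2 : Dn bb π.J ≤ B := Nat.lt_two_pow_self.le.trans (hpB _ (by omega))
  have b3 : nM π.Qg π.S' π.d (2 ^ π.k) π.Y ≤ B :=
    (Nat.le_mul_of_pos_left _ (by omega)).trans (h1.trans (by omega))
  have b4 : π.Qg ^ π.d ≤ B := le_of_mul (π.S' ^ π.d * (2 ^ π.k * π.Qg ^ π.d * π.Y))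
    (one_le (by positivity)) b3 (by unfold nM; ring)
  have b5 : π.S' ^ π.d ≤ B := le_of_mul (π.Qg ^ π.d * (2 ^ π.k * π.Qg ^ π.d * π.Y))
    (one_le (by positivity)) b3 (by unfold nM; ring)
  obtain ⟨D, hD⟩ : ∃ D, D = if 2 ^ π.k + 2 * π.Qg * 2 ^ ρ ≤ π.S' then Dn bb π.J else π.d := ⟨_, rfl⟩
  have d1 : π.d ≤ D ∧ D ≤ Dn bb π.J := by rw [hD]; split_ifs <;> omega
  obtain ⟨L₁, l1, t1, e1⟩ := h₁ B P r π (2 * dir) ρ L h hB0 hρ hL
  obtain ⟨L₂, l2, t2, e2⟩ := h₂ B P r π ρ L₁ h (hB.mono (by omega)) hρ l1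
  obtain ⟨L₃, l3, t3, e3⟩ := h₃ B P r π.w (nM π.Qg π.S' π.d (2 ^ π.k) π.Y) (D - π.d / 2) L₂ h.hP
    (one_le (by unfold nM; positivity)) (by omega) l2
  obtain ⟨L₄, l4, t4, e4⟩ := h₁ B P r π (1 - dir) ρ L₃ h hB0 hρ l3
  rw [← hD] at e2
  have f0 : (fwd 1 21).map (fun e => e.ev B P (dir :: ρ :: π.args)) = ρ :: π.args :=
    ev_fwd [dir] (ρ :: π.args) rfl rfl
  have o0 : ∀ v ∈ ρ :: π.args, Ok B (dir :: ρ :: π.args) v :=
    fun v hv => Or.inr (List.mem_cons_of_mem _ hv)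
  have o1 : ∀ s ≤ 2, ∀ v ∈ s :: ρ :: π.args, Ok B (dir :: ρ :: π.args) v := fun s hs v hv => by
    rcases List.mem_cons.1 hv with rfl | hv
    · exact Or.inl (by omega)
    · exact o0 v hv
  have g1 := Go.call (args := (2 * .var 0) :: fwd 1 21) (by rw [List.map_cons, f0]; rfl)
    (o1 _ (by omega)) t1
  have g2 := Go.call f0 o0 t2
  have hDn : (Ex.fold (.var 2) 1 (.cst (WW * mu) * .var 0 + .cst bb)).ev B P
      (dir :: ρ :: π.args) = Dn bb π.J :=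
    Ex.ev_fold (Dn bb) rfl (Ex.le_size_of_two_pow_le ((Nat.pow_le_pow_left two_le_mu _).trans
      (h8.trans b2))) rfl (fun i _ => rfl) (fun i hi => (Dn_mono bb hi).trans b2)
  have g3 := Go.call (args := [.var 18, Ex.pow (.var 12) (.var 14) * Ex.pow (.var 20) (.var 14) *
      (.var 15 * Ex.pow (.var 12) (.var 14) * .var 13),
      Ex.ite (.var 15 + 2 * .var 12 * Ex.pow 2 (.var 1) - .var 20) (.var 14)
        (Ex.fold (.var 2) 1 (.cst (WW * mu) * .var 0 + .cst bb)) - .var 14 / 2])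
    (env := dir :: ρ :: π.args) (by
      simp only [List.map_cons, Ex.ev_sub, Ex.ev_ite, hDn]
      simp [Par.args, Ex.ev_pow, hS, show 2 ≤ π.Qg by omega, b1, b4, b5, Par.t, nM, hD,
        Nat.sub_eq_zero_iff_le])
    (by
      have : D - π.d / 2 ≤ B := by omega
      simp [Ok, Par.args, b3, this]) t3
  have g4 := Go.call (args := (1 - .var 0) :: fwd 1 21) (by rw [List.map_cons, f0]; rfl)
    (o1 _ (by omega)) t4
  refine ⟨L₄, l4, (g1.seq (g2.seq (g3.seq g4))).top.mono ?_, fun bt _ a μ ha hμ x hx => ?_⟩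
  · have k1 : (P : ℝ) ≤ π.N0 := by exact_mod_cast h.P_le_N0
    have k0 : (1 : ℝ) ≤ P := by exact_mod_cast h.hP
    have k2 : (π.w : ℝ) * nM π.Qg π.S' π.d (2 ^ π.k) π.Y ≤ 8 * π.N0 := by exact_mod_cast h1
    have hs : ∀ e, (1 : ℝ) ≤ sg ^ e := fun e => one_le_pow₀ (by linarith [two_le_sg])
    have k3 : (1 : ℝ) ≤ if 2 ^ π.k + 2 * π.Qg * 2 ^ ρ ≤ π.S' then (π.J + 1) * sg ^ (π.J + π.jg)
        else π.d * sg ^ π.jg := by
      split_ifs
      · exact one_le_mul_of_one_le_of_one_le (by linarith [Nat.cast_nonneg (α := ℝ) π.J]) (hs _)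
      · exact one_le_mul_of_one_le_of_one_le (by exact_mod_cast (by omega : 1 ≤ π.d)) (hs _)
    generalize (if 2 ^ π.k + 2 * π.Qg * 2 ^ ρ ≤ π.S' then ((π.J : ℝ) + 1) * sg ^ (π.J + π.jg)
        else π.d * sg ^ π.jg) = F at *
    have k5 : (π.N0 : ℝ) ≤ π.N0 * F := le_mul_of_one_le_right (by linarith) k3
    have c1 := cle C₁ k5
    have c3 := cle C₃ (x := π.w * nM π.Qg π.S' π.d (2 ^ π.k) π.Y + P) (y := 9 * (π.N0 * F))
      (by linarith)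
    push_cast
    linarith
  obtain ⟨k', hk'⟩ : ∃ k', π.k = k' + 1 := ⟨π.k - 1, by omega⟩
  have hn : π.n = 2 ^ (π.k - 1) * π.ρx := by
    have := h.t_mul_ρx
    unfold Par.t at this
    rw [hk'] at this ⊢
    rw [pow_succ, Nat.add_sub_cancel] at *
    linarith
  have hδ : ∀ x, ∀ c < π.n, π.nad' bt x (c + π.n) =
      π.nad' bt x c + 2 ^ (π.k - 1) * π.Qg ^ π.d * π.Y := fun x c _ => by
    rw [nad'_eq, nad'_eq, hn, Nat.add_mul_mod_self_right, Nat.add_mul_div_right _ _ π.one_le_ρx]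
    ring
  obtain ⟨a₁, ha₁⟩ : ∃ a₁ : (ℕ → ℕ) → RA π.n, a₁ = fun y =>
    (xr π.n ^ π.ρx) ^ (∑ i ∈ range π.d, ex1 (2 * dir) π.k ρ (y i)) * a y := ⟨_, rfl⟩
  have A1 : ∀ y ∈ box (fun _ => 2 ^ π.k) π.d,
      AR π.w (nM π.Qg π.S' π.d (2 ^ π.k) π.Y) π.n (π.nad' bt y) L₁ (a₁ y) := fun y hy => by
    simp only [ha₁, ← pow_mul]; exact e1 bt y hy _ (ha y hy).1
  have N1 : ∀ y ∈ box (fun _ => 2 ^ π.k) π.d, nrm π.n (a₁ y) ≤ μ := fun y hy => by
    simp only [ha₁, ← pow_mul, nrm_xr_pow_mul]; exact (ha y hy).2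
  have hK : (2 : ℂ) ^ (D - π.d / 2) • tens (fun _ => 2 ^ π.k) π.d (fun _ => Kd ρ) a₁ x =
      (2 : ℂ) ^ D • tens (fun _ => 2 ^ π.k) π.d (fun _ => Kc ρ) a₁ x := by
    rw [tens_Kd _ h.eight_dvd_d, smul_smul, ← pow_add, Nat.sub_add_cancel (by omega)]
  have A2 : AR π.w (nM π.Qg π.S' π.d (2 ^ π.k) π.Y) π.n (π.nad' bt x) L₂
      ((2 : ℂ) ^ (D - π.d / 2) • tens (fun _ => 2 ^ π.k) π.d (fun _ => Kd ρ) a₁ x) := by
    rw [hK, ar_iff_cr (hδ x)]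
    intro c hc
    have := e2 _ (fun i _ => hb2 h ((c % π.ρx * π.Bt + bt) / (π.Qg ^ π.d * π.Y)) i)
      (c / π.ρx * (π.Qg ^ π.d * π.Y) + (c % π.ρx * π.Bt + bt) % (π.Qg ^ π.d * π.Y))
      (by
        rw [mul_assoc]
        exact lt_mul ((Nat.div_lt_iff_lt_mul π.one_le_ρx).2 (hn ▸ hc)) (Nat.mod_lt _ h2))
      (fun y => co π.n (a₁ y) c) (fun y hy => (ar_iff_cr (hδ y)).1 (A1 y hy) c hc) x hx
    rw [Cops_eq_tens hρ _ hx] at this
    rw [co_smul, co_tens]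
    exact this
  have hμ0 : 0 ≤ μ := (nrm_nonneg _).trans (ha x hx).2
  have A3 := asr_exact A2 (Zi.tens ρ (fun y hy p hp => let ⟨u, hu, _⟩ := A1 y hy p hp; ⟨u, hu⟩) x)
    (by
      have k1 := congrArg (nrm π.n) hK
      rw [nrm_smul, nrm_smul, norm_pow, norm_pow, Complex.norm_two] at k1
      have k2 := nrm_tens_le (fun _ => Kc ρ) a₁ x N1
      have k3 : ∏ i ∈ range π.d, ∑ u ∈ range (2 ^ π.k), ‖Kc ρ (x i) u‖ ≤ 2 ^ π.d := by
        calc _ ≤ ∏ i ∈ range π.d, (2 : ℝ) := prod_le_prod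
              (fun i _ => sum_nonneg fun _ _ => norm_nonneg _) (fun i _ => sum_Kc _ _ _)
          _ = _ := by simp
      have k4 : (2 : ℝ) ^ D ≤ 2 ^ Dn bb π.J := pow_le_pow_right₀ (by norm_num) d1.2
      rw [k1]
      refine lt_of_le_of_lt ?_ hμ
      calc _ ≤ 2 * (2 ^ Dn bb π.J * (2 ^ π.d * μ)) := by
            gcongr
            · exact nrm_nonneg _
            · exact k2.trans (mul_le_mul_of_nonneg_right k3 hμ0)
        _ = _ := by ring)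
    (fun c hc u => e3 _ (nad'_lt h bt hx hc) u)
  have A4 := e4 bt x hx _ A3
  have x1 : (xr π.n ^ π.ρx) ^ (2 ^ π.k / 2) = algebraMap ℂ _ Complex.I := by
    have : π.ρx * (2 ^ π.k / 2) = π.n := by
      rw [hn, hk', pow_succ, Nat.mul_div_cancel _ two_pos, Nat.add_sub_cancel, mul_comm]
    rw [← pow_mul, this, Algebra.algebraMap_eq_smul_one, ← xr_pow_mul, mul_one]
  have x2 : (xr π.n ^ π.ρx) ^ (2 * 2 ^ π.k) = 1 := by
    have : π.ρx * (2 * 2 ^ π.k) = 2 * π.n * 2 := by rw [← h.t_mul_ρx]; unfold Par.t; ring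
    rw [← pow_mul, this, pow_mul, xr_pow_two_mul]; simp
  rwa [pow_mul, ha₁, layer_eq hd x1 x2] at A4

end Crest.Agent.IM
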