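import Crest.Agent.IM.Par
import Crest.Agent.IM.ScalA

/-! Algebra for `Layer`. -/

set_option autoImplicit false

namespace Crest.Agent.IM.LY
open Finset Complex

/-- twiddle exponent of one place -/
def ex1 (m k ρ u : ℕ) : ℕ :=
  u / 2 ^ ρ % 2 * (2 ^ k / 2 + if m = 0 then 0 else if m = 1 then u % 2 ^ ρ * 2 ^ (k - ρ)
    else 2 * 2 ^ k - u % 2 ^ ρ * 2 ^ (k - ρ))

/-- kernel of `Cop` -/
noncomputable def Kc (ρ a b : ℕ) : ℂ :=
  if b = a then (1 + I) / 2 else if b = a ^^^ 2 ^ ρ then (1 - I) / 2 else 0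

/-- scaled kernel -/
noncomputable def Kd (ρ a b : ℕ) : ℂ := if b = a then 1 else if b = a ^^^ 2 ^ ρ then -I else 0

theorem Kd_eq (ρ a b : ℕ) : Kd ρ a b = (1 - I) * Kc ρ a b := by
  unfold Kd Kc
  split_ifs
  · linear_combination (1 / 2 : ℂ) * I_mul_I
  · linear_combination (-1 / 2 : ℂ) * I_mul_I
  · simp

theorem hk (ρ u v : ℕ) : I ^ (u / 2 ^ ρ % 2) * Kd ρ u v * I ^ (v / 2 ^ ρ % 2) = Hk ρ u v := by
  have h0 : 0 < 2 ^ ρ := by positivity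
  have h1 : (u ^^^ 2 ^ ρ) / 2 ^ ρ = u / 2 ^ ρ ^^^ 1 := by
    rw [Nat.xor_div_two_pow, Nat.div_self h0]
  have h2 : (u ^^^ 2 ^ ρ) % 2 ^ ρ = u % 2 ^ ρ := by
    rw [Nat.xor_mod_two_pow, Nat.mod_self, Nat.xor_zero]
  have h3 : ∀ a b : ℕ, a = b ↔ a / 2 ^ ρ = b / 2 ^ ρ ∧ a % 2 ^ ρ = b % 2 ^ ρ := fun a b =>
    ⟨fun h => by rw [h]; exact ⟨rfl, rfl⟩, fun h => by
      rw [← Nat.div_add_mod a (2 ^ ρ), h.1, h.2, Nat.div_add_mod]⟩
  have h4 : (u / 2 ^ ρ % 2 = 0 ∧ u / 2 ^ ρ ^^^ 1 = u / 2 ^ ρ + 1) ∨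
      (u / 2 ^ ρ % 2 = 1 ∧ u / 2 ^ ρ ^^^ 1 = u / 2 ^ ρ - 1) := by
    rcases Nat.even_or_odd (u / 2 ^ ρ) with h | h
    · exact Or.inl ⟨Nat.even_iff.1 h, Nat.xor_one_of_even h⟩
    · exact Or.inr ⟨Nat.odd_iff.1 h, Nat.xor_one_of_odd h⟩
  unfold Kd Hk
  simp only [h3 v, h1, h2, pow_succ, ← Nat.div_div_eq_div_mul]
  generalize u / 2 ^ ρ ^^^ 1 = W at *
  generalize u / 2 ^ ρ = U at *
  generalize v / 2 ^ ρ = V at *
  rcases Nat.mod_two_eq_zero_or_one V with hV | hV <;> rcases h4 with ⟨hU, h4⟩ | ⟨hU, h4⟩ <;>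
    rw [hU, hV] <;> split_ifs <;> first | omega | tauto | simp

theorem fac {A : Type} [CommRing A] [Algebra ℂ A] {X : A} {k ρ dir : ℕ} (hd : dir ≤ 1)
    (h1 : X ^ (2 ^ k / 2) = algebraMap ℂ A I) (h2 : X ^ (2 * 2 ^ k) = 1) (u v : ℕ) :
    X ^ ex1 (1 - dir) k ρ u * (algebraMap ℂ A (Kd ρ u v) * X ^ ex1 (2 * dir) k ρ v) =
      (if dir = 0 then Mf X k ρ else Mb X k ρ) u v := by
  have h := congrArg (algebraMap ℂ A) (hk ρ u v)
  simp only [map_mul, map_pow, map_intCast, ← h1, ← pow_mul] at h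
  obtain rfl | rfl : dir = 0 ∨ dir = 1 := by omega
  · simp only [ex1, Mf, twe, if_true, ← h]
    simp
    ring
  · have e : X ^ (2 * 2 ^ k - twe k ρ v) =
        X ^ (v / 2 ^ ρ % 2 * (2 * 2 ^ k - v % 2 ^ ρ * 2 ^ (k - ρ))) := by
      unfold twe
      rcases Nat.mod_two_eq_zero_or_one (v / 2 ^ ρ) with hV | hV <;> simp [hV, h2]
    simp only [ex1, Mb, one_ne_zero, if_false, ← h, e]
    simp
    ring

theorem layer_eq {A : Type} [CommRing A] [Algebra ℂ A] {X : A} {k ρ dir : ℕ} (hd : dir ≤ 1)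
    (h1 : X ^ (2 ^ k / 2) = algebraMap ℂ A I) (h2 : X ^ (2 * 2 ^ k) = 1) (ns : ℕ → ℕ) (d : ℕ)
    (a : (ℕ → ℕ) → A) (x : ℕ → ℕ) :
    X ^ (∑ i ∈ range d, ex1 (1 - dir) k ρ (x i)) * tens ns d (fun _ => Kd ρ)
      (fun y => X ^ (∑ i ∈ range d, ex1 (2 * dir) k ρ (y i)) * a y) x =
      tens ns d (fun _ => if dir = 0 then Mf X k ρ else Mb X k ρ) a x := by
  simp only [tens, mul_sum, Algebra.smul_def, map_prod, ← prod_pow_eq_pow_sum, ← fac hd h1 h2,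
    prod_mul_distrib, Algebra.algebraMap_self, RingHom.id_apply]
  exact sum_congr rfl fun y _ => by ring

theorem tens_Kd {V : Type} [AddCommGroup V] [Module ℂ V] (ns : ℕ → ℕ) {d : ℕ} (hd : 8 ∣ d) (ρ : ℕ)
    (a : (ℕ → ℕ) → V) (x : ℕ → ℕ) :
    tens ns d (fun _ => Kd ρ) a x = (2 : ℂ) ^ (d / 2) • tens ns d (fun _ => Kc ρ) a x := by
  obtain ⟨m, rfl⟩ := hd
  have h : (1 - I) ^ 8 = 2 ^ 4 := by
    have : (1 - I) ^ 2 = -2 * I := by linear_combination I_mul_I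
    rw [show 8 = 2 * 4 from rfl, pow_mul, this, mul_pow, I_pow_four]; norm_num
  simp only [tens, smul_sum, smul_smul, Kd_eq, prod_mul_distrib, prod_const, card_range]
  rw [pow_mul, h, ← pow_mul, show 8 * m / 2 = 4 * m by omega]

theorem sum_Kc (N ρ a : ℕ) : ∑ u ∈ range N, ‖Kc ρ a u‖ ≤ 2 := by
  have h1 : ‖(1 + I) / 2‖ ≤ 1 := by
    rw [norm_div, div_le_one (by simp)]
    exact (norm_add_le _ _).trans (by simp; norm_num)
  have h2 : ‖(1 - I) / 2‖ ≤ 1 := by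
    rw [norm_div, div_le_one (by simp)]
    exact (norm_sub_le _ _).trans (by simp; norm_num)
  calc ∑ u ∈ range N, ‖Kc ρ a u‖ ≤ ∑ u ∈ range N, ((if u = a then (1 : ℝ) else 0) +
        if u = a ^^^ 2 ^ ρ then 1 else 0) := sum_le_sum fun u _ => by
        unfold Kc; split_ifs <;> first | linarith | simp
    _ ≤ 1 + 1 := by
        rw [sum_add_distrib, sum_ite_eq', sum_ite_eq']
        split_ifs <;> norm_num
    _ = 2 := by norm_num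

theorem co_tens {n : ℕ} (ns : ℕ → ℕ) (d : ℕ) (Kn : ℕ → ℕ → ℕ → ℂ) (a : (ℕ → ℕ) → RA n)
    (x : ℕ → ℕ) (c : ℕ) : co n (tens ns d Kn a x) c = tens ns d Kn (fun y => co n (a y) c) x := by
  simp only [tens, co_sum, co_smul, smul_eq_mul]

/-- integral elements -/
def Zi (n : ℕ) (a : RA n) : Prop := ∀ p < 2 * n, ∃ u : ℤ, rco n a p = u

theorem Zi.xr {n : ℕ} {a : RA n} (h : Zi n a) (φ : ℕ) : Zi n (xr n ^ φ * a) := fun p hp => by
  obtain ⟨u, hu, -⟩ := SK.ar_tw (w := 0) (M := 0) (M' := 0) φ (ad := id) (ad' := id) (X := [])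
    (Z := []) (a := a) (fun p hp => let ⟨u, hu⟩ := h p hp; ⟨u, hu, by simp [WR, Int.modEq_one]⟩)
    (fun _ _ _ _ => by simp [WR, Int.modEq_one]) p hp
  exact ⟨u, hu⟩

theorem Zi.tens {n : ℕ} {ns : ℕ → ℕ} {d : ℕ} (ρ : ℕ) {a : (ℕ → ℕ) → RA n}
    (h : ∀ y ∈ box ns d, Zi n (a y)) (x : ℕ → ℕ) : Zi n (tens ns d (fun _ => Kd ρ) a x) := by
  have h0 : Zi n 0 := fun p _ => ⟨0, by simp [rco_zero]⟩
  refine sum_induction _ (Zi n) (fun a b ha hb p hp => ?_) h0 (fun y hy => ?_)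
  · obtain ⟨u, hu⟩ := ha p hp
    obtain ⟨v, hv⟩ := hb p hp
    exact ⟨u + v, by rw [rco_add, hu, hv]; simp⟩
  · refine prod_induction _ (fun c : ℂ => ∀ a, Zi n a → Zi n (c • a))
      (fun c c' hc hc' a ha => by rw [mul_smul]; exact hc _ (hc' a ha))
      (fun a ha => by rwa [one_smul]) (fun i _ a ha => ?_) _ (h y hy)
    simp only [Kd]
    split_ifs
    · rwa [one_smul]
    · intro p hp
      obtain ⟨u, hu⟩ := ha.xr n p hp
      exact ⟨-u, by rw [neg_smul, ← xr_pow_mul, rco_neg, hu]; simp⟩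
    · rwa [zero_smul]

theorem asr_exact {w M n D : ℕ} {ad : ℕ → ℕ} {X Z : List Bool} {a : RA n}
    (ha : AR w M n ad X ((2 : ℂ) ^ D • a)) (hz : Zi n a) (hb : 2 * (2 ^ D * nrm n a) < 2 ^ w)
    (h : ∀ c < 2 * n, ∀ u : ℤ, WR w M X (ad c) u → 2 * |u| < 2 ^ w →
      WR w M Z (ad c) (u / 2 ^ D)) : AR w M n ad Z a := fun c hc => by
  obtain ⟨u, h1, h2⟩ := ha c hc
  obtain ⟨v, h3⟩ := hz c hc
  have h4 := abs_rco_le a hc
  rw [show (2 : ℂ) ^ D = ((2 ^ D : ℝ) : ℂ) by simp, rco_smul, h3] at h1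
  obtain rfl : u = 2 ^ D * v := by exact_mod_cast h1.symm
  refine ⟨v, h3, ?_⟩
  have := h c hc _ h2 (by
    rw [h3] at h4
    have k : (2 : ℝ) * (2 ^ D * |(v : ℝ)|) < 2 ^ w := lt_of_le_of_lt (by gcongr) hb
    rw [abs_mul, abs_of_nonneg (by positivity)]
    exact_mod_cast k)
  rwa [Int.mul_ediv_cancel_left _ (by positivity)] at this

theorem ar_iff_cr {w M n δ : ℕ} {ad : ℕ → ℕ} {L : List Bool} {a : RA n}
    (h : ∀ c < n, ad (c + n) = ad c + δ) :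
    AR w M n ad L a ↔ ∀ c < n, CR w M δ L (ad c) (co n a c) := by
  constructor
  · intro ha c hc
    obtain ⟨u, h1, h2⟩ := ha c (by omega)
    obtain ⟨v, h3, h4⟩ := ha (c + n) (by omega)
    exact ⟨u, v, by rw [co_eq_rco a hc, h1, h3]; simp, h2, h c hc ▸ h4⟩
  · intro ha p hp
    by_cases hn : p < n
    · obtain ⟨u, v, h1, h2, -⟩ := ha p hn
      exact ⟨u, by rw [rco, if_pos hn, h1]; simp, h2⟩
    · obtain ⟨c, rfl⟩ : ∃ c, p = c + n := ⟨p - n, by omega⟩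
      obtain ⟨u, v, h1, -, h2⟩ := ha c (by omega)
      exact ⟨v, by rw [rco, if_neg hn, Nat.add_sub_cancel, h1]; simp, h c (by omega) ▸ h2⟩

end Crest.Agent.IM.LY
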