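import Crest.Agent.IM.ParamA

/-! TASK IM-PB. The number of passes is `O(L ^ κ')` (use `param_ok`).
`sg / mu ≤ 1 - 2⁻¹ ^ 58 ≤ 2 ^ (-2⁻¹ ^ 58)`; `L ^ (1 - κ') ≤ 2 ^ (2⁻¹ ^ 112 (J + 1))`;
`k ≤ (L + 1) / d`; `sg ^ jg ≤ mu ^ jg ≤ (2 J) ^ 14`; `mu ^ jt ≤ 2 ^ (x / 2)`,
`(sg / mu) ^ jt ≤ 2 · 2 ^ (-2⁻¹ ^ 63 x)`, `d ≤ 2 ^ (14 x / EE)` with `x = size L`, `2 ^ x ≤ 2 L`;
`size (P / Bt) ≤ sqrt L + 1`; `d β = p / d`; `size w ≤ x + 12 ≤ EE (J + 1) + 12`;
`size (2 n (3 w)) ≤ 4 L / d`. -/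

set_option autoImplicit false

namespace Crest.Agent.IM

namespace PA

theorem κ'_le : κ' ≤ 1 := by unfold κ'; norm_num
theorem le_κ' : 1 / 2 ≤ κ' := by unfold κ'; norm_num

theorem rpow_κ_le (n : ℕ) : (n : ℝ) ^ κ' ≤ n := by
  rcases Nat.eq_zero_or_pos n with rfl | hn
  · rw [Nat.cast_zero, Real.zero_rpow (by have := le_κ'; linarith)]
  · have : (1 : ℝ) ≤ n := by exact_mod_cast hn
    simpa using Real.rpow_le_rpow_of_exponent_le this κ'_le

theorem mul_rpow_le {c M L : ℕ} (h : c ^ 2 * M ≤ L) : c * (M : ℝ) ^ κ' ≤ (L : ℝ) ^ κ' := by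
  have hκ := le_κ'
  rcases Nat.eq_zero_or_pos c with rfl | hc
  · rw [Nat.cast_zero, zero_mul]; positivity
  have h1 : (1 : ℝ) ≤ c := by exact_mod_cast hc
  have h2 : (c : ℝ) ≤ ((c : ℝ) ^ 2) ^ κ' := by
    rw [← Real.rpow_natCast, ← Real.rpow_mul (by positivity)]
    simpa using Real.rpow_le_rpow_of_exponent_le h1 (y := 1) (z := (2 : ℕ) * κ')
      (by push_cast; linarith)
  calc c * (M : ℝ) ^ κ' ≤ ((c : ℝ) ^ 2) ^ κ' * (M : ℝ) ^ κ' := by gcongr
    _ = ((c : ℝ) ^ 2 * M) ^ κ' := (Real.mul_rpow (by positivity) (by positivity)).symm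
    _ ≤ _ := Real.rpow_le_rpow (by positivity) (by exact_mod_cast h) (by linarith)

theorem two_le_exp : (2 : ℝ) ≤ Real.exp 1 := by
  have := Real.add_one_le_exp 1; linarith

theorem two_pow_le_exp (n : ℕ) : (2 : ℝ) ^ n ≤ Real.exp n := by
  rw [← mul_one (n : ℝ), Real.exp_nat_mul]
  exact pow_le_pow_left₀ (by norm_num) two_le_exp n

theorem exp_half_le : Real.exp (1 / 2) ≤ 2 := by
  have h1 : Real.exp (1 / 2) ^ 2 = Real.exp 1 := by rw [← Real.exp_nat_mul]; norm_num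
  have h2 := Real.exp_one_lt_d9
  nlinarith [Real.exp_pos (1 / 2)]

theorem sg_div_le : sg / mu ≤ Real.exp (-(1 / 2 ^ 58)) := by
  refine le_trans ?_ (Real.add_one_le_exp _)
  unfold sg
  rw [WW_eq, mu_eq]
  norm_num

theorem sg_le_mu : sg ≤ mu := by
  unfold sg
  rw [WW_eq, mu_eq]
  norm_num

theorem sg_div_pow_le (j : ℕ) : (sg / mu) ^ j ≤ Real.exp (-(j / 2 ^ 58)) := by
  have := two_le_sg
  calc (sg / mu) ^ j ≤ Real.exp (-(1 / 2 ^ 58)) ^ j := pow_le_pow_left₀ (by positivity) sg_div_le j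
    _ = _ := by rw [← Real.exp_nat_mul]; congr 1; ring

theorem ev_J : ∃ J₀ : ℕ, ∀ J : ℕ, J₀ ≤ J → (2 * (J : ℝ)) ^ 15 * Real.exp (-(J / 2 ^ 59)) ≤ 1 := by
  have hr : |Real.exp (-(1 / 2 ^ 59))| < 1 := by
    rw [abs_of_pos (Real.exp_pos _)]
    exact Real.exp_lt_one_iff.2 (by norm_num)
  have h := tendsto_pow_const_mul_const_pow_of_abs_lt_one 15 hr
  obtain ⟨J₀, hJ⟩ := Filter.eventually_atTop.1
    (h.eventually (gt_mem_nhds (show (0 : ℝ) < 1 / 2 ^ 15 by norm_num)))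
  refine ⟨J₀, fun J hJ' => ?_⟩
  have h1 := hJ J hJ'
  rw [← Real.exp_nat_mul, show (J : ℝ) * -(1 / 2 ^ 59) = -(J / 2 ^ 59) by ring] at h1
  rw [mul_pow]
  linarith

section
variable {m : ℕ} (h : 100 ≤ pJ m)
include h

theorem L_le_exp : (m.size : ℝ) ≤ (m.size : ℝ) ^ κ' * Real.exp (m.size.size / 2 ^ 182) := by
  have h0 : (0 : ℝ) < m.size := by exact_mod_cast one_le_L h
  have h1 : (m.size : ℝ) ≤ Real.exp m.size.size :=
    le_trans (by exact_mod_cast (Nat.lt_size_self m.size).le) (two_pow_le_exp _)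
  calc (m.size : ℝ) = (m.size : ℝ) ^ κ' * (m.size : ℝ) ^ (1 / (2 : ℝ) ^ 182) := by
        rw [← Real.rpow_add h0]; unfold κ'; simp
    _ ≤ (m.size : ℝ) ^ κ' * Real.exp m.size.size ^ (1 / (2 : ℝ) ^ 182) := by gcongr
    _ = _ := by rw [← Real.exp_mul]; congr 2; ring

omit h in
theorem x_le : (m.size.size : ℝ) ≤ 2 ^ 70 * (pJ m + 1) := by
  have := x_lt (m := m)
  rw [EE_eq] at this
  exact_mod_cast this.le

omit h in
theorem le_x : (2 : ℝ) ^ 70 * pJ m ≤ m.size.size := by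
  have := EE_J_le (m := m)
  rw [EE_eq] at this
  exact_mod_cast this

theorem toLk {X : ℕ} (hX : z m * X ≤ m.size) : (X : ℝ) ≤ (m.size : ℝ) ^ κ' := by
  have h1 := L_le_exp h
  have h2 := x_le (m := m)
  have hJ : (100 : ℝ) ≤ pJ m := by exact_mod_cast h
  have h3 : Real.exp (m.size.size / 2 ^ 182) ≤ z m := by
    calc Real.exp (m.size.size / 2 ^ 182) ≤ Real.exp (pJ m * (1 / 2)) :=
          Real.exp_le_exp.2 (by linarith)
      _ = Real.exp (1 / 2) ^ pJ m := Real.exp_nat_mul _ _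
      _ ≤ 2 ^ pJ m := pow_le_pow_left₀ (by positivity) exp_half_le _
      _ = _ := by unfold z; push_cast; rfl
  have h4 : (z m : ℝ) * X ≤ m.size := by exact_mod_cast hX
  have h5 : (0 : ℝ) < z m := by unfold z; positivity
  have h6 : (z m : ℝ) * X ≤ z m * (m.size : ℝ) ^ κ' := by
    calc (z m : ℝ) * X ≤ (m.size : ℝ) ^ κ' * Real.exp (m.size.size / 2 ^ 182) := h4.trans h1
      _ ≤ (m.size : ℝ) ^ κ' * z m := by gcongr
      _ = _ := mul_comm _ _
  exact le_of_mul_le_mul_left h6 h5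

theorem zpow_le_L {a : ℕ} (ha : a ≤ 999) : z m ^ a ≤ m.size := by
  have := small h (X := z m ^ a) le_rfl ha
  have := R_le_L h
  omega

theorem term1 (hJ : (2 * (pJ m : ℝ)) ^ 15 * Real.exp (-(pJ m / 2 ^ 59)) ≤ 1) :
    (pk m : ℝ) * (pJ m + 1) * sg ^ (pJ m + pjg m) ≤ (m.size : ℝ) ^ κ' := by
  have hs := two_le_sg
  have hJ1 : (100 : ℝ) ≤ pJ m := by exact_mod_cast h
  have hmu : (0 : ℝ) < mu := by have := sg_le_mu; linarith
  have h1 : (pk m : ℝ) * (mu : ℝ) ^ pJ m ≤ m.size := by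
    have := kd_le h
    have : pk m * mu ^ pJ m ≤ m.size := le_trans (Nat.le_add_right _ _) this
    exact_mod_cast this
  have h2 : sg ^ pjg m ≤ (2 * (pJ m : ℝ)) ^ 14 :=
    (pow_le_pow_left₀ (by linarith) sg_le_mu _).trans (by exact_mod_cast mu_jg_le h)
  have h3 := sg_div_pow_le (pJ m)
  have h4 := L_le_exp h
  have h5 := x_le (m := m)
  calc (pk m : ℝ) * (pJ m + 1) * sg ^ (pJ m + pjg m)
      = pk m * (mu : ℝ) ^ pJ m * (pJ m + 1) * (sg / mu) ^ pJ m * sg ^ pjg m := by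
        rw [div_pow, pow_add]; field_simp
    _ ≤ ((m.size : ℝ) ^ κ' * Real.exp (m.size.size / 2 ^ 182)) * (2 * pJ m) *
        Real.exp (-(pJ m / 2 ^ 58)) * (2 * (pJ m : ℝ)) ^ 14 := by
        have h6 := h1.trans h4
        gcongr
        linarith
    _ = (m.size : ℝ) ^ κ' * ((2 * (pJ m : ℝ)) ^ 15 *
        Real.exp (m.size.size / 2 ^ 182 + -(pJ m / 2 ^ 58))) := by rw [Real.exp_add]; ring
    _ ≤ (m.size : ℝ) ^ κ' * ((2 * (pJ m : ℝ)) ^ 15 * Real.exp (-(pJ m / 2 ^ 59))) := by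
        gcongr; linarith
    _ ≤ (m.size : ℝ) ^ κ' * 1 := by gcongr
    _ = _ := mul_one _

theorem term2 {q : ℕ} (hq : q ≤ pJ m) :
    (pd m : ℝ) * (((pd m).size + 1 : ℕ) + (pQg q m).size + 1) * sg ^ pjg m ≤ (m.size : ℝ) ^ κ' := by
  have hs := two_le_sg
  have h1 : sg ^ pjg m ≤ (z m : ℝ) ^ 14 :=
    (pow_le_pow_left₀ (by linarith) sg_le_mu _).trans (by exact_mod_cast mu_jg_le' h)
  have h2 : (pQg q m).size ≤ z m ^ 15 + 1 :=
    Nat.size_le.2 ((Qg_le h hq).trans_lt (Nat.pow_lt_pow_right (by norm_num) (by omega)))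
  have h3 := size_le_self (pd m)
  have h4 := d_le (m := m)
  have h5 := le_z h
  have h6 : z m ^ 14 ≤ z m ^ 15 := zz (by norm_num)
  have h7 : z m ^ 1 ≤ z m ^ 15 := zz (by norm_num)
  have h8 : (pd m).size + 1 + (pQg q m).size + 1 ≤ z m ^ 16 := by
    calc _ ≤ 3 * z m ^ 15 := by rw [pow_one] at h7; omega
      _ ≤ z m * z m ^ 15 := Nat.mul_le_mul_right _ (by omega)
      _ = _ := by ring
  have h9 := toLk h (X := z m ^ 44) (by rw [← pow_succ']; exact zpow_le_L h (by norm_num))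
  refine le_trans ?_ h9
  calc _ ≤ (z m : ℝ) ^ 14 * (z m : ℝ) ^ 16 * (z m : ℝ) ^ 14 := by
        gcongr
        · exact_mod_cast h4
        · exact_mod_cast h8
    _ = _ := by push_cast; ring

theorem d_two_le : pd m + 2 ≤ z m ^ 15 := by
  have h1 := d_le (m := m)
  have h2 := le_z h
  have h3 := d_large h
  calc pd m + 2 ≤ 2 * z m ^ 14 := by omega
    _ ≤ z m * z m ^ 14 := Nat.mul_le_mul_right _ (by omega)
    _ = _ := by ring

theorem term3 {l u : ℕ} (hl : l ≤ 2 * m.size) (hu : u ≤ R m + 1) :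
    ((pd m : ℝ) + 2) * trc (m.size.size / 28) l u ≤ 7 * (m.size : ℝ) ^ κ' := by
  have hs := two_le_sg
  have hx : m.size.size ≤ R m + 1 :=
    Nat.size_le.2 ((L_le h).trans_lt (Nat.pow_lt_pow_right (by norm_num) (by omega)))
  have hR := le_R h
  have hz := le_z h
  have h1 : mu ^ (m.size.size / 28) ≤ 2 * R m + 2 := by
    have h2 : m.size < (R m + 1) * (R m + 1) := Nat.lt_succ_sqrt _
    have h3 := two_pow_size_le (one_le_L h)
    have h4 : (mu ^ (m.size.size / 28)) ^ 2 ≤ 2 ^ m.size.size :=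
      calc (mu ^ (m.size.size / 28)) ^ 2 ≤ ((2 ^ 14) ^ (m.size.size / 28)) ^ 2 := by
            gcongr; exact mu_le
        _ = 2 ^ (28 * (m.size.size / 28)) := by rw [← pow_mul, ← pow_mul]; congr 1; ring
        _ ≤ _ := Nat.pow_le_pow_right (by norm_num) (by omega)
    refine (Nat.pow_le_pow_iff_left (n := 2) (by norm_num)).1 ?_
    nlinarith
  have h2 := toLk h (X := (pd m + 2) * (mu ^ (m.size.size / 28) + u + m.size.size / 28 + 1)) (by
    have h3 := small h (X := z m ^ 16) le_rfl (by norm_num)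
    calc z m * ((pd m + 2) * (mu ^ (m.size.size / 28) + u + m.size.size / 28 + 1))
        ≤ z m * (z m ^ 15 * (5 * R m)) := by
          gcongr
          · exact d_two_le h
          · omega
      _ = 5 * z m ^ 16 * R m := by ring
      _ ≤ R m * R m := Nat.mul_le_mul_right _ (by omega)
      _ ≤ _ := R_sq)
  have h3 : (pd m : ℝ) + 2 ≤ Real.exp (15 * pJ m) := by
    have h4 : pd m + 2 ≤ 2 ^ (15 * pJ m) := by
      rw [mul_comm, pow_mul]; exact d_two_le h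
    have h5 := two_pow_le_exp (15 * pJ m)
    have h6 : (pd m : ℝ) + 2 ≤ 2 ^ (15 * pJ m) := by exact_mod_cast h4
    push_cast at h5
    linarith
  have h4 := sg_div_pow_le (m.size.size / 28)
  have h5 := L_le_exp h
  have h6 := le_x (m := m)
  have h7 : (m.size.size : ℝ) ≤ 28 * (m.size.size / 28 : ℕ) + 28 := by
    have : m.size.size ≤ 28 * (m.size.size / 28) + 28 := by omega
    exact_mod_cast this
  have h8 : (l : ℝ) ≤ 2 * m.size := by exact_mod_cast hl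
  have h9 : ((pd m : ℝ) + 2) * (l * (sg / mu) ^ (m.size.size / 28)) ≤ 6 * (m.size : ℝ) ^ κ' := by
    have h0 : (0 : ℝ) ≤ (m.size.size / 28 : ℕ) := by positivity
    calc ((pd m : ℝ) + 2) * (l * (sg / mu) ^ (m.size.size / 28))
        ≤ Real.exp (15 * pJ m) * (2 * ((m.size : ℝ) ^ κ' * Real.exp (m.size.size / 2 ^ 182)) *
          Real.exp (-((m.size.size / 28 : ℕ) / 2 ^ 58))) := by
          gcongr; linarith
      _ = 2 * (m.size : ℝ) ^ κ' * Real.exp (15 * pJ m + m.size.size / 2 ^ 182 +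
          -((m.size.size / 28 : ℕ) / 2 ^ 58)) := by rw [Real.exp_add, Real.exp_add]; ring
      _ ≤ 2 * (m.size : ℝ) ^ κ' * Real.exp 1 := by gcongr; linarith
      _ ≤ 2 * (m.size : ℝ) ^ κ' * 3 := by gcongr; have := Real.exp_one_lt_d9; linarith
      _ = _ := by ring
  unfold trc
  push_cast at h2
  nlinarith

theorem np_le : z m ^ 4 * (pd m * (2 * (pd m ^ 2 * pα m ^ 2) + 1) +
    pd m * (2 * pd m ^ 5) * (2 * pd m ^ 2 + 1) + pd m + 10) ≤ m.size := by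
  have hz := le_z h
  have hd := d_large h
  have h1 : 1600 * z m ^ 4 ≤ pd m :=
    calc 1600 * z m ^ 4 ≤ z m * z m ^ 4 := Nat.mul_le_mul_right _ (by omega)
      _ = z m ^ 5 := by ring
      _ ≤ z m ^ 13 := zz (by norm_num)
      _ ≤ _ := le_d
  have h2 : 1600 * (z m ^ 4 * (pd m ^ 3 * pα m ^ 2)) ≤ 400 * m.size :=
    calc _ = 1600 * z m ^ 4 * (pd m ^ 3 * pα m ^ 2) := by ring
      _ ≤ pd m * (pd m ^ 3 * pα m ^ 2) := Nat.mul_le_mul_right _ h1
      _ = pd m ^ 4 * pα m ^ 2 := by ring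
      _ ≤ _ := p_le h
  have h3 : pd m ^ 6 ≤ pd m ^ 8 := Nat.pow_le_pow_right (by omega) (by norm_num)
  have h4 : pd m ^ 1 ≤ pd m ^ 8 := Nat.pow_le_pow_right (by omega) (by norm_num)
  rw [pow_one] at h4
  have h5 : 1000 * (z m ^ 4 * pd m ^ 8) ≤ R m := small h (a := 4 + 14 * 8)
    (by rw [pow_add]; exact Nat.mul_le_mul_left _ (d_pow_le 8)) (by norm_num)
  have h6 := R_le_L h
  have h7 : z m ^ 4 * (4 * pd m ^ 8 + 2 * pd m ^ 6 + 2 * pd m + 10) ≤ z m ^ 4 * (9 * pd m ^ 8) :=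
    Nat.mul_le_mul_left _ (by omega)
  nlinarith

theorem size_w_le : (6 * (pd m ^ 4 * pα m ^ 2)).size ≤ z m ^ 2 := by
  have h1 := p_le h
  have h2 := Nat.lt_size_self m.size
  have h3 : (6 * (pd m ^ 4 * pα m ^ 2)).size ≤ m.size.size + 12 :=
    Nat.size_le.2 (by rw [pow_add]; omega)
  have h4 := x_lt (m := m)
  have h5 := J_lt_z (m := m)
  have h6 := le_z h
  rw [EE_eq] at h4
  nlinarith

theorem size_l_le : (3 * (6 * (pd m ^ 4 * pα m ^ 2)) *
    ((2 ^ pk m) ^ pd m * (2 * 2 ^ (pe m - 1)))).size ≤ 2 * m.size := by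
  rw [two_n h, ← pow_mul, ← pow_add]
  have h1 := e_le_σ h
  have h2 := σ_le_L h
  have h3 := R_le_L h
  have h4 := le_R h
  have h5 := le_z h
  have h6 := p_le' h
  refine Nat.size_le.2 ?_
  calc 3 * (6 * (pd m ^ 4 * pα m ^ 2)) * 2 ^ (pk m * pd m + pe m)
      ≤ 4 * (8 * 2 ^ (R m + 9)) * 2 ^ (pk m * pd m + pe m) := by gcongr <;> norm_num
    _ = 2 ^ (R m + 14 + (pk m * pd m + pe m)) := by ring
    _ < _ := Nat.pow_lt_pow_right (by norm_num) (by omega)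

theorem size_M_le : z m ^ 2 * (2 * 2 ^ (pe m - 1) * (3 * (6 * (pd m ^ 4 * pα m ^ 2)))).size
    ≤ m.size := by
  rw [two_n h]
  have h1 := e_le h
  have h2 := d_small h
  have h3 := d_large h
  have h4 : 1000 * pd m ≤ pd m * pd m := Nat.mul_le_mul_right _ h3
  have h5 := le_z h
  have h6 := p_le' h
  have h7 : (2 ^ pe m * (3 * (6 * (pd m ^ 4 * pα m ^ 2)))).size ≤ 2 * pk m + 2 * R m := by
    refine Nat.size_le.2 ?_
    calc 2 ^ pe m * (3 * (6 * (pd m ^ 4 * pα m ^ 2))) ≤ 2 ^ pe m * (4 * (8 * 2 ^ (R m + 9))) := by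
          gcongr <;> norm_num
      _ = 2 ^ (R m + 14 + pe m) := by ring
      _ < _ := Nat.pow_lt_pow_right (by norm_num) (by omega)
  have h8 : 4 * z m ^ 2 ≤ pd m :=
    calc 4 * z m ^ 2 ≤ z m * z m ^ 2 := Nat.mul_le_mul_right _ (by omega)
      _ = z m ^ 3 := by ring
      _ ≤ z m ^ 13 := zz (by norm_num)
      _ ≤ _ := le_d
  have h9 := small h (X := z m ^ 2) le_rfl (by norm_num)
  have h10 := kd_le h
  have h11 := R_sq (m := m)
  have h12 : 4 * z m ^ 2 * pk m ≤ pd m * pk m := Nat.mul_le_mul_right _ h8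
  have h13 : 4 * z m ^ 2 * R m ≤ R m * R m := Nat.mul_le_mul_right _ (by omega)
  have h14 := Nat.mul_le_mul_left (z m ^ 2) h7
  nlinarith

end

end PA

open PA in
theorem param_cost (q bb : ℕ) (hq : 2 ≤ q) : ∃ C₁ : ℕ, ∀ c : ℕ, ∃ m₀ : ℕ, ∀ m, m₀ ≤ m →
    ∀ Bt P : ℕ, 1 ≤ Bt → 1 ≤ P → P ≤ Bt * 2 ^ Nat.sqrt m.size →
    (mkPar q m Bt).ov P ≤ C₁ * (m.size : ℝ) ^ κ' ∧
    c * ((2 * (mkPar q m Bt).n * (3 * (mkPar q m Bt).w)).size : ℝ) ^ κ' ≤ (m.size : ℝ) ^ κ' ∧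
    c * (mkPar q m Bt).np * ((mkPar q m Bt).w.size : ℝ) ^ κ' ≤ (m.size : ℝ) ^ κ' := by
  obtain ⟨J₀, hJ₀⟩ := ev_J
  refine ⟨12, fun c => ?_⟩
  obtain ⟨m₀, hm₀⟩ := pJ_large (100 + q + c + J₀)
  refine ⟨m₀, fun m hm Bt P hBt hP hPB => ?_⟩
  have hK := hm₀ m hm
  have h : 100 ≤ pJ m := by omega
  have hJz := J_lt_z (m := m)
  have hz := le_z h
  have hnp : z m ^ 4 * (mkPar q m Bt).np ≤ m.size := np_le h
  refine ⟨?_, ?_, ?_⟩
  · have t1 := term1 h (hJ₀ _ (by omega))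
    have t2 := term2 h (q := q) (by omega)
    have hu : (P / Bt).size ≤ R m + 1 := by
      refine Nat.size_le.2 (lt_of_le_of_lt (Nat.div_le_of_le_mul hPB) ?_)
      exact Nat.pow_lt_pow_right (by norm_num) (Nat.lt_succ_self _)
    have t3 : ((pd m : ℝ) + 2) * (mkPar q m Bt).tr P ≤ 7 * (m.size : ℝ) ^ κ' :=
      term3 h (size_l_le h) hu
    have t4 := toLk h (X := pd m) (by
      have := d_small h
      have := R_le_L h
      have := Nat.mul_le_mul_right (pd m) (z_le_d h)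
      omega)
    have t5 := toLk h (X := pk m) (by
      have := kd_le h
      have := Nat.mul_le_mul_right (pk m) (z_le_d h)
      rw [mul_comm (pd m)] at this
      omega)
    have t6 := toLk h (X := (mkPar q m Bt).np) (by
      refine le_trans (Nat.mul_le_mul_right _ ?_) hnp
      simpa using zz (m := m) (a := 1) (b := 4) (by norm_num))
    change (pk m : ℝ) * (pJ m + 1) * sg ^ (pJ m + pjg m) +
      (pd m : ℝ) * (((pd m).size + 1 : ℕ) + (pQg q m).size + 1) * sg ^ pjg m +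
      (mkPar q m Bt).tr P + pd m + pk m + (pd m + 1) * (mkPar q m Bt).tr P + (mkPar q m Bt).np ≤ _
    push_cast at t2 ⊢
    linarith
  · refine mul_rpow_le (le_trans (Nat.mul_le_mul_right _ ?_) (size_M_le h))
    exact Nat.pow_le_pow_left (by omega) _
  · have h1 := toLk h (X := z m * (mkPar q m Bt).np * z m ^ 2) (le_trans (le_of_eq (by ring)) hnp)
    refine le_trans ?_ h1
    have h2 : ((mkPar q m Bt).w.size : ℝ) ^ κ' ≤ (z m : ℝ) ^ 2 :=
      (rpow_κ_le _).trans (by exact_mod_cast size_w_le h)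
    have h3 : (c : ℝ) ≤ z m := by exact_mod_cast (by omega : c ≤ z m)
    push_cast
    gcongr

end Crest.Agent.IM
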