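import Crest.Agent.IM.ParamD

/-! TASK IM-PC. The parameters are computed by control expressions (bind them one after the
other with `Ex.cb _ 0 _` / `Ex.app`; `Ex.ev_pow`, `Ex.ev_prod`; every power or product that
occurs is at most `2 N0`: `D0 ≤ s 0 < t`, `Qg ^ d ≤ ρx`, `WW ^ (J + jg) ≤ Y ≤ 2 ρx Bt`). -/

set_option autoImplicit false

namespace Crest.Agent.IM

namespace PC

/-- depth -/
def eJ : Ex := .size (.size (.var 0)) / .cst EE
/-- dimension -/
def ed : Ex := .pow (.cst mu) eJ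
/-- number of coefficients -/
def en1 : Ex := (.var 0 + .size (.var 0) - 1) / .size (.var 0)
/-- exponent `k` -/
def ek : Ex := (.size (2 * en1) - 1) / (ed + 2)
/-- step -/
def eD0 : Ex := 2 * .prod ed (.var 0 + 1)
/-- length -/
def et : Ex := .pow 2 ek
/-- offset -/
def ea0 : Ex := (et - et / ed) / eD0 + 1
/-- product of the moduli -/
def eS : Ex := .prod ed (1 + (.drop 1 ea0 + .var 0) * .drop 1 eD0)
/-- exponent `e` -/
def ex : Ex := .size (2 * en1 / eS)
/-- helper level -/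
def ejg : Ex := .size eJ
/-- helper digit -/
def eQg (q : ℕ) : Ex := .pow (.cst q) (.pow (.cst mu) ejg)
/-- width -/
def eα : Ex := .pow 2 ((.size (100 * .size (.var 0) / (ed * ed * ed * ed)) + 1) / 2)
/-- power of `WW` -/
def eW : Ex := .pow (.cst WW) (eJ + ejg)
/-- granularity -/
def eU (q : ℕ) : Ex := .pow (eQg q - 1) ed * .pow (eQg q) ed * eW
/-- `ρx` -/
def eρ : Ex := .pow 2 (ex - ek)
/-- innermost field -/
def eY (q : ℕ) : Ex := eW * ((eρ * .var 1 + eU q - 1) / eU q)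
/-- precision -/
def epp : Ex := ed * ed * ed * ed * (eα * eα)

end PC

open PC in
theorem param_ex (q : ℕ) (hq : 2 ≤ q) : ∃ es : List Ex, ∀ (bb B P P' m Bt : ℕ),
    (mkPar q m Bt).Ok q bb P' → 2 * (mkPar q m Bt).N0 ≤ B → m.size ≤ (mkPar q m Bt).p →
    es.map (fun e => e.ev B P [m, Bt]) = m :: m.size :: (mkPar q m Bt).args ∧
      ∀ v ∈ m.size :: (mkPar q m Bt).args, v ≤ B := by
  refine ⟨[.var 0, .size (.var 0), eJ, ek, ex, ejg, .size ed + 1, .size (.size (.var 0)) / 28, eα,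
    ea0, eD0, .var 1, eQg q, eY q, ed, et, .pow 2 (ex - 1), epp, 6 * epp, eS,
    et + .pow 2 (ek - (.size ed + 1)), eρ], fun bb B P P' m Bt h hB hm => ?_⟩
  set π := mkPar q m Bt with hπ
  have hmu := two_le_mu
  have hW := two_le_WW
  have d8 := h.eight_le_d
  have t2 := h.two_le_t
  have p1 := h.le_p
  have n1 := π.one_le_n
  have Bt1 := h.hBt
  have Y1 := h.one_le_Y
  have Q3 := h.hQ3
  have td1 : 1 ≤ π.t ^ π.d := Nat.one_le_pow _ _ (by omega)
  have wp : π.w = 6 * π.p := rfl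
  have bw : π.w ≤ π.N0 := Nat.le_mul_of_pos_right _ (by positivity)
  have bR : π.t ^ π.d * (2 * π.n) * π.Bt ≤ π.N0 := Nat.le_mul_of_pos_left _ (by omega)
  have bnB : 2 * π.n * π.Bt ≤ π.N0 := by
    refine le_trans ?_ bR
    rw [mul_assoc (π.t ^ π.d)]
    exact Nat.le_mul_of_pos_left _ td1
  have btd : π.t ^ π.d ≤ π.N0 := by
    refine le_trans ?_ bR
    rw [mul_assoc]
    exact Nat.le_mul_of_pos_right _ (by positivity)
  have bn : 2 * π.n ≤ π.N0 := (Nat.le_mul_of_pos_right _ Bt1).trans bnB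
  have bBt : π.Bt ≤ π.N0 := (Nat.le_mul_of_pos_left _ (by omega)).trans bnB
  have bt : π.t ≤ π.N0 := (Nat.le_self_pow (by omega) _).trans btd
  have bρ : π.ρx ≤ 2 * π.n := h.t_mul_ρx ▸ Nat.le_mul_of_pos_left _ (by omega)
  have bρB : π.ρx * π.Bt ≤ π.N0 := (Nat.mul_le_mul_right _ bρ).trans bnB
  have bQd : π.Qg ^ π.d ≤ π.N0 := h.hQρ.trans (bρ.trans bn)
  have bQ : π.Qg ≤ π.N0 := (Nat.le_self_pow (by omega) _).trans bQd
  have bQ1 : (π.Qg - 1) ^ π.d ≤ π.N0 := (Nat.pow_le_pow_left (Nat.sub_le _ _) _).trans bQd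
  have bY : π.Y ≤ 2 * π.N0 := by
    have : 0 < π.Qg - 1 := by omega
    have : π.Y ≤ (π.Qg - 1) ^ π.d * π.Qg ^ π.d * π.Y := Nat.le_mul_of_pos_left _ (by positivity)
    have := h.hY2
    omega
  have bW : WW ^ (π.J + π.jg) ≤ π.Y := (Nat.le_mul_of_pos_left _ h.hP).trans h.hY4
  have α1 : 0 < π.α := by
    have := h.hα1
    by_contra h0
    rw [show π.α = 0 by omega] at this
    omega
  have bα : π.α ≤ π.p :=
    (Nat.le_self_pow (n := 2) (by omega) _).trans (Nat.le_mul_of_pos_left _ (by positivity))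
  have bd : π.d ≤ π.p :=
    (Nat.le_self_pow (n := 4) (by omega) _).trans (Nat.le_mul_of_pos_right _ (by positivity))
  have bs := h.hs1 0 (by omega)
  have D1 : 0 < π.D0 := Nat.mul_pos (by norm_num) (Nat.factorial_pos _)
  have a1 : 0 < π.a0 := Nat.succ_pos _
  have bD : π.D0 ≤ π.t := by
    have : π.D0 ≤ (π.a0 + 0) * π.D0 := Nat.le_mul_of_pos_left _ a1
    unfold Par.s at bs; omega
  have ba : π.a0 ≤ π.t := by
    have : π.a0 + 0 ≤ (π.a0 + 0) * π.D0 := Nat.le_mul_of_pos_right _ D1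
    unfold Par.s at bs; omega
  have bS := h.S_le
  have bJ : π.J < π.d := Nat.lt_pow_self hmu
  have bk : π.k < π.t := Nat.lt_pow_self (by norm_num)
  have be : π.e - 1 < π.n := Nat.lt_pow_self (by norm_num)
  have bmj : mu ^ π.jg < π.Qg := Nat.lt_pow_self hq
  have bjg : π.jg < mu ^ π.jg := Nat.lt_pow_self hmu
  have bG := h.hG
  have bkG : 2 ^ (π.k - π.G) ≤ π.t := Nat.pow_le_pow_right (by norm_num) (Nat.sub_le _ _)
  have bjt : π.jt ≤ m.size :=
    (Nat.div_le_self _ _).trans (Nat.size_le.2 (Nat.lt_pow_self (by norm_num)))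
  have dB : π.d ≤ B.size :=
    Ex.le_size_of_two_pow_le ((Nat.pow_le_pow_left t2 _).trans (by omega))
  have vJ : eJ.ev B P [m, Bt] = π.J := rfl
  have vd : ed.ev B P [m, Bt] = π.d := Ex.ev_pow hmu (show π.d ≤ B by omega)
  have vn1 : en1.ev B P [m, Bt] = pn1 m := rfl
  have vk : ek.ev B P [m, Bt] = π.k := by
    simp only [ek, Ex.ev_div, Ex.ev_add, vd]; rfl
  have vD : eD0.ev B P [m, Bt] = π.D0 := by
    have e : ∏ i ∈ Finset.range π.d, (Ex.var 0 + 1).ev B P (i :: [m, Bt]) = π.d.factorial := by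
      simp [Finset.prod_range_add_one_eq_factorial]
    have e' : 2 * π.d.factorial = π.D0 := rfl
    rw [eD0, Ex.ev_mul, Ex.ev_prod (vd ▸ dB) (fun i _ => by simp) (by rw [vd, e]; omega), vd, e]
    rfl
  have vt : et.ev B P [m, Bt] = π.t := by
    rw [et, Ex.ev_pow le_rfl (by rw [vk]; show π.t ≤ B; omega), vk]; rfl
  have va : ea0.ev B P [m, Bt] = π.a0 := by
    simp only [ea0, Ex.ev_div, Ex.ev_add, Ex.ev_sub, vd, vt, vD]; rfl
  have vS : eS.ev B P [m, Bt] = π.S := by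
    have e : ∏ i ∈ Finset.range π.d, (1 + (.drop 1 ea0 + .var 0) * .drop 1 eD0 : Ex).ev B P
        (i :: [m, Bt]) = π.S := by
      rw [Par.S, pr, Finset.range_eq_Ico]
      refine Finset.prod_congr rfl fun i _ => ?_
      simp [va, vD, Par.s]
    rw [eS, Ex.ev_prod (vd ▸ dB) (fun i _ => by simp) (by rw [vd, e]; omega), vd, e]
  have ve : ex.ev B P [m, Bt] = π.e := by
    simp only [ex, Ex.ev_div, Ex.ev_size, vS]; rfl
  have vjg : ejg.ev B P [m, Bt] = π.jg := rfl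
  have vQ : (eQg q).ev B P [m, Bt] = π.Qg := by
    have e : (Ex.pow (.cst mu) ejg).ev B P [m, Bt] = mu ^ π.jg :=
      Ex.ev_pow hmu (show mu ^ π.jg ≤ B by omega)
    rw [eQg, Ex.ev_pow (a := .cst q) hq (by rw [e]; show π.Qg ≤ B; omega), e]; rfl
  have vα : eα.ev B P [m, Bt] = π.α := by
    have e : ((Ex.size (100 * .size (.var 0) / (ed * ed * ed * ed)) + 1) / 2).ev B P [m, Bt] =
        ((100 * m.size / pd m ^ 4).size + 1) / 2 := by
      have : π.d * π.d * π.d * π.d = pd m ^ 4 := by rw [show π.d = pd m from rfl]; ring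
      simp [vd, this]
    rw [eα, Ex.ev_pow le_rfl (by rw [e]; show π.α ≤ B; omega), e]; rfl
  have vW : eW.ev B P [m, Bt] = WW ^ (π.J + π.jg) :=
    Ex.ev_pow hW (show WW ^ (π.J + π.jg) ≤ B by omega)
  have vU : (eU q).ev B P [m, Bt] = pU q m := by
    have e : (eQg q - 1).ev B P [m, Bt] = π.Qg - 1 := by simp [vQ]
    rw [eU, Ex.ev_mul, Ex.ev_mul, Ex.ev_pow (by rw [e]; omega) (by rw [e, vd]; omega),
      Ex.ev_pow (by rw [vQ]; omega) (by rw [vQ, vd]; omega), e, vQ, vd, vW]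
    rfl
  have vρ : eρ.ev B P [m, Bt] = π.ρx := by
    have e : (ex - ek).ev B P [m, Bt] = π.e - π.k := by simp [ve, vk]
    rw [eρ, Ex.ev_pow le_rfl (by rw [e]; show π.ρx ≤ B; omega), e]; rfl
  have vY : (eY q).ev B P [m, Bt] = π.Y := by
    simp only [eY, Ex.ev_mul, Ex.ev_div, Ex.ev_sub, Ex.ev_add, vW, vρ, vU]; rfl
  have vp : epp.ev B P [m, Bt] = π.p := by
    simp only [epp, Ex.ev_mul, vd, vα, Par.p]; ring
  have vG : (Ex.size ed + 1).ev B P [m, Bt] = π.G := by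
    simp only [Ex.ev_add, Ex.ev_size, vd]; rfl
  have vn : (Ex.pow 2 (ex - 1)).ev B P [m, Bt] = π.n := by
    have e : (ex - 1).ev B P [m, Bt] = π.e - 1 := by simp [ve]
    rw [Ex.ev_pow le_rfl (by rw [e]; show π.n ≤ B; omega), e]; rfl
  have vS' : (et + .pow 2 (ek - (.size ed + 1))).ev B P [m, Bt] = π.S' := by
    have e : (ek - (.size ed + 1)).ev B P [m, Bt] = π.k - π.G := by rw [Ex.ev_sub, vk, vG]
    rw [Ex.ev_add, vt, Ex.ev_pow le_rfl (by rw [e]; show 2 ^ (π.k - π.G) ≤ B; omega), e]; rfl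
  have vw : (6 * epp).ev B P [m, Bt] = π.w := by rw [Ex.ev_mul, vp]; rfl
  constructor
  · simp only [List.map_cons, List.map_nil, vJ, vk, ve, vjg, vG, vα, va, vD, vQ, vY, vd, vt, vn,
      vp, vw, vS, vS', vρ]
    rfl
  · have eS' : π.S' = π.t + 2 ^ (π.k - π.G) := rfl
    simp only [Par.args, List.forall_mem_cons, List.not_mem_nil, false_imp_iff, implies_true,
      and_true]
    omega

end Crest.Agent.IM
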