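import Crest.Agent.IM.Core
import Crest.Agent.IM.ParamB
import Crest.Agent.IM.ParamC
import Crest.Agent.IM.CompC

/-! The recursive multiplication program and its cost. -/

set_option autoImplicit false

namespace Crest.Agent.IM

theorem κ'_pos : 0 < κ' := by
  unfold κ'
  have : 1 / (2 : ℝ) ^ 182 < 1 := by
    rw [div_lt_one (by positivity)]; exact one_lt_pow₀ (by norm_num) (by norm_num)
  linarith

theorem one_le_size_rpow {m : ℕ} (hm : 1 ≤ m) : 1 ≤ (m.size : ℝ) ^ κ' :=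
  Real.one_le_rpow (by exact_mod_cast Nat.size_pos.2 hm) κ'_pos.le

theorem MulAt.self {B P : ℕ} {r : Prog} {m M : ℕ} {x : ℝ} (h : MulAt B P r r m M x) :
    MulAt B P r (.self [.var 0, .var 1]) m M (x + P) := fun X Y hX hY =>
  let ⟨Z, h1, h2, h3⟩ := h X Y hX hY
  ⟨Z, h1, (Go.self (by simp) (fun v hv => Or.inr hv) h2).top, h3⟩

theorem core_all : ∃ q bb, 2 ≤ q ∧ CoreStmt q bb := by
  obtain ⟨q, hq, hS⟩ := swap_ex
  obtain ⟨bb, hN⟩ := net_ex hq hS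
  have hT := trans_ex hq hS
  exact ⟨q, bb, hq, core_ex (dft_ex (blue_ex (conv_ex hq (layer_ex hq hN) hT))) hT⟩

theorem final_le {Cm y₁ y₂ Cc C₁ ℓ P N0 N np ov : ℝ} (h1 : 0 ≤ Cm) (u1 : 0 ≤ y₁) (u2 : 0 ≤ y₂)
    (h2 : 0 ≤ Cc) (h3 : 0 ≤ C₁) (hℓ : 1 ≤ ℓ) (hP : 0 ≤ P) (hPN : P ≤ N0) (hnp : 10 ≤ np)
    (h4 : np ≤ ov) (hN : N0 ≤ 10 ^ 5 * N) (hC : 2 * ((Cc + 4) * 10 ^ 5 * C₁) ≤ Cm)
    (b1 : ov ≤ C₁ * ℓ) (b2 : 6400000 * y₁ ≤ ℓ) (b3 : 6400000 * np * y₂ ≤ ℓ) :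
    4 * (Cm * y₁ * (3 * N0) + P) + (3 * np + 1) * (Cm * y₂ * N0 + P) + Cc * N0 * ov + P + P ≤
      Cm * ℓ * N := by
  have hN0 : 0 ≤ N0 := by linarith
  have hN' : 0 ≤ N := by linarith
  have hnp' : 0 ≤ np := by linarith
  have hov : 0 ≤ ov := by linarith
  have hℓ' : 0 ≤ ℓ := by linarith
  have c1 : Cm * y₁ * N0 ≤ Cm * ℓ * N / 64 := by
    calc Cm * y₁ * N0 ≤ Cm * y₁ * (10 ^ 5 * N) := by gcongr
      _ = Cm * (6400000 * y₁) * N / 64 := by ring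
      _ ≤ _ := by gcongr
  have c2 : (3 * np + 1) * (Cm * y₂ * N0) ≤ Cm * ℓ * N / 16 := by
    calc (3 * np + 1) * (Cm * y₂ * N0) ≤ (4 * np) * (Cm * y₂ * (10 ^ 5 * N)) := by
          gcongr; linarith
      _ = Cm * (6400000 * np * y₂) * N / 16 := by ring
      _ ≤ _ := by gcongr
  have c3 : (3 * np + 7) * P ≤ 4 * N0 * ov := by
    calc (3 * np + 7) * P ≤ (4 * ov) * N0 := by gcongr; linarith
      _ = _ := by ring
  have c4 : (Cc + 4) * N0 * ov ≤ Cm * ℓ * N / 2 := by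
    calc (Cc + 4) * N0 * ov ≤ (Cc + 4) * (10 ^ 5 * N) * (C₁ * ℓ) := by gcongr
      _ = 2 * ((Cc + 4) * 10 ^ 5 * C₁) * ℓ * N / 2 := by ring
      _ ≤ _ := by gcongr
  have c5 : 0 ≤ Cm * ℓ * N := by positivity
  linarith

theorem mul_ex : ∃ (p : Prog) (Cm Cb : ℕ),
    (∀ B P : ℕ, 1 ≤ P → Cb ≤ B → MulAt B P p p 0 1 (Cb * P)) ∧
    ∀ B P m Bt : ℕ, 1 ≤ m → 1 ≤ Bt → 1 ≤ P → P ≤ Bt * 2 ^ Nat.sqrt m.size →
      Cb * m ^ 2 * Bt ≤ B → 2 ^ m.size ^ 3 ≤ B →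
      MulAt B P p p m Bt (Cm * (m.size : ℝ) ^ κ' * (m * Bt)) := by
  obtain ⟨q, bb, hq, hO⟩ := core_all
  obtain ⟨pc, Cc, Hc⟩ := hO (.self [.var 0, .var 1])
  obtain ⟨ps, Cs, Hs⟩ := school_ex
  obtain ⟨es, He⟩ := param_ex q hq
  obtain ⟨C₁, H₁⟩ := param_cost q bb hq
  obtain ⟨ma, Ha⟩ := param_ok q bb (64 * 10 ^ 5 + Cc) hq
  obtain ⟨mb, Hb⟩ := H₁ (64 * 10 ^ 5)
  set m₀ := ma + mb + 1 with hm₀
  set body : Prog := .ite (Ex.ifLt (.var 0) (.cst m₀) 1 0) (.call [.var 0, .var 1] ps)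
    (.call es pc) with hbody
  have small : ∀ B P m Bt : ℕ, m < m₀ → 1 ≤ P → 1 ≤ Bt → Cs * (m + 1) * Bt ≤ B →
      MulAt B P body body m Bt (Cs * (m + 1) * (m * Bt + P) + P + P) := by
    intro B P m Bt hm hP hBt hB X Y hX hY
    obtain ⟨Z, h1, h2, h3⟩ := Hs B P body m Bt hP hBt hB X Y hX hY
    exact ⟨Z, h1, (Go.iteT (by simp [hm]) (Go.call (by simp) (fun v hv => Or.inr hv) h2)).top, h3⟩
  refine ⟨body, 4 * Cs * m₀ + 6 + 2 * ((Cc + 4) * 10 ^ 5 * C₁), 2 * Cs + 2 + (Cc + 2) * 10 ^ 5,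
    fun B P hP hB => (small B P 0 1 (by omega) hP le_rfl (by omega)).mono ?_, fun B P m => ?_⟩
  · push_cast
    have : (0 : ℝ) ≤ Cs * P := by positivity
    have : (0 : ℝ) ≤ (Cc + 2) * 10 ^ 5 * P := by positivity
    linarith
  generalize hCm : 4 * Cs * m₀ + 6 + 2 * ((Cc + 4) * 10 ^ 5 * C₁) = Cm
  generalize hCb : 2 * Cs + 2 + (Cc + 2) * 10 ^ 5 = Cb
  induction m using Nat.strong_induction_on with
  | _ m ih => ?_
  intro Bt hm hBt hP hPB hB hB'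
  have hℓ := one_le_size_rpow hm
  have hmm : m * Bt ≤ m ^ 2 * Bt := Nat.mul_le_mul_right _ (by nlinarith)
  by_cases hlt : m < m₀
  · have hP3 : P ≤ 3 * (m * Bt) := by
      have h1 := CC.two_pow_size m
      have h2 : 2 ^ Nat.sqrt m.size ≤ 2 ^ m.size :=
        Nat.pow_le_pow_right (by norm_num) (Nat.sqrt_le_self _)
      calc P ≤ Bt * (3 * m) := hPB.trans (Nat.mul_le_mul_left _ (by omega))
        _ = _ := by ring
    refine (small B P m Bt hlt hP hBt ?_).mono ?_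
    · calc Cs * (m + 1) * Bt ≤ Cs * (2 * m ^ 2) * Bt := by gcongr; nlinarith
        _ = 2 * Cs * m ^ 2 * Bt := by ring
        _ ≤ Cb * m ^ 2 * Bt := by gcongr; omega
        _ ≤ B := hB
    · have h1 : Cs * (m + 1) * (m * Bt + P) + P + P ≤ Cm * (m * Bt) := by
        calc Cs * (m + 1) * (m * Bt + P) + P + P
            ≤ Cs * m₀ * (m * Bt + 3 * (m * Bt)) + 3 * (m * Bt) + 3 * (m * Bt) := by gcongr; omega
          _ = (4 * Cs * m₀ + 6) * (m * Bt) := by ring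
          _ ≤ _ := by gcongr; omega
      calc _ ≤ (Cm : ℝ) * 1 * (m * Bt) := by rw [mul_one]; exact_mod_cast h1
        _ ≤ _ := by gcongr
  obtain ⟨ok, a1, a2, a3, a4, a5, a6, a7, a8, a9, -⟩ := Ha m (by omega) Bt P hBt hP hPB
  obtain ⟨b1, b2, b3⟩ := Hb m (by omega) Bt P hBt hP hPB
  have hBm : (Cc + 2) * 10 ^ 5 * (m * Bt) ≤ B := by
    calc _ ≤ Cb * (m ^ 2 * Bt) := by gcongr; omega
      _ ≤ B := by rwa [← mul_assoc]
  have hN0 : (Cc + 2) * (mkPar q m Bt).N0 ≤ B := by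
    calc _ ≤ (Cc + 2) * (10 ^ 5 * (m * Bt)) := by gcongr
      _ ≤ B := by rwa [← mul_assoc]
  obtain ⟨e1, e2⟩ := He bb B P P m Bt ok (le_trans (by gcongr; omega) hN0) (by omega)
  have hBtπ : (mkPar q m Bt).Bt = Bt := rfl
  generalize mkPar q m Bt = π at *
  have big : π.Big Cc B P := ⟨le_trans (by gcongr; omega) hN0,
    le_trans (Nat.pow_le_pow_right (by norm_num) (le_trans (by gcongr; omega) a7)) hB',
    a6.trans (le_trans (Nat.le_mul_of_pos_left _ (by positivity)) hBm)⟩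
  have hw : 1 ≤ π.w := by have := ok.le_p; unfold Par.w; omega
  have hn := π.one_le_n
  have hS := π.one_le_S
  have hw1 : π.w ≤ 2 * π.n * (3 * π.w) :=
    le_trans (by omega) (Nat.le_mul_of_pos_left _ (by omega))
  have hm1 : 3 * 10 ^ 5 * (2 * π.n * (3 * π.w)) ≤ m := le_trans (by gcongr; omega) a9
  have sub : ∀ m' M : ℕ, 1 ≤ m' → m' ≤ 2 * π.n * (3 * π.w) → π.S * Bt ≤ M → m' * M ≤ 3 * π.N0 →
      MulAt B P body (.self [.var 0, .var 1]) m' M (Cm * (m'.size : ℝ) ^ κ' * (m' * M) + P) := by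
    intro m' M h1 h2 h3 h4
    refine (ih m' (by omega) M h1 (le_trans (Nat.mul_pos hS hBt) h3) hP ?_ ?_ ?_).self
    · calc P ≤ Bt * π.S := hPB.trans (Nat.mul_le_mul_left _ a8)
        _ ≤ M * 1 := by rwa [mul_comm, mul_one]
        _ ≤ _ := Nat.mul_le_mul_left _ Nat.one_le_two_pow
    · calc Cb * m' ^ 2 * M = Cb * (m' * (m' * M)) := by ring
        _ ≤ Cb * (2 * π.n * (3 * π.w) * (3 * (10 ^ 5 * (m * Bt)))) :=
          Nat.mul_le_mul_left _ (Nat.mul_le_mul h2 (by omega))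
        _ = Cb * (3 * 10 ^ 5 * (2 * π.n * (3 * π.w)) * (m * Bt)) := by ring
        _ ≤ Cb * (m * (m * Bt)) := by gcongr
        _ = Cb * m ^ 2 * Bt := by ring
        _ ≤ B := hB
    · refine le_trans (Nat.pow_le_pow_right (by norm_num) (Nat.pow_le_pow_left ?_ _)) hB'
      exact Nat.size_le_size (by omega)
  have m1 : π.Mul1 B P body (.self [.var 0, .var 1])
      (Cm * ((2 * π.n * (3 * π.w)).size : ℝ) ^ κ' * (3 * π.N0) + P) := by
    intro O h1 h2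
    have h3 : 2 * π.n * (3 * π.w) * (O * π.Bt) ≤ 3 * π.N0 := by
      calc _ ≤ 2 * π.n * (3 * π.w) * (π.t ^ π.d * π.Bt) := by gcongr
        _ = _ := by unfold Par.N0; ring
    refine (sub _ _ (by omega) le_rfl (by rw [hBtπ]; gcongr) h3).mono ?_
    exact add_le_add_left (mul_le_mul_of_nonneg_left (by exact_mod_cast h3) (by positivity)) _
  have m2 : π.Mul2 B P body (.self [.var 0, .var 1])
      (Cm * (π.w.size : ℝ) ^ κ' * π.N0 + P) := by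
    intro O h1 h2
    have h3 : π.w * (O * (2 * π.n) * π.Bt) ≤ π.N0 := by unfold Par.N0; gcongr
    refine (sub _ _ hw hw1 (by
      rw [hBtπ]; gcongr; exact h1.trans (Nat.le_mul_of_pos_right _ (by omega))) (by omega)).mono ?_
    exact add_le_add_left (mul_le_mul_of_nonneg_left (by exact_mod_cast h3) (by positivity)) _
  intro X Y hX hY
  obtain ⟨Z, h1, h2, h3⟩ := Hc B P body π m m.size (pn1 m) _ _ X Y ok big (Nat.size_pos.2 hm) a1 a2
    a3 a4 m1 m2 (by rwa [hBtπ]) (by rwa [hBtπ])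
  rw [hBtπ] at h1 h3
  refine ⟨Z, h1, ((Go.iteF (by simp [hlt]) (Go.call e1 (fun v hv => ?_) h2)).mono ?_).top, h3⟩
  · rcases List.mem_cons.1 hv with rfl | hv
    · exact Or.inr List.mem_cons_self
    · exact Or.inl (e2 v hv)
  have hPN : (P : ℝ) ≤ π.N0 := by exact_mod_cast ok.P_le_N0
  have hnp : (10 : ℝ) ≤ π.np := by exact_mod_cast (by unfold Par.np; omega : 10 ≤ π.np)
  have h4 : (π.np : ℝ) ≤ π.ov P := by
    have := π.one_le_tr P
    have := π.tr_le_ovG P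
    unfold Par.ov
    have : (0 : ℝ) ≤ (π.d + 1) * π.tr P := by positivity
    linarith
  have hN : (π.N0 : ℝ) ≤ 10 ^ 5 * (m * Bt) := by exact_mod_cast a5
  have hC : (2 : ℝ) * ((Cc + 4) * 10 ^ 5 * C₁) ≤ Cm := by
    exact_mod_cast (by omega : 2 * ((Cc + 4) * 10 ^ 5 * C₁) ≤ Cm)
  have u1 : 0 ≤ ((2 * π.n * (3 * π.w)).size : ℝ) ^ κ' := by positivity
  have u2 : 0 ≤ (π.w.size : ℝ) ^ κ' := by positivity
  push_cast at b2 b3
  exact final_le (by positivity) u1 u2 (by positivity) (by positivity) hℓ (by positivity) hPN hnp h4 hN hC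
    b1 b2 b3

end Crest.Agent.IM
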