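import Crest.Agent.IM.NetB3

/-! TASK IM-B. The recursive butterfly network, scaled by powers of two so that it is exact over
`ℤ[i] / 2 ^ w`. Take `Z, l` from `netB`, `bb` = number of `lin` instructions of `l`.
`j = 0`: `resize` place `off` from `S'` to `2 ^ k`, `bfly` (`O = Qg ^ d S' ^ (d - off - 1)
2 ^ (k - ρ - 1)`, `I₁ = 2 ^ ρ S' ^ off`, `I₂ = δ`), `resize` back. Level `j + 1`: move the top digit
(size `WW`) of the innermost field `Y` outermost (`tbw`, outside the slices), push `Z` scratch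
slots, run `l`, drop them, `tfw`, and finally `shl` by the missing amount
`(WW mu - #units) Dn bb j`. For fixed `b` and `(h, c, y₀ mod Y / WW)` the slots represent
`2 ^ cnt` times the state of `netB` (`Ψ` from `psi_ex` with `n = mu ^ j`; slots about which nothing
is assumed represent their own words, `WR.of_wd`). `lin`: `lin_ex` (`cnt + 1`); `free`: `pick`,
`tr_ex`, `put`; `unit a v v`: `pick`, `xs_ex`, `self` at `off + c₀ mu ^ j` with `Y / WW`, `xs_ex`,
and all other slots are shifted by `Dn bb j` (e.g. `exch`, `shl`, `exch`, `put`); if `v` is even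
just shift everything. -/

set_option autoImplicit false

namespace Crest.Agent.IM

/-- Scaling exponent of the network at level `j`. -/
def Dn (bb : ℕ) : ℕ → ℕ
  | 0 => 1
  | j + 1 => WW * mu * Dn bb j + bb

/-- The butterfly network. -/
def NetStmt (q bb : ℕ) : Prop :=
  ∃ (p : Prog) (C : ℕ), ∀ (B P : ℕ) (r : Prog) (j off w d jg Qg S' k Y ρ : ℕ) (L : List Bool),
    1 ≤ P → Dn bb j ≤ w → Qg = q ^ mu ^ jg → ρ < k → off + mu ^ j ≤ d → 2 ^ k ≤ S' →
    (j = 0 ∨ 2 ^ k + 2 * Qg * 2 ^ ρ ≤ S') → WW ^ (j + jg) ∣ Y → P * WW ^ (j + jg) ≤ Y →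
    C * (w * nM Qg S' d (2 ^ k) Y) ≤ B → L.length = w * nM Qg S' d (2 ^ k) Y →
    ∃ L' : List Bool, L'.length = w * nM Qg S' d (2 ^ k) Y ∧
      Top B P r p [j, off, w, d, jg, Qg, S', k, Y, ρ] L L'
        (C * (j + 1) * sg ^ (j + jg) * (w * nM Qg S' d (2 ^ k) Y)) ∧
      ∀ b : ℕ → ℕ, (∀ i < d, b i + 2 ≤ Qg) → ∀ y < 2 ^ (k - 1) * Qg ^ d * Y,
        ∀ z : (ℕ → ℕ) → ℂ,
        (∀ x ∈ box (fun _ => 2 ^ k) d, CR w (nM Qg S' d (2 ^ k) Y) (2 ^ (k - 1) * Qg ^ d * Y) L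
          (nad Qg S' d (2 ^ k * Qg ^ d * Y) b x y) (z x)) →
        ∀ x ∈ box (fun _ => 2 ^ k) d, CR w (nM Qg S' d (2 ^ k) Y) (2 ^ (k - 1) * Qg ^ d * Y) L'
          (nad Qg S' d (2 ^ k * Qg ^ d * Y) b x y) (2 ^ Dn bb j * Cops ρ off (mu ^ j) z x)

namespace NB
open Q4

/-- `lin` instructions -/
def isLin : NI → Bool
  | .lin _ _ _ => true
  | _ => false

theorem sum_ex (D : ℕ) (l : List NI) :
    (l.map (ex D)).sum = l.countP NI.isUnit * D + l.countP isLin := by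
  induction l with
  | nil => simp
  | cons i l ih =>
    rw [List.map_cons, List.sum_cons, ih, List.countP_cons, List.countP_cons]
    cases i <;> simp [ex, NI.isUnit, isLin] <;> ring

theorem Rep.transfer {w d Qg S' k Y Y' y y' : ℕ} {L L' : List Bool} {b : ℕ → ℕ}
    {z : (ℕ → ℕ) → ℂ} (h : Rep w d Qg S' k Y L b y z)
    (h1 : ∀ x ∈ box (fun _ => 2 ^ k) d, ∀ s < 2, ∀ β < w,
      bit L' (β * nM Qg S' d (2 ^ k) Y' + nad Qg S' d (2 ^ k * Qg ^ d * Y') b x
        (y' + s * (2 ^ (k - 1) * Qg ^ d * Y'))) =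
      bit L (β * nM Qg S' d (2 ^ k) Y + nad Qg S' d (2 ^ k * Qg ^ d * Y) b x
        (y + s * (2 ^ (k - 1) * Qg ^ d * Y)))) : Rep w d Qg S' k Y' L' b y' z := fun x hx =>
  CR.move (h x hx) (fun β hβ => by simpa using h1 x hx 0 (by omega) β hβ)
    (fun β hβ => by simpa [nad_add] using h1 x hx 1 (by omega) β hβ)

/-- correspondence of addresses under the move of the top digit of `Y` -/
theorem addr {w d Qg S' k Y W : ℕ} {L L1 : List Bool} (hk : 0 < k) (hS : 2 ^ k ≤ S')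
    (h : ∀ t < W, ∀ a < w * (Qg ^ d * S' ^ d * (2 ^ k * Qg ^ d)), ∀ i < Y,
      bit L1 (((0 * W + t) * (w * (Qg ^ d * S' ^ d * (2 ^ k * Qg ^ d))) + a) * Y + i) =
        bit L (((0 * (w * (Qg ^ d * S' ^ d * (2 ^ k * Qg ^ d))) + a) * W + t) * Y + i))
    {b : ℕ → ℕ} (hb : ∀ i < d, b i + 2 ≤ Qg) {hc t i : ℕ} (hhc : hc < 2 ^ (k - 1) * Qg ^ d)
    (ht : t < W) (hi : i < Y) : ∀ x ∈ box (fun _ => 2 ^ k) d, ∀ s < 2, ∀ β < w,
      bit (L1.drop (t * (w * nM Qg S' d (2 ^ k) Y))) (β * nM Qg S' d (2 ^ k) Y +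
        nad Qg S' d (2 ^ k * Qg ^ d * Y) b x (hc * Y + i + s * (2 ^ (k - 1) * Qg ^ d * Y))) =
      bit L (β * nM Qg S' d (2 ^ k) (W * Y) + nad Qg S' d (2 ^ k * Qg ^ d * (W * Y)) b x
        (hc * (W * Y) + (t * Y + i) + s * (2 ^ (k - 1) * Qg ^ d * (W * Y)))) := by
  intro x hx s hs β hβ
  have h1 : hc + s * (2 ^ (k - 1) * Qg ^ d) < 2 ^ k * Qg ^ d := by
    have := half_lt (Y := 1) (Z := Qg ^ d) hk (y := hc) (by simpa using hhc)
    have h2 : s * (2 ^ (k - 1) * Qg ^ d) ≤ 1 * (2 ^ (k - 1) * Qg ^ d) :=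
      Nat.mul_le_mul_right _ (by omega)
    omega
  have := h t ht _ (lt_mul hβ (nad_lt hb (mem_box.1 hx).1 hS h1)) i hi
  rw [bit_drop]
  convert this using 2 <;> unfold nM nad <;> ring

theorem inner_ex {q : ℕ} (hq : 2 ≤ q) (hs : SwapStmt q) : ∃ (bb u : ℕ) (p : Prog) (C : ℕ),
    u < WW * mu ∧ ∀ (B P : ℕ) (r : Prog) (j off w d jg Qg S' k Y ρ D : ℕ) (x : ℝ) (L : List Bool),
    Ctx q C B P j off w d jg Qg S' k Y ρ D → WW * mu * D + bb ≤ w → 0 ≤ x →
    RecH B P r j w d jg Qg S' k Y ρ D x → L.length = w * nM Qg S' d (2 ^ k) (WW * Y) →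
    ∃ L' : List Bool, L'.length = w * nM Qg S' d (2 ^ k) (WW * Y) ∧
      Go B P r p (envI j off w d jg Qg S' k Y ρ D) L (envI j off w d jg Qg S' k Y ρ D) L'
        (u * x + C * sg ^ (j + jg) * (w * nM Qg S' d (2 ^ k) Y)) ∧
      Spec w d Qg S' k (WW * Y)
        (fun z x => 2 ^ (WW * mu * D + bb) * Cops ρ off (mu ^ (j + 1)) z x) L L' := by
  obtain ⟨Z, l, hwf, hun, hcnt, hnet⟩ := netB
  have hW := two_le_WW
  obtain ⟨pl, Cl, hl⟩ := list_step hq hs (Z + WW) l hwf hun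
  obtain ⟨ps, Cs, hsh⟩ := shift_spec hq (Z + WW) (by omega)
    (.cst (WW * mu - l.countP NI.isUnit) * .var 11)
  obtain ⟨pb, Cb, hb⟩ := tbw_ex
  obtain ⟨pf, Cf, hf⟩ := tfw_ex
  obtain ⟨pd, Cd, hd⟩ := drop_ex
  obtain ⟨pz, Cz, hz⟩ := zeros_ex
  refine ⟨l.countP isLin, l.countP NI.isUnit,
    .call [1, .cst WW, .var 2 * (.var 10 / .var 8), .var 8] pb ;;
    .call [.cst Z * (.var 2 * .var 10)] pz ;; pl ;; ps ;; .call [.cst Z * (.var 2 * .var 10)] pd ;;
    .call [1, .cst WW, .var 2 * (.var 10 / .var 8), .var 8] pf,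
    Cl + Cs + (Cb + Cf) * WW * (WW + 1) + (Cd + Cz) * (Z + 1) + Z + WW + 9, hcnt,
    fun B P r j off w d jg Qg S' k Y ρ D x L c hD hx hr hL => ?_⟩
  have hY : 1 ≤ Y := c.g.hP.trans c.hPY
  have hQ := c.hQ hq
  have hS : 0 < S' := lt_of_lt_of_le (by positivity) c.hS
  have hw := c.g.hw
  have hN := c.g.hP.trans (c.hPN hq)
  have eM : nM Qg S' d (2 ^ k) Y = Qg ^ d * S' ^ d * (2 ^ k * Qg ^ d) * Y := by unfold nM; ring
  have eL : w * nM Qg S' d (2 ^ k) (WW * Y) =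
      1 * WW * (w * (Qg ^ d * S' ^ d * (2 ^ k * Qg ^ d))) * Y := by unfold nM; ring
  have eL' : WW * (w * nM Qg S' d (2 ^ k) Y) =
      1 * WW * (w * (Qg ^ d * S' ^ d * (2 ^ k * Qg ^ d))) * Y := by unfold nM; ring
  have hWB : WW ≤ B := le_of_mul _ hN (c.hB (n := WW) (by omega)) rfl
  have ev1 : [1, .cst WW, .var 2 * (.var 10 / .var 8), Ex.var 8].map
      (fun a => a.ev B P (envI j off w d jg Qg S' k Y ρ D)) =
      [1, WW, w * (Qg ^ d * S' ^ d * (2 ^ k * Qg ^ d)), Y] := by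
    simp [envI, eM, Nat.mul_div_cancel _ hY]
  have ok1 : ∀ v ∈ [1, WW, w * (Qg ^ d * S' ^ d * (2 ^ k * Qg ^ d)), Y],
      Ok B (envI j off w d jg Qg S' k Y ρ D) v := by
    simp only [List.forall_mem_cons, List.not_mem_nil, IsEmpty.forall_iff, implies_true, and_true]
    exact ⟨Or.inl (by omega), Or.inl hWB, Or.inl (le_of_mul Y hY (c.hB (n := 1) (by omega))
      (by rw [eM]; ring)), Or.inr (by simp [envI])⟩
  have ok2 : ∀ v ∈ [Z * (w * nM Qg S' d (2 ^ k) Y)], Ok B (envI j off w d jg Qg S' k Y ρ D) v :=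
    okl (by simpa using c.hB (n := Z) (by omega))
  obtain ⟨Ψ, ψ1, ψ2, ψ3, ψ4, ψ5, ψ6⟩ := psi_ex ρ off (mu ^ j)
    (pow_pos (by have := two_le_mu; omega) _)
  obtain ⟨L1, l1, t1, s1⟩ := hb B P r 1 WW _ Y L c.g.hP (by omega) (one_le (by positivity)) hY hWB
    (hL.trans eL)
  obtain ⟨L3, l3, g3, s3⟩ := hl B P r j off w d jg Qg S' k Y ρ D x
    (List.replicate (Z * (w * nM Qg S' d (2 ^ k) Y)) false ++ L1) Ψ (c.mono (by omega))
    ⟨ψ4, ψ5, ψ6⟩ hx hr (by rw [List.length_append, List.length_replicate, l1, ← eL']; ring)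
  have hm : (WW * mu - l.countP NI.isUnit) * D + (l.map (ex D)).sum =
      WW * mu * D + l.countP isLin := by
    rw [sum_ex, ← add_assoc, ← add_mul, Nat.sub_add_cancel hcnt.le]
  obtain ⟨L4, l4, g4, s4⟩ := hsh B P r j off w d jg Qg S' k Y ρ D
    ((WW * mu - l.countP NI.isUnit) * D) L3 (c.mono (by omega)) rfl (by omega) l3
  have l5 : (L4.take (Z * (w * nM Qg S' d (2 ^ k) Y))).length = Z * (w * nM Qg S' d (2 ^ k) Y) := by
    rw [List.length_take, l4, add_mul]; omega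
  have l6 : (L4.drop (Z * (w * nM Qg S' d (2 ^ k) Y))).length =
      1 * WW * (w * (Qg ^ d * S' ^ d * (2 ^ k * Qg ^ d))) * Y := by
    rw [List.length_drop, l4, add_mul, ← eL']; omega
  obtain ⟨L6, l7, t6, s6⟩ := hf B P r 1 WW _ Y _ c.g.hP (by omega) (one_le (by positivity)) hY hWB l6
  have g2 := (Go.call (args := [.cst Z * (.var 2 * .var 10)]) (by rfl) ok2
    (hz B P r _ c.g.hP)).frame L1
  have g5 := (Go.call (args := [.cst Z * (.var 2 * .var 10)]) (by rfl) ok2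
    (hd B P r _ _ c.g.hP l5)).frame (L4.drop (Z * (w * nM Qg S' d (2 ^ k) Y)))
  rw [List.take_append_drop] at g5
  refine ⟨L6, l7.trans eL.symm, ((Go.call ev1 ok1 t1).seq (g2.seq (g3.seq (g4.seq
    (g5.seq (Go.call ev1 ok1 t6)))))).mono ?_, fun b hb y hy z hz => ?_⟩
  · have h1 : (P : ℝ) ≤ w * nM Qg S' d (2 ^ k) Y := by exact_mod_cast c.hPN hq
    have h0 : (1 : ℝ) ≤ P := by exact_mod_cast c.g.hP
    have e : ((1 : ℕ) : ℝ) * WW * (w * (Qg ^ d * S' ^ d * (2 ^ k * Qg ^ d)) : ℕ) * Y =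
        WW * (w * nM Qg S' d (2 ^ k) Y) := by exact_mod_cast eL'.symm
    rw [e]
    have h3 := cost1 (N := w * nM Qg S' d (2 ^ k) Y) (by positivity) (one_le_sg (j + jg))
      (show Cs + (Cb + Cf) * WW * (WW + 1) + (Cd + Cz) * (Z + 1) + 9 ≤
        Cs + (Cb + Cf) * WW * (WW + 1) + (Cd + Cz) * (Z + 1) + Z + WW + 9 by omega)
    have h4 := cle (Cb * WW) h1
    have h5 := cle (Cf * WW) h1
    have h6 := cle Cd h1
    have h7 := cle Cz h1
    push_cast at *; linarith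
  · have hY' : 0 < WW * Y := by positivity
    have y1 : y / (WW * Y) < 2 ^ (k - 1) * Qg ^ d := (Nat.div_lt_iff_lt_mul hY').2 hy
    have y2 : y % (WW * Y) / Y < WW := (Nat.div_lt_iff_lt_mul hY).2 (Nat.mod_lt _ hY')
    have y3 : y % (WW * Y) % Y < Y := Nat.mod_lt _ hY
    have y4 : y / (WW * Y) * (WW * Y) + (y % (WW * Y) / Y * Y + y % (WW * Y) % Y) = y := by
      rw [Nat.div_add_mod', Nat.div_add_mod']
    generalize y / (WW * Y) = hc at *
    generalize y % (WW * Y) / Y = t at *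
    generalize y % (WW * Y) % Y = i at *
    subst y4
    have a1 := addr c.hk c.hS (s1 0 (by omega)) hb y1 y2 y3
    have a6 := addr c.hk c.hS (fun t ht a ha i hi => (s6 0 (by omega) t ht a ha i hi).symm)
      hb y1 y2 y3
    have hy' : hc * Y + i < 2 ^ (k - 1) * Qg ^ d * Y := lt_mul y1 y3
    choose X0 hX0 using fun a => Rep.self w d Qg S' k Y (hc * Y + i)
      ((List.replicate (Z * (w * nM Qg S' d (2 ^ k) Y)) false ++ L1).drop
        (a * (w * nM Qg S' d (2 ^ k) Y))) b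
    have r2 : Reps (Z + WW) w d Qg S' k Y
        (List.replicate (Z * (w * nM Qg S' d (2 ^ k) Y)) false ++ L1) b (hc * Y + i)
        (Function.update X0 (Z + t) z) := fun a _ => by
      by_cases e : a = Z + t
      · subst e
        rw [Function.update_self, add_mul, ← List.drop_drop, List.drop_left' (by simp)]
        exact hz.transfer a1
      · rw [Function.update_of_ne e]; exact hX0 a
    have r4 := s4 b hb _ hy' _ (s3 b hb _ hy' _ r2) (Z + t) (by omega)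
    rw [add_mul, ← List.drop_drop] at r4
    refine (r4.transfer fun x hx s hs β hβ => (a6 x hx s hs β hβ).symm).congr fun x _ => ?_
    simp only [hnet _ Ψ ψ1 ψ2 _ (Z + t) (by omega) (by omega), Function.update_self,
      ψ3, Pi.smul_apply, smul_eq_mul, pow_succ, ← mul_assoc, ← pow_add, hm]

theorem one_le_Dn (bb j : ℕ) : 2 ^ j ≤ Dn bb j := by
  induction j with
  | zero => simp [Dn]
  | succ j ih =>
    have h1 := two_le_WW
    have h2 := two_le_mu
    have : 2 * 2 ^ j ≤ WW * mu * Dn bb j := Nat.mul_le_mul (by nlinarith) ih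
    rw [Dn, pow_succ']; omega

theorem Dn_mono (bb : ℕ) : Monotone (Dn bb) := monotone_nat_of_le_succ fun j => by
  have h1 := two_le_WW
  have h2 := two_le_mu
  have : 1 * Dn bb j ≤ WW * mu * Dn bb j := Nat.mul_le_mul_right _ (by nlinarith)
  rw [Dn]; omega

theorem sg_WW : sg * WW = WW * mu - 1 := by
  have : (WW : ℝ) ≠ 0 := by have := two_le_WW; positivity
  unfold sg; field_simp

end NB
open NB Q4

theorem net_ex {q : ℕ} (hq : 2 ≤ q) (h : SwapStmt q) : ∃ bb, NetStmt q bb := by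
  obtain ⟨bb, u, pi, Ci, hu, hi⟩ := inner_ex hq h
  obtain ⟨pb, Cb, hb⟩ := base_ex
  have hW := two_le_WW
  have hmu := two_le_mu
  obtain ⟨body, hbody⟩ : ∃ body : Prog, body = .ite (.var 0) (.call [.var 0 - 1, .var 1, .var 2,
    .var 3, .var 4, .var 5, .var 6, .var 7, .var 8 / .cst WW, .var 9,
    Ex.pow (.var 5) (.var 3) * Ex.pow (.var 6) (.var 3) *
      (Ex.pow 2 (.var 7) * Ex.pow (.var 5) (.var 3) * (.var 8 / .cst WW)),
    Ex.fold (.var 0 - 1) 1 (.cst (WW * mu) * .var 0 + .cst bb),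
    Ex.pow (.cst mu) (.var 0 - 1), Ex.pow 2 (.var 7)] pi) pb := ⟨_, rfl⟩
  have key : ∀ (B P j off w d jg Qg S' k Y ρ : ℕ) (L : List Bool),
      1 ≤ P → Dn bb j ≤ w → Qg = q ^ mu ^ jg → ρ < k → off + mu ^ j ≤ d → 2 ^ k ≤ S' →
      (j = 0 ∨ 2 ^ k + 2 * Qg * 2 ^ ρ ≤ S') → WW ^ (j + jg) ∣ Y → P * WW ^ (j + jg) ≤ Y →
      (Ci + Cb + 2) * (w * nM Qg S' d (2 ^ k) Y) ≤ B → L.length = w * nM Qg S' d (2 ^ k) Y →
      ∃ L' : List Bool, L'.length = w * nM Qg S' d (2 ^ k) Y ∧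
        Top B P body body [j, off, w, d, jg, Qg, S', k, Y, ρ] L L'
          ((Ci + Cb + 2 : ℕ) * (j + 1) * sg ^ (j + jg) * (w * nM Qg S' d (2 ^ k) Y)) ∧
        Spec w d Qg S' k Y (fun z x => 2 ^ Dn bb j * Cops ρ off (mu ^ j) z x) L L' := by
    intro B P j
    induction j with
    | zero =>
      intro off w d jg Qg S' k Y ρ L hP hD hQ hρ hoff hS _ _ hPY hB hL
      have hPY' : P ≤ Y := le_of_mul _ (Nat.one_le_pow _ _ (by omega)) hPY rfl
      have hQ2 : 2 ≤ Qg := hQ ▸ hq.trans (Nat.le_self_pow (pow_ne_zero _ (by omega)) q)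
      have hS0 : 0 < S' := lt_of_lt_of_le (by positivity) hS
      have hw : 1 ≤ w := hD
      obtain ⟨L', l1, ⟨env', g⟩, s⟩ := hb B P body 0 off w d jg Qg S' k Y ρ L hP hD hQ2 hρ hoff hS
        hPY' (le_of_mul (Ci + Cb + 2) (by omega) hB (by ring)) hL
      refine ⟨L', l1, ?_, fun b hb y hy z hz => (s b hb y hy z hz).congr fun x _ => by
        simp [Dn, Cops]⟩
      conv => arg 4; rw [hbody]
      refine (Go.iteF (by rfl) g).top.mono ?_
      have h1 : P ≤ w * nM Qg S' d (2 ^ k) Y := hPY'.trans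
        (le_of_mul (w * (Qg ^ d * S' ^ d * (2 ^ k * Qg ^ d))) (one_le (by positivity)) le_rfl
          (by unfold nM; ring))
      have h2 : (P : ℝ) ≤ w * nM Qg S' d (2 ^ k) Y := by exact_mod_cast h1
      have h3 := cost1 (N := w * nM Qg S' d (2 ^ k) Y) (by positivity) (one_le_sg (0 + jg))
        (show Cb + 1 ≤ Ci + Cb + 2 by omega)
      push_cast at h3 ⊢; linarith
    | succ j ih =>
      intro off w d jg Qg S' k Y ρ L hP hD hQ hρ hoff hS hS' hY hPY hB hL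
      have e0 : WW ^ (j + 1 + jg) = WW * WW ^ (j + jg) := by ring
      rw [e0] at hY hPY
      obtain ⟨Y, rfl⟩ := Dvd.dvd.trans (Dvd.intro _ rfl) hY
      have hY' : WW ^ (j + jg) ∣ Y := Nat.dvd_of_mul_dvd_mul_left (by omega) hY
      have hPY' : P * WW ^ (j + jg) ≤ Y :=
        Nat.le_of_mul_le_mul_left (le_of_eq_of_le (by ring) hPY) (show 0 < WW by omega)
      have hD' : Dn bb j ≤ w := (Dn_mono bb (Nat.le_succ j)).trans hD
      have hw : 1 ≤ w := (Nat.one_le_two_pow.trans (one_le_Dn bb j)).trans hD'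
      have eN : w * nM Qg S' d (2 ^ k) (WW * Y) = WW * (w * nM Qg S' d (2 ^ k) Y) := by
        unfold nM; ring
      have hB' : (Ci + Cb + 2) * (w * nM Qg S' d (2 ^ k) Y) ≤ B :=
        le_of_mul WW (by omega) hB (by rw [eN]; ring)
      have c : Ctx q (Ci + Cb + 2) B P j off w d jg Qg S' k Y ρ (Dn bb j) :=
        ⟨⟨hP, hw, Nat.one_le_two_pow, hQ, hρ, hS'.resolve_left (by omega), hY', hPY', hB'⟩, hD',
          hoff⟩
      have hsg := one_le_sg (j + jg)
      obtain ⟨L', l1, g, s⟩ := hi B P body j off w d jg Qg S' k Y ρ (Dn bb j) _ L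
        (c.mono (by omega)) hD (by positivity) (fun off' ho T hT => ih off' w d jg Qg S' k Y ρ T hP
          hD' hQ hρ ho hS (Or.inr c.g.hS) hY' hPY' hB' hT) hL
      refine ⟨L', l1, ?_, s⟩
      conv => arg 4; rw [hbody]
      have hQ2 := c.hQ hq
      have hS2 : 2 ≤ S' := le_trans (Nat.le_self_pow (by omega) 2) hS
      have hY1 : 1 ≤ Y := hP.trans c.hPY
      have hNB : w * nM Qg S' d (2 ^ k) Y ≤ B := by simpa using c.hB (n := 1) (by omega)
      have hMB : nM Qg S' d (2 ^ k) Y ≤ B := le_of_mul w hw hNB (by ring)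
      have hwB : w ≤ B := le_of_mul _ (c.hM hq) hNB rfl
      have b1 : Qg ^ d ≤ B := le_of_mul (S' ^ d * (2 ^ k * Qg ^ d * Y)) (one_le (by positivity)) hMB
        (by unfold nM; ring)
      have b2 : S' ^ d ≤ B := le_of_mul (Qg ^ d * (2 ^ k * Qg ^ d * Y)) (one_le (by positivity)) hMB
        (by unfold nM; ring)
      have b3 : 2 ^ k ≤ B := le_of_mul (Qg ^ d * S' ^ d * Qg ^ d * Y) (one_le (by positivity)) hMB
        (by unfold nM; ring)
      have b4 : mu ^ j ≤ B := by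
        have := c.hdB hq (by omega)
        have : mu ^ j ≤ mu ^ (j + 1) := Nat.pow_le_pow_right (by omega) (by omega)
        omega
      have b5 : Y ≤ B := (c.hYM hq).trans hMB
      have b6 : j ≤ B := (Nat.lt_pow_self (by omega : 1 < mu)).le.trans b4
      refine (Go.iteT (by simp) (Go.call ?_ ?_ g.top)).top.mono ?_
      · simp only [List.map_cons, List.map_nil, Ex.ev_mul]
        rw [Ex.ev_fold (N := j) (Dn bb) (by simp)
          (Ex.le_size_of_two_pow_le ((one_le_Dn bb j).trans (hD'.trans hwB))) (by simp [Dn])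
          (fun i _ => by simp [Dn]) (fun i hi => (Dn_mono bb hi).trans (hD'.trans hwB)),
          Ex.ev_pow, Ex.ev_pow, Ex.ev_pow, Ex.ev_pow] <;>
          simp [envI, nM, Nat.mul_div_cancel_left _ (show 0 < WW by omega), hQ2, hS2, hmu, b1, b2,
            b3, b4]
      · simp only [envI, List.forall_mem_cons, List.not_mem_nil, IsEmpty.forall_iff, implies_true,
          and_true]
        exact ⟨Or.inl b6, Or.inr (by simp), Or.inr (by simp), Or.inr (by simp), Or.inr (by simp),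
          Or.inr (by simp), Or.inr (by simp), Or.inr (by simp), Or.inl b5, Or.inr (by simp),
          Or.inl hMB, Or.inl (hD'.trans hwB), Or.inl b4, Or.inl b3⟩
      · have h1 : (P : ℝ) ≤ w * nM Qg S' d (2 ^ k) Y := by exact_mod_cast c.hPN hq
        have e1 : (w : ℝ) * nM Qg S' d (2 ^ k) (WW * Y) = WW * (w * nM Qg S' d (2 ^ k) Y) := by
          exact_mod_cast eN
        have e2 : sg ^ (j + 1 + jg) = sg * sg ^ (j + jg) := by ring
        have hu' : (u : ℝ) ≤ sg * WW := by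
          rw [sg_WW, le_sub_iff_add_le]; exact_mod_cast hu
        have hg : 1 ≤ sg * WW := by
          have : (2 : ℝ) ≤ WW := by exact_mod_cast hW
          nlinarith [two_le_sg]
        rw [e1, e2]
        have hN : (0 : ℝ) ≤ w * nM Qg S' d (2 ^ k) Y := by positivity
        generalize (w : ℝ) * nM Qg S' d (2 ^ k) Y = N at *
        generalize sg ^ (j + jg) = s at *
        have h2 : N ≤ s * N := le_mul_of_one_le_left hN hsg
        have h3 : (u : ℝ) * (((Ci + Cb + 2 : ℕ) : ℝ) * (j + 1) * s * N) ≤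
            sg * WW * (((Ci + Cb + 2 : ℕ) : ℝ) * (j + 1) * s * N) := by gcongr
        have h4 : ((Ci + Cb + 2 : ℕ) : ℝ) * (s * N) ≤ sg * WW * ((Ci + Cb + 2 : ℕ) * (s * N)) :=
          le_mul_of_one_le_left (by positivity) hg
        have h5 : 0 ≤ (Cb : ℝ) * (s * N) := by positivity
        push_cast at *; linarith
  refine ⟨bb, .fix body, Ci + Cb + 3,
    fun B P r j off w d jg Qg S' k Y ρ L hP hD hQ hρ hoff hS hS' hY hPY hB hL => ?_⟩
  obtain ⟨L', l1, t, s⟩ := key B P j off w d jg Qg S' k Y ρ L hP hD hQ hρ hoff hS hS' hY hPY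
    ((Nat.mul_le_mul_right _ (by omega)).trans hB) hL
  refine ⟨L', l1, t.fix.mono ?_, s⟩
  have hPY' : P ≤ Y := le_of_mul _ (Nat.one_le_pow _ _ (by omega)) hPY rfl
  have hQ2 : 2 ≤ Qg := hQ ▸ hq.trans (Nat.le_self_pow (pow_ne_zero _ (by omega)) q)
  have hS0 : 0 < S' := lt_of_lt_of_le (by positivity) hS
  have hw : 1 ≤ w := (Nat.one_le_two_pow.trans (one_le_Dn bb j)).trans hD
  have h1 : 1 ≤ w * nM Qg S' d (2 ^ k) Y := (hP.trans hPY').trans
    (le_of_mul (w * (Qg ^ d * S' ^ d * (2 ^ k * Qg ^ d))) (one_le (by positivity)) le_rfl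
      (by unfold nM; ring))
  have h2 : (1 : ℝ) ≤ w * nM Qg S' d (2 ^ k) Y := by exact_mod_cast h1
  have h3 : (1 : ℝ) ≤ (j + 1) * sg ^ (j + jg) * (w * nM Qg S' d (2 ^ k) Y) :=
    one_le_mul_of_one_le_of_one_le (one_le_mul_of_one_le_of_one_le
      (by linarith [Nat.cast_nonneg (α := ℝ) j]) (one_le_sg _)) h2
  push_cast; linarith

end Crest.Agent.IM
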