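import Crest.Agent.IM.NetAA

/-! TASK IM-A. The quadratic-phase representation (pure algebra, compare `R324/Cube`).
Work in the commutative ring `𝒜 = AddMonoidAlgebra ℂ (ℕ → ZMod 2)`, acting on functions through
`τ ↦ (z ↦ z ∘ act τ)`, `act τ x i = x i ^^^ (τ i).val * 2 ^ ρ`. For commuting involutions `F c`
(`c < mu`) the elements `π z = ∏ c, (1 + (-1) ^ z c F c) / 2` (`z : Fin mu → Fin 2`) are orthogonal
idempotents with sum `1`, `F c π z = (-1) ^ z c π z`; put `ψ A = ∑ z, i ^ (zᵀ A z) π z` and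
`Ψ A = ∏ i' < n, ψ A` with `F c = [e (off + c n + i')]`. Use `i ^ (m m) = ca + cb (-1) ^ m`;
conjugation by the involution `xsm` turns `[e (off + c₀ n + i')]` into
`[∑ c odd, e (off + c n + i')]`. -/

set_option autoImplicit false
open Matrix

namespace Crest.Agent.IM

/-- The square root of the flip of bit `ρ` at place `i`. -/
noncomputable def Cop (ρ i : ℕ) (z : (ℕ → ℕ) → ℂ) (x : ℕ → ℕ) : ℂ :=
  (1 + Complex.I) / 2 * z x + (1 - Complex.I) / 2 * z (Function.update x i (x i ^^^ 2 ^ ρ))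

/-- `Cop` at the places `off, …, off + n - 1`. -/
noncomputable def Cops (ρ off : ℕ) : ℕ → ((ℕ → ℕ) → ℂ) → (ℕ → ℕ) → ℂ
  | 0, z => z
  | n + 1, z => Cop ρ (off + n) (Cops ρ off n z)

namespace NA
open Finset

theorem z2 (a : ZMod 2) : a = 0 ∨ a = 1 := by revert a; decide

/-- action of a flip pattern on addresses -/
def act (ρ : ℕ) (τ : ℕ → ZMod 2) (x : ℕ → ℕ) : ℕ → ℕ :=
  fun i => if τ i = 0 then x i else x i ^^^ 2 ^ ρ

theorem act_zero (ρ : ℕ) (x : ℕ → ℕ) : act ρ 0 x = x := by funext i; simp [act]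

theorem act_add (ρ : ℕ) (τ τ' : ℕ → ZMod 2) (x : ℕ → ℕ) :
    act ρ (τ + τ') x = act ρ τ' (act ρ τ x) := by
  funext i
  rcases z2 (τ i) with h | h <;> rcases z2 (τ' i) with h' | h' <;>
    simp [act, h, h', show (1 + 1 : ZMod 2) = 0 from rfl]

theorem act_single (ρ i : ℕ) (x : ℕ → ℕ) :
    act ρ (Pi.single i 1) x = Function.update x i (x i ^^^ 2 ^ ρ) := by
  funext l
  by_cases h : l = i
  · subst h; simp [act]
  · simp [act, h]

/-- the group algebra -/
abbrev GA : Type := AddMonoidAlgebra ℂ (ℕ → ZMod 2)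

/-- pull-back along an address map -/
def pull (σ : (ℕ → ℕ) → ℕ → ℕ) : Module.End ℂ ((ℕ → ℕ) → ℂ) where
  toFun z := fun x => z (σ x)
  map_add' _ _ := rfl
  map_smul' _ _ := rfl

/-- the representation of the group -/
def rep0 (ρ : ℕ) : Multiplicative (ℕ → ZMod 2) →* Module.End ℂ ((ℕ → ℕ) → ℂ) where
  toFun τ := pull (act ρ τ.toAdd)
  map_one' := by
    refine LinearMap.ext fun z => funext fun x => ?_
    show z (act ρ 0 x) = z x
    rw [act_zero]
  map_mul' τ τ' := by
    refine LinearMap.ext fun z => funext fun x => ?_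
    show z (act ρ (τ.toAdd + τ'.toAdd) x) = z (act ρ τ'.toAdd (act ρ τ.toAdd x))
    rw [act_add]

/-- the representation of the group algebra -/
noncomputable def rep (ρ : ℕ) : GA →ₐ[ℂ] Module.End ℂ ((ℕ → ℕ) → ℂ) :=
  AddMonoidAlgebra.lift ℂ _ _ (rep0 ρ)

/-- group elements -/
noncomputable def ge (τ : ℕ → ZMod 2) : GA := AddMonoidAlgebra.single τ 1

theorem ge_add (τ τ' : ℕ → ZMod 2) : ge (τ + τ') = ge τ * ge τ' := by
  simp [ge, AddMonoidAlgebra.single_mul_single]

theorem ge_zero : ge 0 = 1 := rfl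

theorem ge_sq (τ : ℕ → ZMod 2) : ge τ * ge τ = 1 := by
  rw [← ge_add, ← ge_zero]; congr 1; funext i; exact CharTwo.add_self_eq_zero _

theorem ge_sum {ι : Type} (s : Finset ι) (f : ι → ℕ → ZMod 2) :
    ge (∑ c ∈ s, f c) = ∏ c ∈ s, ge (f c) := by
  classical
  induction s using Finset.induction_on with
  | empty => simp [ge_zero]
  | insert c s hc ih => rw [sum_insert hc, prod_insert hc, ge_add, ih]

theorem rep_ge (ρ : ℕ) (τ : ℕ → ZMod 2) (z : (ℕ → ℕ) → ℂ) (x : ℕ → ℕ) :
    rep ρ (ge τ) z x = z (act ρ τ x) := by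
  simp only [rep, ge, AddMonoidAlgebra.lift_single, one_smul]
  rfl

/-- square root of a group element -/
noncomputable def sq (τ : ℕ → ZMod 2) : GA :=
  ((1 + Complex.I) / 2) • 1 + ((1 - Complex.I) / 2) • ge τ

theorem rep_sq (ρ : ℕ) (τ : ℕ → ZMod 2) (z : (ℕ → ℕ) → ℂ) (x : ℕ → ℕ) :
    rep ρ (sq τ) z x = (1 + Complex.I) / 2 * z x + (1 - Complex.I) / 2 * z (act ρ τ x) := by
  simp only [sq, map_add, map_smul, map_one, LinearMap.add_apply, LinearMap.smul_apply,
    Pi.add_apply, Pi.smul_apply, smul_eq_mul, rep_ge, Module.End.one_apply]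

theorem sq_zero : sq 0 = 1 := by
  rw [sq, ge_zero, ← add_smul, show (1 + Complex.I) / 2 + (1 - Complex.I) / 2 = 1 by ring,
    one_smul]

theorem cops_eq (ρ off n : ℕ) (z : (ℕ → ℕ) → ℂ) :
    Cops ρ off n z = rep ρ (∏ i ∈ range n, sq (Pi.single (off + i) 1)) z := by
  induction n with
  | zero => simp [Cops]
  | succ n ih =>
    rw [prod_range_succ, mul_comm, map_mul, Module.End.mul_apply, ← ih]
    funext x
    rw [rep_sq, act_single]; rfl

/-- the flip pattern of the odd chunks at position `i'` -/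
noncomputable def tau (v : Fin mu → ℤ) (off n i' : ℕ) : ℕ → ZMod 2 :=
  ∑ c : Fin mu, if Odd (v c) then Pi.single (off + c * n + i') 1 else 0

theorem idx_div {off n c i' : ℕ} (h : i' < n) : (off + c * n + i' - off) / n = c := by
  rw [show off + c * n + i' - off = i' + c * n by omega, Nat.add_mul_div_right _ _ (by omega),
    Nat.div_eq_of_lt h, zero_add]

theorem idx_mod {off n c i' : ℕ} (h : i' < n) : (off + c * n + i' - off) % n = i' := by
  rw [show off + c * n + i' - off = i' + c * n by omega, Nat.add_mul_mod_self_right,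
    Nat.mod_eq_of_lt h]

theorem idx_eq {off n i : ℕ} (h : off ≤ i) : off + (i - off) / n * n + (i - off) % n = i := by
  have := Nat.div_add_mod' (i - off) n
  omega

theorem tau_apply (v : Fin mu → ℤ) {off n i' : ℕ} (hi' : i' < n) (i : ℕ) :
    tau v off n i' i = if h : off ≤ i ∧ (i - off) / n < mu ∧ 0 < n then
      (if Odd (v ⟨(i - off) / n, h.2.1⟩) ∧ (i - off) % n = i' then 1 else 0) else 0 := by
  unfold tau
  rw [Finset.sum_apply]
  split_ifs with h h'
  · rw [sum_eq_single ⟨(i - off) / n, h.2.1⟩ (fun c _ hc => ?_) (by simp)]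
    · rw [if_pos h'.1, ← h'.2, idx_eq h.1]; simp
    · split_ifs
      · refine Pi.single_eq_of_ne (fun e => hc (Fin.ext ?_)) _
        subst e; exact (idx_div hi').symm
      · rfl
  · refine sum_eq_zero fun c _ => ?_
    split_ifs with hc
    · refine Pi.single_eq_of_ne (fun e => h' ?_) _
      subst e
      refine ⟨?_, idx_mod hi'⟩
      convert hc using 2
      exact Fin.ext (idx_div hi')
    · rfl
  · refine sum_eq_zero fun c _ => ?_
    split_ifs with hc
    · refine Pi.single_eq_of_ne (fun e => h ?_) _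
      subst e
      exact ⟨by omega, by rw [idx_div hi']; exact c.2, by omega⟩
    · rfl

theorem xor_ctl (a ρ : ℕ) : (a ^^^ 2 ^ ρ) / 2 ^ ρ % 2 * 2 ^ ρ = a / 2 ^ ρ % 2 * 2 ^ ρ ^^^ 2 ^ ρ := by
  rw [Nat.xor_div_two_pow, Nat.div_self (by positivity), ← pow_one 2, Nat.xor_mod_two_pow, pow_one]
  rcases Nat.mod_two_eq_zero_or_one (a / 2 ^ ρ) with h | h <;> simp [h]

theorem xsm_flip (v : Fin mu → ℤ) {c₀ : Fin mu} (hc : Odd (v c₀)) (ρ off : ℕ) {n i' : ℕ}
    (hi' : i' < n) (y : ℕ → ℕ) :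
    xsm v c₀ ρ off n (act ρ (Pi.single (off + c₀ * n + i') 1) y) =
      act ρ (tau v off n i') (xsm v c₀ ρ off n y) := by
  funext i
  rw [act_single]
  simp only [act, tau_apply v hi', xsm]
  by_cases h : off ≤ i ∧ (i - off) / n < mu ∧ 0 < n
  · simp only [dif_pos h]
    by_cases h1 : Odd (v ⟨(i - off) / n, h.2.1⟩) ∧ (i - off) / n ≠ c₀
    · have hne : i ≠ off + c₀ * n + i' := fun e => h1.2 (by rw [e]; exact idx_div hi')
      simp only [if_pos h1, Function.update_of_ne hne]
      by_cases h2 : (i - off) % n = i'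
      · rw [if_neg (by simp [h1.1, h2]), h2, Function.update_self, xor_ctl, Nat.xor_assoc]
      · rw [Function.update_of_ne (by omega), if_pos (by simp [h2])]
    · simp only [if_neg h1]
      by_cases h2 : i = off + c₀ * n + i'
      · subst h2
        have h3 : Odd (v ⟨(off + c₀ * n + i' - off) / n, h.2.1⟩) := by
          convert hc using 2
          exact Fin.ext (idx_div hi')
        rw [Function.update_self, if_neg (by rw [if_pos ⟨h3, idx_mod hi'⟩]; exact one_ne_zero)]
      · rw [Function.update_of_ne h2, if_pos (if_neg ?_)]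
        rintro ⟨h3, h4⟩
        apply h2
        have h5 : (i - off) / n = c₀ := by
          by_contra h5; exact h1 ⟨h3, h5⟩
        rw [← h5, ← h4, idx_eq h.1]
  · simp only [dif_neg h, if_true]
    refine Function.update_of_ne (fun e => h ?_) _ _
    subst e
    exact ⟨by omega, by rw [idx_div hi']; exact c₀.2, by omega⟩

theorem act_tau_sum (v : Fin mu → ℤ) (ρ off n : ℕ) (x : ℕ → ℕ) :
    act ρ (∑ i' ∈ range n, tau v off n i') x = trm v ρ off n x := by
  funext i
  have : (∑ i' ∈ range n, tau v off n i') i = ∑ i' ∈ range n,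
      if h : off ≤ i ∧ (i - off) / n < mu ∧ 0 < n then
      (if Odd (v ⟨(i - off) / n, h.2.1⟩) ∧ (i - off) % n = i' then (1 : ZMod 2) else 0) else 0 := by
    rw [Finset.sum_apply]
    exact sum_congr rfl fun i' hi' => tau_apply v (mem_range.1 hi') i
  simp only [act, trm, this]
  by_cases h : off ≤ i ∧ (i - off) / n < mu ∧ 0 < n
  · simp only [dif_pos h]
    by_cases h1 : Odd (v ⟨(i - off) / n, h.2.1⟩)
    · rw [sum_eq_single ((i - off) % n) (fun b _ hb => if_neg (fun h3 => hb h3.2.symm))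
        (fun h3 => absurd (mem_range.2 (Nat.mod_lt _ h.2.2)) h3)]
      simp [h1]
    · simp [h1]
  · simp [dif_neg h]

theorem xsm_xsm' (v : Fin mu → ℤ) (c₀ : Fin mu) (ρ off n : ℕ) (x : ℕ → ℕ) :
    xsm v c₀ ρ off n (xsm v c₀ ρ off n x) = x := by
  funext i
  by_cases h : off ≤ i ∧ (i - off) / n < mu ∧ 0 < n
  · by_cases h1 : Odd (v ⟨(i - off) / n, h.2.1⟩) ∧ (i - off) / n ≠ c₀
    · have hm := Nat.mod_lt (i - off) h.2.2
      have e : xsm v c₀ ρ off n x (off + c₀ * n + (i - off) % n) =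
          x (off + c₀ * n + (i - off) % n) := by
        unfold xsm
        split_ifs with h2 h3
        · exact absurd (idx_div hm) h3.2
        · rfl
        · rfl
      conv_lhs => rw [xsm]
      simp only [dif_pos h, if_pos h1, e]
      conv_lhs => rw [xsm]
      simp only [dif_pos h, if_pos h1, Nat.xor_assoc, Nat.xor_self, Nat.xor_zero]
    · conv_lhs => rw [xsm]
      simp only [dif_pos h, if_neg h1]
      conv_lhs => rw [xsm]
      simp only [dif_pos h, if_neg h1]
  · conv_lhs => rw [xsm]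
    simp only [dif_neg h]
    conv_lhs => rw [xsm]
    simp only [dif_neg h]

theorem cops_conj (v : Fin mu → ℤ) {c₀ : Fin mu} (hc : Odd (v c₀)) (ρ off n : ℕ) {m : ℕ}
    (hm : m ≤ n) (z : (ℕ → ℕ) → ℂ) (x : ℕ → ℕ) :
    rep ρ (∏ i' ∈ range m, sq (tau v off n i')) z x =
      Cops ρ (off + c₀ * n) m (fun y => z (xsm v c₀ ρ off n y)) (xsm v c₀ ρ off n x) := by
  induction m generalizing x with
  | zero => simp [Cops, xsm_xsm']
  | succ m ih =>
    rw [prod_range_succ, mul_comm, map_mul, Module.End.mul_apply, rep_sq, ih (by omega),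
      ih (by omega), Cops, Cop, ← act_single]
    congr 3
    conv_lhs => rw [← xsm_xsm' v c₀ ρ off n x, ← xsm_flip v hc ρ off (by omega), xsm_xsm']

/-- generators at position `i'` -/
noncomputable def gen (off n i' : ℕ) (c : Fin mu) : GA := ge (Pi.single (off + c * n + i') 1)

theorem gen_sq (off n i' : ℕ) (c : Fin mu) : gen off n i' c * gen off n i' c = 1 := ge_sq _

/-- the phase operator at position `i'` -/
noncomputable def psi (off n i' : ℕ) (A : Matrix (Fin mu) (Fin mu) ℤ) : GA :=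
  Phi (gen off n i') (gen_sq off n i') (qf A)

theorem prod_gen (v : Fin mu → ℤ) (off n i' : ℕ) :
    (∏ c, if Odd (v c) then gen off n i' c else 1) = ge (tau v off n i') := by
  rw [tau, ge_sum]
  refine prod_congr rfl fun c _ => ?_
  split_ifs <;> rfl

theorem psi_sq (v : Fin mu → ℤ) (off n i' : ℕ) :
    psi off n i' (vecMulVec v v) = sq (tau v off n i') := by
  have : qf (vecMulVec v v) = ((1 + Complex.I) / 2) • (1 : (Fin mu → Bool) → ℂ) +
      ((1 - Complex.I) / 2) • fun z => ∏ c, if Odd (v c) then sgn (z c) else 1 := by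
    funext z; rw [qf_sq]; simp
  rw [psi, this, map_add, map_smul, map_smul, map_one, Phi_prod, prod_gen, sq]

theorem psi_two (S : Matrix (Fin mu) (Fin mu) ℤ) (hS : S.IsSymm) (off n i' : ℕ) :
    psi off n i' (2 • S) = ge (tau (fun c => S c c) off n i') := by
  have : qf (2 • S) = fun z => ∏ c, if Odd (S c c) then sgn (z c) else 1 :=
    funext fun z => qf_two S hS z
  rw [psi, this, Phi_prod, ← prod_gen]

theorem psi_one (off n i' : ℕ) :
    psi off n i' 1 = ∏ c : Fin mu, sq (Pi.single (off + c * n + i') 1) := by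
  have : qf (1 : Matrix (Fin mu) (Fin mu) ℤ) = ∏ c : Fin mu,
      (((1 + Complex.I) / 2) • (1 : (Fin mu → Bool) → ℂ) +
      ((1 - Complex.I) / 2) • fun z => sgn (z c)) := by
    funext z; rw [qf_one, Finset.prod_apply]; simp
  rw [psi, this, map_prod]
  refine prod_congr rfl fun c _ => ?_
  rw [map_add, map_smul, map_smul, map_one, Phi_chi, sq, gen]

theorem prod_range_mul' {M : Type} [CommMonoid M] (f : ℕ → M) (n m : ℕ) :
    ∏ i ∈ range (n * m), f i = ∏ c ∈ range m, ∏ i' ∈ range n, f (c * n + i') := by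
  induction m with
  | zero => simp
  | succ m ih => rw [Nat.mul_succ, prod_range_add, ih, prod_range_succ, mul_comm n m]

theorem xor_lt {a ρ k t : ℕ} (hρ : ρ < k) (ha : a < 2 ^ k) : a ^^^ (t % 2 * 2 ^ ρ) < 2 ^ k := by
  refine Nat.xor_lt_two_pow ha ?_
  have h1 : 2 ^ ρ < 2 ^ k := Nat.pow_lt_pow_right (by norm_num) hρ
  have h2 : t % 2 * 2 ^ ρ ≤ 1 * 2 ^ ρ := Nat.mul_le_mul_right _ (by omega)
  omega

theorem idx_lt_of {off n i d : ℕ} (hd : off + n * mu ≤ d) (h : off ≤ i ∧ (i - off) / n < mu ∧ 0 < n) :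
    i < d := by
  have := (Nat.div_lt_iff_lt_mul h.2.2).1 h.2.1
  rw [mul_comm] at this
  omega

end NA
open NA

theorem psi_ex (ρ off n : ℕ) (hn : 0 < n) :
    ∃ Ψ : Matrix (Fin mu) (Fin mu) ℤ → ((ℕ → ℕ) → ℂ) →ₗ[ℂ] ((ℕ → ℕ) → ℂ),
      (∀ A A', Ψ (A + A') = Ψ A ∘ₗ Ψ A') ∧ Ψ 0 = LinearMap.id ∧
      (∀ z, Ψ 1 z = Cops ρ off (n * mu) z) ∧
      (∀ v : Fin mu → ℤ, (∀ c, Even (v c)) → ∀ z, Ψ (vecMulVec v v) z = z) ∧
      (∀ (v : Fin mu → ℤ) (c₀ : Fin mu), Odd (v c₀) → ∀ z x, Ψ (vecMulVec v v) z x =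
        Cops ρ (off + c₀ * n) n (fun y => z (xsm v c₀ ρ off n y)) (xsm v c₀ ρ off n x)) ∧
      ∀ S : Matrix (Fin mu) (Fin mu) ℤ, S.IsSymm → ∀ z x,
        Ψ (2 • S) z x = z (trm (fun c => S c c) ρ off n x) := by
  refine ⟨fun A => rep ρ (∏ i' ∈ Finset.range n, psi off n i' A), fun A A' => ?_, ?_, fun z => ?_,
    fun v hv z => ?_, fun v c₀ hc z x => ?_, fun S hS z x => ?_⟩
  · simp only [psi, qf_add, map_mul, Finset.prod_mul_distrib]; rfl
  · simp only [psi, qf_zero, map_one, Finset.prod_const_one]; rfl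
  · rw [cops_eq, prod_range_mul', Finset.prod_comm]
    simp only [psi_one, Finset.prod_range (n := mu), add_assoc]
  · have : ∀ i', tau v off n i' = 0 := fun i' =>
      Finset.sum_eq_zero fun c _ => if_neg (Int.not_odd_iff_even.2 (hv c))
    simp only [psi_sq, this, sq_zero, Finset.prod_const_one, map_one, Module.End.one_apply]
  · simp only [psi_sq]
    exact cops_conj v hc ρ off n le_rfl z x
  · simp only [psi_two S hS]
    rw [← ge_sum, rep_ge, act_tau_sum]

theorem xsm_xsm (v : Fin mu → ℤ) (c₀ : Fin mu) (ρ off n : ℕ) (x : ℕ → ℕ) :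
    xsm v c₀ ρ off n (xsm v c₀ ρ off n x) = x := by
  exact xsm_xsm' v c₀ ρ off n x

theorem trm_trm (v : Fin mu → ℤ) (ρ off n : ℕ) (x : ℕ → ℕ) :
    trm v ρ off n (trm v ρ off n x) = x := by
  funext i
  unfold trm
  split_ifs <;> simp

theorem xsm_mem_box (v : Fin mu → ℤ) (c₀ : Fin mu) {ρ off n k d : ℕ} (hρ : ρ < k)
    (hd : off + n * mu ≤ d) {x : ℕ → ℕ} (hx : x ∈ box (fun _ => 2 ^ k) d) :
    xsm v c₀ ρ off n x ∈ box (fun _ => 2 ^ k) d := by
  rw [mem_box] at hx ⊢
  refine ⟨fun i hi => ?_, fun i hi => ?_⟩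
  · unfold xsm
    split_ifs
    · exact xor_lt hρ (hx.1 i hi)
    · exact hx.1 i hi
    · exact hx.1 i hi
  · unfold xsm
    rw [dif_neg fun h => absurd (idx_lt_of hd h) (by omega)]
    exact hx.2 i hi

theorem trm_mem_box (v : Fin mu → ℤ) {ρ off n k d : ℕ} (hρ : ρ < k)
    (hd : off + n * mu ≤ d) {x : ℕ → ℕ} (hx : x ∈ box (fun _ => 2 ^ k) d) :
    trm v ρ off n x ∈ box (fun _ => 2 ^ k) d := by
  rw [mem_box] at hx ⊢
  refine ⟨fun i hi => ?_, fun i hi => ?_⟩
  · unfold trm
    split_ifs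
    · exact Nat.xor_lt_two_pow (hx.1 i hi) (Nat.pow_lt_pow_right (by norm_num) hρ)
    · exact hx.1 i hi
    · exact hx.1 i hi
  · unfold trm
    rw [dif_neg fun h => absurd (idx_lt_of hd h) (by omega)]
    exact hx.2 i hi

theorem Cops_smul (ρ off n : ℕ) (c : ℂ) (z : (ℕ → ℕ) → ℂ) (x : ℕ → ℕ) :
    Cops ρ off n (fun y => c * z y) x = c * Cops ρ off n z x := by
  rw [cops_eq, cops_eq, show (fun y => c * z y) = c • z from rfl, map_smul]; rfl

/-- `Cops` on all places as a tensor product. -/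
theorem Cops_eq_tens {ρ k d : ℕ} (hρ : ρ < k) (z : (ℕ → ℕ) → ℂ) {x : ℕ → ℕ}
    (hx : x ∈ box (fun _ => 2 ^ k) d) :
    Cops ρ 0 d z x = tens (fun _ => 2 ^ k) d (fun _ a b =>
      if b = a then (1 + Complex.I) / 2 else if b = a ^^^ 2 ^ ρ then (1 - Complex.I) / 2 else 0)
      z x := by
  have key : ∀ m ≤ d, ∀ x ∈ box (fun _ => 2 ^ k) d, Cops ρ 0 m z x =
      tens (fun _ => 2 ^ k) d (fun i a b => if i < m then
        (if b = a then (1 + Complex.I) / 2 else if b = a ^^^ 2 ^ ρ then (1 - Complex.I) / 2 else 0)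
        else if a = b then 1 else 0) z x := by
    intro m hm
    induction m with
    | zero =>
      intro x hx
      unfold tens
      rw [Finset.sum_eq_single x (fun y hy hne => ?_) (fun h => absurd hx h)]
      · simp [Cops]
      · obtain ⟨i, hi⟩ := Function.ne_iff.1 hne
        have hid : i < d := by
          by_contra h
          exact hi (by rw [(mem_box.1 hx).2 i (by omega), (mem_box.1 hy).2 i (by omega)])
        rw [Finset.prod_eq_zero (Finset.mem_range.2 hid) (by simp [Ne.symm hi]), zero_smul]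
    | succ m ih =>
      intro x hx
      have hlt : x m ^^^ 2 ^ ρ < 2 ^ k := Nat.xor_lt_two_pow ((mem_box.1 hx).1 m (by omega))
        (Nat.pow_lt_pow_right (by norm_num) hρ)
      have hne : x m ^^^ 2 ^ ρ ≠ x m := fun e => by
        have := congrArg (fun t => x m ^^^ t) e
        simp at this
      have hx' : Function.update x m (x m ^^^ 2 ^ ρ) ∈ box (fun _ => 2 ^ k) d :=
        update_mem_box hx (by omega) (fun _ _ _ => rfl) hlt
      have ha := tens_along (ns := fun _ => 2 ^ k) (ns' := fun _ => 2 ^ k) (d := d) (c := m)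
        (by omega) (fun _ _ _ => rfl) (fun a b => if b = a then (1 + Complex.I) / 2 else
          if b = a ^^^ 2 ^ ρ then (1 - Complex.I) / 2 else 0)
        (tens (fun _ => 2 ^ k) d (fun i a b => if i < m then
        (if b = a then (1 + Complex.I) / 2 else if b = a ^^^ 2 ^ ρ then (1 - Complex.I) / 2 else 0)
        else if a = b then 1 else 0) z) hx
      rw [Finset.sum_eq_add (x m) (x m ^^^ 2 ^ ρ) hne.symm (fun u _ hu => by simp [hu.1, hu.2])
        (fun h => absurd (Finset.mem_range.2 ((mem_box.1 hx).1 m (by omega))) h)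
        (fun h => absurd (Finset.mem_range.2 hlt) h), tens_tens] at ha
      simp only [if_true, if_neg hne, Function.update_eq_self, smul_eq_mul] at ha
      rw [Cops, Cop, zero_add, ih (by omega) x hx, ih (by omega) _ hx', ← ha]
      refine tens_congr (fun i hi u hu => ?_) (fun _ _ => rfl)
      by_cases h1 : i = m
      · subst h1
        simp only [if_true, lt_irrefl, if_false, Nat.lt_succ_self, mul_ite, mul_one, mul_zero]
        rw [Finset.sum_ite_eq' _ u, if_pos (Finset.mem_range.2 hu)]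
      · have h2 : (i < m + 1) = (i < m) := propext ⟨fun _ => by omega, fun _ => by omega⟩
        simp only [if_neg h1, h2, ite_mul, one_mul, zero_mul]
        rw [Finset.sum_ite_eq _ (x i), if_pos (Finset.mem_range.2 ((mem_box.1 hx).1 i hi))]
  rw [key d le_rfl x hx]
  exact tens_congr (fun i hi u _ => by rw [if_pos hi]) (fun _ _ => rfl)

end Crest.Agent.IM
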