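import Crest.Agent.IM.Gad

/-! Auxiliary algebra for `NetA`: functional calculus of commuting involutions. -/

set_option autoImplicit false
set_option linter.unusedSectionVars false
open Matrix Finset

namespace Crest.Agent.IM.NA

/-- the sign of a bit -/
def sgn (b : Bool) : ℂ := if b then -1 else 1

section fcalc
variable {ι 𝒜 : Type} [Fintype ι] [DecidableEq ι] [CommRing 𝒜] [Algebra ℂ 𝒜]

/-- spectral projection of one involution -/
noncomputable def pj (F : 𝒜) (b : Bool) : 𝒜 := (1 / 2 : ℂ) • (1 + sgn b • F)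

theorem pj_sum (F : 𝒜) : ∑ b, pj F b = 1 := by
  simp only [Fintype.sum_bool, pj, sgn]
  simp only [if_true, Bool.false_eq_true, if_false, ← smul_add]
  rw [show (1 + (-1 : ℂ) • F + (1 + (1 : ℂ) • F)) = (2 : ℂ) • (1 : 𝒜) by module, smul_smul]
  norm_num

theorem mul_pj {F : 𝒜} (hF : F * F = 1) (b : Bool) : F * pj F b = sgn b • pj F b := by
  unfold pj
  rw [mul_smul_comm, mul_add, mul_smul_comm, hF, mul_one]
  cases b <;> simp only [sgn, if_true, Bool.false_eq_true, if_false] <;> module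

theorem pj_mul {F : 𝒜} (hF : F * F = 1) (b b' : Bool) :
    pj F b * pj F b' = if b = b' then pj F b else 0 := by
  have h := mul_pj hF b'
  have : pj F b * pj F b' = (1 / 2 : ℂ) • (pj F b' + sgn b • sgn b' • pj F b') := by
    conv_lhs => rw [pj]
    rw [smul_mul_assoc, add_mul, one_mul, smul_mul_assoc, h]
  rw [this]
  cases b <;> cases b' <;> simp only [sgn, if_true, Bool.false_eq_true, if_false,
    Bool.true_eq_false] <;> module

/-- joint spectral projection -/
noncomputable def pz (F : ι → 𝒜) (z : ι → Bool) : 𝒜 := ∏ c, pj (F c) (z c)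

theorem pz_sum (F : ι → 𝒜) : ∑ z, pz F z = 1 := by
  unfold pz
  rw [← Fintype.piFinset_univ, ← prod_univ_sum]
  simp only [pj_sum, prod_const_one]

theorem pz_mul {F : ι → 𝒜} (hF : ∀ c, F c * F c = 1) (z z' : ι → Bool) :
    pz F z * pz F z' = if z = z' then pz F z else 0 := by
  unfold pz
  rw [← prod_mul_distrib]
  simp only [pj_mul (hF _)]
  split_ifs with h
  · subst h; simp
  · obtain ⟨c, hc⟩ := Function.ne_iff.1 h
    exact prod_eq_zero (mem_univ c) (by simp [hc])

theorem mul_pz {F : ι → 𝒜} (hF : ∀ c, F c * F c = 1) (c : ι) (z : ι → Bool) :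
    F c * pz F z = sgn (z c) • pz F z := by
  unfold pz
  rw [← mul_prod_erase _ _ (mem_univ c), ← mul_assoc, mul_pj (hF c), smul_mul_assoc]

/-- functional calculus -/
noncomputable def Phi (F : ι → 𝒜) (hF : ∀ c, F c * F c = 1) : ((ι → Bool) → ℂ) →ₐ[ℂ] 𝒜 :=
  AlgHom.ofLinearMap
    { toFun := fun f => ∑ z, f z • pz F z
      map_add' := fun f g => by simp [add_smul, sum_add_distrib]
      map_smul' := fun a f => by simp [smul_sum, smul_smul] }
    (by simpa using pz_sum F)
    (fun f g => by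
      simp only [LinearMap.coe_mk, AddHom.coe_mk, Pi.mul_apply, sum_mul, mul_sum,
        smul_mul_smul_comm, pz_mul hF]
      refine sum_congr rfl fun z _ => ?_
      rw [sum_eq_single z (fun z' _ h => by simp [h]) (by simp)]
      simp)

theorem Phi_chi (F : ι → 𝒜) (hF : ∀ c, F c * F c = 1) (c : ι) :
    Phi F hF (fun z => sgn (z c)) = F c := by
  show ∑ z, sgn (z c) • pz F z = F c
  simp only [← mul_pz hF, ← mul_sum, pz_sum, mul_one]

theorem Phi_prod (F : ι → 𝒜) (hF : ∀ c, F c * F c = 1) (p : ι → Prop) [DecidablePred p] :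
    Phi F hF (fun z => ∏ c, if p c then sgn (z c) else 1) = ∏ c, if p c then F c else 1 := by
  have : (fun z : ι → Bool => ∏ c, if p c then sgn (z c) else 1) =
      ∏ c, (if p c then fun z : ι → Bool => sgn (z c) else 1) := by
    funext z
    rw [Finset.prod_apply]
    refine prod_congr rfl fun c _ => ?_
    split_ifs <;> rfl
  rw [this, map_prod]
  refine prod_congr rfl fun c _ => ?_
  split_ifs
  · exact Phi_chi F hF c
  · exact map_one _

end fcalc

/-! ### the quadratic phase -/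

section phase
variable {ι : Type} [Fintype ι] [DecidableEq ι]

/-- a bit as an integer -/
def bz (b : Bool) : ℤ := if b then 1 else 0

/-- the quadratic phase -/
noncomputable def qf (A : Matrix ι ι ℤ) (z : ι → Bool) : ℂ :=
  Complex.I ^ (∑ c, ∑ c', bz (z c) * A c c' * bz (z c'))

theorem qf_add (A A' : Matrix ι ι ℤ) : qf (A + A') = qf A * qf A' := by
  funext z
  simp only [qf, Pi.mul_apply, Matrix.add_apply, mul_add, add_mul, sum_add_distrib]
  exact zpow_add₀ Complex.I_ne_zero _ _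

theorem qf_zero : qf (0 : Matrix ι ι ℤ) = 1 := by
  funext z; simp [qf]

theorem zpow_fsum {a : ℂ} (ha : a ≠ 0) (s : Finset ι) (f : ι → ℤ) :
    a ^ (∑ c ∈ s, f c) = ∏ c ∈ s, a ^ f c := by
  induction s using Finset.induction_on with
  | empty => simp
  | insert c s hc ih => rw [sum_insert hc, prod_insert hc, zpow_add₀ ha, ih]

theorem I_sq_pow (m : ℤ) :
    Complex.I ^ (m * m) = (1 + Complex.I) / 2 + (1 - Complex.I) / 2 * (-1) ^ m := by
  have h4 : ∀ t : ℤ, Complex.I ^ (4 * t) = 1 := fun t => by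
    rw [_root_.zpow_mul, show Complex.I ^ (4 : ℤ) = 1 from by
      rw [show (4 : ℤ) = ((4 : ℕ) : ℤ) from rfl, zpow_natCast, Complex.I_pow_four], _root_.one_zpow]
  rcases Int.even_or_odd' m with ⟨t, rfl | rfl⟩
  · rw [show 2 * t * (2 * t) = 4 * (t * t) by ring, h4, Even.neg_one_zpow ⟨t, by ring⟩]; ring
  · rw [show (2 * t + 1) * (2 * t + 1) = 4 * (t * t + t) + 1 by ring,
      zpow_add₀ Complex.I_ne_zero, h4, Odd.neg_one_zpow ⟨t, rfl⟩]
    simp; ring

theorem neg_one_pow_bz (a : ℤ) (b : Bool) :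
    (-1 : ℂ) ^ (a * bz b) = if Odd a then sgn b else 1 := by
  cases b
  · simp [bz, sgn]
  · simp only [bz, sgn, if_true, mul_one]
    split_ifs with h
    · exact h.neg_one_zpow
    · exact (Int.not_odd_iff_even.1 h).neg_one_zpow

theorem neg_one_lin (v : ι → ℤ) (z : ι → Bool) :
    (-1 : ℂ) ^ (∑ c, v c * bz (z c)) = ∏ c, if Odd (v c) then sgn (z c) else 1 := by
  rw [zpow_fsum (by norm_num)]
  simp only [neg_one_pow_bz]

theorem qf_sq (v : ι → ℤ) (z : ι → Bool) : qf (vecMulVec v v) z =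
    (1 + Complex.I) / 2 + (1 - Complex.I) / 2 * ∏ c, if Odd (v c) then sgn (z c) else 1 := by
  rw [← neg_one_lin, ← I_sq_pow, qf, sum_mul_sum]
  congr 1
  refine sum_congr rfl fun c _ => sum_congr rfl fun c' _ => ?_
  rw [vecMulVec_apply]; ring

theorem qf_one (z : ι → Bool) : qf (1 : Matrix ι ι ℤ) z =
    ∏ c, ((1 + Complex.I) / 2 + (1 - Complex.I) / 2 * sgn (z c)) := by
  have : ∑ c, ∑ c', bz (z c) * (1 : Matrix ι ι ℤ) c c' * bz (z c') =
      ∑ c, bz (z c) * bz (z c) := by
    refine sum_congr rfl fun c _ => ?_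
    rw [sum_eq_single c (fun c' _ h => by simp [Matrix.one_apply_ne h.symm]) (by simp)]
    simp
  rw [qf, this, zpow_fsum Complex.I_ne_zero]
  refine prod_congr rfl fun c _ => ?_
  rw [I_sq_pow]
  cases z c <;> simp [bz, sgn]

theorem even_sym (a : ι → ι → ℤ) (h : ∀ c c', a c c' = a c' c) :
    Even (∑ c, ∑ c', a c c' - ∑ c, a c c) := by
  rw [← ZMod.intCast_eq_zero_iff_even]
  have e : ∑ c, ∑ c', a c c' - ∑ c, a c c =
      ∑ p : ι × ι, if p.1 = p.2 then 0 else a p.1 p.2 := by
    rw [Fintype.sum_prod_type, ← sum_sub_distrib]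
    refine sum_congr rfl fun c _ => ?_
    rw [← add_sum_erase _ _ (mem_univ c), ← add_sum_erase _ _ (mem_univ c)]
    simp only [if_true, zero_add, add_sub_cancel_left]
    exact sum_congr rfl fun c' hc' => by rw [if_neg (ne_of_mem_erase hc').symm]
  rw [e, Int.cast_sum]
  refine sum_involution (fun p _ => p.swap) (fun p _ => ?_) (fun p _ hp h' => hp ?_)
    (fun _ _ => mem_univ _) (fun _ _ => rfl)
  · by_cases hp : p.1 = p.2
    · simp [hp]
    · simp only [Prod.fst_swap, Prod.snd_swap, if_neg hp, if_neg (Ne.symm hp), h p.2 p.1]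
      exact CharTwo.add_self_eq_zero _
  · have : p.1 = p.2 := by simpa using congrArg Prod.snd h'
    simp [this]

theorem qf_two (S : Matrix ι ι ℤ) (hS : S.IsSymm) (z : ι → Bool) :
    qf (2 • S) z = ∏ c, if Odd (S c c) then sgn (z c) else 1 := by
  rw [← neg_one_lin, qf]
  have e1 : ∑ c, ∑ c', bz (z c) * (2 • S) c c' * bz (z c') =
      2 * ∑ c, ∑ c', bz (z c) * S c c' * bz (z c') := by
    simp only [mul_sum, Matrix.smul_apply, nsmul_eq_mul]
    exact sum_congr rfl fun c _ => sum_congr rfl fun c' _ => by push_cast; ring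
  obtain ⟨t, ht⟩ := even_sym (fun c c' => bz (z c) * S c c' * bz (z c'))
    (fun c c' => by rw [hS.apply c c']; ring)
  have e2 : ∑ c, bz (z c) * S c c * bz (z c) = ∑ c, S c c * bz (z c) :=
    sum_congr rfl fun c _ => by cases z c <;> simp [bz]
  rw [e2] at ht
  rw [e1, _root_.zpow_mul, show Complex.I ^ (2 : ℤ) = -1 from by
    rw [show (2 : ℤ) = ((2 : ℕ) : ℤ) from rfl, zpow_natCast, Complex.I_sq],
    sub_eq_iff_eq_add.1 ht, zpow_add₀ (by norm_num), Even.neg_one_zpow ⟨t, rfl⟩, one_mul]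

end phase

end Crest.Agent.IM.NA
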