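import Crest.Agent.IM.NetA

/-! Slot operations for the butterfly network. -/

set_option autoImplicit false

namespace Crest.Agent.IM.NB
open Q4

theorem CR.move {w M M' δ δ' : ℕ} {L L' : List Bool} {a a' : ℕ} {c : ℂ} (h : CR w M δ L a c)
    (h1 : ∀ β < w, bit L' (β * M' + a') = bit L (β * M + a))
    (h2 : ∀ β < w, bit L' (β * M' + (a' + δ')) = bit L (β * M + (a + δ))) :
    CR w M' δ' L' a' c :=
  let ⟨u, v, e, hu, hv⟩ := h; ⟨u, v, e, hu.move h1, hv.move h2⟩

theorem CR.scale {w M δ : ℕ} {L L' : List Bool} {a : ℕ} {c : ℂ} (s : ℤ) (h : CR w M δ L a c)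
    (ha : a + δ < M) (h1 : ∀ j < M, ∀ u : ℤ, WR w M L j u → WR w M L' j (s * u)) :
    CR w M δ L' a (s * c) := by
  obtain ⟨u, v, e, hu, hv⟩ := h
  exact ⟨s * u, s * v, by rw [e]; push_cast; ring, h1 _ (by omega) _ hu, h1 _ ha _ hv⟩

theorem WR.of_bits {w M : ℕ} {L L' : List Bool} (h : ∀ t < w * M, bit L' t = bit L t) {j : ℕ}
    (hj : j < M) {u : ℤ} (hu : WR w M L j u) : WR w M L' j u :=
  hu.move fun _ hβ => h _ (lt_mul hβ hj)

theorem split3 {L : List Bool} {n a N : ℕ} (ha : a < n) (hL : L.length = n * N) :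
    ∃ A T R : List Bool, L = A ++ T ++ R ∧ A.length = a * N ∧ T.length = N := by
  have : (a + 1) * N ≤ n * N := Nat.mul_le_mul_right _ ha
  have e : (a + 1) * N = a * N + N := by ring
  refine ⟨L.take (a * N), (L.drop (a * N)).take N, (L.drop (a * N)).drop N, ?_, ?_, ?_⟩
  · rw [List.append_assoc, List.take_append_drop, List.take_append_drop]
  · simp; omega
  · simp; omega

theorem bit_other {A T T' R : List Bool} {a a' N t : ℕ} (hA : A.length = a * N) (hT : T.length = N)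
    (hT' : T'.length = N) (hne : a' ≠ a) (ht : t < N) :
    bit ((A ++ T' ++ R).drop (a' * N)) t = bit ((A ++ T ++ R).drop (a' * N)) t := by
  rw [bit_drop, bit_drop]
  rcases lt_or_gt_of_ne hne with h | h
  · have : a' * N + t < A.length := hA ▸ lt_mul h ht
    rw [List.append_assoc, List.append_assoc, bit_append_left _ this, bit_append_left _ this]
  · obtain ⟨s, rfl⟩ : ∃ s, a' = a + 1 + s := ⟨a' - a - 1, by omega⟩
    rw [show (a + 1 + s) * N + t = (a * N + N) + (s * N + t) by ring,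
      bit_append_right _ (by simp [hA, hT']), bit_append_right _ (by simp [hA, hT])]

theorem bit_self {A T R : List Bool} {a N t : ℕ} (hA : A.length = a * N) (hT : T.length = N)
    (ht : t < N) : bit ((A ++ T ++ R).drop (a * N)) t = bit T t := by
  rw [bit_drop, List.append_assoc, bit_append_right _ hA, bit_append_left _ (by omega)]

/-- all slots are shifted -/
theorem shift_all (n : ℕ) (hn : 1 ≤ n) (ew eM eD : Ex) : ∃ (p : Prog) (C : ℕ),
    ∀ (B P : ℕ) (r : Prog) (env : List ℕ) (w M D : ℕ) (L : List Bool),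
    1 ≤ P → 1 ≤ w → 1 ≤ M → D ≤ w → P ≤ w * M → n * (w * M) ≤ B → ew.ev B P env = w →
    eM.ev B P env = M → eD.ev B P env = D → L.length = n * (w * M) →
    ∃ L' : List Bool, L'.length = n * (w * M) ∧ Go B P r p env L env L' (C * (w * M)) ∧
      ∀ a < n, ∀ j < M, ∀ u : ℤ, WR w M (L.drop (a * (w * M))) j u →
        WR w M (L'.drop (a * (w * M))) j (2 ^ D * u) := by
  obtain ⟨ps, Cs, hs⟩ := shl_ex
  refine ⟨.call [.cst n, ew, eM, eD] ps, Cs * (2 * n) + 1,
    fun B P r env w M D L hP hw hM hD hPN hB hew heM heD hL => ?_⟩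
  obtain ⟨L', h1, h2, h3⟩ := hs B P r n w M D L hP hn hw hM hD hB hL
  have hwB : w ≤ B := le_of_mul (n * M) (Nat.mul_pos hn hM) hB (by ring)
  refine ⟨L', h1, (Go.call (by simp [hew, heM, heD]) ?_ h2).mono ?_, h3⟩
  · simp only [List.mem_cons, List.not_mem_nil, or_false]
    rintro v (rfl | rfl | rfl | rfl) <;> left
    · exact le_of_mul (w * M) (Nat.mul_pos hw hM) hB rfl
    · exact hwB
    · exact le_of_mul (n * w) (Nat.mul_pos hn hw) hB (by ring)
    · omega
  · have hPN' : (P : ℝ) ≤ w * M := by exact_mod_cast hPN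
    have : (Cs : ℝ) * (n * (w * M) + n * P) ≤ Cs * (2 * n * (w * M)) :=
      cle _ (by nlinarith [Nat.cast_nonneg (α := ℝ) n])
    push_cast; linarith

/-- Slot `a` is transformed by `body`, the other slots are shifted. -/
theorem upd_slot (n a : ℕ) (ha : a < n) (ew eM eD : Ex) (body : Prog) : ∃ (p : Prog) (C : ℕ),
    ∀ (B P : ℕ) (r : Prog) (env : List ℕ) (w M D : ℕ) (x : ℝ) (L : List Bool)
      (Φ : List Bool → List Bool → Prop),
    1 ≤ P → 1 ≤ w → 1 ≤ M → D ≤ w → P ≤ w * M → n * (w * M) ≤ B → ew.ev B P env = w →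
    eM.ev B P env = M → eD.ev B P env = D → L.length = n * (w * M) →
    (∀ T : List Bool, T.length = w * M → ∃ T' : List Bool, T'.length = w * M ∧
      Go B P r body env T env T' x ∧ Φ T T') →
    ∃ L' T T' : List Bool, L'.length = n * (w * M) ∧
      Go B P r p env L env L' (x + C * (w * M)) ∧ Φ T T' ∧
      (∀ t < w * M, bit T t = bit (L.drop (a * (w * M))) t) ∧
      (∀ t < w * M, bit (L'.drop (a * (w * M))) t = bit T' t) ∧
      ∀ a' < n, a' ≠ a → ∀ j < M, ∀ u : ℤ, WR w M (L.drop (a' * (w * M))) j u →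
        WR w M (L'.drop (a' * (w * M))) j (2 ^ D * u) := by
  obtain ⟨pp, Cp, hp⟩ := pick_ex
  obtain ⟨pu, Cu, hu⟩ := put_ex
  obtain ⟨pe, Ce, he⟩ := exch_ex
  obtain ⟨ps, Cs, hs⟩ := shift_all n (by omega) ew eM eD
  refine ⟨.call [.cst a * (ew * eM), ew * eM] pp ;; body ;;
    .call [ew * eM, .cst n * (ew * eM)] pe ;; ps ;; .call [.cst n * (ew * eM), ew * eM] pe ;;
    .call [.cst a * (ew * eM), ew * eM] pu, (Cp + Cu + 2 * Ce) * (n + 2) + Cs + 9,
    fun B P r env w M D x L Φ hP hw hM hD hPN hB hew heM heD hL hb => ?_⟩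
  generalize hN : w * M = N at *
  have hN1 : 1 ≤ N := by omega
  have hNB : N ≤ B := le_of_mul n (by omega) hB (by ring)
  have haB : a * N ≤ B := (Nat.mul_le_mul_right _ ha.le).trans hB
  obtain ⟨A, T, R, rfl, hA, hT⟩ := split3 ha hL
  obtain ⟨T', hT', g2, hΦ⟩ := hb T hT
  obtain ⟨L2, hL2, g4, h4⟩ := hs B P r env w M D _ hP hw hM hD (hN ▸ hPN) (hN ▸ hB) hew heM heD
    (hN ▸ hL)
  rw [hN] at hL2 h4
  obtain ⟨A2, T2, R2, rfl, hA2, hT2⟩ := split3 ha hL2
  have ok : ∀ s t : ℕ, s ≤ B → t ≤ B → ∀ v ∈ [s, t], Ok B env v := fun s t h1 h2 v hv => by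
    simp only [List.mem_cons, List.not_mem_nil, or_false] at hv
    rcases hv with rfl | rfl <;> left <;> assumption
  have g1 := Go.call (r := r) (env := env) (args := [.cst a * (ew * eM), ew * eM])
    (by simp [hew, heM, hN]) (ok _ _ haB hNB) ((hp B P r _ _ A T hP hA hT).frame R)
  have g3 := Go.call (r := r) (env := env) (args := [ew * eM, .cst n * (ew * eM)])
    (by simp [hew, heM, hN]) (ok _ _ hNB hB) (he B P r _ _ T' _ hP hT' hL)
  have g5 := Go.call (r := r) (env := env) (args := [.cst n * (ew * eM), ew * eM])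
    (by simp [hew, heM, hN]) (ok _ _ hB hNB) (he B P r _ _ _ T' hP hL2 hT')
  have g6 := Go.call (r := r) (env := env) (args := [.cst a * (ew * eM), ew * eM])
    (by simp [hew, heM, hN]) (ok _ _ haB hNB) ((hu B P r _ _ T' A2 T2 hP hT' hA2 hT2).frame R2)
  rw [List.append_assoc T] at g1
  rw [List.append_assoc T'] at g6
  refine ⟨A2 ++ T' ++ R2, T, T', by simpa [hT', hT2] using hL2,
    (g1.seq ((g2.frame _).seq (g3.seq ((g4.frame _).seq (g5.seq g6))))).mono ?_, hΦ,
    fun t ht => (bit_self hA hT ht).symm, fun t ht => bit_self hA2 hT' ht,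
    fun a' ha' hne j hj u hu => ?_⟩
  · have hPN' : (P : ℝ) ≤ N := by exact_mod_cast hPN
    have hN' : (1 : ℝ) ≤ N := by exact_mod_cast hN1
    have hwM : (w : ℝ) * M = N := by exact_mod_cast hN
    have han : (a : ℝ) * N ≤ n * N := by exact_mod_cast Nat.mul_le_mul_right N ha.le
    have e1 : (Cp : ℝ) * (a * N + N + P) ≤ Cp * ((n + 2) * N) := cle _ (by linarith)
    have e2 : (Cu : ℝ) * (a * N + N + P) ≤ Cu * ((n + 2) * N) := cle _ (by linarith)
    have e3 : (Ce : ℝ) * (N + n * N + P) ≤ Ce * ((n + 2) * N) := cle _ (by linarith)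
    rw [hwM]
    push_cast; linarith
  · exact WR.of_bits (fun t ht => bit_other hA2 hT2 hT' hne (hN ▸ ht)) hj (h4 a' ha' j hj u hu)

end Crest.Agent.IM.NB
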