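import Crest.Agent.IM.NetB1

/-! Representation predicate and the base case of the butterfly network. -/

set_option autoImplicit false

namespace Crest.Agent.IM.NB
open Q4

/-- The array `L` represents `z` on the fibre `(b, y)`. -/
def Rep (w d Qg S' k Y : ℕ) (L : List Bool) (b : ℕ → ℕ) (y : ℕ) (z : (ℕ → ℕ) → ℂ) : Prop :=
  ∀ x ∈ box (fun _ => 2 ^ k) d, CR w (nM Qg S' d (2 ^ k) Y) (2 ^ (k - 1) * Qg ^ d * Y) L
    (nad Qg S' d (2 ^ k * Qg ^ d * Y) b x y) (z x)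

theorem mrb_lt {Qg d : ℕ} {b : ℕ → ℕ} (hb : ∀ i < d, b i + 2 ≤ Qg) :
    mr (fun _ => Qg) 0 d b < Qg ^ d := by
  have := mr_lt (ns := fun _ => Qg) (a := 0) (b := d) (x := b) fun i _ hi => by
    have := hb i hi; show b i < Qg; omega
  rwa [pr_const, Nat.sub_zero] at this

theorem mrx_lt {S' k d a c : ℕ} {x : ℕ → ℕ} (hx : ∀ i < d, x i < 2 ^ k) (hS : 2 ^ k ≤ S')
    (hc : c ≤ d) : mr (fun _ => S') a c x < S' ^ (c - a) := by
  have := mr_lt (ns := fun _ => S') (a := a) (b := c) (x := x) fun i _ hi =>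
    (hx i (by omega)).trans_le hS
  rwa [pr_const] at this

theorem nad_lt {Qg S' d Yt k y : ℕ} {b x : ℕ → ℕ} (hb : ∀ i < d, b i + 2 ≤ Qg)
    (hx : ∀ i < d, x i < 2 ^ k) (hS : 2 ^ k ≤ S') (hy : y < Yt) :
    nad Qg S' d Yt b x y < Qg ^ d * S' ^ d * Yt :=
  lt_mul (lt_mul (mrb_lt hb) (by simpa using mrx_lt (a := 0) hx hS le_rfl)) hy

theorem nad_add (Qg S' d Yt y δ : ℕ) (b x : ℕ → ℕ) :
    nad Qg S' d Yt b x y + δ = nad Qg S' d Yt b x (y + δ) := add_assoc _ _ _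

theorem half_lt {k Z Y y : ℕ} (hk : 0 < k) (hy : y < 2 ^ (k - 1) * Z * Y) :
    y + 2 ^ (k - 1) * Z * Y < 2 ^ k * Z * Y := by
  obtain ⟨k, rfl⟩ : ∃ k', k = k' + 1 := ⟨k - 1, by omega⟩
  rw [Nat.add_sub_cancel] at *
  have : 2 ^ (k + 1) * Z * Y = 2 ^ k * Z * Y + 2 ^ k * Z * Y := by ring
  omega

theorem lane_lt {d Qg S' k Y y : ℕ} {b x : ℕ → ℕ} (hk : 0 < k) (hb : ∀ i < d, b i + 2 ≤ Qg)
    (hx : x ∈ box (fun _ => 2 ^ k) d) (hS : 2 ^ k ≤ S') (hy : y < 2 ^ (k - 1) * Qg ^ d * Y) :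
    nad Qg S' d (2 ^ k * Qg ^ d * Y) b x y + 2 ^ (k - 1) * Qg ^ d * Y < nM Qg S' d (2 ^ k) Y := by
  rw [nad_add]
  exact nad_lt hb (mem_box.1 hx).1 hS (half_lt hk hy)

section
variable {w d Qg S' k Y y : ℕ} {L L' : List Bool} {b : ℕ → ℕ} {z z' : (ℕ → ℕ) → ℂ}

theorem Rep.congr (h : Rep w d Qg S' k Y L b y z) (e : ∀ x ∈ box (fun _ => 2 ^ k) d, z x = z' x) :
    Rep w d Qg S' k Y L b y z' := fun x hx => e x hx ▸ h x hx

theorem Rep.scale (s : ℤ) (h : Rep w d Qg S' k Y L b y z) (hk : 0 < k)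
    (hb : ∀ i < d, b i + 2 ≤ Qg) (hS : 2 ^ k ≤ S') (hy : y < 2 ^ (k - 1) * Qg ^ d * Y)
    (h1 : ∀ j < nM Qg S' d (2 ^ k) Y, ∀ u : ℤ, WR w (nM Qg S' d (2 ^ k) Y) L j u →
      WR w (nM Qg S' d (2 ^ k) Y) L' j (s * u)) :
    Rep w d Qg S' k Y L' b y (fun x => s * z x) := fun x hx =>
  CR.scale s (h x hx) (lane_lt hk hb hx hS hy) h1

theorem Rep.of_bits (h : Rep w d Qg S' k Y L b y z) (hk : 0 < k)
    (hb : ∀ i < d, b i + 2 ≤ Qg) (hS : 2 ^ k ≤ S') (hy : y < 2 ^ (k - 1) * Qg ^ d * Y)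
    (h1 : ∀ t < w * nM Qg S' d (2 ^ k) Y, bit L' t = bit L t) : Rep w d Qg S' k Y L' b y z :=
  (h.scale 1 hk hb hS hy fun _ hj _ hu => by simpa using WR.of_bits h1 hj hu).congr
    fun _ _ => by simp

theorem Rep.moves {σ : (ℕ → ℕ) → ℕ → ℕ} (h : Rep w d Qg S' k Y L b y z) (hk : 0 < k)
    (hb : ∀ i < d, b i + 2 ≤ Qg) (hy : y < 2 ^ (k - 1) * Qg ^ d * Y)
    (hσ : ∀ x, σ (σ x) = x) (hσ' : ∀ x ∈ box (fun _ => 2 ^ k) d, σ x ∈ box (fun _ => 2 ^ k) d)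
    (hm : Moves w d Qg S' (2 ^ k) Y k σ L L') :
    Rep w d Qg S' k Y L' b y (fun x => z (σ x)) := fun x hx => by
  have h0 := half_lt hk hy
  have hx' := (mem_box.1 (hσ' x hx)).1
  refine CR.move (h _ (hσ' x hx)) (fun β hβ => ?_) (fun β hβ => ?_)
  · have := hm.2 β hβ b (σ x) hb hx' y (by omega)
    rwa [hσ] at this
  · have := hm.2 β hβ b (σ x) hb hx' _ h0
    rw [hσ] at this
    rw [nad_add, nad_add, this]

theorem Rep.self (w d Qg S' k Y y : ℕ) (L : List Bool) (b : ℕ → ℕ) :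
    ∃ z, Rep w d Qg S' k Y L b y z :=
  ⟨fun x => ((wd w (nM Qg S' d (2 ^ k) Y) L (nad Qg S' d (2 ^ k * Qg ^ d * Y) b x y) : ℤ) : ℂ) +
    ((wd w (nM Qg S' d (2 ^ k) Y) L (nad Qg S' d (2 ^ k * Qg ^ d * Y) b x y +
      2 ^ (k - 1) * Qg ^ d * Y) : ℤ) : ℂ) * Complex.I,
    fun _ _ => ⟨_, _, rfl, WR.of_wd _ _ _ _, WR.of_wd _ _ _ _⟩⟩

end

theorem xor_lo {ρ uh ul : ℕ} (h : ul < 2 ^ ρ) :
    (uh * 2 * 2 ^ ρ + ul) ^^^ 2 ^ ρ = (uh * 2 + 1) * 2 ^ ρ + ul := by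
  have hp : 0 < 2 ^ ρ := by positivity
  rw [← Nat.div_add_mod' ((uh * 2 * 2 ^ ρ + ul) ^^^ 2 ^ ρ) (2 ^ ρ), Nat.xor_div_two_pow,
    Nat.xor_mod_two_pow, Nat.div_self hp, Nat.mod_self, Nat.xor_zero, add_comm _ ul,
    Nat.add_mul_div_right _ _ hp, Nat.add_mul_mod_self_right, Nat.div_eq_of_lt h,
    Nat.mod_eq_of_lt h, zero_add, Nat.xor_one_of_even ⟨uh, by ring⟩]

theorem xor_hi {ρ uh ul : ℕ} (h : ul < 2 ^ ρ) :
    ((uh * 2 + 1) * 2 ^ ρ + ul) ^^^ 2 ^ ρ = uh * 2 * 2 ^ ρ + ul := by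
  rw [← xor_lo h, Nat.xor_assoc, Nat.xor_self, Nat.xor_zero]

theorem okl {B : ℕ} {env vs : List ℕ} (h : ∀ v ∈ vs, v ≤ B) : ∀ v ∈ vs, Ok B env v :=
  fun v hv => Or.inl (h v hv)

/-- resize, butterfly, resize back -/
theorem base0 : ∃ (p : Prog) (C : ℕ), ∀ (B P : ℕ) (r : Prog) (w R S' G I₀ J I₂ : ℕ)
    (L : List Bool), 1 ≤ P → 1 ≤ w → 1 ≤ R → 1 ≤ G → 1 ≤ I₀ → 1 ≤ J → 1 ≤ I₂ →
    G * 2 * J ≤ S' → P ≤ I₂ → w * (R * S' * I₀ * (2 * I₂)) ≤ B →
    L.length = w * (R * S' * I₀ * (2 * I₂)) →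
    ∃ L' : List Bool, L'.length = w * (R * S' * I₀ * (2 * I₂)) ∧
      Top B P r p [w, R, S', G, I₀, J, I₂] L L' (C * (w * (R * S' * I₀ * (2 * I₂)) : ℕ)) ∧
      ∀ o < R, ∀ uh < G, ∀ ul < J, ∀ lo < I₀, ∀ y < I₂, ∀ a b : ℂ,
        CR w (R * S' * I₀ * (2 * I₂)) I₂ L
          (((o * S' + (uh * 2 * J + ul)) * I₀ + lo) * (2 * I₂) + y) a →
        CR w (R * S' * I₀ * (2 * I₂)) I₂ L
          (((o * S' + ((uh * 2 + 1) * J + ul)) * I₀ + lo) * (2 * I₂) + y) b →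
        CR w (R * S' * I₀ * (2 * I₂)) I₂ L'
          (((o * S' + (uh * 2 * J + ul)) * I₀ + lo) * (2 * I₂) + y)
          ((1 + Complex.I) * a + (1 - Complex.I) * b) ∧
        CR w (R * S' * I₀ * (2 * I₂)) I₂ L'
          (((o * S' + ((uh * 2 + 1) * J + ul)) * I₀ + lo) * (2 * I₂) + y)
          ((1 - Complex.I) * a + (1 + Complex.I) * b) := by
  obtain ⟨pr, Cr, hr⟩ := resize_ex
  obtain ⟨pb, Cb, hb⟩ := bfly_ex
  refine ⟨.call [.var 0 * .var 1, .var 2 * (.var 4 * (2 * .var 6)),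
      .var 3 * 2 * .var 5 * (.var 4 * (2 * .var 6))] pr ;;
    .call [.var 0, .var 1 * .var 3, .var 5 * .var 4, .var 6] pb ;;
    .call [.var 0 * .var 1, .var 3 * 2 * .var 5 * (.var 4 * (2 * .var 6)),
      .var 2 * (.var 4 * (2 * .var 6))] pr, 8 * Cr + 2 * Cb + 5,
    fun B P r w R S' G I₀ J I₂ L hP hw hR hG hI₀ hJ hI₂ hS hPI hB hL => ?_⟩
  have hS1 : 1 ≤ S' := le_trans (by positivity : 0 < G * 2 * J) hS
  have hA : G * 2 * J * (I₀ * (2 * I₂)) ≤ S' * (I₀ * (2 * I₂)) := Nat.mul_le_mul_right _ hS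
  have eN : w * (R * S' * I₀ * (2 * I₂)) = w * R * (S' * (I₀ * (2 * I₂))) := by ring
  have eN' : w * (R * G * 2 * (J * I₀) * 2 * I₂) = w * R * (G * 2 * J * (I₀ * (2 * I₂))) := by ring
  have hNN : w * R * (G * 2 * J * (I₀ * (2 * I₂))) ≤ w * R * (S' * (I₀ * (2 * I₂))) :=
    Nat.mul_le_mul_left _ hA
  obtain ⟨L1, l1, t1, s1⟩ := hr B P r (w * R) (S' * (I₀ * (2 * I₂))) (G * 2 * J * (I₀ * (2 * I₂)))
    L hP (hL.trans eN)
  obtain ⟨L2, l2, t2, s2⟩ := hb B P r w (R * G) (J * I₀) I₂ L1 hP hw (one_le (by positivity))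
    (one_le (by positivity)) hI₂ (by omega) (l1.trans eN'.symm)
  obtain ⟨L3, l3, t3, s3⟩ := hr B P r (w * R) (G * 2 * J * (I₀ * (2 * I₂))) (S' * (I₀ * (2 * I₂)))
    L2 hP (l2.trans eN')
  have b1 : w * R ≤ B := le_of_mul (S' * (I₀ * (2 * I₂))) (one_le (by positivity)) hB eN
  have b2 : S' * (I₀ * (2 * I₂)) ≤ B := le_of_mul (w * R) (one_le (by positivity)) hB (by ring)
  have hB' : w * (R * G * 2 * (J * I₀) * 2 * I₂) ≤ B := by omega
  refine ⟨L3, l3.trans eN.symm, ((Go.call (by simp) (okl ?_) t1).seq ((Go.call (by simp) (okl ?_)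
    t2).seq (Go.call (by simp) (okl ?_) t3))).top.mono ?_, fun o ho uh huh ul hul lo hlo y hy a b
      ha hb' => ?_⟩
  · simp only [List.forall_mem_cons, List.not_mem_nil, IsEmpty.forall_iff, implies_true, and_true]
    omega
  · simp only [List.forall_mem_cons, List.not_mem_nil, IsEmpty.forall_iff, implies_true, and_true]
    refine ⟨?_, ?_, ?_, ?_⟩
    · exact le_of_mul (R * G * 2 * (J * I₀) * 2 * I₂) (one_le (by positivity)) hB' rfl
    · exact le_of_mul (w * 2 * (J * I₀) * 2 * I₂) (one_le (by positivity)) hB' (by ring)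
    · exact le_of_mul (w * R * G * 2 * 2 * I₂) (one_le (by positivity)) hB' (by ring)
    · exact le_of_mul (w * R * G * 2 * (J * I₀) * 2) (one_le (by positivity)) hB' (by ring)
  · simp only [List.forall_mem_cons, List.not_mem_nil, IsEmpty.forall_iff, implies_true, and_true]
    omega
  · have c1 : P ≤ w * R * (S' * (I₀ * (2 * I₂))) :=
      hPI.trans (le_of_mul (w * R * S' * I₀ * 2) (one_le (by positivity)) le_rfl (by ring))
    have c2 : w * R ≤ w * R * (S' * (I₀ * (2 * I₂))) :=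
      le_of_mul (S' * (I₀ * (2 * I₂))) (one_le (by positivity)) le_rfl rfl
    have e2 : ((w : ℝ) * ((R * G : ℕ) * 2 * (J * I₀ : ℕ) * 2 * I₂)) =
      (w * R * (G * 2 * J * (I₀ * (2 * I₂))) : ℕ) := by push_cast; ring
    rw [eN, e2, ← Nat.cast_mul (w * R), ← Nat.cast_mul (w * R)]
    generalize w * R * (S' * (I₀ * (2 * I₂))) = N at *
    generalize w * R * (G * 2 * J * (I₀ * (2 * I₂))) = N' at *
    have c1' : (P : ℝ) ≤ N := by exact_mod_cast c1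
    have c2' : ((w * R : ℕ) : ℝ) ≤ N := by exact_mod_cast c2
    have c3' : (N' : ℝ) ≤ N := by exact_mod_cast hNN
    have c4' : (1 : ℝ) ≤ P := by exact_mod_cast hP
    have e1 : (Cr : ℝ) * (N + N' + (w * R : ℕ) + P) ≤ Cr * (4 * N) := cle _ (by linarith)
    have e3 : (Cb : ℝ) * (N' + P) ≤ Cb * (2 * N) := cle _ (by linarith)
    push_cast at *; linarith
  · have hu : ∀ s < 2, ∀ y' < 2 * I₂, ((uh * 2 + s) * J + ul) * (I₀ * (2 * I₂)) + (lo * (2 * I₂) + y')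
        < G * 2 * J * (I₀ * (2 * I₂)) := fun s hs y' hy' =>
      lt_mul (lt_mul (lt_mul huh hs) hul) (lt_mul hlo hy')
    have m1 : ∀ s < 2, ∀ y' < 2 * I₂, ∀ β < w,
        bit L1 (β * (R * G * 2 * (J * I₀) * 2 * I₂) +
          ((((o * G + uh) * 2 + s) * (J * I₀) + (ul * I₀ + lo)) * 2 * I₂ + y')) =
        bit L (β * (R * S' * I₀ * (2 * I₂)) +
          (((o * S' + ((uh * 2 + s) * J + ul)) * I₀ + lo) * (2 * I₂) + y')) :=
      fun s hs y' hy' β hβ => by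
        have := s1 (β * R + o) (lt_mul hβ ho) _ (hu s hs y' hy')
        rw [decide_eq_true ((hu s hs y' hy').trans_le hA), Bool.true_and] at this
        convert this using 2 <;> ring
    have m3 : ∀ s < 2, ∀ y' < 2 * I₂, ∀ β < w,
        bit L3 (β * (R * S' * I₀ * (2 * I₂)) +
          (((o * S' + ((uh * 2 + s) * J + ul)) * I₀ + lo) * (2 * I₂) + y')) =
        bit L2 (β * (R * G * 2 * (J * I₀) * 2 * I₂) +
          ((((o * G + uh) * 2 + s) * (J * I₀) + (ul * I₀ + lo)) * 2 * I₂ + y')) :=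
      fun s hs y' hy' β hβ => by
        have := s3 (β * R + o) (lt_mul hβ ho) _ ((hu s hs y' hy').trans_le hA)
        rw [decide_eq_true (hu s hs y' hy'), Bool.true_and] at this
        convert this using 2 <;> ring
    obtain ⟨r1, r2⟩ := s2 (o * G + uh) (lt_mul ho huh) (ul * I₀ + lo) (lt_mul hul hlo) y hy a b
      (CR.move ha (fun β hβ => by simpa using m1 0 (by omega) y (by omega) β hβ)
        (fun β hβ => by simpa [add_assoc] using m1 0 (by omega) (y + I₂) (by omega) β hβ))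
      (CR.move hb' (fun β hβ => m1 1 (by omega) y (by omega) β hβ)
        (fun β hβ => by simpa [add_assoc] using m1 1 (by omega) (y + I₂) (by omega) β hβ))
    exact ⟨CR.move r1 (fun β hβ => by simpa using m3 0 (by omega) y (by omega) β hβ)
        (fun β hβ => by simpa [add_assoc] using m3 0 (by omega) (y + I₂) (by omega) β hβ),
      CR.move r2 (fun β hβ => m3 1 (by omega) y (by omega) β hβ)
        (fun β hβ => by simpa [add_assoc] using m3 1 (by omega) (y + I₂) (by omega) β hβ)⟩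

/-- The specification of the network on one array. -/
def Spec (w d Qg S' k Y : ℕ) (F : ((ℕ → ℕ) → ℂ) → (ℕ → ℕ) → ℂ) (L L' : List Bool) : Prop :=
  ∀ b : ℕ → ℕ, (∀ i < d, b i + 2 ≤ Qg) → ∀ y < 2 ^ (k - 1) * Qg ^ d * Y, ∀ z,
    Rep w d Qg S' k Y L b y z → Rep w d Qg S' k Y L' b y (F z)

theorem base_ex : ∃ (p : Prog) (C : ℕ), ∀ (B P : ℕ) (r : Prog) (j off w d jg Qg S' k Y ρ : ℕ)
    (L : List Bool), 1 ≤ P → 1 ≤ w → 2 ≤ Qg → ρ < k → off + 1 ≤ d → 2 ^ k ≤ S' → P ≤ Y →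
    w * nM Qg S' d (2 ^ k) Y ≤ B → L.length = w * nM Qg S' d (2 ^ k) Y →
    ∃ L' : List Bool, L'.length = w * nM Qg S' d (2 ^ k) Y ∧
      Top B P r p [j, off, w, d, jg, Qg, S', k, Y, ρ] L L' (C * (w * nM Qg S' d (2 ^ k) Y : ℕ)) ∧
      Spec w d Qg S' k Y (fun z x => 2 * Cop ρ off z x) L L' := by
  obtain ⟨p0, C0, h0⟩ := base0
  refine ⟨.call [.var 2, Ex.pow (.var 5) (.var 3) * Ex.pow (.var 6) (.var 3 - .var 1 - 1), .var 6,
    Ex.pow 2 (.var 7 - .var 9 - 1), Ex.pow (.var 6) (.var 1), Ex.pow 2 (.var 9),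
    Ex.pow 2 (.var 7 - 1) * Ex.pow (.var 5) (.var 3) * .var 8] p0, C0 + 1,
    fun B P r j off w d jg Qg S' k Y ρ L hP hw hQ hρ hoff hS hPY hB hL => ?_⟩
  obtain ⟨e, rfl⟩ : ∃ e, d = off + 1 + e := ⟨d - off - 1, by omega⟩
  obtain ⟨f, rfl⟩ : ∃ f, k = ρ + 1 + f := ⟨k - ρ - 1, by omega⟩
  have hS2 : 2 ≤ S' := le_trans (Nat.le_self_pow (by omega) 2) hS
  have hY : 1 ≤ Y := by omega
  have k1 : ρ + 1 + f - 1 = ρ + f := by omega
  have eM : nM Qg S' (off + 1 + e) (2 ^ (ρ + 1 + f)) Y = Qg ^ (off + 1 + e) * S' ^ e * S' *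
      S' ^ off * (2 * (2 ^ (ρ + f) * Qg ^ (off + 1 + e) * Y)) := by unfold nM; ring
  have eY : 2 ^ (ρ + 1 + f) * Qg ^ (off + 1 + e) * Y =
      2 * (2 ^ (ρ + f) * Qg ^ (off + 1 + e) * Y) := by ring
  unfold Spec Rep
  rw [eM] at hB hL ⊢
  rw [k1, eY]
  generalize hQd : Qg ^ (off + 1 + e) = Qd at *
  have hQd1 : 1 ≤ Qd := by rw [← hQd]; exact one_le (by positivity)
  obtain ⟨L', l1, t1, s1⟩ := h0 B P r w (Qd * S' ^ e) S' (2 ^ f) (S' ^ off) (2 ^ ρ)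
    (2 ^ (ρ + f) * Qd * Y) L hP hw (one_le (by positivity)) (one_le (by positivity))
    (one_le (by positivity)) (one_le (by positivity)) (one_le (by positivity))
    (le_of_eq_of_le (by ring) hS)
    (hPY.trans (le_of_mul (2 ^ (ρ + f) * Qd) (one_le (by positivity)) le_rfl (by ring))) hB hL
  have b1 : Qd * S' ^ e ≤ B := le_of_mul (w * S' * S' ^ off * (2 * (2 ^ (ρ + f) * Qd * Y)))
    (one_le (by positivity)) hB (by ring)
  have b2 : S' ^ off ≤ B := le_of_mul (w * Qd * S' ^ e * S' * (2 * (2 ^ (ρ + f) * Qd * Y)))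
    (one_le (by positivity)) hB (by ring)
  have b3 : 2 ^ (ρ + f) * Qd * Y ≤ B := le_of_mul (w * Qd * S' ^ e * S' * S' ^ off * 2)
    (one_le (by positivity)) hB (by ring)
  have b4 : Qd ≤ B := le_of_mul (S' ^ e) (one_le (by positivity)) b1 rfl
  have b5 : S' ^ e ≤ B := le_of_mul Qd hQd1 b1 (by ring)
  have b6 : 2 ^ (ρ + f) ≤ B := le_of_mul (Qd * Y) (one_le (by positivity)) b3 (by ring)
  have b7 : 2 ^ ρ ≤ B := le_of_mul (2 ^ f) (one_le (by positivity)) b6 (by ring)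
  have b8 : 2 ^ f ≤ B := le_of_mul (2 ^ ρ) (one_le (by positivity)) b6 (by ring)
  refine ⟨L', l1, (Go.call ?_ ?_ t1).top.mono ?_, fun b hb y hy z hz x hx => ?_⟩
  · have e1 : off + 1 + e - off - 1 = e := by omega
    have e2 : ρ + 1 + f - ρ - 1 = f := by omega
    simp only [List.map_cons, List.map_nil, Ex.ev_mul]
    rw [Ex.ev_pow, Ex.ev_pow, Ex.ev_pow, Ex.ev_pow, Ex.ev_pow, Ex.ev_pow] <;>
      simp [*]
  · simp only [List.forall_mem_cons, List.not_mem_nil, IsEmpty.forall_iff, implies_true, and_true]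
    exact ⟨Or.inr (by simp), Or.inl b1, Or.inr (by simp), Or.inl b8, Or.inl b2, Or.inl b7, Or.inl b3⟩
  · have : P ≤ w * (Qd * S' ^ e * S' * S' ^ off * (2 * (2 ^ (ρ + f) * Qd * Y))) :=
      hPY.trans (le_of_mul (w * (Qd * S' ^ e * S' * S' ^ off * (2 * (2 ^ (ρ + f) * Qd))))
        (one_le (by positivity)) le_rfl (by ring))
    generalize w * (Qd * S' ^ e * S' * S' ^ off * (2 * (2 ^ (ρ + f) * Qd * Y))) = N at *
    have : (P : ℝ) ≤ N := by exact_mod_cast this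
    push_cast; linarith
  · have hx1 := (mem_box.1 hx).1
    have hu : x off < 2 ^ (ρ + 1 + f) := hx1 off (by omega)
    have ad : ∀ u, nad Qg S' (off + 1 + e) (2 * (2 ^ (ρ + f) * Qd * Y)) b (Function.update x off u) y
        = (((mr (fun _ => Qg) 0 (off + 1 + e) b * S' ^ e + mr (fun _ => S') (off + 1) (off + 1 + e) x)
          * S' + u) * S' ^ off + mr (fun _ => S') 0 off x) * (2 * (2 ^ (ρ + f) * Qd * Y)) + y :=
      fun u => by
        rw [nad, mr_update (Nat.zero_le _) (by omega), pr_const, Nat.sub_zero]; ring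
    have hul : x off % 2 ^ ρ < 2 ^ ρ := Nat.mod_lt _ (by positivity)
    have huh : x off / 2 ^ ρ / 2 < 2 ^ f := by
      rw [Nat.div_div_eq_div_mul, Nat.div_lt_iff_lt_mul (by positivity)]
      exact hu.trans_eq (by ring)
    have mem : ∀ s < 2, Function.update x off ((x off / 2 ^ ρ / 2 * 2 + s) * 2 ^ ρ + x off % 2 ^ ρ)
        ∈ box (fun _ => 2 ^ (ρ + 1 + f)) (off + 1 + e) := fun s hs =>
      update_mem_box hx (by omega) (fun _ _ _ => rfl)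
        ((lt_mul (lt_mul huh hs) hul).trans_eq (by ring))
    have z0 := hz _ (mem 0 (by omega))
    have z1 := hz _ (mem 1 (by omega))
    rw [ad] at z0 z1
    rw [add_zero] at z0
    obtain ⟨r0, r1⟩ := s1 _ (lt_mul (hQd ▸ mrb_lt hb)
      (by simpa using mrx_lt (a := off + 1) hx1 hS le_rfl)) _ huh _ hul _
      (by simpa using mrx_lt (a := 0) (c := off) hx1 hS (by omega)) y hy _ _ z0 z1
    rw [← ad] at r0 r1
    have dv := Nat.div_add_mod' (x off) (2 ^ ρ)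
    have dv2 := Nat.div_add_mod' (x off / 2 ^ ρ) 2
    rcases Nat.mod_two_eq_zero_or_one (x off / 2 ^ ρ) with h | h
    · have e0 : x off / 2 ^ ρ / 2 * 2 * 2 ^ ρ + x off % 2 ^ ρ = x off := by
        rw [h, add_zero] at dv2; rw [dv2, dv]
      rw [← xor_lo hul, e0, Function.update_eq_self] at r0
      convert r0 using 1
      unfold Cop; ring
    · have e0 : (x off / 2 ^ ρ / 2 * 2 + 1) * 2 ^ ρ + x off % 2 ^ ρ = x off := by
        rw [h] at dv2; rw [dv2, dv]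
      rw [← xor_hi hul, e0, Function.update_eq_self] at r1
      convert r1 using 1
      unfold Cop; ring

end Crest.Agent.IM.NB
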