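import Crest.Agent.IM.NetB2

/-! Network instructions on slots. -/

set_option autoImplicit false
open Matrix

namespace Crest.Agent.IM.NB
open Q4

/-- registers of the inner level -/
def envI (j off w d jg Qg S' k Y ρ D : ℕ) : List ℕ :=
  [j, off, w, d, jg, Qg, S', k, Y, ρ, nM Qg S' d (2 ^ k) Y, D, mu ^ j, 2 ^ k]

/-- side conditions of the inner level -/
structure Ctx (q C B P j off w d jg Qg S' k Y ρ D : ℕ) : Prop where
  g : GadOk q C B P w d jg Qg S' (2 ^ k) Y k ρ j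
  hD : D ≤ w
  hoff : off + mu ^ (j + 1) ≤ d

theorem GadOk_mono {q C C' B P w d jg Qg S' H Y k ρ j : ℕ}
    (h : GadOk q C B P w d jg Qg S' H Y k ρ j) (hC : C' ≤ C) :
    GadOk q C' B P w d jg Qg S' H Y k ρ j :=
  { h with hB := (Nat.mul_le_mul_right _ hC).trans h.hB }

namespace Ctx
variable {q C C' B P j off w d jg Qg S' k Y ρ D : ℕ}

theorem mono (h : Ctx q C B P j off w d jg Qg S' k Y ρ D) (hC : C' ≤ C) :
    Ctx q C' B P j off w d jg Qg S' k Y ρ D := { h with g := GadOk_mono h.g hC }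

theorem hk (h : Ctx q C B P j off w d jg Qg S' k Y ρ D) : 0 < k := by have := h.g.hρ; omega

theorem hS (h : Ctx q C B P j off w d jg Qg S' k Y ρ D) : 2 ^ k ≤ S' :=
  (Nat.le_add_right _ _).trans h.g.hS

theorem hPY (h : Ctx q C B P j off w d jg Qg S' k Y ρ D) : P ≤ Y :=
  le_of_mul (WW ^ (j + jg)) (Nat.one_le_pow _ _ (by have := two_le_WW; omega)) h.g.hPY rfl

theorem hQ (hq : 2 ≤ q) (h : Ctx q C B P j off w d jg Qg S' k Y ρ D) : 2 ≤ Qg := by
  rw [h.g.hQ]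
  exact hq.trans (Nat.le_self_pow (pow_ne_zero _ (by have := two_le_mu; omega)) q)

theorem hYM (hq : 2 ≤ q) (h : Ctx q C B P j off w d jg Qg S' k Y ρ D) :
    Y ≤ nM Qg S' d (2 ^ k) Y := by
  have := h.hQ hq
  have : 0 < S' := lt_of_lt_of_le (by positivity) h.hS
  exact le_of_mul (Qg ^ d * S' ^ d * (2 ^ k * Qg ^ d)) (one_le (by positivity)) le_rfl
    (by unfold nM; ring)

theorem hM (hq : 2 ≤ q) (h : Ctx q C B P j off w d jg Qg S' k Y ρ D) :
    1 ≤ nM Qg S' d (2 ^ k) Y := (h.g.hP.trans h.hPY).trans (h.hYM hq)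

theorem hPN (hq : 2 ≤ q) (h : Ctx q C B P j off w d jg Qg S' k Y ρ D) :
    P ≤ w * nM Qg S' d (2 ^ k) Y :=
  (h.hPY.trans (h.hYM hq)).trans (le_of_mul w h.g.hw le_rfl (by ring))

theorem hB (h : Ctx q C B P j off w d jg Qg S' k Y ρ D) {n : ℕ} (hn : n ≤ C) :
    n * (w * nM Qg S' d (2 ^ k) Y) ≤ B := (h.mono hn).g.hB

theorem hdB (hq : 2 ≤ q) (h : Ctx q C B P j off w d jg Qg S' k Y ρ D) (hC : 1 ≤ C) : d ≤ B := by
  have h1 := h.hQ hq
  have h2 : 0 < S' := lt_of_lt_of_le (by positivity) h.hS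
  have h3 := h.g.hw
  have h4 := h.g.hP.trans h.hPY
  exact (Nat.lt_pow_self (by omega : 1 < Qg)).le.trans
    (le_of_mul (w * S' ^ d * (2 ^ k * Qg ^ d * Y)) (one_le (by positivity)) (h.hB hC)
      (by unfold nM; ring))

end Ctx

/-- the properties of the phase representation -/
structure PsiOk (Ψ : Matrix (Fin mu) (Fin mu) ℤ → ((ℕ → ℕ) → ℂ) →ₗ[ℂ] ((ℕ → ℕ) → ℂ))
    (ρ off n : ℕ) : Prop where
  ev : ∀ v : Fin mu → ℤ, (∀ c, Even (v c)) → ∀ z, Ψ (vecMulVec v v) z = z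
  od : ∀ (v : Fin mu → ℤ) (c₀ : Fin mu), Odd (v c₀) → ∀ z x, Ψ (vecMulVec v v) z x =
    Cops ρ (off + c₀ * n) n (fun y => z (xsm v c₀ ρ off n y)) (xsm v c₀ ρ off n x)
  fr : ∀ S : Matrix (Fin mu) (Fin mu) ℤ, S.IsSymm → ∀ z x,
    Ψ (2 • S) z x = z (trm (fun c => S c c) ρ off n x)

/-- the recursion hypothesis -/
def RecH (B P : ℕ) (r : Prog) (j w d jg Qg S' k Y ρ D : ℕ) (x : ℝ) : Prop :=
  ∀ off, off + mu ^ j ≤ d → ∀ T : List Bool, T.length = w * nM Qg S' d (2 ^ k) Y →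
    ∃ T' : List Bool, T'.length = w * nM Qg S' d (2 ^ k) Y ∧
      Top B P r r [j, off, w, d, jg, Qg, S', k, Y, ρ] T T' x ∧
      Spec w d Qg S' k Y (fun z x => 2 ^ D * Cops ρ off (mu ^ j) z x) T T'

/-- `n` slots represent `X`. -/
def Reps (n w d Qg S' k Y : ℕ) (L : List Bool) (b : ℕ → ℕ) (y : ℕ) (X : ℕ → (ℕ → ℕ) → ℂ) : Prop :=
  ∀ a < n, Rep w d Qg S' k Y (L.drop (a * (w * nM Qg S' d (2 ^ k) Y))) b y (X a)

/-- Specification on `n` slots. -/
def SpecN (n w d Qg S' k Y : ℕ) (F : (ℕ → (ℕ → ℕ) → ℂ) → ℕ → (ℕ → ℕ) → ℂ) (L L' : List Bool) :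
    Prop :=
  ∀ b : ℕ → ℕ, (∀ i < d, b i + 2 ≤ Qg) → ∀ y < 2 ^ (k - 1) * Qg ^ d * Y, ∀ X,
    Reps n w d Qg S' k Y L b y X → Reps n w d Qg S' k Y L' b y (F X)

theorem shift_spec {q : ℕ} (hq : 2 ≤ q) (n : ℕ) (hn : 1 ≤ n) (eD : Ex) : ∃ (p : Prog) (C : ℕ),
    ∀ (B P : ℕ) (r : Prog) (j off w d jg Qg S' k Y ρ D D' : ℕ) (L : List Bool),
    Ctx q C B P j off w d jg Qg S' k Y ρ D → eD.ev B P (envI j off w d jg Qg S' k Y ρ D) = D' →
    D' ≤ w → L.length = n * (w * nM Qg S' d (2 ^ k) Y) →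
    ∃ L' : List Bool, L'.length = n * (w * nM Qg S' d (2 ^ k) Y) ∧
      Go B P r p (envI j off w d jg Qg S' k Y ρ D) L (envI j off w d jg Qg S' k Y ρ D) L'
        (C * (w * nM Qg S' d (2 ^ k) Y)) ∧
      SpecN n w d Qg S' k Y (fun X a => (2 : ℂ) ^ D' • X a) L L' := by
  obtain ⟨p, C, h⟩ := shift_all n hn (.var 2) (.var 10) eD
  refine ⟨p, C + n, fun B P r j off w d jg Qg S' k Y ρ D D' L c heD hD hL => ?_⟩
  obtain ⟨L', l1, g, s⟩ := h B P r (envI j off w d jg Qg S' k Y ρ D) w _ D' L c.g.hP c.g.hw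
    (c.hM hq) hD (c.hPN hq) (c.hB (by omega)) rfl rfl heD hL
  refine ⟨L', l1, g.mono ?_, fun b hb y hy X hX a ha => ?_⟩
  · gcongr; omega
  · exact ((hX a ha).scale (2 ^ D') c.hk hb c.hS hy (s a ha)).congr fun x _ => by simp

theorem upd_spec {q : ℕ} (hq : 2 ≤ q) (n a : ℕ) (ha : a < n) (eD : Ex) (body : Prog) :
    ∃ (p : Prog) (C : ℕ), ∀ (B P : ℕ) (r : Prog) (j off w d jg Qg S' k Y ρ D D' : ℕ) (x : ℝ)
    (L : List Bool) (F : ((ℕ → ℕ) → ℂ) → (ℕ → ℕ) → ℂ),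
    Ctx q C B P j off w d jg Qg S' k Y ρ D → eD.ev B P (envI j off w d jg Qg S' k Y ρ D) = D' →
    D' ≤ w → L.length = n * (w * nM Qg S' d (2 ^ k) Y) →
    (∀ T : List Bool, T.length = w * nM Qg S' d (2 ^ k) Y →
      ∃ T' : List Bool, T'.length = w * nM Qg S' d (2 ^ k) Y ∧
        Go B P r body (envI j off w d jg Qg S' k Y ρ D) T (envI j off w d jg Qg S' k Y ρ D) T' x ∧
        Spec w d Qg S' k Y F T T') →
    ∃ L' : List Bool, L'.length = n * (w * nM Qg S' d (2 ^ k) Y) ∧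
      Go B P r p (envI j off w d jg Qg S' k Y ρ D) L (envI j off w d jg Qg S' k Y ρ D) L'
        (x + C * (w * nM Qg S' d (2 ^ k) Y)) ∧
      SpecN n w d Qg S' k Y
        (fun X => Function.update (fun a' => (2 : ℂ) ^ D' • X a') a (F (X a))) L L' := by
  obtain ⟨p, C, h⟩ := upd_slot n a ha (.var 2) (.var 10) eD body
  refine ⟨p, C + n, fun B P r j off w d jg Qg S' k Y ρ D D' x L F c heD hD hL hb => ?_⟩
  obtain ⟨L', T, T', l1, g, s1, s2, s3, s4⟩ := h B P r (envI j off w d jg Qg S' k Y ρ D) w _ D' x L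
    (Spec w d Qg S' k Y F) c.g.hP c.g.hw (c.hM hq) hD (c.hPN hq) (c.hB (by omega)) rfl rfl heD hL hb
  refine ⟨L', l1, g.mono ?_, fun b hb y hy X hX a' ha' => ?_⟩
  · gcongr; omega
  · by_cases e : a' = a
    · subst e
      simp only [Function.update_self]
      exact (s1 b hb y hy _ ((hX a' ha').of_bits c.hk hb c.hS hy s2)).of_bits c.hk hb c.hS hy s3
    · simp only [Function.update_of_ne e]
      exact ((hX a' ha').scale (2 ^ D') c.hk hb c.hS hy (s4 a' ha' e)).congr fun x _ => by simp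

/-- scaling exponent of an instruction -/
def ex (D : ℕ) : NI → ℕ
  | .lin _ _ _ => 1
  | .unit _ _ _ => D
  | _ => 0

/-- Specification of a program for a step `F` containing `u` recursive calls. -/
def StepSpec (q n : ℕ) (p : Prog) (C u : ℕ)
    (F : ℕ → (Matrix (Fin mu) (Fin mu) ℤ → ((ℕ → ℕ) → ℂ) →ₗ[ℂ] ((ℕ → ℕ) → ℂ)) →
      (ℕ → (ℕ → ℕ) → ℂ) → ℕ → (ℕ → ℕ) → ℂ) : Prop :=
  ∀ (B P : ℕ) (r : Prog) (j off w d jg Qg S' k Y ρ D : ℕ) (x : ℝ) (L : List Bool) Ψ,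
    Ctx q C B P j off w d jg Qg S' k Y ρ D → PsiOk Ψ ρ off (mu ^ j) → 0 ≤ x →
    RecH B P r j w d jg Qg S' k Y ρ D x → L.length = n * (w * nM Qg S' d (2 ^ k) Y) →
    ∃ L' : List Bool, L'.length = n * (w * nM Qg S' d (2 ^ k) Y) ∧
      Go B P r p (envI j off w d jg Qg S' k Y ρ D) L (envI j off w d jg Qg S' k Y ρ D) L'
        (u * x + C * sg ^ (j + jg) * (w * nM Qg S' d (2 ^ k) Y)) ∧
      SpecN n w d Qg S' k Y (F D Ψ) L L'

theorem one_le_sg (m : ℕ) : 1 ≤ sg ^ m := one_le_pow₀ (by linarith [two_le_sg])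

theorem SpecN.congr {n w d Qg S' k Y : ℕ} {F F' : (ℕ → (ℕ → ℕ) → ℂ) → ℕ → (ℕ → ℕ) → ℂ}
    {L L' : List Bool} (h : SpecN n w d Qg S' k Y F L L') (e : ∀ X, F X = F' X) :
    SpecN n w d Qg S' k Y F' L L' := by rwa [← funext e]

theorem cost1 {C C' : ℕ} {N s : ℝ} (hN : 0 ≤ N) (hs : 1 ≤ s) (h : C ≤ C') :
    C * N ≤ C' * s * N := by
  have : (C : ℝ) ≤ C' := by exact_mod_cast h
  have : (C : ℝ) ≤ C' * s := by nlinarith [Nat.cast_nonneg (α := ℝ) C]
  gcongr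

theorem lin_step {q : ℕ} (hq : 2 ≤ q) (n a b : ℕ) (c : ℤ) (h : (NI.lin a b c).WF n) :
    ∃ p C, StepSpec q n p C 0 fun _ Ψ X a' =>
      (2 : ℂ) ^ 1 • NI.step (1 / 2 : ℂ) Ψ X (.lin a b c) a' := by
  obtain ⟨ha, hb, hab, hc⟩ := h
  obtain ⟨p, C, h⟩ := lin_ex n a b c ha hb hab hc
  refine ⟨.call [.var 2, .var 10] p, 2 * C + n + 2,
    fun B P r j off w d jg Qg S' k Y ρ D x L Ψ c _ _ _ hL => ?_⟩
  obtain ⟨L', l1, t, s1, s2⟩ := h B P r w _ L c.g.hP c.g.hw (c.hM hq) (c.hB (by omega)) hL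
  refine ⟨L', l1, (Go.call (by rfl) (fun v hv => Or.inr ?_) t).mono ?_, fun b hb' y hy X hX a' ha' => ?_⟩
  · simp only [List.mem_cons, List.not_mem_nil, or_false] at hv
    rcases hv with rfl | rfl <;> simp [envI]
  · have h1 : (P : ℝ) ≤ w * nM Qg S' d (2 ^ k) Y := by exact_mod_cast c.hPN hq
    have h2 := cle C h1
    have h3 := cost1 (N := w * nM Qg S' d (2 ^ k) Y) (by positivity) (one_le_sg (j + jg))
      (show 2 * C + 1 ≤ 2 * C + n + 2 by omega)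
    push_cast at h3 ⊢; linarith
  · by_cases e : a' = a
    · subst e
      intro x hx
      obtain ⟨u, v, e1, hu, hv⟩ := hX a' ha' x hx
      obtain ⟨u', v', e2, hu', hv'⟩ := hX _ hb x hx
      have hl := lane_lt c.hk hb' hx c.hS hy
      refine ⟨_, _, ?_, s1 _ (by omega) _ _ hu hu', s1 _ hl _ _ hv hv'⟩
      simp only [NI.step, Function.update_self, Pi.smul_apply, Pi.add_apply, smul_eq_mul, e1, e2]
      push_cast; ring
    · refine ((hX a' ha').scale 2 c.hk hb' c.hS hy (s2 a' ha' e)).congr fun x _ => ?_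
      simp [NI.step, Function.update_of_ne e]

theorem zero_step {q : ℕ} (hq : 2 ≤ q) (n a : ℕ) (h : a < n) :
    ∃ p C, StepSpec q n p C 0 fun _ Ψ X a' =>
      (2 : ℂ) ^ 0 • NI.step (1 / 2 : ℂ) Ψ X (.zero a) a' := by
  obtain ⟨pd, Cd, hd⟩ := drop_ex
  obtain ⟨pz, Cz, hz⟩ := zeros_ex
  obtain ⟨p, C, h⟩ := upd_spec hq n a h 0
    (.call [.var 2 * .var 10] pd ;; .call [.var 2 * .var 10] pz)
  refine ⟨p, C + 2 * Cd + 2 * Cz + 3, fun B P r j off w d jg Qg S' k Y ρ D x L Ψ c _ _ _ hL => ?_⟩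
  have ok : ∀ v ∈ [w * nM Qg S' d (2 ^ k) Y], Ok B (envI j off w d jg Qg S' k Y ρ D) v :=
    okl (by simpa using c.hB (n := 1) (by omega))
  obtain ⟨L', l1, g, s⟩ := h B P r j off w d jg Qg S' k Y ρ D 0 _ L (fun _ _ => 0)
    (c.mono (by omega)) rfl (Nat.zero_le _) hL (fun T hT => ⟨_, by simp,
      (Go.call (by rfl) ok (hd B P r _ T c.g.hP hT)).seq (Go.call (by rfl) ok (hz B P r _ c.g.hP)),
      fun _ _ _ _ _ _ _ _ => ⟨0, 0, by simp, by simp [WR, wd_replicate], by simp [WR, wd_replicate]⟩⟩)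
  refine ⟨L', l1, g.mono ?_, s.congr fun X => ?_⟩
  · have h1 : (P : ℝ) ≤ w * nM Qg S' d (2 ^ k) Y := by exact_mod_cast c.hPN hq
    have h0 : (1 : ℝ) ≤ P := by exact_mod_cast c.g.hP
    have h2 := cle Cd h1
    have h2' := cle Cz h1
    have h3 := cost1 (N := w * nM Qg S' d (2 ^ k) Y) (by positivity) (one_le_sg (j + jg))
      (le_refl (C + 2 * Cd + 2 * Cz + 3))
    push_cast at h3 ⊢; linarith
  · simp only [NI.step, pow_zero, one_smul]; rfl

/-- arguments of the gadgets -/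
def gArgs : List Ex :=
  [.var 2, .var 3, .var 4, .var 5, .var 6, .var 13, .var 8, .var 7, .var 9, .var 0, .var 1]

theorem gOk {B j off w d jg Qg S' k Y ρ D : ℕ} :
    ∀ v ∈ [w, d, jg, Qg, S', 2 ^ k, Y, k, ρ, j, off], Ok B (envI j off w d jg Qg S' k Y ρ D) v := by
  intro v hv
  right
  simp only [envI, List.mem_cons, List.not_mem_nil, or_false] at hv ⊢
  tauto

theorem free_step {q : ℕ} (hq : 2 ≤ q) (hs : SwapStmt q) (n a : ℕ)
    (S : Matrix (Fin mu) (Fin mu) ℤ) (h : (NI.free a S).WF n) :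
    ∃ p C, StepSpec q n p C 0 fun _ Ψ X a' =>
      (2 : ℂ) ^ 0 • NI.step (1 / 2 : ℂ) Ψ X (.free a S) a' := by
  obtain ⟨pt, Ct, ht⟩ := tr_ex hq hs (fun c => S c c)
  obtain ⟨p, C, h'⟩ := upd_spec hq n a h.1 0 (.call gArgs pt)
  refine ⟨p, C + Ct + 1, fun B P r j off w d jg Qg S' k Y ρ D x L Ψ c hΨ _ _ hL => ?_⟩
  obtain ⟨L', l1, g, s⟩ := h' B P r j off w d jg Qg S' k Y ρ D 0 _ L
    (fun z x => z (trm (fun c => S c c) ρ off (mu ^ j) x))
    (c.mono (by omega)) rfl (Nat.zero_le _) hL (fun T hT => by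
      obtain ⟨T', t, m⟩ := ht B P r w d jg Qg S' (2 ^ k) Y k ρ j off T (c.mono (by omega)).g
        c.hoff hT
      exact ⟨T', m.1, Go.call (by rfl) gOk t, fun b hb y hy z hz => hz.moves c.hk hb hy
        (trm_trm _ _ _ _) (fun x hx => trm_mem_box _ c.g.hρ (pow_succ mu j ▸ c.hoff) hx) m⟩)
  refine ⟨L', l1, g.mono ?_, s.congr fun X => ?_⟩
  · have h1 : (P : ℝ) ≤ w * nM Qg S' d (2 ^ k) Y := by exact_mod_cast c.hPN hq
    have h3 := cost1 (N := w * nM Qg S' d (2 ^ k) Y) (by positivity) (one_le_sg (j + jg))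
      (le_refl (C + 1))
    push_cast at h3 ⊢; linarith
  · simp only [NI.step, pow_zero, one_smul]
    congr 1
    exact funext fun x => (hΨ.fr S h.2 _ x).symm

theorem unit_step {q : ℕ} (hq : 2 ≤ q) (hs : SwapStmt q) (n a : ℕ) (v : Fin mu → ℤ) (h : a < n) :
    ∃ p C, StepSpec q n p C 1 fun D Ψ X a' =>
      (2 : ℂ) ^ D • NI.step (1 / 2 : ℂ) Ψ X (.unit a v v) a' := by
  by_cases hv : ∀ c, Even (v c)
  · obtain ⟨p, C, h'⟩ := shift_spec hq n (by omega) (.var 11)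
    refine ⟨p, C, fun B P r j off w d jg Qg S' k Y ρ D x L Ψ c hΨ hx _ hL => ?_⟩
    obtain ⟨L', l1, g, s⟩ := h' B P r j off w d jg Qg S' k Y ρ D D L c rfl c.hD hL
    refine ⟨L', l1, g.mono ?_, s.congr fun X => ?_⟩
    · have h3 := cost1 (N := w * nM Qg S' d (2 ^ k) Y) (by positivity) (one_le_sg (j + jg))
        (le_refl C)
      push_cast; linarith
    · simp only [NI.step, hΨ.ev v hv, Function.update_eq_self]
  · obtain ⟨c₀, hc₀, hmax⟩ : ∃ c₀, Odd (v c₀) ∧ ∀ c, Odd (v c) → c ≤ c₀ := by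
      obtain ⟨c, hc⟩ := not_forall.1 hv
      obtain ⟨c₀, h1, h2⟩ := Finset.exists_max_image (Finset.univ.filter fun c => Odd (v c)) id
        ⟨c, by simpa using hc⟩
      exact ⟨c₀, by simpa using h1, fun c hc => h2 c (by simpa using hc)⟩
    obtain ⟨px, Cx, hx⟩ := xs_ex hq hs v c₀ hmax
    obtain ⟨p, C, h'⟩ := upd_spec hq n a h (.var 11) (.call gArgs px ;;
      .self [.var 0, .var 1 + .cst c₀ * .var 12, .var 2, .var 3, .var 4, .var 5, .var 6, .var 7,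
        .var 8, .var 9] ;; .call gArgs px)
    refine ⟨p, C + 2 * Cx + 5, fun B P r j off w d jg Qg S' k Y ρ D x L Ψ c hΨ _ hr hL => ?_⟩
    have hoff : off + c₀ * mu ^ j + mu ^ j ≤ d := by
      have h1 := c.hoff
      have h2 : (c₀ + 1) * mu ^ j ≤ mu * mu ^ j := Nat.mul_le_mul_right _ c₀.2
      rw [pow_succ'] at h1
      linarith
    obtain ⟨L', l1, g, s⟩ := h' B P r j off w d jg Qg S' k Y ρ D D _ L
      (fun z x => 2 ^ D * Cops ρ (off + c₀ * mu ^ j) (mu ^ j)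
        (fun y => z (xsm v c₀ ρ off (mu ^ j) y)) (xsm v c₀ ρ off (mu ^ j) x))
      (c.mono (by omega)) rfl c.hD hL (fun T hT => by
        obtain ⟨T1, t1, m1⟩ := hx B P r w d jg Qg S' (2 ^ k) Y k ρ j off T (c.mono (by omega)).g
          c.hoff hT
        obtain ⟨T2, l2, t2, m2⟩ := hr _ hoff T1 m1.1
        obtain ⟨T3, t3, m3⟩ := hx B P r w d jg Qg S' (2 ^ k) Y k ρ j off T2 (c.mono (by omega)).g
          c.hoff l2
        have hm := fun x hx => xsm_mem_box v c₀ c.g.hρ (pow_succ mu j ▸ c.hoff) (x := x) hx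
        refine ⟨T3, m3.1, (Go.call (by rfl) gOk t1).seq ((Go.self (by rfl) ?_ t2).seq (Go.call (by rfl) gOk t3)),
          fun b hb y hy z hz => (m2 b hb y hy _ (hz.moves c.hk hb hy (xsm_xsm _ _ _ _ _) hm
            m1)).moves c.hk hb hy (xsm_xsm _ _ _ _ _) hm m3⟩
        have := c.hdB hq (by omega)
        intro u hu
        simp only [List.mem_cons, List.not_mem_nil, or_false] at hu
        rcases hu with rfl | rfl | hu
        · right; simp [envI]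
        · left; omega
        · right
          simp only [envI, List.mem_cons, List.not_mem_nil, or_false]
          tauto)
    refine ⟨L', l1, g.mono ?_, s.congr fun X => ?_⟩
    · have h1 : (P : ℝ) ≤ w * nM Qg S' d (2 ^ k) Y := by exact_mod_cast c.hPN hq
      have h0 : (1 : ℝ) ≤ P := by exact_mod_cast c.g.hP
      have h3 := cost1 (N := w * nM Qg S' d (2 ^ k) Y) (by positivity) (one_le_sg (j + jg))
        (le_refl (C + 5))
      push_cast at h3 ⊢; linarith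
    · funext a'
      by_cases e : a' = a
      · subst e
        funext x
        simp only [NI.step, Function.update_self, Pi.smul_apply, smul_eq_mul, hΨ.od v c₀ hc₀]
      · simp only [NI.step, Function.update_of_ne e]

theorem instr_step {q : ℕ} (hq : 2 ≤ q) (hs : SwapStmt q) (n : ℕ) (i : NI) (h : i.WF n)
    (hu : ∀ a v v', i = .unit a v v' → v = v') :
    ∃ p C, StepSpec q n p C (if i.isUnit then 1 else 0) fun D Ψ X a' =>
      (2 : ℂ) ^ ex D i • NI.step (1 / 2 : ℂ) Ψ X i a' := by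
  cases i with
  | lin a b c => exact lin_step hq n a b c h
  | zero a => exact zero_step hq n a h
  | unit a v v' => obtain rfl := hu a v v' rfl; exact unit_step hq hs n a v h
  | free a S => exact free_step hq hs n a S h

theorem step_smul (Ψ : Matrix (Fin mu) (Fin mu) ℤ → ((ℕ → ℕ) → ℂ) →ₗ[ℂ] ((ℕ → ℕ) → ℂ)) (s : ℂ)
    (X : ℕ → (ℕ → ℕ) → ℂ) (i : NI) :
    NI.step (1 / 2 : ℂ) Ψ (fun a => s • X a) i = fun a => s • NI.step (1 / 2 : ℂ) Ψ X i a := by
  funext a'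
  cases i <;> simp only [NI.step, Function.update_apply] <;> split_ifs <;>
    simp [smul_add, smul_comm s]

theorem foldl_smul (Ψ : Matrix (Fin mu) (Fin mu) ℤ → ((ℕ → ℕ) → ℂ) →ₗ[ℂ] ((ℕ → ℕ) → ℂ)) (s : ℂ)
    (l : List NI) (X : ℕ → (ℕ → ℕ) → ℂ) :
    l.foldl (NI.step (1 / 2 : ℂ) Ψ) (fun a => s • X a) =
      fun a => s • l.foldl (NI.step (1 / 2 : ℂ) Ψ) X a := by
  induction l generalizing X with
  | nil => rfl
  | cons i l ih => rw [List.foldl_cons, step_smul, ih, List.foldl_cons]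

theorem list_step {q : ℕ} (hq : 2 ≤ q) (hs : SwapStmt q) (n : ℕ) (l : List NI)
    (h : ∀ i ∈ l, i.WF n) (hu : ∀ a v v', NI.unit a v v' ∈ l → v = v') :
    ∃ p C, StepSpec q n p C (l.countP NI.isUnit) fun D Ψ X a' =>
      (2 : ℂ) ^ (l.map (ex D)).sum • l.foldl (NI.step (1 / 2 : ℂ) Ψ) X a' := by
  induction l with
  | nil =>
    refine ⟨.skip, 1, fun B P r j off w d jg Qg S' k Y ρ D x L Ψ c _ _ _ hL =>
      ⟨L, hL, Go.skip.mono ?_, fun b _ y _ X hX => by simpa using hX⟩⟩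
    have h1 : (1 : ℝ) ≤ w * nM Qg S' d (2 ^ k) Y := by exact_mod_cast c.g.hP.trans (c.hPN hq)
    have h3 := cost1 (N := w * nM Qg S' d (2 ^ k) Y) (by positivity) (one_le_sg (j + jg))
      (le_refl 1)
    simp only [List.countP_nil]
    push_cast at h3 ⊢; linarith
  | cons i l ih =>
    obtain ⟨p1, C1, h1⟩ := instr_step hq hs n i (h i (by simp))
      (fun a v v' e => hu a v v' (by simp [e]))
    obtain ⟨p2, C2, h2⟩ := ih (fun i hi => h i (by simp [hi])) (fun a v v' e => hu a v v' (by simp [e]))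
    refine ⟨p1 ;; p2, C1 + C2 + 1, fun B P r j off w d jg Qg S' k Y ρ D x L Ψ c hΨ hx hr hL => ?_⟩
    obtain ⟨L1, l1, g1, s1⟩ := h1 B P r j off w d jg Qg S' k Y ρ D x L Ψ (c.mono (by omega)) hΨ hx
      hr hL
    obtain ⟨L2, l2, g2, s2⟩ := h2 B P r j off w d jg Qg S' k Y ρ D x L1 Ψ (c.mono (by omega)) hΨ hx
      hr l1
    refine ⟨L2, l2, (g1.seq g2).mono ?_, fun b hb y hy X hX => ?_⟩
    · have h1 : (1 : ℝ) ≤ w * nM Qg S' d (2 ^ k) Y := by exact_mod_cast c.g.hP.trans (c.hPN hq)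
      have h3 := cost1 (N := w * nM Qg S' d (2 ^ k) Y) (by positivity) (one_le_sg (j + jg))
        (le_refl 1)
      rw [List.countP_cons]
      push_cast at h3 ⊢; linarith
    · have := s2 b hb y hy _ (s1 b hb y hy X hX)
      simp only [foldl_smul, smul_smul, ← pow_add] at this
      simpa only [List.map_cons, List.sum_cons, List.foldl_cons, add_comm (ex D i)] using this

end Crest.Agent.IM.NB
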