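import Crest.Agent.R324.Design

/-! Cost calculus for labels and the two designs used by `IM/NetEx`. -/

set_option autoImplicit false
open Matrix
open scoped Kronecker

namespace Crest.Agent.IM.Nx
open Crest.Agent.R324

/-- `Cst b k A`: the label `A` is a sum of at most `k` rank-one matrices (squares if `b`), up to
twice a symmetric matrix if `b`. -/
inductive Cst (b : Bool) {M : Type} : ℕ → Matrix M M ℤ → Prop
  | base (k : ℕ) (S : Matrix M M ℤ) (hS : S.IsSymm) (h : b = false → S = 0) : Cst b k (2 • S)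
  | add {k : ℕ} {B : Matrix M M ℤ} (v v' : M → ℤ) (h : b = true → v = v') (hB : Cst b k B) :
      Cst b (k + 1) (B + vecMulVec v v')

namespace Cst
variable {b : Bool} {M M' : Type}

theorem of_eq {k : ℕ} {B B' : Matrix M M ℤ} (h : Cst b k B) (e : B' = B) : Cst b k B' := e ▸ h

theorem mono {k : ℕ} {B : Matrix M M ℤ} (h : Cst b k B) : ∀ {k' : ℕ}, k ≤ k' → Cst b k' B := by
  induction h with
  | base k S hS h => intro k' _; exact base k' S hS h
  | add v v' h _ ih =>
    intro k' hk
    obtain ⟨d, rfl⟩ : ∃ d, k' = d + 1 := ⟨k' - 1, by omega⟩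
    exact add v v' h (ih (by omega))

theorem zero (k : ℕ) : Cst b k (0 : Matrix M M ℤ) := by
  simpa using base (b := b) k (0 : Matrix M M ℤ) isSymm_zero (fun _ => rfl)

theorem one (v v' : M → ℤ) (h : b = true → v = v') : Cst b 1 (vecMulVec v v') := by
  simpa using add v v' h (zero 0)

theorem add_base {k : ℕ} {B : Matrix M M ℤ} (h : Cst b k B) (S : Matrix M M ℤ) (hS : S.IsSymm)
    (h0 : b = false → S = 0) : Cst b k (B + 2 • S) := by
  induction h with
  | base k S' hS' h =>
    rw [← smul_add]; exact base k _ (hS'.add hS) fun hb => by rw [h hb, h0 hb, add_zero]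
  | add v v' h _ ih => rw [add_right_comm]; exact add v v' h ih

theorem plus {k k' : ℕ} {B B' : Matrix M M ℤ} (h : Cst b k B) (h' : Cst b k' B') :
    Cst b (k + k') (B + B') := by
  induction h' with
  | base k' S hS h0 => exact (h.add_base S hS h0).mono (by omega)
  | add v v' h0 _ ih => rw [← add_assoc, ← add_assoc]; exact add v v' h0 ih

theorem isSymm {k : ℕ} {B : Matrix M M ℤ} (h : Cst b k B) (hb : b = true) : B.IsSymm := by
  induction h with
  | base k S hS _ => exact hS.smul _
  | add v v' h _ ih => rw [← h hb]; exact ih.add (Sq.isSymm_sq v)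

theorem zsmul_false {k : ℕ} {B : Matrix M M ℤ} (h : Cst false k B) (c : ℤ) :
    Cst false k (c • B) := by
  induction h with
  | base k S hS h => rw [h rfl]; simpa using zero k
  | add v v' h _ ih =>
    refine (add (c • v) v' (by simp) ih).of_eq ?_
    ext i j; simp [vecMulVec_apply]; ring

theorem neg {k : ℕ} {B : Matrix M M ℤ} (h : Cst b k B) : Cst b k (-B) := by
  cases b
  · simpa using h.zsmul_false (-1)
  · refine (h.add_base (-B) (h.isSymm rfl).neg (by simp)).of_eq ?_
    rw [two_smul]; abel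

theorem two {k : ℕ} {B : Matrix M M ℤ} (h : Cst b k B) : Cst b k (B + B) := by
  cases b
  · exact (h.zsmul_false 2).of_eq (two_smul _ _).symm
  · exact (base k B (h.isSymm rfl) (by simp)).of_eq (two_smul _ _).symm

theorem one_kron (v v' : M → ℤ) (h0 : b = true → v = v') {k : ℕ} {B : Matrix M' M' ℤ}
    (h : Cst b k B) : Cst b k (vecMulVec v v' ⊗ₖ B) := by
  induction h with
  | base k S hS h =>
    rw [kronecker_smul]
    cases b
    · rw [h rfl]; simpa using zero k
    · rw [← h0 rfl]
      exact base k _ (Sq.kron_symm (Sq.isSymm_sq v) hS) (by simp)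
  | add w w' h _ ih =>
    rw [kronecker_add]
    refine (add (fun p : M × M' => v p.1 * w p.2) (fun p : M × M' => v' p.1 * w' p.2)
      (fun hb => by rw [h0 hb, h hb]) ih).of_eq ?_
    congr 1
    ext ⟨i, j⟩ ⟨k, l⟩
    simp [vecMulVec_apply]; ring

theorem kron {k k' : ℕ} {A : Matrix M M ℤ} {B : Matrix M' M' ℤ} (hA : Cst b k A)
    (hB : Cst b k' B) : Cst b (k * k') (A ⊗ₖ B) := by
  induction hA with
  | base k S hS h =>
    rw [smul_kronecker]
    cases b
    · rw [h rfl]; simpa using zero _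
    · exact base _ _ (Sq.kron_symm hS (hB.isSymm rfl)) (by simp)
  | add w w' h _ ih =>
    rw [add_kronecker, add_mul, one_mul]
    exact ih.plus (one_kron w w' h hB)

theorem submatrix {k : ℕ} {B : Matrix M M ℤ} (h : Cst b k B) (f : M' → M) :
    Cst b k (B.submatrix f f) := by
  induction h with
  | base k S hS h =>
    exact (base k (S.submatrix f f) (hS.submatrix f) fun hb => by rw [h hb]; rfl).of_eq rfl
  | add v v' h _ ih =>
    exact (add (v ∘ f) (v' ∘ f) (fun hb => by rw [h hb]) ih).of_eq rfl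

theorem sum {ι : Type} (s : Finset ι) (A : ι → Matrix M M ℤ) (h : ∀ i ∈ s, Cst b 1 (A i)) :
    Cst b s.card (∑ i ∈ s, A i) := by
  classical
  induction s using Finset.induction_on with
  | empty => simpa using zero 0
  | insert a s ha ih =>
    rw [Finset.sum_insert ha, Finset.card_insert_of_notMem ha, add_comm s.card]
    exact (h a (by simp)).plus (ih fun i hi => h i (by simp [hi]))

theorem ofSq {k : ℕ} {B : Matrix M M ℤ} (h : Sq k B) : Cst true k B := by
  induction h with
  | even k S hS => exact base k S hS (by simp)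
  | add v _ ih => exact add v v (fun _ => rfl) ih

/-- columns in `P` are combinations of the other columns -/
theorem cols [Fintype M] [DecidableEq M] (A : Matrix M M ℤ) (P : Finset M) (w : M → M → ℤ)
    (h : ∀ p ∈ P, ∀ i, A i p = ∑ j ∈ Pᶜ, A i j * w j p) :
    Cst false (Fintype.card M - P.card) A := by
  have := sum (b := false) Pᶜ
    (fun j => vecMulVec (fun i => A i j) fun k => if k ∈ P then w j k else if k = j then 1 else 0)
    (fun j _ => one _ _ (by simp))
  rw [Finset.card_compl] at this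
  refine this.of_eq ?_
  ext i k
  simp only [Matrix.sum_apply, vecMulVec_apply]
  by_cases hk : k ∈ P
  · simp only [hk, if_true]; exact h k hk i
  · simp only [hk, if_false]
    rw [Finset.sum_eq_single k]
    · simp
    · intro j _ hj; simp [hj.symm]
    · intro h'; exact absurd (Finset.mem_compl.2 hk) h'

end Cst

/-- Abstract data of the network motif. -/
structure Des (R : Type) [CommRing R] (ε : R) (b : Bool) (H 𝒮 E Cn : Type) [Fintype 𝒮]
    [DecidableEq 𝒮] [Fintype E] [Fintype Cn] (g : ℕ) where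
  O : Matrix H H ℤ
  T : 𝒮 → Matrix H H ℤ
  fst : E → 𝒮
  snd : E → 𝒮
  J : E → ℤ
  Rr : 𝒮 → Cn → ℤ
  G : Cn → 𝒮 → ℤ
  κ : ℤ
  hκ : (κ : R) * ε = 1
  cO : Cst b (g + 2) O
  cT : ∀ s, Cst b 1 (T s)
  cN : ∀ s, Cst b (g + 1) (O - T s)
  cE : ∀ e, Cst b g (O - T (fst e) - T (snd e))
  key : ∀ s t, ∑ j, ((Rr s j : R) * ε) * ((G j t : R) * ε) +
    ∑ e, (if fst e = s ∧ snd e = t then (J e : R) * ε else 0) = if s = t then 1 else 0

abbrev Tr := {S : Finset (Fin 22) // S.card = 3}
abbrev Sd (p : ℕ → Prop) := {q : Tr × Tr // p (q.1.1 ∩ q.2.1).card}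

theorem card_Tr : Fintype.card Tr = 1540 := by
  rw [Fintype.card_finset_len]; simp; rfl

theorem card_Sd (p : ℕ → Prop) [DecidablePred p] : Fintype.card (Sd p) ≤ 1540 * 1540 := by
  have := Fintype.card_subtype_le (fun q : Tr × Tr => p (q.1.1 ∩ q.2.1).card)
  rwa [Fintype.card_prod, card_Tr] at this

theorem sum_Sd {R : Type} [CommRing R] (p : ℕ → Prop) [DecidablePred p] (φ : ℕ → R) (s t : Tr) :
    ∑ e : Sd p, (if e.1.1 = s ∧ e.1.2 = t then φ (e.1.1.1 ∩ e.1.2.1).card else 0)
      = if p (s.1 ∩ t.1).card then φ (s.1 ∩ t.1).card else 0 := by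
  split_ifs with h
  · rw [Finset.sum_eq_single ⟨(s, t), h⟩]
    · simp
    · rintro ⟨⟨a, c⟩, h'⟩ _ hne
      rw [if_neg]
      rintro ⟨h1, h2⟩
      simp only at h1 h2
      subst h1 h2
      exact hne rfl
    · simp
  · refine Finset.sum_eq_zero ?_
    rintro ⟨⟨a, c⟩, h'⟩ _
    rw [if_neg]
    rintro ⟨h1, h2⟩
    simp only at h1 h2
    subst h1 h2
    exact h h'

theorem inter_cases (s t : Tr) : (s = t ∧ (s.1 ∩ t.1).card = 3) ∨
    (s ≠ t ∧ ((s.1 ∩ t.1).card = 0 ∨ (s.1 ∩ t.1).card = 1 ∨ (s.1 ∩ t.1).card = 2)) := by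
  by_cases hst : s = t
  · left; subst hst; simp [s.2]
  · right
    refine ⟨hst, ?_⟩
    have h3 : (s.1 ∩ t.1).card ≤ 3 := by
      have := Finset.card_le_card (Finset.inter_subset_left (s₁ := s.1) (s₂ := t.1))
      rwa [s.2] at this
    have h4 : (s.1 ∩ t.1).card ≠ 3 := by
      intro h4
      have e1 : s.1 ∩ t.1 = s.1 :=
        Finset.eq_of_subset_of_card_le Finset.inter_subset_left (by rw [h4, s.2])
      have e2 : s.1 ∩ t.1 = t.1 :=
        Finset.eq_of_subset_of_card_le Finset.inter_subset_right (by rw [h4, t.2])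
      exact hst (Subtype.ext (e1.symm.trans e2))
    omega

theorem ind_cast {R : Type} [CommRing R] {H : Type} [Fintype H] [DecidableEq H]
    (A B : Finset H) : ∑ j, (ind A j : R) * (ind B j : R) = ((A ∩ B).card : R) := by
  have := congrArg (Int.cast : ℤ → R) (ind_dot A B)
  simpa [dotProduct] using this

set_option linter.constructorNameAsVariable false in
/-- The butterfly design. -/
noncomputable def desB : Des ℂ (1 / 2) true (Fin 22) Tr (Sd Even) (Option (Fin 22)) 20 where
  O := 1
  T s := tt s.1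
  fst e := e.1.1
  snd e := e.1.2
  J e := 1 - ((e.1.1.1 ∩ e.1.2.1).card : ℤ)
  Rr s j := match j with
    | none => -1
    | some j => ind s.1 j
  G j t := match j with
    | none => 2
    | some j => 2 * ind t.1 j
  κ := 2
  hκ := by norm_num
  cO := .ofSq (by simpa using sq_one (H := Fin 22))
  cT s := .ofSq (Sq.sq _)
  cN s := .ofSq (by simpa using sq_one_sub s.2 (by simp))
  cE e := .ofSq (by simpa using sq_one_sub_sub e.1.1.2 e.1.2.2 e.2 (by simp))
  key s t := by
    rw [sum_Sd Even (fun n => ((1 - (n : ℤ) : ℤ) : ℂ) * (1 / 2)) s t, Fintype.sum_option]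
    have h1 : ∑ j, ((ind s.1 j : ℤ) : ℂ) * (1 / 2) * (((2 * ind t.1 j : ℤ) : ℂ) * (1 / 2))
        = ((s.1 ∩ t.1).card : ℂ) / 2 := by
      rw [← ind_cast, Finset.sum_div]
      refine Finset.sum_congr rfl fun j _ => ?_
      push_cast; ring
    simp only [h1]
    rcases inter_cases s t with ⟨h, hc⟩ | ⟨h, hc | hc | hc⟩ <;> rw [hc]
    · rw [if_neg (by decide), if_pos h]; norm_num
    · rw [if_pos (by decide), if_neg h]; norm_num
    · rw [if_neg (by decide), if_neg h]; norm_num
    · rw [if_pos (by decide), if_neg h]; norm_num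

/-- The rank-one labels of the shear design. -/
def ts (A : Finset (Fin 22)) : Matrix (Fin 22) (Fin 22) ℤ :=
  vecMulVec (ind A) fun j => 3 * ind A j - 1

theorem ts_mulVec (A B : Finset (Fin 22)) (hB : B.card = 3) (i : Fin 22) :
    ∑ j, ts A i j * ind B j = ind A i * (3 * (A ∩ B).card - 3) := by
  have h1 := ind_cast (R := ℤ) A B
  have h2 := ind_cast (R := ℤ) Finset.univ B
  simp only [Int.cast_id, Finset.univ_inter, hB] at h1 h2
  have h3 : ∀ j, ts A i j * ind B j
      = ind A i * (3 * (ind A j * ind B j) - ind Finset.univ j * ind B j) := by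
    intro j; simp only [ts, vecMulVec_apply, ind, Finset.mem_univ, if_true]; ring
  simp only [h3]
  rw [← Finset.mul_sum, Finset.sum_sub_distrib, ← Finset.mul_sum, h1, h2]
  norm_num

theorem six_mulVec (x : Fin 22 → ℤ) (i : Fin 22) :
    ∑ j, ((6 : ℤ) • (1 : Matrix (Fin 22) (Fin 22) ℤ)) i j * x j = 6 * x i := by
  simp [Matrix.one_apply]

theorem cst_ker1 (A : Matrix (Fin 22) (Fin 22) ℤ) (x : Fin 22 → ℤ) (p : Fin 22) (hp : x p = 1)
    (h : ∀ i, ∑ j, A i j * x j = 0) : Cst false 21 A := by
  have := Cst.cols A {p} (fun j _ => -x j) (fun q hq i => by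
    rw [Finset.mem_singleton.1 hq]
    have h1 := h i
    rw [← Finset.sum_add_sum_compl {p}, Finset.sum_singleton, hp] at h1
    simp only [mul_neg, Finset.sum_neg_distrib]
    linarith)
  simpa using this

theorem cst_ker2 (A : Matrix (Fin 22) (Fin 22) ℤ) (x y : Fin 22 → ℤ) (p q : Fin 22)
    (hp : x p = 1) (hq : x q = 0) (hp' : y p = 0) (hq' : y q = 1)
    (h : ∀ i, ∑ j, A i j * x j = 0) (h' : ∀ i, ∑ j, A i j * y j = 0) : Cst false 20 A := by
  have hpq : p ≠ q := by rintro rfl; omega
  have := Cst.cols A {p, q} (fun j r => if r = p then -x j else -y j) (fun r hr i => by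
    have h1 := h i
    have h2 := h' i
    rw [← Finset.sum_add_sum_compl {p, q}, Finset.sum_pair hpq] at h1 h2
    rw [hp, hq] at h1
    rw [hp', hq'] at h2
    rcases Finset.mem_insert.1 hr with rfl | hr
    · simp only [if_true, mul_neg, Finset.sum_neg_distrib]
      linarith
    · rw [Finset.mem_singleton.1 hr]
      simp only [hpq.symm, if_false, mul_neg, Finset.sum_neg_distrib]
      linarith)
  rw [Finset.card_pair hpq] at this
  simpa using this

theorem exists_sdiff {A B : Finset (Fin 22)} (hA : A.card = 3) (h : (A ∩ B).card = 1) :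
    ∃ p, p ∈ A ∧ p ∉ B := by
  by_contra hc
  push Not at hc
  have : A ∩ B = A := Finset.inter_eq_left.2 hc
  rw [this] at h
  omega

set_option linter.constructorNameAsVariable false in
/-- The shear design. -/
noncomputable def desS : Des (ZMod 2) 1 false (Fin 22) Tr (Sd (· = 1)) (Fin 22) 20 where
  O := (6 : ℤ) • 1
  T s := ts s.1
  fst e := e.1.1
  snd e := e.1.2
  J _ := 1
  Rr s j := ind s.1 j
  G j t := ind t.1 j
  κ := 1
  hκ := by norm_num
  cO := by simpa using Cst.cols ((6 : ℤ) • (1 : Matrix (Fin 22) (Fin 22) ℤ)) ∅ 0 (by simp)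
  cT s := .one _ _ (by simp)
  cN s := by
    obtain ⟨p, hp⟩ : s.1.Nonempty := Finset.card_pos.1 (by rw [s.2]; norm_num)
    refine cst_ker1 _ (ind s.1) p (by simp [ind, hp]) fun i => ?_
    simp only [Matrix.sub_apply, sub_mul, Finset.sum_sub_distrib]
    rw [six_mulVec, ts_mulVec _ _ s.2, Finset.inter_self, s.2]
    push_cast; ring
  cE e := by
    obtain ⟨⟨s, t⟩, h⟩ := e
    simp only at h ⊢
    have h' : (t.1 ∩ s.1).card = 1 := by rwa [Finset.inter_comm]
    obtain ⟨p, hp, hp'⟩ := exists_sdiff s.2 h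
    obtain ⟨q, hq, hq'⟩ := exists_sdiff t.2 h'
    refine cst_ker2 _ (ind s.1) (ind t.1) p q (by simp [ind, hp]) (by simp [ind, hq'])
      (by simp [ind, hp']) (by simp [ind, hq]) (fun i => ?_) fun i => ?_
    · simp only [Matrix.sub_apply, sub_mul, Finset.sum_sub_distrib]
      rw [six_mulVec, ts_mulVec _ _ s.2, ts_mulVec _ _ s.2, Finset.inter_self, s.2, h']
      push_cast; ring
    · simp only [Matrix.sub_apply, sub_mul, Finset.sum_sub_distrib]
      rw [six_mulVec, ts_mulVec _ _ t.2, ts_mulVec _ _ t.2, Finset.inter_self, t.2, h]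
      push_cast; ring
  key s t := by
    rw [sum_Sd (· = 1) (fun _ => ((1 : ℤ) : ZMod 2) * 1) s t]
    simp only [mul_one]
    rw [ind_cast]
    rcases inter_cases s t with ⟨h, hc⟩ | ⟨h, hc | hc | hc⟩ <;> rw [hc]
    · rw [if_neg (by decide), if_pos h]; decide
    · rw [if_neg (by decide), if_neg h]; decide
    · rw [if_pos rfl, if_neg h]; decide
    · rw [if_neg (by decide), if_neg h]; decide

end Crest.Agent.IM.Nx
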