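import Crest.Agent.IM.Base
import Crest.Agent.IM.NetExA

/-! TASK IM-N. Existence of the two labelled networks (pure algebra; compare `R324/Design`,
`R324/Network`, `R324/TwoStage`, whose `Sq` lemmas can be reused for `netB`).

`H = Fin 22`, `𝒮` = triples (`1540` of them), `O : Matrix H H ℤ` the unit label, `T s` rank one,
`N s = O - T s`. A design consists of sides `e : E` (`fst e`, `snd e`, `J e`), centres `j : Cn`
(`R s j`, `G j t`) with `(∑ j, R s j * G j t) ε² + (∑ e with fst = s, snd = t, J e) ε = [s = t]`,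
an integer `κ` with `κ ε = 1`, and costs `O : h`, `T s : 1`, `N s : h - 1`,
`O - T (fst e) - T (snd e) : h - 2`, multiplicative under `⊗ₖ`, additive, stable under `-`.
* `netB`: `O = 1`, `T s = ind s (ind s)ᵀ`, `E` = pairs with even intersection, `Cn = Option H`,
  `R s none = -1`, `R s (some j) = [j ∈ s]`, `G none t = 2`, `G (some j) t = 2 [j ∈ t]`,
  `J = 1 - |s ∩ t|`, `κ = 2`; cost `k` = `2 • S` plus at most `k` squares `v vᵀ`.
* `netS`: `O = 6 • 1`, `T s = ind s (3 ind s - 1)ᵀ`, `E` = pairs with `|s ∩ t| = 1`, `Cn = H`,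
  `R s j = [j ∈ s]`, `G j t = [j ∈ t]`, `J = 1`, `κ = 1`; cost `k` = sum of at most `k` matrices
  `a bᵀ` (if `A x = 0`, `x p = 1` then `A = ∑ j ≠ p, col j (e j - x j e p)ᵀ`; same with two
  kernel vectors).
In-place invocations inside a frame `U ↦ base + L U` (x: `T → O`, y: `0 → N`, sides `0 → O`):
type A (`x -= y`): zero c; c += G y; a += y(snd); a → T fst; x -= J a; x → O; y → N;
a → O - T snd; a -= y(snd); a → O; c → O; x -= R c; x += J a.
type B (`y += x`): y -= J a; a → T snd; a += x(snd); x → O; zero c; c += G x; c → 0; y += R c;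
a → O - T fst; y → N; y += J a; a → O; a -= x(snd).
Three stages on roles `x, y : 𝒮³`, own sides for every invocation, `x` read as sitting at label
`T₁T₂T₃`: A in the frame `U T₂ T₃`; both move by `N₁N₂T₃`; B in `N₁ O T₃ + T₁ U T₃`; both move by
`N₁ O N₃ + T₁N₂N₃`; A in `N₁ O O + T₁N₂ O + T₁T₂U`; y moves by `2 T₁T₂T₃` (cost `1`); sides and
idle roles travel from `0` to `OOO` at total cost `h³`. Now `(x, y)` hold `(-Ψ y, Ψ x)`; finish
with `x += y; y -= x; x += y`. Units: `W h³ - |𝒮|³ + 3 |𝒮|² |Cn| h < W h³`, roles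
`2 |𝒮|³ + 3 |𝒮|² |E| ≤ 2 ^ 44`. Work with an arbitrary finite type of slots and labels on
`H × H × H`, then transport to `ℕ` and `Fin mu` (`Matrix.reindex`). -/

set_option autoImplicit false
open Matrix

namespace Crest.Agent.IM

/-- arity of the networks -/
@[irreducible] def mu : ℕ := 10648

/-- number of roles -/
@[irreducible] def WW : ℕ := 2 ^ 44

theorem mu_eq : mu = 10648 := by unfold mu; rfl
theorem WW_eq : WW = 2 ^ 44 := by unfold WW; rfl
theorem two_le_mu : 2 ≤ mu := by rw [mu_eq]; norm_num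
theorem two_le_WW : 2 ≤ WW := by rw [WW_eq]; norm_num

/-- growth rate of the recursions -/
noncomputable def sg : ℝ := ((WW : ℝ) * mu - 1) / WW

theorem two_le_sg : 2 ≤ sg := by
  unfold sg; rw [mu_eq, WW_eq]; norm_num

theorem sg_le_mu : sg ≤ mu := by
  unfold sg; rw [mu_eq, WW_eq]; norm_num

/-- Network instructions on numbered slots. -/
inductive NI : Type
  | lin (a b : ℕ) (c : ℤ)
  | zero (a : ℕ)
  | unit (a : ℕ) (v v' : Fin mu → ℤ)
  | free (a : ℕ) (S : Matrix (Fin mu) (Fin mu) ℤ)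

/-- Effect of an instruction. -/
def NI.step {R V : Type} [CommRing R] [AddCommGroup V] [Module R V] (ε : R)
    (Ψ : Matrix (Fin mu) (Fin mu) ℤ → V →ₗ[R] V) (x : ℕ → V) : NI → ℕ → V
  | .lin a b c => Function.update x a (x a + ((c : R) * ε) • x b)
  | .zero a => Function.update x a 0
  | .unit a v v' => Function.update x a (Ψ (vecMulVec v v') (x a))
  | .free a S => Function.update x a (Ψ (2 • S) (x a))

/-- Well-formed instructions on `n` slots. -/
def NI.WF (n : ℕ) : NI → Prop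
  | .lin a b c => a < n ∧ b < n ∧ a ≠ b ∧ |c| ≤ 2
  | .zero a => a < n
  | .unit a _ _ => a < n
  | .free a S => a < n ∧ S.IsSymm

/-- Rank-one moves. -/
def NI.isUnit : NI → Bool
  | .unit _ _ _ => true
  | _ => false

namespace Nx
open scoped Kronecker

abbrev Mat : Type := Matrix (Fin mu) (Fin mu) ℤ

/-- A module with an action of the labels. -/
structure Sem (R : Type) [CommRing R] where
  V : Type
  [acg : AddCommGroup V]
  [mod : Module R V]
  Ψ : Mat → V →ₗ[R] V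
  add : ∀ A A', Ψ (A + A') = Ψ A ∘ₗ Ψ A'
  zero : Ψ 0 = LinearMap.id

attribute [instance] Sem.acg Sem.mod

/-- Instructions allowed in mode `b`. -/
def md (b : Bool) : NI → Prop
  | .unit _ v v' => b = true → v = v'
  | .free _ _ => b = true
  | _ => True

section
variable {R : Type} [CommRing R]

theorem Sem.app (m : Sem R) (A A' : Mat) (x : m.V) : m.Ψ A (m.Ψ A' x) = m.Ψ (A + A') x := by
  rw [m.add]; rfl

theorem Sem.app0 (m : Sem R) (x : m.V) : m.Ψ 0 x = x := by rw [m.zero]; rfl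

/-- A program with at most `k` rank-one moves. -/
def Ok (b : Bool) (B k : ℕ) (l : List NI) : Prop :=
  (∀ i ∈ l, i.WF B ∧ md b i) ∧ l.countP NI.isUnit ≤ k

theorem Ok.append {b : Bool} {B k k' : ℕ} {l l' : List NI} (h : Ok b B k l) (h' : Ok b B k' l') :
    Ok b B (k + k') (l ++ l') :=
  ⟨fun i hi => (List.mem_append.1 hi).elim (h.1 i) (h'.1 i), by
    rw [List.countP_append]; exact add_le_add h.2 h'.2⟩

theorem raw_move (ε : R) {b : Bool} {B c : ℕ} (hc : c < B) {k : ℕ} {A : Mat} (h : Cst b k A) :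
    ∃ l, Ok b B k l ∧ ∀ (m : Sem R) (x : ℕ → m.V),
      l.foldl (NI.step ε m.Ψ) x = Function.update x c (m.Ψ A (x c)) := by
  induction h with
  | base k S hS h =>
    cases b
    · refine ⟨[], ⟨by simp, by simp⟩, fun m x => ?_⟩
      rw [h rfl, smul_zero, m.app0]; simp
    · exact ⟨[.free c S], ⟨by simp [NI.WF, md, hc, hS], by simp [NI.isUnit]⟩, fun m x => rfl⟩
  | add v v' h _ ih =>
    obtain ⟨l, hl, e⟩ := ih
    refine ⟨l ++ [.unit c v v'], hl.append ⟨by simpa [NI.WF, md, hc] using h, by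
      simp [NI.isUnit]⟩, fun m x => ?_⟩
    rw [List.foldl_append, e]
    simp [NI.step, m.app, add_comm]

theorem raw_lin (ε : R) (b : Bool) {B c d : ℕ} (hc : c < B) (hd : d < B) (hcd : c ≠ d) (z : ℤ) :
    ∃ l, Ok b B 0 l ∧ ∀ (m : Sem R) (x : ℕ → m.V),
      l.foldl (NI.step ε m.Ψ) x = Function.update x c (x c + ((z : R) * ε) • x d) := by
  have one : ∀ u : ℤ, |u| ≤ 2 → Ok b B 0 [.lin c d u] := fun u hu =>
    ⟨by simp [NI.WF, md, hc, hd, hcd, hu], by simp [NI.isUnit]⟩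
  induction z using Int.induction_on with
  | zero => exact ⟨[], ⟨by simp, by simp⟩, fun m x => by simp⟩
  | succ z ih =>
    obtain ⟨l, hl, e⟩ := ih
    refine ⟨l ++ [.lin c d 1], hl.append (one 1 (by norm_num)), fun m x => ?_⟩
    rw [List.foldl_append, e]
    simp [NI.step, Function.update_of_ne hcd.symm, add_mul, add_smul, add_assoc]
  | pred z ih =>
    obtain ⟨l, hl, e⟩ := ih
    refine ⟨l ++ [.lin c d (-1)], hl.append (one (-1) (by norm_num)), fun m x => ?_⟩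
    rw [List.foldl_append, e]
    simp [NI.step, Function.update_of_ne hcd.symm, sub_eq_add_neg, add_mul, add_smul,
      add_assoc]

variable (ε : R) (b : Bool) (B : ℕ) {σ τ : Type}

/-- Labelled realisability: on the slots `n a`, holding `Ψ (lab a) (v a)`, some program produces
`Ψ (lab' a) (f v a)` and leaves the other slots alone. -/
def LR (n : σ → ℕ) (k : ℕ) (lab lab' : σ → Mat) (f : ∀ m : Sem R, (σ → m.V) → σ → m.V) : Prop :=
  ∃ l : List NI, Ok b B k l ∧ ∀ (m : Sem R) (x : ℕ → m.V) (v : σ → m.V),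
    (∀ a, x (n a) = m.Ψ (lab a) (v a)) →
      (∀ a, l.foldl (NI.step ε m.Ψ) x (n a) = m.Ψ (lab' a) (f m v a)) ∧
        ∀ c, (∀ a, n a ≠ c) → l.foldl (NI.step ε m.Ψ) x c = x c

/-- Slot numberings. -/
structure Num (n : σ → ℕ) : Prop where
  inj : Function.Injective n
  lt : ∀ a, n a < B

variable {ε b B}

theorem Num.comp {n : σ → ℕ} (h : Num B n) {ι : τ → σ} (hι : Function.Injective ι) :
    Num B fun t => n (ι t) := ⟨h.inj.comp hι, fun _ => h.lt _⟩

namespace LR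
variable {n : σ → ℕ} {k k' : ℕ} {lab lab' lab'' : σ → Mat}
  {f f' : ∀ m : Sem R, (σ → m.V) → σ → m.V}

theorem shift (n : σ → ℕ) (lab lab' : σ → Mat) :
    LR ε b B n 0 lab lab' fun m v a => m.Ψ (lab a - lab' a) (v a) :=
  ⟨[], ⟨by simp, by simp⟩, fun m x v h => ⟨fun a => by simp [m.app, h], fun _ _ => rfl⟩⟩

theorem refl (n : σ → ℕ) (lab : σ → Mat) : LR ε b B n 0 lab lab fun _ v => v :=
  ⟨[], ⟨by simp, by simp⟩, fun _ _ _ h => ⟨h, fun _ _ => rfl⟩⟩

theorem comp (h : LR ε b B n k lab lab' f) (h' : LR ε b B n k' lab' lab'' f') :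
    LR ε b B n (k + k') lab lab'' fun m v => f' m (f m v) := by
  obtain ⟨l, hl, e⟩ := h
  obtain ⟨l', hl', e'⟩ := h'
  refine ⟨l ++ l', hl.append hl', fun m x v hx => ?_⟩
  rw [List.foldl_append]
  obtain ⟨h1, h2⟩ := e m x v hx
  obtain ⟨h3, h4⟩ := e' m _ _ h1
  exact ⟨h3, fun c hc => (h4 c hc).trans (h2 c hc)⟩

theorem cong (h : LR ε b B n k lab lab' f) (hk : k ≤ k') (hl : ∀ a, lab'' a = lab' a)
    (hf : ∀ m v a, f' m v a = f m v a) : LR ε b B n k' lab lab'' f' := by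
  obtain ⟨l, hl', e⟩ := h
  refine ⟨l, ⟨hl'.1, hl'.2.trans hk⟩, fun m x v hx => ⟨fun a => ?_, (e m x v hx).2⟩⟩
  rw [hl, hf]; exact (e m x v hx).1 a

theorem single [DecidableEq σ] (hn : Num B n) (a : σ) (A : Mat) (g : ∀ m : Sem R, (σ → m.V) → m.V)
    (l : List NI) (hl : Ok b B k l) (e : ∀ (m : Sem R) (x : ℕ → m.V) (v : σ → m.V),
      (∀ a, x (n a) = m.Ψ (lab a) (v a)) →
        l.foldl (NI.step ε m.Ψ) x = Function.update x (n a) (m.Ψ A (g m v))) :
    LR ε b B n k lab (Function.update lab a A) fun m v => Function.update v a (g m v) := by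
  refine ⟨l, hl, fun m x v hx => ?_⟩
  rw [e m x v hx]
  refine ⟨fun a' => ?_, fun c hc => Function.update_of_ne (hc a).symm _ _⟩
  by_cases h : a' = a
  · subst h; simp
  · simp only [Function.update_of_ne (hn.inj.ne h), Function.update_of_ne h, hx]

theorem moveAll [Fintype σ] (hn : Num B n) (k : σ → ℕ) (h : ∀ a, Cst b (k a) (lab' a - lab a)) :
    LR ε b B n (∑ a, k a) lab lab' fun _ v => v := by
  classical
  have key : ∀ s : Finset σ, LR ε b B n (∑ a ∈ s, k a) lab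
      (fun a => if a ∈ s then lab' a else lab a) fun _ v => v := by
    intro s
    induction s using Finset.induction_on with
    | empty => simpa using refl n lab
    | insert a s ha ih =>
      obtain ⟨l, hl, e⟩ := raw_move ε (hn.lt a) (h a)
      refine (ih.comp (single hn a (lab' a) (fun _ v => v a) l hl fun m x v hx => ?_)).cong
        (by rw [Finset.sum_insert ha]; omega) (fun a' => ?_) fun m v a' => by simp
      · rw [e, hx, m.app]; simp [ha]
      · by_cases h' : a' = a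
        · subst h'; simp
        · simp [h']
  simpa using key Finset.univ

theorem zeroAll [Fintype σ] (hn : Num B n) (Z : σ → Prop) [DecidablePred Z] :
    LR ε b B n 0 lab lab fun _ v a => if Z a then 0 else v a := by
  classical
  have key : ∀ s : Finset σ, LR ε b B n 0 lab lab fun _ v a => if a ∈ s then 0 else v a := by
    intro s
    induction s using Finset.induction_on with
    | empty => simpa using refl n lab
    | insert a s ha ih =>
      refine (ih.comp (single (k := 0) hn a (lab a) (fun _ _ => 0) [.zero (n a)]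
        ⟨by simp [NI.WF, md, hn.lt], by simp [NI.isUnit]⟩ fun m x v _ => by simp [NI.step])).cong
        le_rfl (fun a' => by simp) fun m v a' => ?_
      by_cases h' : a' = a
      · subst h'; simp
      · simp [h']
  simpa using key (Finset.univ.filter Z)

theorem linAll [Fintype σ] (hn : Num B n) (D : σ → Prop) (C : σ → σ → ℤ)
    (h : ∀ a a', C a a' ≠ 0 → D a ∧ ¬ D a' ∧ lab a = lab a') :
    LR ε b B n 0 lab lab fun _ v a => v a + ∑ a', ((C a a' : R) * ε) • v a' := by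
  classical
  have key : ∀ s : Finset (σ × σ), LR ε b B n 0 lab lab fun _ v a =>
      v a + ∑ a', if (a, a') ∈ s then ((C a a' : R) * ε) • v a' else 0 := by
    intro s
    induction s using Finset.induction_on with
    | empty => simpa using refl n lab
    | insert q s hq ih =>
      obtain ⟨a, a'⟩ := q
      by_cases hC : C a a' = 0
      · refine ih.cong le_rfl (fun _ => rfl) fun m v c => ?_
        congr 1
        refine Finset.sum_congr rfl fun c' _ => ?_
        by_cases hc : (c, c') = (a, a')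
        · obtain ⟨rfl, rfl⟩ := Prod.mk.inj hc
          simp [hC]
        · simp only [Finset.mem_insert, hc, false_or]
      obtain ⟨h1, h2, h3⟩ := h a a' hC
      have hne : a ≠ a' := by rintro rfl; exact h2 h1
      obtain ⟨l, hl, e⟩ := raw_lin ε b (hn.lt a) (hn.lt a') (hn.inj.ne hne) (C a a')
      refine (ih.comp (single hn a (lab a) (fun _ v => v a + ((C a a' : R) * ε) • v a') l hl
        fun m x v hx => ?_)).cong le_rfl (fun a' => by simp) fun m v c => ?_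
      · rw [e, hx, hx, ← h3, map_add, map_smul]
      · have h0 : ∀ c', C a' c' = 0 := fun c' => by
          by_contra h0; exact h2 (h _ _ h0).1
        by_cases hc : c = a
        · subst hc
          simp only [Function.update_self, h0, Int.cast_zero, zero_mul, zero_smul, ite_self,
            Finset.sum_const_zero, add_zero, add_assoc]
          congr 1
          rw [← Finset.sum_erase_add _ _ (Finset.mem_univ a'),
            ← Finset.sum_erase_add _ _ (Finset.mem_univ a')]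
          simp only [Finset.mem_insert, true_or, if_true, hq, if_false, add_zero]
          congr 1
          refine Finset.sum_congr rfl fun c' hc' => ?_
          simp [(Finset.mem_erase.1 hc').1]
        · rw [Function.update_of_ne hc]
          simp [hc]
  simpa using key Finset.univ

theorem embed (hn : Num B n) {ι : τ → σ} (hι : Function.Injective ι)
    {f : ∀ m : Sem R, (τ → m.V) → τ → m.V}
    (h : LR ε b B (fun t => n (ι t)) k (fun t => lab (ι t)) (fun t => lab' (ι t)) f)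
    (hl : ∀ a, (∀ t, ι t ≠ a) → lab' a = lab a) :
    ∃ g, LR ε b B n k lab lab' g ∧ ∀ m v, (∀ t, g m v (ι t) = f m (fun t => v (ι t)) t) ∧
      ∀ a, (∀ t, ι t ≠ a) → g m v a = v a := by
  obtain ⟨l, hl', e⟩ := h
  refine ⟨fun m v => Function.extend ι (f m fun t => v (ι t)) v, ⟨l, hl', fun m x v hx => ?_⟩,
    fun m v => ⟨fun t => hι.extend_apply _ _ t, fun a ha =>
      Function.extend_apply' _ _ _ fun ⟨t, ht⟩ => ha t ht⟩⟩
  obtain ⟨h1, h2⟩ := e m x (fun t => v (ι t)) fun t => hx (ι t)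
  refine ⟨fun a => ?_, fun c hc => h2 c fun t => hc _⟩
  by_cases ha : ∃ t, ι t = a
  · obtain ⟨t, rfl⟩ := ha
    rw [h1]; simp only [hι.extend_apply]
  · have ha' : ∀ t, ι t ≠ a := fun t ht => ha ⟨t, ht⟩
    rw [h2 _ fun t => hn.inj.ne (ha' t), hl a ha', hx]
    simp only [Function.extend_apply' _ _ _ ha]

theorem par {P : Type} [Fintype P] {n : P × τ → ℕ} (hn : Num B n) {lab lab' : P × τ → Mat}
    {f : P → ∀ m : Sem R, (τ → m.V) → τ → m.V}
    (h : ∀ p, LR ε b B (fun t => n (p, t)) k (fun t => lab (p, t)) (fun t => lab' (p, t)) (f p)) :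
    LR ε b B n (Fintype.card P * k) lab lab' fun m v q => f q.1 m (fun t => v (q.1, t)) q.2 := by
  classical
  have key : ∀ s : Finset P, LR ε b B n (s.card * k) lab
      (fun q => if q.1 ∈ s then lab' q else lab q)
      fun m v q => if q.1 ∈ s then f q.1 m (fun t => v (q.1, t)) q.2 else v q := by
    intro s
    induction s using Finset.induction_on with
    | empty => simpa using refl n lab
    | insert p s hp ih =>
      obtain ⟨g, hg, e⟩ := embed (ε := ε) (b := b) (k := k) (f := f p)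
        (lab := fun q => if q.1 ∈ s then lab' q else lab q)
        (lab' := fun q => if q.1 ∈ insert p s then lab' q else lab q) hn
        (ι := fun t => (p, t)) (Prod.mk_right_injective p) (by simpa [hp] using h p)
        (fun q hq => by
          have : q.1 ≠ p := fun h => hq q.2 (by rw [← h])
          simp [this])
      refine (ih.comp hg).cong (by rw [Finset.card_insert_of_notMem hp]; exact le_of_eq (by ring))
        (fun _ => rfl) fun m v q => ?_
      obtain ⟨p', t⟩ := q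
      by_cases hp' : p' = p
      · subst hp'
        rw [(e m _).1]; simp [hp]
      · rw [(e m _).2 _ fun t h => hp' (Prod.mk.inj h).1.symm]; simp [hp']
  simpa using key Finset.univ

theorem up {α β : Type} [Fintype α] [Fintype β] {n : α ⊕ β → ℕ} (hn : Num B n)
    {lab : α ⊕ β → Mat} (C : α → β → ℤ) (h : ∀ r s, C r s ≠ 0 → lab (.inl r) = lab (.inr s)) :
    LR ε b B n 0 lab lab fun _ v => Sum.elim
      (fun r => v (.inl r) + ∑ s, ((C r s : R) * ε) • v (.inr s)) fun s => v (.inr s) :=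
  (linAll hn (fun a => a.isLeft) (Sum.elim (fun r => Sum.elim 0 (C r)) 0)
    (by rintro (r | r) (s | s) h' <;> simp at h' ⊢; exact h _ _ h')).cong le_rfl (fun _ => rfl)
    (by rintro m v (r | r) <;> simp)

theorem dn {α β : Type} [Fintype α] [Fintype β] {n : α ⊕ β → ℕ} (hn : Num B n)
    {lab : α ⊕ β → Mat} (C : β → α → ℤ) (h : ∀ s r, C s r ≠ 0 → lab (.inr s) = lab (.inl r)) :
    LR ε b B n 0 lab lab fun _ v => Sum.elim (fun r => v (.inl r))
      fun s => v (.inr s) + ∑ r, ((C s r : R) * ε) • v (.inl r) :=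
  (linAll hn (fun a => a.isRight) (Sum.elim 0 fun s => Sum.elim (C s) 0)
    (by rintro (r | r) (s | s) h' <;> simp at h' ⊢; exact h _ _ h')).cong le_rfl (fun _ => rfl)
    (by rintro m v (r | r) <;> simp)

end LR

/-- A function on four kinds of slots. -/
def q4 {X Y A C α : Type} (x : X → α) (y : Y → α) (a : A → α) (c : C → α) :
    (X ⊕ Y) ⊕ (A ⊕ C) → α := Sum.elim (Sum.elim x y) (Sum.elim a c)

section
variable {X Y A C α : Type} (x : X → α) (y : Y → α) (a : A → α) (c : C → α)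
@[simp] theorem q4_x (i : X) : q4 x y a c (.inl (.inl i)) = x i := rfl
@[simp] theorem q4_y (i : Y) : q4 x y a c (.inl (.inr i)) = y i := rfl
@[simp] theorem q4_a (i : A) : q4 x y a c (.inr (.inl i)) = a i := rfl
@[simp] theorem q4_c (i : C) : q4 x y a c (.inr (.inr i)) = c i := rfl
end

variable {H 𝒮 E Cn : Type} [Fintype 𝒮] [DecidableEq 𝒮] [Fintype E] [Fintype Cn] {g : ℕ}

/-- Frames: maps of labels that preserve the cost of moves. -/
def Fr (b : Bool) (L : Matrix H H ℤ → Mat) : Prop :=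
  ∀ U U' k, Cst b k (U' - U) → Cst b k (L U' - L U)

omit [DecidableEq 𝒮] in
theorem mv4 {n : (𝒮 ⊕ 𝒮) ⊕ (E ⊕ Cn) → ℕ} (hn : Num B n) {L : Matrix H H ℤ → Mat} (hL : Fr b L)
    {x y x' y' : 𝒮 → Matrix H H ℤ} {a a' : E → Matrix H H ℤ} {c c' : Matrix H H ℤ}
    {k₁ k₂ k₃ k₄ : ℕ} (h₁ : ∀ s, Cst b k₁ (x' s - x s)) (h₂ : ∀ s, Cst b k₂ (y' s - y s))
    (h₃ : ∀ e, Cst b k₃ (a' e - a e)) (h₄ : Cst b k₄ (c' - c)) :
    LR ε b B n (Fintype.card 𝒮 * (k₁ + k₂) + Fintype.card E * k₃ + Fintype.card Cn * k₄)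
      (fun t => L (q4 x y a (fun _ => c) t)) (fun t => L (q4 x' y' a' (fun _ => c') t))
      fun _ v => v :=
  (LR.moveAll hn (q4 (fun _ => k₁) (fun _ => k₂) (fun _ => k₃) fun _ => k₄) (by
    rintro ((s | s) | (s | s))
    exacts [hL _ _ _ (h₁ s), hL _ _ _ (h₂ s), hL _ _ _ (h₃ s), hL _ _ _ h₄])).cong
    (le_of_eq (by simp; ring)) (fun _ => rfl) fun _ _ _ => rfl

theorem c0 {M : Type} (U : Matrix M M ℤ) : Cst b 0 (U - U) := (Cst.zero 0).of_eq (sub_self U)

namespace Des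
variable (D : Des R ε b H 𝒮 E Cn g)

/-- incidence of sides and first ends -/
def Jm (z : ℤ) (s : 𝒮) (e : E) : ℤ := if D.fst e = s then z * D.J e else 0

/-- incidence of sides and second ends -/
def Sl (z : ℤ) (e : E) (t : 𝒮) : ℤ := if D.snd e = t then z * D.κ else 0

theorem Jm_ne {z : ℤ} {s : 𝒮} {e : E} (h : D.Jm z s e ≠ 0) : D.fst e = s := by
  by_contra h'; exact h (if_neg h')

theorem Sl_ne {z : ℤ} {t : 𝒮} {e : E} (h : D.Sl z e t ≠ 0) : D.snd e = t := by
  by_contra h'; exact h (if_neg h')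

variable {V : Type} [AddCommGroup V] [Module R V]

theorem sum_Sl (z : ℤ) (e : E) (y : 𝒮 → V) :
    ∑ t, ((D.Sl z e t : R) * ε) • y t = z • y (D.snd e) := by
  rw [Finset.sum_eq_single (D.snd e)]
  · simp [Sl, mul_assoc, D.hκ, Int.cast_smul_eq_zsmul]
  · intro t _ ht; simp [Sl, ht.symm]
  · simp

theorem sum_Jm_neg (s : 𝒮) (a : E → V) :
    ∑ e, ((D.Jm (-1) s e : R) * ε) • a e = -∑ e, ((D.Jm 1 s e : R) * ε) • a e := by
  rw [← Finset.sum_neg_distrib]
  refine Finset.sum_congr rfl fun e _ => ?_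
  unfold Jm; split_ifs <;> simp

theorem keyV (s : 𝒮) (y : 𝒮 → V) :
    ∑ j, ((D.Rr s j : R) * ε) • ∑ t, ((D.G j t : R) * ε) • y t =
      y s - ∑ e, ((D.Jm 1 s e : R) * ε) • y (D.snd e) := by
  rw [eq_sub_iff_add_eq]
  have h1 : ∀ e, ((D.Jm 1 s e : R) * ε) • y (D.snd e) =
      ∑ t, (if D.fst e = s ∧ D.snd e = t then (D.J e : R) * ε else 0) • y t := by
    intro e
    rw [Finset.sum_eq_single (D.snd e)]
    · unfold Jm; split_ifs <;> simp_all
    · intro t _ ht; simp [ht.symm]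
    · simp
  simp only [h1, Finset.smul_sum, smul_smul]
  rw [Finset.sum_comm, Finset.sum_comm (s := Finset.univ (α := E)), ← Finset.sum_add_distrib]
  simp only [← Finset.sum_smul, ← add_smul, D.key]
  simp

/-- cost of one invocation -/
def ic (_ : Des R ε b H 𝒮 E Cn g) : ℕ :=
  Fintype.card 𝒮 * (2 * (g + 1)) + Fintype.card E * (g + 2) + Fintype.card Cn * (g + 2)

variable (B) in
/-- An invocation with centre labels `c, c'` and effect `x += α y`, `y += β x`. -/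
def Inv (c c' : Matrix H H ℤ) (α β : ℤ) : Prop :=
  ∀ (L : Matrix H H ℤ → Mat), Fr b L → ∀ n : (𝒮 ⊕ 𝒮) ⊕ (E ⊕ Cn) → ℕ, Num B n →
    ∃ f, LR ε b B n D.ic (fun t => L (q4 D.T (fun _ => 0) (fun _ => 0) (fun _ => c) t))
      (fun t => L (q4 (fun _ => D.O) (fun s => D.O - D.T s) (fun _ => D.O) (fun _ => c') t)) f ∧
      ∀ m v, (∀ s, f m v (.inl (.inl s)) = v (.inl (.inl s)) + α • v (.inl (.inr s))) ∧
        (∀ s, f m v (.inl (.inr s)) = v (.inl (.inr s)) + β • v (.inl (.inl s))) ∧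
        ∀ e, f m v (.inr (.inl e)) = v (.inr (.inl e))

theorem invA : D.Inv B 0 D.O (-1) 0 := by
  intro L hL n hn
  have s0 := LR.zeroAll (ε := ε) (b := b) hn
    (lab := fun t => L (q4 D.T (fun _ => 0) (fun _ => 0) (fun _ => 0) t))
    (fun t => q4 (fun _ => false) (fun _ => false) (fun _ => false) (fun _ => true) t = true)
  have s1 := s0.comp (LR.dn hn
    (Sum.elim (fun e => Sum.elim 0 (D.Sl 1 e)) fun j => Sum.elim 0 (D.G j))
    (by rintro (e | j) (s | s) h <;> simp at h ⊢))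
  have s2 := s1.comp (mv4 hn hL (a' := fun e => D.T (D.fst e)) (fun s => c0 _) (fun s => c0 _)
    (fun e => (D.cT _).of_eq (sub_zero _)) (c0 _))
  have s3 := s2.comp (LR.up hn (Sum.elim (fun s => Sum.elim (D.Jm (-1) s) 0) 0)
    (by rintro (s | s) (e | j) h <;> simp at h ⊢; rw [D.Jm_ne h]))
  have s4 := s3.comp (mv4 hn hL (a' := fun e => D.O - D.T (D.snd e)) (x' := fun _ => D.O)
    (y' := fun s => D.O - D.T s) D.cN (fun s => (D.cN s).of_eq (sub_zero _))
    (fun e => (D.cE e).of_eq (by abel)) (c0 _))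
  have s5 := s4.comp (LR.dn hn (Sum.elim (fun e => Sum.elim 0 (D.Sl (-1) e)) 0)
    (by rintro (e | j) (s | s) h <;> simp at h ⊢; rw [D.Sl_ne h]))
  have s6 := s5.comp (mv4 hn hL (a' := fun _ => D.O) (c' := D.O) (fun s => c0 _) (fun s => c0 _)
    (fun e => (D.cT (D.snd e)).of_eq (by abel)) (D.cO.of_eq (sub_zero _)))
  have s7 := s6.comp (LR.up hn (Sum.elim (fun s => Sum.elim (D.Jm 1 s) fun j => -D.Rr s j) 0)
    (by rintro (s | s) (e | j) h <;> simp at h ⊢))
  refine ⟨_, s7.cong (le_of_eq (by unfold ic; ring)) (fun _ => rfl) (fun _ _ _ => rfl),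
    fun m v => ⟨fun s => ?_, fun s => ?_, fun e => ?_⟩⟩
  · simp [D.sum_Sl, D.sum_Jm_neg, D.keyV, Finset.sum_add_distrib]
    abel
  · simp
  · simp [D.sum_Sl]

theorem invB : D.Inv B D.O 0 0 1 := by
  intro L hL n hn
  have s0 := LR.zeroAll (ε := ε) (b := b) hn
    (lab := fun t => L (q4 D.T (fun _ => 0) (fun _ => 0) (fun _ => D.O) t))
    (fun t => q4 (fun _ => false) (fun _ => false) (fun _ => false) (fun _ => true) t = true)
  have s1 := s0.comp (LR.up hn (Sum.elim 0 fun s => Sum.elim (D.Jm (-1) s) 0)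
    (by rintro (s | s) (e | j) h <;> simp at h ⊢))
  have s2 := s1.comp (mv4 hn hL (a' := fun e => D.T (D.snd e)) (fun s => c0 _) (fun s => c0 _)
    (fun e => (D.cT _).of_eq (sub_zero _)) (c0 _))
  have s3 := s2.comp (LR.dn hn (Sum.elim (fun e => Sum.elim (D.Sl 1 e) 0) 0)
    (by rintro (e | j) (s | s) h <;> simp at h ⊢; rw [D.Sl_ne h]))
  have s4 := s3.comp (mv4 hn hL (a' := fun e => D.O - D.T (D.fst e)) (x' := fun _ => D.O)
    D.cN (fun s => c0 _) (fun e => D.cE e) (c0 _))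
  have s5 := s4.comp (LR.dn hn (Sum.elim 0 fun j => Sum.elim (D.G j) 0)
    (by rintro (e | j) (s | s) h <;> simp at h ⊢))
  have s6 := s5.comp (mv4 hn hL (c' := 0) (fun s => c0 _) (fun s => c0 _)
    (fun e => c0 _) (D.cO.neg.of_eq (zero_sub _)))
  have s7 := s6.comp (LR.up hn (Sum.elim 0 fun s => Sum.elim 0 (D.Rr s))
    (by rintro (s | s) (e | j) h <;> simp at h ⊢))
  have s8 := s7.comp (mv4 hn hL (y' := fun s => D.O - D.T s) (fun s => c0 _)
    (fun s => (D.cN s).of_eq (sub_zero _)) (fun e => c0 _) (c0 _))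
  have s9 := s8.comp (LR.up hn (Sum.elim 0 fun s => Sum.elim (D.Jm 1 s) 0)
    (by rintro (s | s) (e | j) h <;> simp at h ⊢; rw [D.Jm_ne h]))
  have s10 := s9.comp (mv4 hn hL (a' := fun _ => D.O) (fun s => c0 _) (fun s => c0 _)
    (fun e => (D.cT (D.fst e)).of_eq (by abel)) (c0 _))
  have s11 := s10.comp (LR.dn hn (Sum.elim (fun e => Sum.elim (D.Sl (-1) e) 0) 0)
    (by rintro (e | j) (s | s) h <;> simp at h ⊢))
  refine ⟨_, s11.cong (le_of_eq (by unfold ic; ring)) (fun _ => rfl) (fun _ _ _ => rfl),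
    fun m v => ⟨fun s => ?_, fun s => ?_, fun e => ?_⟩⟩
  · simp
  · simp [D.sum_Sl, D.sum_Jm_neg, D.keyV, Finset.sum_add_distrib]
    abel
  · simp [D.sum_Sl]

end Des

/-- Slots of the whole network: roles `x, y`, sides, idle roles, centres. -/
abbrev Sl5 (X P E Cn I : Type) : Type := ((X ⊕ X) ⊕ ((Fin 3 × P × E) ⊕ I)) ⊕ (Fin 3 × P × Cn)

/-- Labels of the whole network. -/
def gl {X P I : Type} (lx ly : X → Mat) (la : Fin 3 → P → Mat) (li : Mat) (lc : Fin 3 → P → Mat) :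
    Sl5 X P E Cn I → Mat :=
  Sum.elim (q4 lx ly (fun q => la q.1 q.2.1) fun _ => li) fun q => lc q.1 q.2.1

variable (ε b B) in
/-- Realisability with effect `x += α y`, `y += β x` on the data. -/
def LD {X P I : Type} (n : Sl5 X P E Cn I → ℕ) (k : ℕ) (lab lab' : Sl5 X P E Cn I → Mat)
    (α β : ℤ) : Prop :=
  ∃ f, LR ε b B n k lab lab' f ∧ ∀ m v,
    (∀ w, f m v (.inl (.inl (.inl w))) = v (.inl (.inl (.inl w))) + α • v (.inl (.inl (.inr w)))) ∧
    (∀ w, f m v (.inl (.inl (.inr w))) = v (.inl (.inl (.inr w))) + β • v (.inl (.inl (.inl w)))) ∧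
    ∀ r, f m v (.inl (.inr r)) = v (.inl (.inr r))

section
variable {X P I : Type} [Fintype X] [Fintype P] [Fintype I] {n : Sl5 X P E Cn I → ℕ}

/-- The slots of the invocations of stage `i`. -/
def emb (I : Type) (i : Fin 3) (φ : P × 𝒮 ≃ X) (q : P × ((𝒮 ⊕ 𝒮) ⊕ (E ⊕ Cn))) : Sl5 X P E Cn I :=
  q4 (fun s => .inl (.inl (.inl (φ (q.1, s))))) (fun s => .inl (.inl (.inr (φ (q.1, s)))))
    (fun e => .inl (.inr (.inl (i, q.1, e)))) (fun j => .inr (i, q.1, j)) q.2

omit [Fintype 𝒮] [DecidableEq 𝒮] [Fintype E] [Fintype Cn] [Fintype X] [Fintype P] [Fintype I] in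
theorem emb_inj (i : Fin 3) (φ : P × 𝒮 ≃ X) :
    Function.Injective (emb (E := E) (Cn := Cn) I i φ) := by
  rintro ⟨p, (s | s) | (s | s)⟩ ⟨p', (s' | s') | (s' | s')⟩ h <;> simp [emb] at h ⊢ <;> exact h

omit [Fintype X] [Fintype I] in
theorem Des.stage (D : Des R ε b H 𝒮 E Cn g) (hn : Num B n) {c c' : Matrix H H ℤ} {α β : ℤ}
    (h : D.Inv B c c' α β) (i : Fin 3) (φ : P × 𝒮 ≃ X) (L : P → Matrix H H ℤ → Mat)
    (hL : ∀ p, Fr b (L p)) {lx ly lx' ly' : X → Mat} {la la' lc lc' : Fin 3 → P → Mat} {li : Mat}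
    (hx : ∀ p s, lx (φ (p, s)) = L p (D.T s)) (hy : ∀ p s, ly (φ (p, s)) = L p 0)
    (hx' : ∀ p s, lx' (φ (p, s)) = L p D.O) (hy' : ∀ p s, ly' (φ (p, s)) = L p (D.O - D.T s))
    (ha : ∀ p, la i p = L p 0) (ha' : ∀ p, la' i p = L p D.O)
    (hc : ∀ p, lc i p = L p c) (hc' : ∀ p, lc' i p = L p c')
    (ho : ∀ j, j ≠ i → la' j = la j ∧ lc' j = lc j) :
    LD ε b B n (Fintype.card P * D.ic) (gl lx ly la li lc) (gl lx' ly' la' li lc') α β := by
  have hι := emb_inj (E := E) (Cn := Cn) (I := I) i φ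
  have hn' := hn.comp hι
  choose f hf ef using fun p => h (L p) (hL p) (fun t => n (emb I i φ (p, t)))
    (hn'.comp (Prod.mk_right_injective p))
  have e1 : ∀ p, (fun t : (𝒮 ⊕ 𝒮) ⊕ (E ⊕ Cn) => gl lx ly la li lc (emb I i φ (p, t))) =
      fun t => L p (q4 D.T (fun _ => 0) (fun _ => 0) (fun _ => c) t) := by
    intro p; funext t
    rcases t with (s | s) | (s | s) <;> simp [gl, emb, hx, hy, ha, hc]
  have e2 : ∀ p, (fun t : (𝒮 ⊕ 𝒮) ⊕ (E ⊕ Cn) => gl lx' ly' la' li lc' (emb I i φ (p, t))) =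
      fun t => L p (q4 (fun _ => D.O) (fun s => D.O - D.T s) (fun _ => D.O) (fun _ => c') t) := by
    intro p; funext t
    rcases t with (s | s) | (s | s) <;> simp [gl, emb, hx', hy', ha', hc']
  have h1 := LR.par (ε := ε) (b := b) (k := D.ic) (f := f) hn'
    (lab := fun q => gl lx ly la li lc (emb I i φ q))
    (lab' := fun q => gl lx' ly' la' li lc' (emb I i φ q)) (fun p => by rw [e1, e2]; exact hf p)
  obtain ⟨F, hF, eF⟩ := LR.embed hn hι h1 (by
    rintro (((w | w) | (⟨j, p, e⟩ | r)) | ⟨j, p, e⟩) ha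
    · obtain ⟨⟨p, s⟩, rfl⟩ := φ.surjective w
      exact absurd rfl (ha (p, .inl (.inl s)))
    · obtain ⟨⟨p, s⟩, rfl⟩ := φ.surjective w
      exact absurd rfl (ha (p, .inl (.inr s)))
    · have : j ≠ i := by rintro rfl; exact ha (p, .inr (.inl e)) rfl
      simp [gl, (ho j this).1]
    · rfl
    · have : j ≠ i := by rintro rfl; exact ha (p, .inr (.inr e)) rfl
      simp [gl, (ho j this).2])
  refine ⟨F, hF, fun m v => ⟨fun w => ?_, fun w => ?_, ?_⟩⟩
  · obtain ⟨⟨p, s⟩, rfl⟩ := φ.surjective w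
    exact ((eF m v).1 (p, .inl (.inl s))).trans ((ef p m _).1 s)
  · obtain ⟨⟨p, s⟩, rfl⟩ := φ.surjective w
    exact ((eF m v).1 (p, .inl (.inr s))).trans ((ef p m _).2.1 s)
  · rintro (⟨j, p, e⟩ | r)
    · by_cases hj : j = i
      · subst hj
        exact ((eF m v).1 (p, .inr (.inl e))).trans ((ef p m _).2.2 e)
      · refine (eF m v).2 _ ?_
        rintro ⟨p', (s | s) | (s | s)⟩ <;> simp [emb, Ne.symm hj]
    · refine (eF m v).2 _ ?_
      rintro ⟨p', (s | s) | (s | s)⟩ <;> simp [emb]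

omit [Fintype 𝒮] [DecidableEq 𝒮] in
theorem mvG (hn : Num B n) {lx ly lx' ly' : X → Mat} {la la' lc : Fin 3 → P → Mat} {li li' : Mat}
    {k₁ k₂ k₄ : ℕ} (k₃ : Fin 3 → ℕ) (h₁ : ∀ w, Cst b k₁ (lx' w - lx w))
    (h₂ : ∀ w, Cst b k₂ (ly' w - ly w)) (h₃ : ∀ i p, Cst b (k₃ i) (la' i p - la i p))
    (h₄ : Cst b k₄ (li' - li)) :
    LR ε b B n (Fintype.card X * (k₁ + k₂) + Fintype.card P * Fintype.card E * (k₃ 0 + k₃ 1 + k₃ 2)
      + Fintype.card I * k₄) (gl lx ly la li lc) (gl lx' ly' la' li' lc) fun _ v => v :=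
  (LR.moveAll hn (Sum.elim (q4 (fun _ => k₁) (fun _ => k₂) (fun q => k₃ q.1) fun _ => k₄)
    fun _ => 0) (by
    rintro (((w | w) | (⟨j, p, e⟩ | r)) | ⟨j, p, e⟩)
    exacts [h₁ w, h₂ w, h₃ j p, h₄, c0 _])).cong
    (le_of_eq (by simp [Fintype.sum_prod_type, Fin.sum_univ_three]; ring)) (fun _ => rfl)
    fun _ _ _ => rfl

omit [Fintype 𝒮] [DecidableEq 𝒮] in
theorem linXY (hn : Num B n) {κ : ℤ} (hκ : (κ : R) * ε = 1) (A : Mat) (z : ℤ) :
    LD ε b B n 0 (fun _ => A) (fun _ => A) z 0 := by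
  classical
  refine ⟨_, LR.linAll hn (fun a => ∃ w, a = .inl (.inl (.inl w)))
    (fun a a' => if ∃ w, a = .inl (.inl (.inl w)) ∧ a' = .inl (.inl (.inr w)) then z * κ else 0)
    (fun a a' h => ?_), fun m v => ⟨fun w => ?_, fun w => by simp, fun r => by simp⟩⟩
  · obtain ⟨w, rfl, rfl⟩ : ∃ w, a = .inl (.inl (.inl w)) ∧ a' = .inl (.inl (.inr w)) := by
      by_contra h'; exact h (if_neg h')
    simp
  · simp [mul_assoc, hκ, Int.cast_smul_eq_zsmul]

omit [Fintype 𝒮] [DecidableEq 𝒮] in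
theorem linYX (hn : Num B n) {κ : ℤ} (hκ : (κ : R) * ε = 1) (A : Mat) (z : ℤ) :
    LD ε b B n 0 (fun _ => A) (fun _ => A) 0 z := by
  classical
  refine ⟨_, LR.linAll hn (fun a => ∃ w, a = .inl (.inl (.inr w)))
    (fun a a' => if ∃ w, a = .inl (.inl (.inr w)) ∧ a' = .inl (.inl (.inl w)) then z * κ else 0)
    (fun a a' h => ?_), fun m v => ⟨fun w => by simp, fun w => ?_, fun r => by simp⟩⟩
  · obtain ⟨w, rfl, rfl⟩ : ∃ w, a = .inl (.inl (.inr w)) ∧ a' = .inl (.inl (.inl w)) := by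
      by_contra h'; exact h (if_neg h')
    simp
  · simp [mul_assoc, hκ, Int.cast_smul_eq_zsmul]

end

/-- Triple products of labels. -/
structure Tri3 (b : Bool) (K : Matrix H H ℤ → Matrix H H ℤ → Matrix H H ℤ → Mat) : Prop where
  s1 : ∀ A A' B C, K (A - A') B C = K A B C - K A' B C
  s2 : ∀ A B B' C, K A (B - B') C = K A B C - K A B' C
  s3 : ∀ A B C C', K A B (C - C') = K A B C - K A B C'
  cst : ∀ {k₁ k₂ k₃ A B C}, Cst b k₁ A → Cst b k₂ B → Cst b k₃ C → Cst b (k₁ * (k₂ * k₃)) (K A B C)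

theorem Des.net (D : Des R ε b H 𝒮 E Cn g) {K : Matrix H H ℤ → Matrix H H ℤ → Matrix H H ℤ → Mat}
    (hK : Tri3 b K) {I : Type} [Fintype I] {n : Sl5 (𝒮 × 𝒮 × 𝒮) (𝒮 × 𝒮) E Cn I → ℕ}
    (hn : Num B n) : ∃ k f, LR ε b B n k (fun _ => 0) (fun _ => K D.O D.O D.O) f ∧
      k + Fintype.card 𝒮 ^ 3 = (2 * Fintype.card 𝒮 ^ 3 + 3 * Fintype.card 𝒮 ^ 2 * Fintype.card E
        + Fintype.card I) * (g + 2) ^ 3 + 3 * Fintype.card 𝒮 ^ 2 * Fintype.card Cn * (g + 2) ∧
      ∀ m v a, f m v (.inl a) = v (.inl a) := by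
  have z1 : ∀ B C, K 0 B C = 0 := fun B C => by simpa using hK.s1 0 0 B C
  have z2 : ∀ A C, K A 0 C = 0 := fun A C => by simpa using hK.s2 A 0 0 C
  have z3 : ∀ A B, K A B 0 = 0 := fun A B => by simpa using hK.s3 A B 0 0
  set O := D.O with hO
  let T := D.T
  let N : 𝒮 → Matrix H H ℤ := fun s => O - T s
  have cO : Cst b (g + 2) O := D.cO
  have cT : ∀ s, Cst b 1 (T s) := D.cT
  have cN : ∀ s, Cst b (g + 1) (N s) := D.cN
  let F0 : 𝒮 × 𝒮 → Matrix H H ℤ → Mat := fun p U => K U (T p.1) (T p.2)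
  let F1 : 𝒮 × 𝒮 → Matrix H H ℤ → Mat := fun p U => K (N p.1) O (T p.2) + K (T p.1) U (T p.2)
  let F2 : 𝒮 × 𝒮 → Matrix H H ℤ → Mat := fun p U =>
    K (N p.1) O O + K (T p.1) (N p.2) O + K (T p.1) (T p.2) U
  have fr0 : ∀ p, Fr b (F0 p) := fun p U U' k h =>
    ((hK.cst h (cT p.1) (cT p.2)).of_eq (hK.s1 _ _ _ _).symm).mono (by omega)
  have fr1 : ∀ p, Fr b (F1 p) := fun p U U' k h =>
    ((hK.cst (cT p.1) h (cT p.2)).of_eq (by simp only [F1, hK.s2]; abel)).mono (by omega)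
  have fr2 : ∀ p, Fr b (F2 p) := fun p U U' k h =>
    ((hK.cst (cT p.1) (cT p.2) h).of_eq (by simp only [F2, hK.s3]; abel)).mono (by omega)
  let φ0 : (𝒮 × 𝒮) × 𝒮 ≃ 𝒮 × 𝒮 × 𝒮 := Equiv.prodComm _ _
  let φ1 : (𝒮 × 𝒮) × 𝒮 ≃ 𝒮 × 𝒮 × 𝒮 :=
    ⟨fun q => (q.1.1, q.2, q.1.2), fun w => ((w.1, w.2.2), w.2.1), fun _ => rfl, fun _ => rfl⟩
  let φ2 : (𝒮 × 𝒮) × 𝒮 ≃ 𝒮 × 𝒮 × 𝒮 := Equiv.prodAssoc _ _ _
  let t3 : 𝒮 × 𝒮 × 𝒮 → Mat := fun w => K (T w.1) (T w.2.1) (T w.2.2)
  have s0 := LR.shift (ε := ε) (b := b) (B := B) n (fun _ => 0)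
    (gl t3 (fun _ => 0) (fun _ _ => 0) 0 ![fun p => F0 p 0, fun p => F1 p O, fun p => F2 p 0])
  have s1 := s0.comp (mvG hn (la' := ![fun p => F0 p 0, fun p => F1 p 0, fun p => F2 p 0])
    (li' := K O O O) (ly' := fun w => F0 w.2 0) (k₂ := 0)
    ![0, (g + 1) * ((g + 2) * 1), (g + 1) * ((g + 2) * (g + 2)) + 1 * ((g + 1) * (g + 2))]
    (fun _ => c0 _) (fun _ => (Cst.zero 0).of_eq (by simp [F0, z1])) (fun i p => by
      fin_cases i
      · exact (Cst.zero 0).of_eq (by simp [F0, z1])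
      · exact (hK.cst (cN p.1) cO (cT p.2)).of_eq (by simp [F1, z2])
      · exact ((hK.cst (cN p.1) cO cO).plus (hK.cst (cT p.1) (cN p.2) cO)).of_eq
          (by simp [F2, z3]))
    ((hK.cst cO cO cO).of_eq (sub_zero _)))
  obtain ⟨f2, s2, e2⟩ := D.stage hn D.invA 0 φ0 F0 fr0 (lx := t3) (ly := fun w => F0 w.2 0)
    (lx' := fun w => F0 w.2 O) (ly' := fun w => F0 w.2 (N w.1)) (li := K O O O)
    (la := ![fun p => F0 p 0, fun p => F1 p 0, fun p => F2 p 0])
    (la' := ![fun p => F0 p O, fun p => F1 p 0, fun p => F2 p 0])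
    (lc := ![fun p => F0 p 0, fun p => F1 p O, fun p => F2 p 0])
    (lc' := ![fun p => F0 p O, fun p => F1 p O, fun p => F2 p 0])
    (fun _ _ => rfl) (fun _ _ => rfl) (fun _ _ => rfl) (fun _ _ => rfl) (fun _ => rfl)
    (fun _ => rfl) (fun _ => rfl) (fun _ => rfl) (fun j hj => by fin_cases j <;> simp_all)
  have s3 := (s1.comp s2).comp (mvG hn (lx' := fun w => F1 (w.1, w.2.2) (T w.2.1))
    (ly' := fun w => F1 (w.1, w.2.2) 0) ![0, 0, 0]
    (fun w => (hK.cst (cN w.1) (cN w.2.1) (cT w.2.2)).of_eq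
      (by simp only [F0, F1, N, hK.s1, hK.s2]; abel))
    (fun w => (hK.cst (cN w.1) (cN w.2.1) (cT w.2.2)).of_eq
      (by simp only [F0, F1, N, hK.s1, hK.s2, z2]; abel))
    (fun i p => by fin_cases i <;> exact c0 _) (c0 _))
  obtain ⟨f4, s4, e4⟩ := D.stage hn D.invB 1 φ1 F1 fr1
    (lx := fun w => F1 (w.1, w.2.2) (T w.2.1)) (ly := fun w => F1 (w.1, w.2.2) 0)
    (lx' := fun w => F1 (w.1, w.2.2) O) (ly' := fun w => F1 (w.1, w.2.2) (N w.2.1))
    (li := K O O O)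
    (la := ![fun p => F0 p O, fun p => F1 p 0, fun p => F2 p 0])
    (la' := ![fun p => F0 p O, fun p => F1 p O, fun p => F2 p 0])
    (lc := ![fun p => F0 p O, fun p => F1 p O, fun p => F2 p 0])
    (lc' := ![fun p => F0 p O, fun p => F1 p 0, fun p => F2 p 0])
    (fun _ _ => rfl) (fun _ _ => rfl) (fun _ _ => rfl) (fun _ _ => rfl) (fun _ => rfl)
    (fun _ => rfl) (fun _ => rfl) (fun _ => rfl) (fun j hj => by fin_cases j <;> simp_all)
  have s5 := (s3.comp s4).comp (mvG hn (lx' := fun w => F2 (w.1, w.2.1) (T w.2.2))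
    (ly' := fun w => F2 (w.1, w.2.1) 0) ![0, 0, 0]
    (fun w => ((hK.cst (cN w.1) cO (cN w.2.2)).plus (hK.cst (cT w.1) (cN w.2.1) (cN w.2.2))).of_eq
      (by simp only [F1, F2, N, hK.s1, hK.s2, hK.s3]; abel))
    (fun w => ((hK.cst (cN w.1) cO (cN w.2.2)).plus (hK.cst (cT w.1) (cN w.2.1) (cN w.2.2))).of_eq
      (by simp only [F1, F2, N, hK.s1, hK.s2, hK.s3, z3]; abel))
    (fun i p => by fin_cases i <;> exact c0 _) (c0 _))
  obtain ⟨f6, s6, e6⟩ := D.stage hn D.invA 2 φ2 F2 fr2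
    (lx := fun w => F2 (w.1, w.2.1) (T w.2.2)) (ly := fun w => F2 (w.1, w.2.1) 0)
    (lx' := fun w => F2 (w.1, w.2.1) O) (ly' := fun w => F2 (w.1, w.2.1) (N w.2.2))
    (li := K O O O)
    (la := ![fun p => F0 p O, fun p => F1 p O, fun p => F2 p 0])
    (la' := ![fun p => F0 p O, fun p => F1 p O, fun p => F2 p O])
    (lc := ![fun p => F0 p O, fun p => F1 p 0, fun p => F2 p 0])
    (lc' := ![fun p => F0 p O, fun p => F1 p 0, fun p => F2 p O])
    (fun _ _ => rfl) (fun _ _ => rfl) (fun _ _ => rfl) (fun _ _ => rfl) (fun _ => rfl)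
    (fun _ => rfl) (fun _ => rfl) (fun _ => rfl) (fun j hj => by fin_cases j <;> simp_all)
  have s7 := (s5.comp s6).comp (mvG hn (lx' := fun _ => K O O O) (ly' := fun w => K O O O + t3 w)
    (la' := fun _ _ => K O O O) (k₁ := 0)
    ![(g + 2) * ((g + 1) * 1) + (g + 2) * ((g + 2) * (g + 1)), (g + 2) * ((g + 2) * (g + 1)), 0]
    (fun w => (Cst.zero 0).of_eq (by simp only [F2, N, hK.s1, hK.s2]; abel))
    (fun w => (hK.cst (cT w.1) (cT w.2.1) (cT w.2.2)).two.of_eq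
      (by simp only [F2, N, t3, hK.s1, hK.s2, hK.s3]; abel))
    (fun i p => by
      fin_cases i
      · exact ((hK.cst cO (cN p.1) (cT p.2)).plus (hK.cst cO cO (cN p.2))).of_eq
          (by simp [F0, N, hK.s2, hK.s3])
      · exact (hK.cst cO cO (cN p.2)).of_eq (by simp [F1, N, hK.s1, hK.s3])
      · exact (Cst.zero 0).of_eq (by simp [F2, N, hK.s1, hK.s2])) (c0 _))
  obtain ⟨f9, s9, e9⟩ := linXY (b := b) hn D.hκ (K O O O) 1
  obtain ⟨f10, s10, e10⟩ := linYX (b := b) hn D.hκ (K O O O) (-1)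
  refine ⟨_, _, (((s7.comp (LR.shift n _ fun _ => K O O O)).comp s9).comp s10).comp s9, ?_,
    fun m v a => ?_⟩
  · simp only [ic, Fintype.card_prod, Matrix.cons_val_zero, Matrix.cons_val_one,
      Matrix.cons_val_two, Matrix.head_cons, Matrix.tail_cons]
    ring
  · rcases a with (w | w) | r
    · simp [(e9 m _).1, (e9 m _).2.1, (e10 m _).1, (e10 m _).2.1, (e6 m _).1, (e6 m _).2.1,
        (e4 m _).1, (e4 m _).2.1, (e2 m _).1, (e2 m _).2.1, gl, m.app, m.app0]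
    · simp [(e9 m _).1, (e9 m _).2.1, (e10 m _).1, (e10 m _).2.1, (e6 m _).1, (e6 m _).2.1,
        (e4 m _).1, (e4 m _).2.1, (e2 m _).1, (e2 m _).2.1, gl, m.app, m.app0]
    · rcases r with r | r <;>
        simp [(e9 m _).2.2, (e10 m _).2.2, (e6 m _).2.2, (e4 m _).2.2, (e2 m _).2.2, gl, m.app0]

theorem Des.final (D : Des R ε b (Fin 22) 𝒮 E Cn 20) (hS : Fintype.card 𝒮 = 1540)
    (hE : Fintype.card E ≤ 1540 * 1540) (hC : Fintype.card Cn ≤ 23) (z : ℤ) (hO : D.O = z • 1) :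
    ∃ (Z : ℕ) (l : List NI), (∀ i ∈ l, i.WF (Z + WW) ∧ md b i) ∧ l.countP NI.isUnit < WW * mu ∧
      ∀ (m : Sem R) (x : ℕ → m.V) (a : ℕ), Z ≤ a → a < Z + WW →
        l.foldl (NI.step ε m.Ψ) x a = m.Ψ ((z * (z * z)) • 1) (x a) := by
  classical
  let e : Fin mu ≃ Fin 22 × Fin 22 × Fin 22 := Fintype.equivOfCardEq (by simp [mu_eq])
  let K : Matrix (Fin 22) (Fin 22) ℤ → Matrix (Fin 22) (Fin 22) ℤ → Matrix (Fin 22) (Fin 22) ℤ →
      Mat := fun A B C => (A ⊗ₖ (B ⊗ₖ C)).submatrix e e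
  have hK : Tri3 b K := ⟨fun A A' B C => by ext i j; simp [K, sub_mul],
    fun A B B' C => by ext i j; simp [K, sub_mul, mul_sub],
    fun A B C C' => by ext i j; simp [K, mul_sub],
    fun h₁ h₂ h₃ => (h₁.kron (h₂.kron h₃)).submatrix e⟩
  have hKO : K D.O D.O D.O = (z * (z * z)) • 1 := by
    simp only [K, hO, smul_kronecker, kronecker_smul, one_kronecker_one, smul_smul,
      submatrix_smul, Pi.smul_apply, submatrix_one_equiv]
    congr 1; ring
  obtain ⟨r, hr⟩ : ∃ r, WW = 2 * Fintype.card 𝒮 ^ 3 + 3 * Fintype.card 𝒮 ^ 2 * Fintype.card E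
      + r := Nat.exists_eq_add_of_le (by rw [hS, WW_eq]; omega)
  let eD : ((𝒮 × 𝒮 × 𝒮) ⊕ (𝒮 × 𝒮 × 𝒮)) ⊕ ((Fin 3 × (𝒮 × 𝒮) × E) ⊕ Fin r) ≃ Fin WW :=
    Fintype.equivFinOfCardEq (by
      simp only [Fintype.card_sum, Fintype.card_prod, Fintype.card_fin]; rw [hr]; ring)
  set Z := Fintype.card (Fin 3 × (𝒮 × 𝒮) × Cn)
  let eC : Fin 3 × (𝒮 × 𝒮) × Cn ≃ Fin Z := Fintype.equivFin _
  let n : Sl5 (𝒮 × 𝒮 × 𝒮) (𝒮 × 𝒮) E Cn (Fin r) → ℕ :=
    Sum.elim (fun d => Z + eD d) fun c => eC c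
  have hn : Num (Z + WW) n := by
    constructor
    · rintro (d | c) (d' | c') h <;> simp only [n, Sum.elim_inl, Sum.elim_inr] at h
      · rw [eD.injective (Fin.ext (Nat.add_left_cancel h))]
      · have := (eC c').2; omega
      · have := (eC c).2; omega
      · rw [eC.injective (Fin.ext h)]
    · rintro (d | c)
      · have := (eD d).2; simp only [n, Sum.elim_inl]; omega
      · have := (eC c).2; simp only [n, Sum.elim_inr]; omega
  obtain ⟨k, f, ⟨l, hl, h⟩, hk, hf⟩ := D.net hK hn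
  refine ⟨Z, l, hl.1, hl.2.trans_lt ?_, fun m x a h1 h2 => ?_⟩
  · rw [Fintype.card_fin, ← hr, hS] at hk
    rw [mu_eq]; omega
  · have ha : a = n (.inl (eD.symm ⟨a - Z, by omega⟩)) := by
      simp only [n, Sum.elim_inl, Equiv.apply_symm_apply]; omega
    have := (h m x (fun s => x (n s)) fun s => (m.app0 _).symm).1 (.inl (eD.symm ⟨a - Z, by omega⟩))
    rw [hf, ← ha, hKO] at this
    exact this

end

end Nx

/-- The butterfly network: slots `< Z` are scratch, slots `Z, …, Z + WW - 1` carry the data. -/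
theorem netB : ∃ (Z : ℕ) (l : List NI), (∀ i ∈ l, i.WF (Z + WW)) ∧
    (∀ a v v', NI.unit a v v' ∈ l → v = v') ∧ l.countP NI.isUnit < WW * mu ∧
    ∀ (V : Type) [AddCommGroup V] [Module ℂ V] (Ψ : Matrix (Fin mu) (Fin mu) ℤ → V →ₗ[ℂ] V),
      (∀ A A', Ψ (A + A') = Ψ A ∘ₗ Ψ A') → Ψ 0 = LinearMap.id →
      ∀ (x : ℕ → V) (a : ℕ), Z ≤ a → a < Z + WW →
        l.foldl (NI.step (1 / 2 : ℂ) Ψ) x a = Ψ 1 (x a) := by
  obtain ⟨Z, l, h1, h2, h3⟩ := Nx.desB.final Nx.card_Tr (Nx.card_Sd _) (by simp) 1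
    (one_smul _ _).symm
  refine ⟨Z, l, fun i hi => (h1 i hi).1, fun a v v' hi => (h1 _ hi).2 rfl, h2,
    fun V _ _ Ψ ha h0 x a h4 h5 => ?_⟩
  simpa using h3 ⟨V, Ψ, ha, h0⟩ x a h4 h5

/-- The shear network. -/
theorem netS : ∃ (Z : ℕ) (l : List NI), (∀ i ∈ l, i.WF (Z + WW)) ∧
    (∀ a S, NI.free a S ∉ l) ∧ l.countP NI.isUnit < WW * mu ∧
    ∀ (V : Type) [AddCommGroup V] [Module (ZMod 2) V]
      (Ψ : Matrix (Fin mu) (Fin mu) ℤ → V →ₗ[ZMod 2] V),
      (∀ A A', Ψ (A + A') = Ψ A ∘ₗ Ψ A') → Ψ 0 = LinearMap.id →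
      ∀ (x : ℕ → V) (a : ℕ), Z ≤ a → a < Z + WW →
        l.foldl (NI.step (1 : ZMod 2) Ψ) x a = Ψ ((216 : ℤ) • 1) (x a) := by
  obtain ⟨Z, l, h1, h2, h3⟩ := Nx.desS.final Nx.card_Tr (Nx.card_Sd _) (by simp) 6 rfl
  refine ⟨Z, l, fun i hi => (h1 i hi).1, fun a S hi => Bool.false_ne_true (h1 _ hi).2, h2,
    fun V _ _ Ψ ha h0 x a h4 h5 => ?_⟩
  exact h3 ⟨V, Ψ, ha, h0⟩ x a h4 h5

end Crest.Agent.IM
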