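import Crest.Agent.IM.P1B

/-! TASK IM-P1. Regular data movement: each of these is one `Prog.vec` (or a short loop of them).
First prove lemmas for `rep i (move one bit from stack k to stack k')` on `mk6`. -/

set_option autoImplicit false

namespace Crest.Agent.IM
open Mv

theorem zeros_ex : ∃ (p : Prog) (C : ℕ), ∀ (B P : ℕ) (r : Prog) (N : ℕ), 1 ≤ P →
    Top B P r p [N] [] (List.replicate N false) (C * (N + P)) := by
  refine ⟨.vec [.var 0] (.rep 0 (.push .d false)), 3, fun B P r N hP => ?_⟩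
  refine (Go.vec (vs := [N]) (by simp) (fun rest => ?_) le_rfl).top.mono ?_
  · simp [rep_push, only]
  · have : (1 : ℝ) ≤ P := by exact_mod_cast hP
    simp; linarith [Nat.cast_nonneg (α := ℝ) N]

theorem drop_ex : ∃ (p : Prog) (C : ℕ), ∀ (B P : ℕ) (r : Prog) (N : ℕ) (X : List Bool), 1 ≤ P →
    X.length = N → Top B P r p [N] X [] (C * (N + P)) := by
  refine ⟨.vec [.var 0] (.rep 0 (dr .d)), 3, fun B P r N X hP hX => ?_⟩
  refine (Go.vec (vs := [N]) (by simp) (fun rest => ?_) le_rfl).top.mono ?_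
  · simp [rep_dr, only, drop_app hX]
  · have : (1 : ℝ) ≤ P := by exact_mod_cast hP
    simp; linarith [Nat.cast_nonneg (α := ℝ) N]

/-- copy the segment at offset `off` to the top -/
theorem pick_ex : ∃ (p : Prog) (C : ℕ), ∀ (B P : ℕ) (r : Prog) (off N : ℕ) (A X : List Bool),
    1 ≤ P → A.length = off → X.length = N →
    Top B P r p [off, N] (A ++ X) (X ++ (A ++ X)) (C * (off + N + P)) := by
  refine ⟨.vec [.var 0, .var 1] (.seq (.rep 0 (mv .d .a)) (.seq (.rep 1 (cp .d .b .c))
    (.seq (.rep 1 (mv .b .d)) (.seq (.rep 0 (mv .a .d)) (.rep 1 (mv .c .d)))))), 11,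
    fun B P r off N A X hP hA hX => ?_⟩
  refine (Go.vec (vs := [off, N]) (by simp) (fun rest => ?_) le_rfl).top.mono ?_
  · simp [rep_mv, rep_cp, only, takeD_app, takeD_all, drop_all, hA, hX]
  · have : (1 : ℝ) ≤ P := by exact_mod_cast hP
    simp; linarith [Nat.cast_nonneg (α := ℝ) N, Nat.cast_nonneg (α := ℝ) off]

/-- pop the top segment and write it over the segment at offset `off` -/
theorem put_ex : ∃ (p : Prog) (C : ℕ), ∀ (B P : ℕ) (r : Prog) (off N : ℕ) (Y A X : List Bool),
    1 ≤ P → Y.length = N → A.length = off → X.length = N →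
    Top B P r p [off, N] (Y ++ (A ++ X)) (A ++ Y) (C * (off + N + P)) := by
  refine ⟨.vec [.var 0, .var 1] (.seq (.rep 1 (mv .d .b)) (.seq (.rep 0 (mv .d .a))
    (.seq (.rep 1 (dr .d)) (.seq (.rep 1 (mv .b .d)) (.rep 0 (mv .a .d)))))), 11,
    fun B P r off N Y A X hP hY hA hX => ?_⟩
  refine (Go.vec (vs := [off, N]) (by simp) (fun rest => ?_) le_rfl).top.mono ?_
  · simp [rep_mv, rep_dr, only, takeD_app, takeD_all, drop_all, hA, hX, hY]
  · have : (1 : ℝ) ≤ P := by exact_mod_cast hP
    simp; linarith [Nat.cast_nonneg (α := ℝ) N, Nat.cast_nonneg (α := ℝ) off]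

/-- exchange the two top segments -/
theorem exch_ex : ∃ (p : Prog) (C : ℕ), ∀ (B P : ℕ) (r : Prog) (N N' : ℕ) (X Y : List Bool),
    1 ≤ P → X.length = N → Y.length = N' →
    Top B P r p [N, N'] (X ++ Y) (Y ++ X) (C * (N + N' + P)) := by
  refine ⟨.vec [.var 0, .var 1] (.seq (.rep 0 (mv .d .a)) (.seq (.rep 1 (mv .d .b))
    (.seq (.rep 0 (mv .a .d)) (.rep 1 (mv .b .d))))), 11,
    fun B P r N N' X Y hP hX hY => ?_⟩
  refine (Go.vec (vs := [N, N']) (by simp) (fun rest => ?_) le_rfl).top.mono ?_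
  · simp [rep_mv, only, takeD_app, takeD_all, drop_all, hX, hY]
  · have : (1 : ℝ) ≤ P := by exact_mod_cast hP
    simp; linarith [Nat.cast_nonneg (α := ℝ) N, Nat.cast_nonneg (α := ℝ) N']

theorem xor2_ex : ∃ (p : Prog) (C : ℕ), ∀ (B P : ℕ) (r : Prog) (N : ℕ) (X Y : List Bool),
    1 ≤ P → X.length = N → Y.length = N →
    ∃ Z : List Bool, Z.length = N ∧ Top B P r p [N] (X ++ Y) Z (C * (N + P)) ∧
      ∀ j < N, bit Z j = xor (bit X j) (bit Y j) := by
  refine ⟨.vec [.var 0] (.seq (.rep 0 (mv .d .a)) (.seq (.rep 0 (mv .d .b)) (.rep 0 xr))), 11,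
    fun B P r N X Y hP hX hY => ⟨List.zipWith xor X Y, by simp [hX, hY], ?_, fun j hj => ?_⟩⟩
  · refine (Go.vec (vs := [N]) (by simp) (fun rest => ?_) le_rfl).top.mono ?_
    · simp only [run_seq, only, rep_mv (show K.d ≠ K.a by decide),
        rep_mv (show K.d ≠ K.b by decide), List.append_assoc, List.getD_cons_zero, mk6_d, mk6_a,
        mk6_b, upd_d, upd_a, upd_b, takeD_app hX, drop_app hX, takeD_app hY, drop_app hY,
        List.append_nil]
      rw [rep_xr _ _ _ (by simpa using hX) (by simpa using hY),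
        ← List.reverse_zipWith (hX.trans hY.symm), List.reverse_reverse]
    · have : (1 : ℝ) ≤ P := by exact_mod_cast hP
      simp [cost_xr]; linarith [Nat.cast_nonneg (α := ℝ) N]
  · rw [bit_eq_getElem (by simp; omega), bit_eq_getElem (by omega), bit_eq_getElem (by omega),
      List.getElem_zipWith]

/-- change the row length from `A` to `A'` (truncate, or pad with zeros) -/
theorem resize_ex : ∃ (p : Prog) (C : ℕ), ∀ (B P : ℕ) (r : Prog) (O A A' : ℕ) (L : List Bool),
    1 ≤ P → L.length = O * A →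
    ∃ L' : List Bool, L'.length = O * A' ∧
      Top B P r p [O, A, A'] L L' (C * (O * A + O * A' + O + P)) ∧
      ∀ o < O, ∀ j < A', bit L' (o * A' + j) = (decide (j < A) && bit L (o * A + j)) := by
  refine ⟨.vec [.var 0, Ex.emin (.var 1) (.var 2), .var 1 - .var 2, .var 2 - .var 1,
    .var 0 * .var 2] (.seq (.rep 0 rszV) (.rep 4 (mv .a .d))), 9,
    fun B P r O A A' L hP hL => ⟨cat (fun o => rszG A A' (row A L o)) O,
      length_cat fun o ho => length_rszG (length_row hL ho), ?_, fun o ho j hj => ?_⟩⟩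
  · refine (Go.vec (vs := [O, min A A', A - A', A' - A, O * A']) (by simp) (fun rest => ?_)
      le_rfl).top.mono ?_
    · exact rows_back (rszG A A') (by rfl) (by rfl)
        (fun X R Out hX => rszV_run (by rfl) (by rfl) (by rfl) X R Out hX)
        (fun X hX => length_rszG hX) hL rest
    · have : (1 : ℝ) ≤ P := by exact_mod_cast hP
      have h1 : O * (min A A' * 3 + (A - A') * 3 + (A' - A) * 2) ≤ O * (3 * A + 2 * A') :=
        Nat.mul_le_mul_left _ (by omega)
      have h2 : (O : ℝ) * (((min A A' : ℕ) : ℝ) * 3 + ((A - A' : ℕ) : ℝ) * 3 +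
          ((A' - A : ℕ) : ℝ) * 2) ≤ O * (3 * A + 2 * A') := by exact_mod_cast h1
      simp only [rszV, cost_seq, cost_rep, cost_mv, cost_dr, cost_push, List.getD_cons_zero,
        List.getD_cons_succ]
      push_cast [-Nat.cast_min]
      have : (0 : ℝ) ≤ O * A := by positivity
      have : (0 : ℝ) ≤ O * A' := by positivity
      have : (0 : ℝ) ≤ O := by positivity
      nlinarith
  · rw [bit_cat (fun o ho => length_rszG (length_row hL ho)) ho hj,
      bit_rszG (length_row hL ho) hj]
    by_cases h : j < A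
    · rw [bit_row _ _ h]
    · simp [h]

/-- reverse the order of `N` blocks of `I` bits -/
theorem rev_ex : ∃ (p : Prog) (C : ℕ), ∀ (B P : ℕ) (r : Prog) (N I : ℕ) (L : List Bool),
    1 ≤ P → 1 ≤ I → L.length = N * I →
    ∃ L' : List Bool, L'.length = N * I ∧ Top B P r p [N, I] L L' (C * (N * I + P)) ∧
      ∀ a < N, ∀ i < I, bit L' ((N - 1 - a) * I + i) = bit L (a * I + i) := by
  refine ⟨.vec [1, .var 0, .var 1, .var 0 * .var 1, 1 * (.var 0 * .var 1)]
    (.seq (.rep 0 revV) (.rep 4 (mv .a .d))), 20,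
    fun B P r N I L hP hI hL => ⟨revG N I L, length_revG hL, ?_, fun a ha i hi => ?_⟩⟩
  · refine (Go.vec (vs := [1, N, I, N * I, 1 * (N * I)]) (by simp) (fun rest => ?_)
      le_rfl).top.mono ?_
    · have := rows_back (cn := fun i => [1, N, I, N * I, 1 * (N * I)].getD i 0) (i := 0) (i' := 4)
        (O := 1) (A := N * I) (A' := N * I) (revG N I) rfl rfl
        (fun X R Out hX => revV_run rfl rfl rfl X R Out hX) (fun X hX => length_revG hX)
        (L := L) (by simpa using hL) rest
      rwa [cat_succ, cat_zero, List.nil_append, row, zero_mul, List.drop_zero,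
        List.take_of_length_le hL.le] at this
    · have : (1 : ℝ) ≤ P := by exact_mod_cast hP
      have hI' : (1 : ℝ) ≤ I := by exact_mod_cast hI
      simp only [revV, cost_seq, cost_rep, cost_mv, List.getD_cons_zero, List.getD_cons_succ]
      push_cast
      have : (N : ℝ) ≤ N * I := le_mul_of_one_le_right (by positivity) hI'
      have : (0 : ℝ) ≤ N := by positivity
      nlinarith
  · exact bit_revG hL ha hi

/-- Move a digit inwards, in `q` passes. Pass `p` merges pile `p` into the interleaved part: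
rows `[A × (p I) | A × I | rest]` become `[A × ((p + 1) I) | rest]`. -/
theorem tfw_ex : ∃ (p : Prog) (C : ℕ), ∀ (B P : ℕ) (r : Prog) (O q A I : ℕ) (L : List Bool),
    1 ≤ P → 1 ≤ q → 1 ≤ A → 1 ≤ I → q ≤ B → L.length = O * q * A * I →
    ∃ L' : List Bool, L'.length = O * q * A * I ∧
      Top B P r p [O, q, A, I] L L' (C * q * (O * q * A * I + P)) ∧
      ∀ o < O, ∀ δ < q, ∀ a < A, ∀ i < I,
        bit L' (((o * A + a) * q + δ) * I + i) = bit L (((o * q + δ) * A + a) * I + i) := by
  refine ⟨.vec [.var 0, .var 1, .var 2, .var 3, (.var 1 - 1) * .var 3,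
      .var 2 * (.var 1 * .var 3), .var 0 * (.var 2 * (.var 1 * .var 3))]
    (.seq (.rep 0 tfwV) (.rep 6 (mv .a .d))), 40,
    fun B P r O q A I L hP hq hA hI _ hL => ?_⟩
  have hL' : L.length = O * (q * (A * I)) := by rw [hL]; ring
  have hg : ∀ X : List Bool, X.length = q * (A * I) → (tfwG q A I X q).length = A * (q * I) :=
    fun X hX => length_tfwG hq hX q le_rfl
  refine ⟨cat (fun o => tfwG q A I (row (q * (A * I)) L o) q) O, ?_, ?_,
    fun o ho δ hδ a ha i hi => ?_⟩
  · rw [length_cat fun o ho => hg _ (length_row hL' ho)]; ring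
  · refine (Go.vec (vs := [O, q, A, I, (q - 1) * I, A * (q * I), O * (A * (q * I))]) (by simp)
      (fun rest => ?_) le_rfl).top.mono ?_
    · exact rows_back (fun X => tfwG q A I X q) (by rfl) (by rfl)
        (fun X R Out hX => tfwV_run hq (by rfl) (by rfl) (by rfl) (by rfl) (by rfl) X R Out hX)
        hg hL' rest
    · simp only [tfwV, insV, cost_seq, cost_rep, cost_mv, cost_dr, cost_push, List.getD_cons_zero,
        List.getD_cons_succ]
      push_cast [Nat.cast_sub hq]
      obtain ⟨h1, h2, h3, h4, h5, h6⟩ := tbound (O := O) hP hq hA hI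
      nlinarith
  · have e1 : ((o * A + a) * q + δ) * I + i = o * (A * (q * I)) + (a * (q * I) + (δ * I + i)) := by
      ring
    have e2 : ((o * q + δ) * A + a) * I + i = o * (q * (A * I)) + (δ * (A * I) + (a * I + i)) := by
      ring
    rw [e1, e2, bit_cat (fun o ho => hg _ (length_row hL' ho)) ho (idx_lt ha (idx_lt hδ hi)),
      bit_tfwG hq (length_row hL' ho) q le_rfl ha hδ hi (show δ + q = q + δ by ring),
      bit_row _ _ (idx_lt hδ (idx_lt ha hi))]

/-- Move a digit outwards (the passes of `tfw` undone in reverse order). -/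
theorem tbw_ex : ∃ (p : Prog) (C : ℕ), ∀ (B P : ℕ) (r : Prog) (O q A I : ℕ) (L : List Bool),
    1 ≤ P → 1 ≤ q → 1 ≤ A → 1 ≤ I → q ≤ B → L.length = O * q * A * I →
    ∃ L' : List Bool, L'.length = O * q * A * I ∧
      Top B P r p [O, q, A, I] L L' (C * q * (O * q * A * I + P)) ∧
      ∀ o < O, ∀ δ < q, ∀ a < A, ∀ i < I,
        bit L' (((o * q + δ) * A + a) * I + i) = bit L (((o * A + a) * q + δ) * I + i) := by
  refine ⟨.vec [.var 0, .var 1, .var 2, .var 3, (.var 1 - 1) * .var 3,
      .var 2 * (.var 1 * .var 3), .var 0 * (.var 1 * (.var 2 * .var 3))]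
    (.seq (.rep 0 tbwV) (.rep 6 (mv .a .d))), 40,
    fun B P r O q A I L hP hq hA hI _ hL => ?_⟩
  have hL' : L.length = O * (A * (q * I)) := by rw [hL]; ring
  have hg : ∀ X : List Bool, X.length = A * (q * I) → (tbwG q A I X).length = q * (A * I) :=
    fun X hX => length_tbwG hq hX
  refine ⟨cat (fun o => tbwG q A I (row (A * (q * I)) L o)) O, ?_, ?_,
    fun o ho δ hδ a ha i hi => ?_⟩
  · rw [length_cat fun o ho => hg _ (length_row hL' ho)]; ring
  · refine (Go.vec (vs := [O, q, A, I, (q - 1) * I, A * (q * I), O * (q * (A * I))]) (by simp)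
      (fun rest => ?_) le_rfl).top.mono ?_
    · exact rows_back (tbwG q A I) (by rfl) (by rfl)
        (fun X R Out hX => tbwV_run hq (by rfl) (by rfl) (by rfl) (by rfl) (by rfl) X R Out hX)
        hg hL' rest
    · simp only [tbwV, extV, cost_seq, cost_rep, cost_mv, cost_dr, cost_push, List.getD_cons_zero,
        List.getD_cons_succ]
      push_cast [Nat.cast_sub hq]
      obtain ⟨h1, h2, h3, h4, h5, h6⟩ := tbound (O := O) hP hq hA hI
      nlinarith
  · have e1 : ((o * A + a) * q + δ) * I + i = o * (A * (q * I)) + (a * (q * I) + (δ * I + i)) := by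
      ring
    have e2 : ((o * q + δ) * A + a) * I + i = o * (q * (A * I)) + (δ * (A * I) + (a * I + i)) := by
      ring
    rw [e1, e2, bit_cat (fun o ho => hg _ (length_row hL' ho)) ho (idx_lt hδ (idx_lt ha hi)),
      bit_tbwG hq (length_row hL' ho) ha hδ hi, bit_row _ _ (idx_lt ha (idx_lt hδ hi))]

end Crest.Agent.IM
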