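import Crest.Agent.IM.Base

/-! Toolkit for regular data movement: moves, drops, constant pushes, row-wise loops. -/

set_option autoImplicit false

namespace Crest.Agent.IM.Mv

/-- move one bit -/
def mv (k k' : K) : V := .case k (.push k' true) (.push k' false)
/-- move one bit to two stacks -/
def cp (k k₁ k₂ : K) : V :=
  .case k (.seq (.push k₁ true) (.push k₂ true)) (.seq (.push k₁ false) (.push k₂ false))
/-- drop one bit -/
def dr (k : K) : V := .case k .skip .skip

variable {cn : ℕ → ℕ}

@[simp] theorem run_seq (u v : V) (s : St) : (V.seq u v).run cn s = v.run cn (u.run cn s) := rfl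
@[simp] theorem cost_seq (u v : V) : (V.seq u v).cost cn = u.cost cn + v.cost cn + 1 := rfl
@[simp] theorem cost_rep (i : ℕ) (v : V) : (V.rep i v).cost cn = cn i * (v.cost cn + 1) + 1 := rfl
@[simp] theorem cost_mv (k k' : K) : (mv k k').cost cn = 2 := rfl
@[simp] theorem cost_cp (k k₁ k₂ : K) : (cp k k₁ k₂).cost cn = 4 := rfl
@[simp] theorem cost_dr (k : K) : (dr k).cost cn = 2 := rfl
@[simp] theorem cost_push (k : K) (b : Bool) : (V.push k b).cost cn = 1 := rfl

theorem rep_inv {i n : ℕ} {v : V} (S : ℕ → St) (hn : cn i = n)
    (h : ∀ j < n, v.run cn (S j) = S (j + 1)) : (V.rep i v).run cn (S 0) = S n := by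
  show (v.run cn)^[cn i] (S 0) = S n
  rw [hn]
  clear hn
  induction n with
  | zero => rfl
  | succ n ih =>
    rw [Function.iterate_succ_apply', ih fun j hj => h j (by omega), h n (by omega)]

theorem takeD_succ' (L : List Bool) (n : ℕ) :
    L.takeD (n + 1) false = L.takeD n false ++ [(L.drop n).headD false] := by
  induction n generalizing L with
  | zero => cases L <;> rfl
  | succ n ih =>
    cases L with
    | nil => simpa using ih []
    | cons b L => simpa using ih L

theorem rep_mv {k k' : K} (h : k ≠ k') (i : ℕ) (s : St) :
    (V.rep i (mv k k')).run cn s = Function.update (Function.update s k ((s k).drop (cn i))) k'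
      (((s k).takeD (cn i) false).reverse ++ s k') := by
  have := rep_inv (cn := cn) (i := i) (v := mv k k') (fun j => Function.update
    (Function.update s k ((s k).drop j)) k' (((s k).takeD j false).reverse ++ s k')) rfl
    fun j _ => by
      simp only [mv, V.run, Function.update_of_ne h, Function.update_self, takeD_succ']
      funext l
      by_cases h1 : l = k'
      · subst h1; split_ifs with hb <;> simp_all [Function.update_of_ne h.symm]
      · by_cases h2 : l = k
        · subst h2; split_ifs <;> simp [Function.update_of_ne h1]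
        · split_ifs <;> simp [Function.update_of_ne h1, Function.update_of_ne h2]
  simpa using this

theorem rep_cp {k k₁ k₂ : K} (h₁ : k ≠ k₁) (h₂ : k ≠ k₂) (h₃ : k₁ ≠ k₂) (i : ℕ) (s : St) :
    (V.rep i (cp k k₁ k₂)).run cn s = Function.update (Function.update
      (Function.update s k ((s k).drop (cn i))) k₁ (((s k).takeD (cn i) false).reverse ++ s k₁))
      k₂ (((s k).takeD (cn i) false).reverse ++ s k₂) := by
  have := rep_inv (cn := cn) (i := i) (v := cp k k₁ k₂) (fun j => Function.update (Function.update
      (Function.update s k ((s k).drop j)) k₁ (((s k).takeD j false).reverse ++ s k₁))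
      k₂ (((s k).takeD j false).reverse ++ s k₂)) rfl
    fun j _ => by
      simp only [cp, V.run, Function.update_of_ne h₁, Function.update_of_ne h₂,
        Function.update_self, takeD_succ']
      funext l
      by_cases h1 : l = k₂
      · subst h1
        split_ifs with hb <;> simp_all [Function.update_of_ne h₂.symm, Function.update_of_ne h₃.symm]
      · by_cases h2 : l = k₁
        · subst h2
          split_ifs with hb <;>
            simp_all [Function.update_of_ne h₁.symm]
        · by_cases h3 : l = k
          · subst h3; split_ifs <;> simp [Function.update_of_ne h1, Function.update_of_ne h2]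
          · split_ifs <;>
              simp [Function.update_of_ne h1, Function.update_of_ne h2, Function.update_of_ne h3]
  simpa using this

theorem rep_dr (k : K) (i : ℕ) (s : St) :
    (V.rep i (dr k)).run cn s = Function.update s k ((s k).drop (cn i)) := by
  have := rep_inv (cn := cn) (i := i) (v := dr k)
    (fun j => Function.update s k ((s k).drop j)) rfl fun j _ => by simp [dr, V.run]
  simpa using this

theorem rep_push (k : K) (b : Bool) (i : ℕ) (s : St) :
    (V.rep i (.push k b)).run cn s = Function.update s k (List.replicate (cn i) b ++ s k) := by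
  have := rep_inv (cn := cn) (i := i) (v := .push k b)
    (fun j => Function.update s k (List.replicate j b ++ s k)) rfl
    fun j _ => by simp [V.run, List.replicate_succ]
  simpa using this

theorem takeD_app {L M : List Bool} {n : ℕ} (h : L.length = n) : (L ++ M).takeD n false = L :=
  List.takeD_left' h

theorem drop_app {L M : List Bool} {n : ℕ} (h : L.length = n) : (L ++ M).drop n = M :=
  List.drop_left' h

theorem takeD_all {L : List Bool} {n : ℕ} (h : L.length = n) : L.takeD n false = L := by
  simpa using takeD_app (M := []) h

theorem drop_all {L : List Bool} {n : ℕ} (h : L.length = n) : L.drop n = [] := by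
  simp [h]

/-! ### rows -/

/-- row `o` of an array with rows of length `A` -/
def row (A : ℕ) (L : List Bool) (o : ℕ) : List Bool := (L.drop (o * A)).take A

/-- concatenation of `f 0, …, f (n-1)` -/
def cat (f : ℕ → List Bool) (n : ℕ) : List Bool := (List.range n).flatMap f

@[simp] theorem cat_zero (f : ℕ → List Bool) : cat f 0 = [] := rfl

theorem cat_succ (f : ℕ → List Bool) (n : ℕ) : cat f (n + 1) = cat f n ++ f n := by
  simp [cat, List.range_succ]

theorem length_cat {f : ℕ → List Bool} {n A : ℕ} (h : ∀ o < n, (f o).length = A) :
    (cat f n).length = n * A := by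
  induction n with
  | zero => simp
  | succ n ih =>
    rw [cat_succ, List.length_append, ih fun o ho => h o (by omega), h n (by omega)]; ring

theorem idx_lt {o O j A : ℕ} (ho : o < O) (hj : j < A) : o * A + j < O * A := by nlinarith

theorem bit_cat {f : ℕ → List Bool} {n A o j : ℕ} (h : ∀ o < n, (f o).length = A) (ho : o < n)
    (hj : j < A) : bit (cat f n) (o * A + j) = bit (f o) j := by
  induction n with
  | zero => omega
  | succ n ih =>
    have hl := length_cat (f := f) (n := n) fun o ho => h o (by omega)
    rw [cat_succ]
    by_cases hon : o = n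
    · subst hon; exact bit_append_right _ hl j
    · rw [bit_append_left _ (by rw [hl]; exact idx_lt (by omega) hj)]
      exact ih (fun o ho => h o (by omega)) (by omega)

theorem length_row {A O o : ℕ} {L : List Bool} (h : L.length = O * A) (ho : o < O) :
    (row A L o).length = A := by
  have : (o + 1) * A ≤ O * A := Nat.mul_le_mul_right A ho
  simp only [row, List.length_take, List.length_drop, h]
  rw [add_mul, one_mul] at this
  omega

theorem bit_row {A j : ℕ} (L : List Bool) (o : ℕ) (hj : j < A) :
    bit (row A L o) j = bit L (o * A + j) := by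
  rw [row, bit_take _ hj, bit_drop]

theorem drop_row (A : ℕ) (L : List Bool) (o : ℕ) :
    L.drop (o * A) = row A L o ++ L.drop ((o + 1) * A) := by
  rw [row, add_mul, one_mul, ← List.drop_drop, List.take_append_drop]

theorem bit_reverse {L : List Bool} {j k : ℕ} (h : j + k + 1 = L.length) :
    bit L.reverse j = bit L k := by
  rw [bit_eq_getElem (by simp; omega), bit_eq_getElem (by omega), List.getElem_reverse]
  congr 1; omega

theorem bit_replicate' {n j : ℕ} (b : Bool) (h : j < n) : bit (List.replicate n b) j = b := by
  rw [bit_eq_getElem (by simpa using h), List.getElem_replicate]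

/-- a loop that maps the rows of the data stack to the output stack `a` -/
theorem rep_rows {i O A : ℕ} {v : V} (g : List Bool → List Bool) (hO : cn i = O)
    (hv : ∀ X R Out, X.length = A → v.run cn (mk6 (X ++ R) Out [] [] [] []) =
      mk6 R ((g X).reverse ++ Out) [] [] [] []) {L : List Bool} (hL : L.length = O * A)
    (R : List Bool) : (V.rep i v).run cn (mk6 (L ++ R) [] [] [] [] []) =
      mk6 R (cat (fun o => g (row A L o)) O).reverse [] [] [] [] := by
  have := rep_inv (cn := cn) (i := i) (v := v) (fun j => mk6 (L.drop (j * A) ++ R)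
    (cat (fun o => g (row A L o)) j).reverse [] [] [] []) hO fun j hj => by
      rw [drop_row, List.append_assoc, hv _ _ _ (length_row hL hj), cat_succ, List.reverse_append]
  simpa [drop_all hL] using this

/-- row-wise map, with the result moved back -/
theorem rows_back {i i' O A A' : ℕ} {v : V} (g : List Bool → List Bool) (hO : cn i = O)
    (hO' : cn i' = O * A')
    (hv : ∀ X R Out, X.length = A → v.run cn (mk6 (X ++ R) Out [] [] [] []) =
      mk6 R ((g X).reverse ++ Out) [] [] [] []) (hg : ∀ X, X.length = A → (g X).length = A')
    {L : List Bool} (hL : L.length = O * A) (R : List Bool) :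
    (V.seq (V.rep i v) (V.rep i' (mv .a .d))).run cn (only (L ++ R)) =
      only (cat (fun o => g (row A L o)) O ++ R) := by
  have hl : (cat (fun o => g (row A L o)) O).reverse.length = O * A' := by
    rw [List.length_reverse]; exact length_cat fun o ho => hg _ (length_row hL ho)
  rw [run_seq, only, rep_rows g hO hv hL, rep_mv (by decide), hO']
  simp [takeD_all hl, drop_all hl, only]

/-- a counted loop over vector steps, followed by a final vector step -/
def rloop (eO : Ex) (cn : List Ex) (v : V) (cnF : List Ex) (vF : V) : Prog :=
  .lett 0 (.loop eO (.vec cn v ;; .set 0 (.var 0 + 1)) ;; .vec cnF vF)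

theorem rloop_exec {B P : ℕ} (r : Prog) {eO : Ex} {cn : List Ex} {v : V} {cnF : List Ex} {vF : V}
    {base : List ℕ} {O : ℕ} (hO : eO.ev B P (0 :: base) = O) (hOB : O ≤ B) (S : ℕ → St)
    (vs : ℕ → List ℕ) (hvs : ∀ o < O, cn.map (fun a => a.ev B P (o :: base)) = vs o)
    (x : ℕ → ℝ) (hs : ∀ o < O, v.run (fun i => (vs o).getD i 0) (S o) = S (o + 1))
    (hx : ∀ o < O, (v.cost (fun i => (vs o).getD i 0) : ℝ) ≤ x o)
    {vsF : List ℕ} (hvF : cnF.map (fun a => a.ev B P (O :: base)) = vsF) {σ' : St}
    (hF : vF.run (fun i => vsF.getD i 0) (S O) = σ') {y : ℝ}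
    (hy : (vF.cost (fun i => vsF.getD i 0) : ℝ) ≤ y) :
    ∃ c : ℕ, (c : ℝ) ≤ ∑ o ∈ Finset.range O, x o + O * (2 * P + 2) + y + 3 * P + 1 ∧
      Exec B P r (rloop eO cn v cnF vF) base (S 0) base σ' c := by
  obtain ⟨env', σ, c, h1, h2, rfl, rfl⟩ := Exec.loop_inv (B := B) (P := P) (r := r)
    (p := .vec cn v ;; .set 0 (.var 0 + 1)) (σ := S 0) hO
    (fun o env σ => env = o :: base ∧ σ = S o) (fun o => x o + 2 * P + 1) ⟨rfl, rfl⟩
    (by
      rintro o ho _ _ ⟨rfl, rfl⟩
      have e1 := Exec.vec (B := B) (P := P) r cn v (o :: base) (S o)
      rw [hvs o ho, hs o ho] at e1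
      have e2 := Exec.set (B := B) (P := P) (r := r) (i := 0) (e := .var 0 + 1) (env := o :: base)
        (σ := S (o + 1)) (Or.inl (by simp; omega))
      refine ⟨_, _, _, ?_, e1.seq e2, by simp, rfl⟩
      have := hx o ho
      push_cast; linarith)
  have e3 := Exec.vec (B := B) (P := P) r cnF vF (O :: base) (S O)
  rw [hvF, hF] at e3
  refine ⟨_, ?_, Exec.lett (e := 0) (Or.inl (by simp)) (h2.seq e3)⟩
  simp only [Finset.sum_add_distrib, Finset.sum_const, Finset.card_range, nsmul_eq_mul] at h1
  push_cast; linarith

end Crest.Agent.IM.Mv
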