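import Crest.Agent.IM.P1A

/-! Row bodies for `xor2`, `resize`, `rev`, `tfw`, `tbw`. -/

set_option autoImplicit false

namespace Crest.Agent.IM.Mv

variable {cn : ℕ → ℕ}

/-! ### xor -/

/-- pop a bit from `a` and one from `b`, push their sum -/
def xr : V := .case .a (.case .b (.push .d false) (.push .d true))
  (.case .b (.push .d true) (.push .d false))

theorem cost_xr : xr.cost cn = 3 := rfl

theorem rep_xr {i : ℕ} (U W R : List Bool) (hU : U.length = cn i) (hW : W.length = cn i) :
    (V.rep i xr).run cn (mk6 R U W [] [] []) =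
      mk6 ((List.zipWith xor U W).reverse ++ R) [] [] [] [] [] := by
  show (xr.run cn)^[cn i] _ = _
  generalize cn i = n at hU hW
  induction n generalizing U W R with
  | zero => simp_all
  | succ n ih =>
    obtain ⟨u, U, rfl⟩ := List.exists_cons_of_length_eq_add_one hU
    obtain ⟨w, W, rfl⟩ := List.exists_cons_of_length_eq_add_one hW
    have : xr.run cn (mk6 R (u :: U) (w :: W) [] [] []) = mk6 (xor u w :: R) U W [] [] [] := by
      cases u <;> cases w <;> simp [xr, V.run]
    rw [Function.iterate_succ_apply, this, ih _ _ _ (by simpa using hU) (by simpa using hW)]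
    simp

/-! ### resize -/

def rszV : V := .seq (.rep 1 (mv .d .a)) (.seq (.rep 2 (dr .d)) (.rep 3 (.push .a false)))

def rszG (A A' : ℕ) (X : List Bool) : List Bool :=
  X.take (min A A') ++ List.replicate (A' - A) false

theorem length_rszG {A A' : ℕ} {X : List Bool} (h : X.length = A) : (rszG A A' X).length = A' := by
  simp [rszG, h]; omega

theorem bit_rszG {A A' j : ℕ} {X : List Bool} (h : X.length = A) (hj : j < A') :
    bit (rszG A A' X) j = (decide (j < A) && bit X j) := by
  by_cases hA : j < A
  · rw [rszG, bit_append_left _ (by simp; omega), bit_take _ (by omega)]; simp [hA]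
  · obtain ⟨k, rfl⟩ := Nat.exists_eq_add_of_le (not_lt.1 hA)
    rw [rszG, bit_append_right _ (by simp; omega), bit_replicate]; simp

theorem rszV_run {A A' : ℕ} (h1 : cn 1 = min A A') (h2 : cn 2 = A - A') (h3 : cn 3 = A' - A)
    (X R Out : List Bool) (hX : X.length = A) :
    rszV.run cn (mk6 (X ++ R) Out [] [] [] []) = mk6 R ((rszG A A' X).reverse ++ Out) [] [] [] [] := by
  have e1 : (X.take (min A A')).length = min A A' := by simp; omega
  have e2 : (X.drop (min A A')).length = A - A' := by simp; omega
  rw [← List.take_append_drop (min A A') X, rszG, List.take_left' e1]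
  generalize X.take (min A A') = X₁ at *
  generalize X.drop (min A A') = X₂ at *
  simp [rszV, rep_mv, rep_dr, rep_push, h1, h2, h3, takeD_app e1, drop_app e1, drop_app e2]

/-! ### block reversal -/

def revV : V := .seq (.rep 1 (.seq (.rep 2 (mv .d .b)) (.rep 2 (mv .b .c)))) (.rep 3 (mv .c .a))

def revG (F I : ℕ) (X : List Bool) : List Bool := (cat (fun x => (row I X x).reverse) F).reverse

theorem length_revG {F I : ℕ} {X : List Bool} (h : X.length = F * I) :
    (revG F I X).length = F * I := by
  rw [revG, List.length_reverse]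
  exact length_cat fun o ho => by rw [List.length_reverse, length_row h ho]

theorem bit_revG {F I x i : ℕ} {X : List Bool} (h : X.length = F * I) (hx : x < F) (hi : i < I) :
    bit (revG F I X) ((F - 1 - x) * I + i) = bit X (x * I + i) := by
  have hl : ∀ o < F, (row I X o).reverse.length = I := fun o ho => by
    rw [List.length_reverse, length_row h ho]
  obtain ⟨y, rfl⟩ := Nat.exists_eq_add_of_lt hx
  obtain ⟨k, hk⟩ := Nat.exists_eq_add_of_lt hi
  have e : x + y + 1 - 1 - x = y := by omega
  rw [revG, e, bit_reverse (k := x * I + k) (by rw [length_cat hl, hk]; ring),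
    bit_cat hl hx (by omega), bit_reverse (k := i) (by rw [length_row h hx]; omega),
    bit_row _ _ hi]

theorem revV_run {F I : ℕ} (h1 : cn 1 = F) (h2 : cn 2 = I) (h3 : cn 3 = F * I)
    (X R Out : List Bool) (hX : X.length = F * I) :
    revV.run cn (mk6 (X ++ R) Out [] [] [] []) = mk6 R ((revG F I X).reverse ++ Out) [] [] [] [] := by
  have := rep_inv (cn := cn) (i := 1) (v := .seq (.rep 2 (mv .d .b)) (.rep 2 (mv .b .c)))
    (fun j => mk6 (X.drop (j * I) ++ R) Out []
      (cat (fun x => (row I X x).reverse) j).reverse [] []) h1 fun j hj => by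
      have hl := length_row hX hj
      rw [drop_row, cat_succ]
      simp [rep_mv, h2, takeD_app, takeD_all, drop_all, hl]
  simp only [zero_mul, List.drop_zero, cat_zero, List.reverse_nil, drop_all hX,
    List.nil_append] at this
  have hl := length_revG hX
  rw [revV, run_seq, this, ← revG]
  simp [rep_mv, h3, takeD_all hl, drop_all hl]

/-! ### moving a digit inwards -/

/-- shift every row of `W` by one block and insert the blocks of `D` at the end -/
def ins (q A I : ℕ) (W D : List Bool) : List Bool :=
  cat (fun a => (row (q * I) W a).drop I ++ row I D a) A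

theorem length_insrow {q A I a : ℕ} {W D : List Bool} (hq : 1 ≤ q) (hW : W.length = A * (q * I))
    (hD : D.length = A * I) (ha : a < A) :
    ((row (q * I) W a).drop I ++ row I D a).length = q * I := by
  have : I ≤ q * I := Nat.le_mul_of_pos_left I hq
  rw [List.length_append, List.length_drop, length_row hW ha, length_row hD ha]; omega

theorem length_ins {q A I : ℕ} {W D : List Bool} (hq : 1 ≤ q) (hW : W.length = A * (q * I))
    (hD : D.length = A * I) : (ins q A I W D).length = A * (q * I) :=
  length_cat fun _ ha => length_insrow hq hW hD ha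

theorem bit_ins_lt {q A I a t i : ℕ} {W D : List Bool} (hW : W.length = A * (q * I))
    (hD : D.length = A * I) (ha : a < A) (ht : t + 1 < q) (hi : i < I) :
    bit (ins q A I W D) (a * (q * I) + (t * I + i)) = bit W (a * (q * I) + ((t + 1) * I + i)) := by
  have h1 := idx_lt ht hi
  have e : (t + 1) * I + i = I + (t * I + i) := by ring
  rw [ins, bit_cat (fun _ ha => length_insrow (by omega) hW hD ha) ha (idx_lt (by omega) hi),
    bit_append_left _ (by rw [List.length_drop, length_row hW ha]; omega), bit_drop, ← e,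
    bit_row _ _ h1]

theorem bit_ins_last {q A I a t i : ℕ} {W D : List Bool} (hW : W.length = A * (q * I))
    (hD : D.length = A * I) (ha : a < A) (ht : t + 1 = q) (hi : i < I) :
    bit (ins q A I W D) (a * (q * I) + (t * I + i)) = bit D (a * I + i) := by
  subst ht
  rw [ins, bit_cat (fun _ ha => length_insrow (by omega) hW hD ha) ha (idx_lt (by omega) hi),
    bit_append_right _ (by rw [List.length_drop, length_row hW ha, add_mul]; omega),
    bit_row _ _ hi]

def insV : V := .seq (.rep 2 (.seq (.rep 3 (dr .b)) (.seq (.rep 4 (mv .b .c)) (.rep 3 (mv .d .c)))))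
  (.rep 5 (mv .c .b))

theorem split_row {q I : ℕ} (hq : 1 ≤ q) {Y : List Bool} (hY : Y.length = q * I) :
    (Y.take I).length = I ∧ (Y.drop I).length = (q - 1) * I := by
  obtain ⟨q, rfl⟩ := Nat.exists_eq_add_of_le' hq
  simp only [List.length_take, List.length_drop, hY, add_mul, Nat.add_sub_cancel]
  omega

theorem insV_run {q A I : ℕ} (hq : 1 ≤ q) (h2 : cn 2 = A) (h3 : cn 3 = I)
    (h4 : cn 4 = (q - 1) * I) (h5 : cn 5 = A * (q * I)) (W D R Out : List Bool)
    (hW : W.length = A * (q * I)) (hD : D.length = A * I) :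
    insV.run cn (mk6 (D ++ R) Out W [] [] []) = mk6 R Out (ins q A I W D) [] [] [] := by
  have := rep_inv (cn := cn) (i := 2)
    (v := .seq (.rep 3 (dr .b)) (.seq (.rep 4 (mv .b .c)) (.rep 3 (mv .d .c))))
    (fun j => mk6 (D.drop (j * I) ++ R) Out (W.drop (j * (q * I)))
      (cat (fun a => (row (q * I) W a).drop I ++ row I D a) j).reverse [] []) h2 fun j hj => by
      have hl := length_row hD hj
      obtain ⟨e1, e2⟩ := split_row hq (length_row hW hj)
      rw [drop_row I, drop_row (q * I), cat_succ]
      conv_lhs => rw [← List.take_append_drop I (row (q * I) W j)]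
      generalize (row (q * I) W j).take I = Y₁ at *
      generalize (row (q * I) W j).drop I = Y₂ at *
      simp [rep_mv, rep_dr, h3, h4, takeD_app hl, drop_app hl, drop_app e1, takeD_app e2,
        drop_app e2]
  simp only [zero_mul, List.drop_zero, cat_zero, List.reverse_nil, drop_all hD, drop_all hW,
    List.nil_append] at this
  have hl : (ins q A I W D).reverse.length = A * (q * I) := by
    rw [List.length_reverse, length_ins hq hW hD]
  rw [insV, run_seq, this, ← ins]
  simp [rep_mv, h5, takeD_all hl, drop_all hl]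

def tfwG (q A I : ℕ) (X : List Bool) : ℕ → List Bool
  | 0 => List.replicate (A * (q * I)) false
  | p + 1 => ins q A I (tfwG q A I X p) (row (A * I) X p)

theorem length_tfwG {q A I : ℕ} {X : List Bool} (hq : 1 ≤ q) (hX : X.length = q * (A * I)) :
    ∀ p ≤ q, (tfwG q A I X p).length = A * (q * I)
  | 0, _ => by simp [tfwG]
  | p + 1, hp => length_ins hq (length_tfwG hq hX p (by omega)) (length_row hX hp)

theorem bit_tfwG {q A I : ℕ} {X : List Bool} (hq : 1 ≤ q) (hX : X.length = q * (A * I)) :
    ∀ p ≤ q, ∀ {a t i δ : ℕ}, a < A → t < q → i < I → t + p = q + δ →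
      bit (tfwG q A I X p) (a * (q * I) + (t * I + i)) = bit X (δ * (A * I) + (a * I + i))
  | 0, _, _, _, _, _, _, _, _, _ => by omega
  | p + 1, hp, a, t, i, δ, ha, ht, hi, h => by
    have h1 := length_tfwG hq hX p (by omega)
    have h2 := length_row hX hp
    rw [tfwG]
    by_cases htq : t + 1 = q
    · rw [bit_ins_last h1 h2 ha htq hi, bit_row _ _ (idx_lt ha hi), show p = δ by omega]
    · rw [bit_ins_lt h1 h2 ha (by omega) hi,
        bit_tfwG hq hX p (by omega) (δ := δ) ha (by omega) hi (by omega)]

def tfwV : V := .seq (.rep 5 (.push .b false)) (.seq (.rep 1 insV) (.rep 5 (mv .b .a)))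

theorem tfwV_run {q A I : ℕ} (hq : 1 ≤ q) (h1 : cn 1 = q) (h2 : cn 2 = A) (h3 : cn 3 = I)
    (h4 : cn 4 = (q - 1) * I) (h5 : cn 5 = A * (q * I)) (X R Out : List Bool)
    (hX : X.length = q * (A * I)) :
    tfwV.run cn (mk6 (X ++ R) Out [] [] [] []) =
      mk6 R ((tfwG q A I X q).reverse ++ Out) [] [] [] [] := by
  have := rep_inv (cn := cn) (i := 1) (v := insV)
    (fun p => mk6 (X.drop (p * (A * I)) ++ R) Out (tfwG q A I X p) [] [] []) h1 fun p hp => by
      rw [drop_row, List.append_assoc, insV_run hq h2 h3 h4 h5 _ _ _ _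
        (length_tfwG hq hX p hp.le) (length_row hX hp), tfwG]
  simp only [zero_mul, List.drop_zero, drop_all hX, List.nil_append] at this
  have hl := length_tfwG hq hX q le_rfl
  rw [tfwV, run_seq, run_seq, rep_push, upd_b, mk6_b, List.append_nil, h5]
  rw [tfwG] at this
  rw [this]
  simp [rep_mv, h5, takeD_all hl, drop_all hl]

/-! ### moving a digit outwards -/

def extV : V := .seq (.rep 2 (.seq (.rep 3 (mv .b .a))
  (.seq (.rep 4 (mv .b .c)) (.rep 3 (.push .c false))))) (.rep 5 (mv .c .b))

/-- the first blocks of all rows -/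
def fst (q A I : ℕ) (W : List Bool) : List Bool := cat (fun a => (row (q * I) W a).take I) A

theorem length_fst {q A I : ℕ} {W : List Bool} (hq : 1 ≤ q) (hW : W.length = A * (q * I)) :
    (fst q A I W).length = A * I :=
  length_cat fun _ ha => (split_row hq (length_row hW ha)).1

theorem row_replicate {A I a : ℕ} (ha : a < A) :
    row I (List.replicate (A * I) false) a = List.replicate I false :=
  ext_bit (by rw [length_row (O := A) (by simp) ha, List.length_replicate]) fun j hj => by
    rw [length_row (O := A) (by simp) ha] at hj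
    rw [bit_row _ _ hj, bit_replicate, bit_replicate]

theorem extV_run {q A I : ℕ} (hq : 1 ≤ q) (h2 : cn 2 = A) (h3 : cn 3 = I)
    (h4 : cn 4 = (q - 1) * I) (h5 : cn 5 = A * (q * I)) (W R Out : List Bool)
    (hW : W.length = A * (q * I)) :
    extV.run cn (mk6 R Out W [] [] []) = mk6 R ((fst q A I W).reverse ++ Out)
      (ins q A I W (List.replicate (A * I) false)) [] [] [] := by
  have := rep_inv (cn := cn) (i := 2)
    (v := .seq (.rep 3 (mv .b .a)) (.seq (.rep 4 (mv .b .c)) (.rep 3 (.push .c false))))
    (fun j => mk6 R ((cat (fun a => (row (q * I) W a).take I) j).reverse ++ Out)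
      (W.drop (j * (q * I))) (cat (fun a => (row (q * I) W a).drop I ++
        row I (List.replicate (A * I) false) a) j).reverse [] []) h2 fun j hj => by
      obtain ⟨e1, e2⟩ := split_row hq (length_row hW hj)
      rw [drop_row (q * I), cat_succ, cat_succ, row_replicate hj]
      conv_lhs => rw [← List.take_append_drop I (row (q * I) W j)]
      generalize (row (q * I) W j).take I = Y₁ at *
      generalize (row (q * I) W j).drop I = Y₂ at *
      simp [rep_mv, rep_push, h3, h4, takeD_app e1, drop_app e1, takeD_app e2, drop_app e2]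
  simp only [zero_mul, List.drop_zero, cat_zero, List.reverse_nil, drop_all hW,
    List.nil_append] at this
  have hl : (ins q A I W (List.replicate (A * I) false)).reverse.length = A * (q * I) := by
    rw [List.length_reverse, length_ins hq hW (by simp)]
  rw [extV, run_seq, this, ← ins, ← fst]
  simp [rep_mv, h5, takeD_all hl, drop_all hl]

def shW (q A I : ℕ) (X : List Bool) : ℕ → List Bool
  | 0 => X
  | p + 1 => ins q A I (shW q A I X p) (List.replicate (A * I) false)

theorem length_shW {q A I : ℕ} {X : List Bool} (hq : 1 ≤ q) (hX : X.length = A * (q * I)) :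
    ∀ p, (shW q A I X p).length = A * (q * I)
  | 0 => hX
  | p + 1 => length_ins hq (length_shW hq hX p) (by simp)

theorem bit_shW {q A I : ℕ} {X : List Bool} (hq : 1 ≤ q) (hX : X.length = A * (q * I)) :
    ∀ (p : ℕ) {a t i : ℕ}, a < A → t + p < q → i < I →
      bit (shW q A I X p) (a * (q * I) + (t * I + i)) = bit X (a * (q * I) + ((t + p) * I + i))
  | 0, _, _, _, _, _, _ => rfl
  | p + 1, a, t, i, ha, ht, hi => by
    rw [shW, bit_ins_lt (length_shW hq hX p) (by simp) ha (by omega) hi,
      bit_shW hq hX p ha (by omega) hi, add_right_comm t 1 p, add_assoc t p 1]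

def tbwG (q A I : ℕ) (X : List Bool) : List Bool := cat (fun p => fst q A I (shW q A I X p)) q

theorem length_tbwG {q A I : ℕ} {X : List Bool} (hq : 1 ≤ q) (hX : X.length = A * (q * I)) :
    (tbwG q A I X).length = q * (A * I) :=
  length_cat fun p _ => length_fst hq (length_shW hq hX p)

theorem bit_tbwG {q A I a δ i : ℕ} {X : List Bool} (hq : 1 ≤ q) (hX : X.length = A * (q * I))
    (ha : a < A) (hδ : δ < q) (hi : i < I) :
    bit (tbwG q A I X) (δ * (A * I) + (a * I + i)) = bit X (a * (q * I) + (δ * I + i)) := by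
  have h1 := bit_shW hq hX δ (t := 0) ha (by omega) hi
  rw [zero_mul, zero_add, zero_add] at h1
  rw [tbwG, bit_cat (fun p _ => length_fst hq (length_shW hq hX p)) hδ (idx_lt ha hi), fst,
    bit_cat (fun _ ha => (split_row hq (length_row (length_shW hq hX δ) ha)).1) ha hi,
    bit_take _ hi, bit_row _ _ (hi.trans_le (Nat.le_mul_of_pos_left I hq)), h1]

def tbwV : V := .seq (.rep 5 (mv .d .c)) (.seq (.rep 5 (mv .c .b))
  (.seq (.rep 1 extV) (.rep 5 (dr .b))))

theorem tbwV_run {q A I : ℕ} (hq : 1 ≤ q) (h1 : cn 1 = q) (h2 : cn 2 = A) (h3 : cn 3 = I)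
    (h4 : cn 4 = (q - 1) * I) (h5 : cn 5 = A * (q * I)) (X R Out : List Bool)
    (hX : X.length = A * (q * I)) :
    tbwV.run cn (mk6 (X ++ R) Out [] [] [] []) =
      mk6 R ((tbwG q A I X).reverse ++ Out) [] [] [] [] := by
  have := rep_inv (cn := cn) (i := 1) (v := extV)
    (fun p => mk6 R ((cat (fun p => fst q A I (shW q A I X p)) p).reverse ++ Out)
      (shW q A I X p) [] [] []) h1 fun p hp => by
      rw [extV_run hq h2 h3 h4 h5 _ _ _ (length_shW hq hX p), shW, cat_succ]
      simp
  simp only [cat_zero, List.reverse_nil, List.nil_append] at this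
  have hl := length_shW hq hX q
  have e : (V.rep 5 (mv .c .b)).run cn ((V.rep 5 (mv .d .c)).run cn (mk6 (X ++ R) Out [] [] [] [])) =
      mk6 R Out X [] [] [] := by
    simp [rep_mv, h5, takeD_app, takeD_all, drop_all, hX]
  rw [shW] at this
  rw [tbwV, run_seq, run_seq, run_seq, e, this, ← tbwG]
  simp [rep_dr, h5, drop_all hl]

theorem tbound {O q A I P : ℕ} (hP : 1 ≤ P) (hq : 1 ≤ q) (hA : 1 ≤ A) (hI : 1 ≤ I) :
    (1 : ℝ) ≤ q * P ∧ (P : ℝ) ≤ q * P ∧ (O : ℝ) ≤ q * (O * q * A * I) ∧
      (O : ℝ) * q ≤ q * (O * q * A * I) ∧ (O : ℝ) * q * A ≤ q * (O * q * A * I) ∧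
      (O : ℝ) * q * A * I ≤ q * (O * q * A * I) := by
  have h1 : 1 ≤ q * P := Nat.mul_pos hq hP
  have h2 : P ≤ q * P := Nat.le_mul_of_pos_left _ hq
  have h6 : O * q * A * I ≤ q * (O * q * A * I) := Nat.le_mul_of_pos_left _ hq
  have h5 : O * q * A ≤ q * (O * q * A * I) := (Nat.le_mul_of_pos_right _ hI).trans h6
  have h4 : O * q ≤ q * (O * q * A * I) := (Nat.le_mul_of_pos_right _ hA).trans h5
  have h3 : O ≤ q * (O * q * A * I) := (Nat.le_mul_of_pos_right _ hq).trans h4
  exact ⟨by exact_mod_cast h1, by exact_mod_cast h2, by exact_mod_cast h3, by exact_mod_cast h4,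
    by exact_mod_cast h5, by exact_mod_cast h6⟩

end Crest.Agent.IM.Mv
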