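import Crest.Agent.IM.P1

/-! TASK IM-P2. Address-dependent passes. The callback `e` is evaluated in `o :: xs`
(`Ex.cb (var _) c e`); use `Exec.loop_inv` with a non-empty output stack, and a final `vec` that
moves the output back. Evaluate the callback inside the counts of `vec` when possible (no bound
on counts is needed). Also `shl` and `tw` (which use `P3`-free or listed primitives only). -/

set_option autoImplicit false

namespace Crest.Agent.IM
open Mv

namespace P2

variable {cn : ℕ → ℕ}

def rotV : V := .seq (.rep 0 (mv .d .b)) (.seq (.rep 1 (mv .d .a))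
  (.seq (.rep 0 (mv .b .c)) (.rep 0 (mv .c .a))))

def rotG (A s : ℕ) (X : List Bool) : List Bool := X.drop (A - s) ++ X.take (A - s)

theorem length_rotG {A s : ℕ} {X : List Bool} (h : X.length = A) : (rotG A s X).length = A := by
  simp [rotG, h]

theorem bit_rotG {A s j : ℕ} {X : List Bool} (h : X.length = A) (hs : s < A) (hj : j < A) :
    bit (rotG A s X) ((j + s) % A) = bit X j := by
  by_cases hjs : j + s < A
  · rw [Nat.mod_eq_of_lt hjs, add_comm, rotG, bit_append_right _ (by simp; omega),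
      bit_take _ (by omega)]
  · rw [Nat.mod_eq_sub_mod (by omega), Nat.mod_eq_of_lt (by omega), rotG,
      bit_append_left _ (by simp; omega), bit_drop]
    congr 1; omega

theorem rotV_run {A s : ℕ} (hs : s ≤ A) (h0 : cn 0 = A - s) (h1 : cn 1 = s) (X R Out : List Bool)
    (hX : X.length = A) :
    rotV.run cn (mk6 (X ++ R) Out [] [] [] []) = mk6 R ((rotG A s X).reverse ++ Out) [] [] [] [] := by
  have e1 : (X.take (A - s)).length = A - s := by simp; omega
  have e2 : (X.drop (A - s)).length = s := by simp; omega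
  rw [rotG]
  conv_lhs => rw [← List.take_append_drop (A - s) X]
  generalize X.take (A - s) = X₁ at *
  generalize X.drop (A - s) = X₂ at *
  simp [rotV, rep_mv, h0, h1, takeD_app, takeD_all, drop_all, e1, e2]

def shlV : V := .seq (.rep 1 (.push .a false)) (.seq (.rep 2 (mv .d .a)) (.rep 1 (dr .d)))

def shlG (m m' : ℕ) (X : List Bool) : List Bool := List.replicate m false ++ X.take m'

theorem length_shlG {m m' : ℕ} {X : List Bool} (h : X.length = m + m') :
    (shlG m m' X).length = m + m' := by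
  simp [shlG, h]

theorem shlV_run {m m' : ℕ} (h1 : cn 1 = m) (h2 : cn 2 = m') (X R Out : List Bool)
    (hX : X.length = m + m') :
    shlV.run cn (mk6 (X ++ R) Out [] [] [] []) = mk6 R ((shlG m m' X).reverse ++ Out) [] [] [] [] := by
  have e1 : (X.take m').length = m' := by simp; omega
  have e2 : (X.drop m').length = m := by simp; omega
  rw [shlG]
  conv_lhs => rw [← List.take_append_drop m' X]
  generalize X.take m' = X₁ at *
  generalize X.drop m' = X₂ at *
  simp [shlV, rep_mv, rep_dr, rep_push, h1, h2, takeD_app, e1, e2]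

theorem back_run {i n : ℕ} (h : cn i = n) (X R : List Bool) (hX : X.length = n) :
    (V.rep i (mv .a .d)).run cn (mk6 R X.reverse [] [] [] []) = only (X ++ R) := by
  simp [rep_mv, h, takeD_all, drop_all, hX, only]

theorem pow_bound {O d n m I B k : ℕ} (hO : 1 ≤ O) (hI : 1 ≤ I) (hm : 1 ≤ m) (hn : n ≤ m)
    (hk : k ≤ d) (hB : O * m ^ d * I ≤ B) : n ^ k ≤ B := by
  calc n ^ k ≤ m ^ k := Nat.pow_le_pow_left hn k
    _ ≤ m ^ d := Nat.pow_le_pow_right hm hk
    _ ≤ O * m ^ d := Nat.le_mul_of_pos_left _ hO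
    _ ≤ O * m ^ d * I := Nat.le_mul_of_pos_right _ hI
    _ ≤ B := hB

end P2
open P2

/-- rotate row `o` by `e (o :: xs)` bits -/
theorem rot_ex (e : Ex) (nx : ℕ) : ∃ (p : Prog) (C : ℕ), ∀ (B P : ℕ) (r : Prog) (O A : ℕ)
    (xs : List ℕ) (L : List Bool), 1 ≤ P → xs.length = nx → 1 ≤ A → O * A ≤ B →
    L.length = O * A →
    ∃ L' : List Bool, L'.length = O * A ∧
      Top B P r p (O :: A :: xs) L L' (C * (O * A + O * P + P)) ∧
      ∀ o < O, ∀ j < A, bit L' (o * A + (j + e.ev B P (o :: xs)) % A) = bit L (o * A + j) := by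
  refine ⟨rloop (.var 1) [.var 2 - Ex.cb (.var 0) 3 e % .var 2, Ex.cb (.var 0) 3 e % .var 2] rotV
    [.var 1 * .var 2] (.rep 0 (mv .a .d)), 21, fun B P r O A xs L hP _ hA hB hL => ?_⟩
  have hl : ∀ o < O, (rotG A (e.ev B P (o :: xs) % A) (row A L o)).length = A :=
    fun o ho => length_rotG (length_row hL ho)
  refine ⟨cat (fun o => rotG A (e.ev B P (o :: xs) % A) (row A L o)) O, length_cat hl,
    ⟨O :: A :: xs, fun rest => ?_⟩, fun o ho j hj => ?_⟩
  · obtain ⟨c, h1, h2⟩ := rloop_exec (B := B) (P := P) r (eO := .var 1)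
      (cn := [.var 2 - Ex.cb (.var 0) 3 e % .var 2, Ex.cb (.var 0) 3 e % .var 2]) (v := rotV)
      (cnF := [.var 1 * .var 2]) (vF := .rep 0 (mv .a .d)) (base := O :: A :: xs) (O := O) (by simp)
      ((Nat.le_mul_of_pos_right _ hA).trans hB)
      (fun o => mk6 (L.drop (o * A) ++ rest)
        (cat (fun o => rotG A (e.ev B P (o :: xs) % A) (row A L o)) o).reverse [] [] [] [])
      (fun o => [A - e.ev B P (o :: xs) % A, e.ev B P (o :: xs) % A]) (fun o _ => by simp)
      (fun _ => 9 * A + 7)
      (fun o ho => by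
        rw [drop_row, List.append_assoc, rotV_run (Nat.mod_lt _ hA).le (by rfl) (by rfl) _ _ _
          (length_row hL ho), cat_succ, List.reverse_append])
      (fun o _ => by
        have := Nat.mod_lt (e.ev B P (o :: xs)) hA
        simp only [rotV, cost_seq, cost_rep, cost_mv, List.getD_cons_zero, List.getD_cons_succ]
        norm_cast; omega)
      (vsF := [O * A]) (by simp) (back_run (by rfl) _ _ (length_cat hl)) le_rfl
    simp only [zero_mul, List.drop_zero, cat_zero, List.reverse_nil, drop_all hL,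
      List.nil_append] at h2
    refine ⟨c, h1.trans ?_, h2⟩
    have hP' : (1 : ℝ) ≤ P := by exact_mod_cast hP
    have : (O : ℝ) ≤ O * P := le_mul_of_one_le_right (by positivity) hP'
    have : (0 : ℝ) ≤ O * A := by positivity
    have : (0 : ℝ) ≤ O := by positivity
    simp; nlinarith
  · rw [← Nat.add_mod_mod, bit_cat hl ho (Nat.mod_lt _ hA),
      bit_rotG (length_row hL ho) (Nat.mod_lt _ hA) hj, bit_row _ _ hj]

/-- create an array whose row `o` is `e (o :: xs)` ones (at most `A`) followed by zeros -/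
theorem fill_ex (e : Ex) (nx : ℕ) : ∃ (p : Prog) (C : ℕ), ∀ (B P : ℕ) (r : Prog) (O A : ℕ)
    (xs : List ℕ), 1 ≤ P → xs.length = nx → 1 ≤ A → O * A ≤ B →
    ∃ L' : List Bool, L'.length = O * A ∧
      Top B P r p (O :: A :: xs) [] L' (C * (O * A + O * P + P)) ∧
      ∀ o < O, ∀ j < A, bit L' (o * A + j) = decide (j < e.ev B P (o :: xs)) := by
  refine ⟨rloop (.var 1) [Ex.emin (Ex.cb (.var 0) 3 e) (.var 2), .var 2 - Ex.cb (.var 0) 3 e]
    (.seq (.rep 0 (.push .a true)) (.rep 1 (.push .a false)))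
    [.var 1 * .var 2] (.rep 0 (mv .a .d)), 21, fun B P r O A xs hP _ hA hB => ?_⟩
  set g : ℕ → List Bool := fun o => List.replicate (min (e.ev B P (o :: xs)) A) true ++
    List.replicate (A - e.ev B P (o :: xs)) false with hg
  have hl : ∀ o < O, (g o).length = A := fun o _ => by simp [hg]; omega
  refine ⟨cat g O, length_cat hl, ⟨O :: A :: xs, fun rest => ?_⟩, fun o ho j hj => ?_⟩
  · obtain ⟨c, h1, h2⟩ := rloop_exec (B := B) (P := P) r (eO := .var 1)
      (cn := [Ex.emin (Ex.cb (.var 0) 3 e) (.var 2), .var 2 - Ex.cb (.var 0) 3 e])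
      (v := .seq (.rep 0 (.push .a true)) (.rep 1 (.push .a false)))
      (cnF := [.var 1 * .var 2]) (vF := .rep 0 (mv .a .d)) (base := O :: A :: xs) (O := O) (by simp)
      ((Nat.le_mul_of_pos_right _ hA).trans hB)
      (fun o => mk6 rest (cat g o).reverse [] [] [] [])
      (fun o => [min (e.ev B P (o :: xs)) A, A - e.ev B P (o :: xs)]) (fun o _ => by simp)
      (fun _ => 2 * A + 3)
      (fun o ho => by simp [rep_push, cat_succ, hg])
      (fun o _ => by
        simp only [cost_seq, cost_rep, cost_push, List.getD_cons_zero, List.getD_cons_succ]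
        norm_cast; omega)
      (vsF := [O * A]) (by simp) (back_run (by rfl) _ _ (length_cat hl)) le_rfl
    refine ⟨c, h1.trans ?_, h2⟩
    have hP' : (1 : ℝ) ≤ P := by exact_mod_cast hP
    have : (O : ℝ) ≤ O * P := le_mul_of_one_le_right (by positivity) hP'
    have : (0 : ℝ) ≤ O * A := by positivity
    have : (0 : ℝ) ≤ O := by positivity
    simp; nlinarith
  · rw [bit_cat hl ho hj]
    by_cases h : j < e.ev B P (o :: xs)
    · rw [hg, bit_append_left _ (by simp; omega), bit_replicate' _ (by omega)]; simp [h]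
    · obtain ⟨k, rfl⟩ := Nat.exists_eq_add_of_le (not_lt.1 h)
      rw [hg, bit_append_right _ (by simp; omega), bit_replicate]; simp

/-- monotone gather: output row `j` is input row `e (j :: xs)` -/
theorem gath_ex (e : Ex) (nx : ℕ) : ∃ (p : Prog) (C : ℕ), ∀ (B P : ℕ) (r : Prog) (N' N I : ℕ)
    (xs : List ℕ) (L : List Bool), 1 ≤ P → xs.length = nx → 1 ≤ I → N ≤ B → N' ≤ B →
    L.length = N * I → (∀ j < N', e.ev B P (j :: xs) < N) →
    (∀ j, j + 1 < N' → e.ev B P (j :: xs) ≤ e.ev B P ((j + 1) :: xs)) →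
    ∃ L' : List Bool, L'.length = N' * I ∧
      Top B P r p (N' :: N :: I :: xs) L L' (C * (N * I + N' * I + N' * P + P)) ∧
      ∀ j < N', ∀ i < I, bit L' (j * I + i) = bit L (e.ev B P (j :: xs) * I + i) := by
  refine ⟨rloop (.var 1) [(Ex.cb (.var 0) 4 e - Ex.ite (.var 0) (Ex.cb (.var 0 - 1) 4 e) 0) * .var 3,
      .var 3] (.seq (.rep 0 (dr .d)) (.seq (.rep 1 (cp .d .a .b)) (.rep 1 (mv .b .d))))
    [(.var 2 - Ex.ite (.var 0) (Ex.cb (.var 0 - 1) 4 e) 0) * .var 3, .var 1 * .var 3]
    (.seq (.rep 0 (dr .d)) (.rep 1 (mv .a .d))), 21,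
    fun B P r N' N I xs L hP _ hI _ hB hL hlt hmono => ?_⟩
  set f : ℕ → ℕ := fun j => e.ev B P (j :: xs) with hf
  set pv : ℕ → ℕ := fun j => if j = 0 then 0 else f (j - 1) with hpv
  have pv_succ : ∀ j, pv (j + 1) = f j := fun j => by simp [hpv]
  have pv_le : ∀ j < N', pv j ≤ f j := fun j hj => by
    cases j with
    | zero => simp [hpv]
    | succ j => rw [pv_succ]; exact hmono j hj
  have pv_N : pv N' ≤ N := by
    cases N' with
    | zero => simp [hpv]
    | succ j => rw [pv_succ]; exact (hlt j (by omega)).le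
  have hdrop : ∀ a b : ℕ, a ≤ b → b ≤ N → ∀ R : List Bool,
      (L.drop (a * I) ++ R).drop ((b - a) * I) = L.drop (b * I) ++ R := fun a b hab hb R => by
    have h1 : a * I + (b - a) * I = b * I := by rw [← add_mul, Nat.add_sub_cancel' hab]
    have h2 : b * I ≤ N * I := Nat.mul_le_mul_right I hb
    rw [List.drop_append_of_le_length (by rw [List.length_drop, hL]; omega), List.drop_drop, h1]
  have hl : ∀ j < N', (row I L (f j)).length = I := fun j hj => length_row hL (hlt j hj)
  refine ⟨cat (fun j => row I L (f j)) N', length_cat hl, ⟨N' :: N :: I :: xs, fun rest => ?_⟩,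
    fun j hj i hi => ?_⟩
  · obtain ⟨c, h1, h2⟩ := rloop_exec (B := B) (P := P) r (eO := .var 1)
      (cn := [(Ex.cb (.var 0) 4 e - Ex.ite (.var 0) (Ex.cb (.var 0 - 1) 4 e) 0) * .var 3, .var 3])
      (v := .seq (.rep 0 (dr .d)) (.seq (.rep 1 (cp .d .a .b)) (.rep 1 (mv .b .d))))
      (cnF := [(.var 2 - Ex.ite (.var 0) (Ex.cb (.var 0 - 1) 4 e) 0) * .var 3, .var 1 * .var 3])
      (vF := .seq (.rep 0 (dr .d)) (.rep 1 (mv .a .d))) (base := N' :: N :: I :: xs) (O := N')
      (by simp) hB
      (fun j => mk6 (L.drop (pv j * I) ++ rest) (cat (fun j => row I L (f j)) j).reverse [] [] [] [])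
      (fun j => [(f j - pv j) * I, I]) (fun o _ => by simp [hf, hpv])
      (fun j => 3 * I * ((pv (j + 1) : ℝ) - pv j) + (8 * I + 5))
      (fun j hj => by
        have := hl j hj
        simp only [run_seq, rep_dr, List.getD_cons_zero, mk6_d, upd_d,
          hdrop _ _ (pv_le j hj) (hlt j hj).le, pv_succ]
        rw [drop_row, cat_succ]
        simp [rep_mv, rep_cp, takeD_app, takeD_all, drop_all, this])
      (fun j hj => by
        simp only [cost_seq, cost_rep, cost_mv, cost_dr, cost_cp, List.getD_cons_zero,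
          List.getD_cons_succ, pv_succ]
        push_cast [Nat.cast_sub (pv_le j hj)]
        linarith)
      (vsF := [(N - pv N') * I, N' * I]) (by simp [hf, hpv])
      (σ' := only (cat (fun j => row I L (f j)) N' ++ rest)) (by
        simp only [run_seq, rep_dr, List.getD_cons_zero, mk6_d, upd_d, hdrop _ _ pv_N le_rfl,
          drop_all hL, List.nil_append]
        exact back_run (by rfl) _ _ (length_cat hl)) le_rfl
    have e0 : pv 0 = 0 := by simp [hpv]
    simp only [e0, zero_mul, List.drop_zero, cat_zero, List.reverse_nil] at h2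
    refine ⟨c, h1.trans ?_, h2⟩
    rw [Finset.sum_add_distrib, ← Finset.mul_sum, Finset.sum_range_sub (fun j => (pv j : ℝ)), e0]
    simp only [cost_seq, cost_rep, cost_mv, cost_dr, List.getD_cons_zero, List.getD_cons_succ,
      Finset.sum_const, Finset.card_range, nsmul_eq_mul]
    push_cast [Nat.cast_sub pv_N]
    have hP' : (1 : ℝ) ≤ P := by exact_mod_cast hP
    have : (N' : ℝ) ≤ N' * P := le_mul_of_one_le_right (by positivity) hP'
    have : (0 : ℝ) ≤ N * I := by positivity
    have : (0 : ℝ) ≤ N' * I := by positivity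
    have : (0 : ℝ) ≤ N' := by positivity
    nlinarith
  · rw [bit_cat hl hj hi, bit_row _ _ hi]

/-- `O` consecutive sliced arrays are multiplied by `2 ^ D`
(`resize` to `w - D` slices, `resize` back, `rot` by `D * M`). -/
theorem shl_ex : ∃ (p : Prog) (C : ℕ), ∀ (B P : ℕ) (r : Prog) (O w M D : ℕ) (L : List Bool),
    1 ≤ P → 1 ≤ O → 1 ≤ w → 1 ≤ M → D ≤ w → O * (w * M) ≤ B → L.length = O * (w * M) →
    ∃ L' : List Bool, L'.length = O * (w * M) ∧
      Top B P r p [O, w, M, D] L L' (C * (O * (w * M) + O * P)) ∧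
      ∀ o < O, ∀ a < M, ∀ u : ℤ, WR w M (L.drop (o * (w * M))) a u →
        WR w M (L'.drop (o * (w * M))) a (2 ^ D * u) := by
  refine ⟨.vec [.var 0, .var 3 * .var 2, (.var 1 - .var 3) * .var 2,
      .var 0 * (.var 3 * .var 2 + (.var 1 - .var 3) * .var 2)]
    (.seq (.rep 0 shlV) (.rep 3 (mv .a .d))), 20,
    fun B P r O w M D L hP hO hw hM hD _ hL => ?_⟩
  obtain ⟨w', rfl⟩ := Nat.exists_eq_add_of_le hD
  rw [add_mul] at hL ⊢
  have hl : ∀ o < O, (shlG (D * M) (w' * M) (row (D * M + w' * M) L o)).length =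
      D * M + w' * M := fun o ho => length_shlG (length_row hL ho)
  refine ⟨cat (fun o => shlG (D * M) (w' * M) (row (D * M + w' * M) L o)) O, length_cat hl, ?_,
    fun o ho a ha u hu => ?_⟩
  · refine (Go.vec (vs := [O, D * M, w' * M, O * (D * M + w' * M)]) (by simp)
      (fun rest => ?_) le_rfl).top.mono ?_
    · exact rows_back (shlG (D * M) (w' * M)) (by rfl) (by rfl)
        (fun X R Out hX => shlV_run (by rfl) (by rfl) X R Out hX) (fun X hX => length_shlG hX)
        hL rest
    · simp only [shlV, cost_seq, cost_rep, cost_mv, cost_dr, cost_push, List.getD_cons_zero,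
        List.getD_cons_succ]
      push_cast
      have hP' : (1 : ℝ) ≤ P := by exact_mod_cast hP
      have hO' : (1 : ℝ) ≤ O := by exact_mod_cast hO
      have : (O : ℝ) ≤ O * P := le_mul_of_one_le_right (by positivity) hP'
      have : (P : ℝ) ≤ O * P := le_mul_of_one_le_left (by positivity) hO'
      have : (0 : ℝ) ≤ O * (D * M) := by positivity
      have : (0 : ℝ) ≤ O * (w' * M) := by positivity
      nlinarith
  · unfold WR at hu ⊢
    set L' := cat (fun o => shlG (D * M) (w' * M) (row (D * M + w' * M) L o)) O with hL'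
    have h1 : wd D M (L'.drop (o * (D * M + w' * M))) a = 0 := by
      refine Finset.sum_eq_zero fun β hβ => ?_
      have := idx_lt (Finset.mem_range.1 hβ) ha
      rw [bit_drop, hL', bit_cat hl ho (by omega), shlG, bit_append_left _ (by simpa using this),
        bit_replicate]
      simp
    have h2 : wd w' M ((L'.drop (o * (D * M + w' * M))).drop (D * M)) a =
        wd w' M (L.drop (o * (D * M + w' * M))) a := wd_congr fun β hβ => by
      have := idx_lt hβ ha
      rw [bit_drop, bit_drop, hL', bit_cat hl ho (by omega), shlG,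
        bit_append_right _ (by simp), bit_take _ this, bit_row _ _ (by omega), bit_drop]
    rw [wd_add, h1, h2]
    rw [add_comm D w', wd_add] at hu
    have h3 := hu.mul_left (2 ^ D)
    rw [add_comm w' D] at h3
    refine Int.ModEq.trans ?_ h3
    push_cast
    rw [zero_add, mul_add ((2 : ℤ) ^ D), ← mul_assoc ((2 : ℤ) ^ D), ← pow_add]
    exact (Int.modEq_iff_dvd.2 ⟨_, add_sub_cancel_left _ _⟩)

/-- complement a field (`rev` twice) -/
theorem compl_ex : ∃ (p : Prog) (C : ℕ), ∀ (B P : ℕ) (r : Prog) (O F I : ℕ) (L : List Bool),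
    1 ≤ P → 1 ≤ O → 1 ≤ F → 1 ≤ I → O * F * I ≤ B → L.length = O * F * I →
    ∃ L' : List Bool, L'.length = O * F * I ∧
      Top B P r p [O, F, I] L L' (C * (O * F * I + P)) ∧
      ∀ o < O, ∀ x < F, ∀ i < I,
        bit L' ((o * F + (F - 1 - x)) * I + i) = bit L ((o * F + x) * I + i) := by
  refine ⟨.vec [.var 0, .var 1, .var 2, .var 1 * .var 2, .var 0 * (.var 1 * .var 2)]
    (.seq (.rep 0 revV) (.rep 4 (mv .a .d))), 30,
    fun B P r O F I L hP hO hF hI _ hL => ?_⟩
  rw [mul_assoc] at hL
  have hl : ∀ o < O, (revG F I (row (F * I) L o)).length = F * I :=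
    fun o ho => length_revG (length_row hL ho)
  refine ⟨cat (fun o => revG F I (row (F * I) L o)) O, by rw [length_cat hl, mul_assoc], ?_,
    fun o ho x hx i hi => ?_⟩
  · refine (Go.vec (vs := [O, F, I, F * I, O * (F * I)]) (by simp) (fun rest => ?_)
      le_rfl).top.mono ?_
    · exact rows_back (revG F I) (by rfl) (by rfl)
        (fun X R Out hX => revV_run (by rfl) (by rfl) (by rfl) X R Out hX)
        (fun X hX => length_revG hX) hL rest
    · simp only [revV, cost_seq, cost_rep, cost_mv, List.getD_cons_zero, List.getD_cons_succ]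
      push_cast
      have hP' : (1 : ℝ) ≤ P := by exact_mod_cast hP
      have hF' : (1 : ℝ) ≤ F := by exact_mod_cast hF
      have hI' : (1 : ℝ) ≤ I := by exact_mod_cast hI
      have : (O : ℝ) ≤ O * F := le_mul_of_one_le_right (by positivity) hF'
      have : (O : ℝ) * F ≤ O * F * I := le_mul_of_one_le_right (by positivity) hI'
      have : (0 : ℝ) ≤ O := by positivity
      nlinarith
  · have e1 : (o * F + (F - 1 - x)) * I + i = o * (F * I) + ((F - 1 - x) * I + i) := by ring
    have e2 : (o * F + x) * I + i = o * (F * I) + (x * I + i) := by ring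
    rw [e1, e2, bit_cat hl ho (idx_lt (by omega) hi), bit_revG (length_row hL ho) hx hi,
      bit_row _ _ (idx_lt hx hi)]

/-- change the radix of `d` consecutive digits from `n` to `n'` (`d` calls of `resize`) -/
theorem rsz_ex : ∃ (p : Prog) (C : ℕ), ∀ (B P : ℕ) (r : Prog) (O d n n' I : ℕ) (L : List Bool),
    1 ≤ P → 1 ≤ O → 1 ≤ I → 2 ≤ n → 2 ≤ n' → O * (max n n') ^ d * I ≤ B →
    L.length = O * n ^ d * I →
    ∃ L' : List Bool, L'.length = O * n' ^ d * I ∧
      Top B P r p [O, d, n, n', I] L L' (C * (d + 1) * (O * (max n n' : ℕ) ^ d * I + P)) ∧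
      ∀ o < O, ∀ x : ℕ → ℕ, (∀ l < d, x l < n ∧ x l < n') → ∀ i < I,
        bit L' ((o * n' ^ d + mr (fun _ => n') 0 d x) * I + i) =
          bit L ((o * n ^ d + mr (fun _ => n) 0 d x) * I + i) := by
  obtain ⟨p, C, hp⟩ := resize_ex
  refine ⟨.lett 0 (.loop (.var 2) (.call [.var 1 * Ex.pow (.var 3) (.var 2 - .var 0 - 1),
      .var 3 * (Ex.pow (.var 4) (.var 0) * .var 5), .var 4 * (Ex.pow (.var 4) (.var 0) * .var 5)] p
      ;; .set 0 (.var 0 + 1))), 3 * C + 4, fun B P r O d n n' I L hP hO hI hn hn' hB hL => ?_⟩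
  generalize hm : max n n' = m at hB ⊢
  have hnm : n ≤ m := hm ▸ le_max_left _ _
  have hnm' : n' ≤ m := hm ▸ le_max_right _ _
  have hdB : d ≤ B := (Nat.lt_two_pow_self.le).trans
    (pow_bound hO hI (by omega) (hn.trans hnm) le_rfl hB)
  obtain ⟨env', L', h1, rfl, h2, h3⟩ := Go.loop (B := B) (P := P) (r := r) (e := .var 2)
    (p := .call [.var 1 * Ex.pow (.var 3) (.var 2 - .var 0 - 1),
      .var 3 * (Ex.pow (.var 4) (.var 0) * .var 5), .var 4 * (Ex.pow (.var 4) (.var 0) * .var 5)] p
      ;; .set 0 (.var 0 + 1)) (env := [0, O, d, n, n', I]) (L := L) (n := d) (by simp)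
    (fun l env X => env = [l, O, d, n, n', I] ∧ X.length = O * n ^ (d - l) * (n' ^ l * I) ∧
      ∀ o < O, ∀ x : ℕ → ℕ, (∀ l < d, x l < n ∧ x l < n') → ∀ i < I,
        bit X ((o * n ^ (d - l) + mr (fun _ => n) l d x) * (n' ^ l * I) +
          (mr (fun _ => n') 0 l x * I + i)) = bit L ((o * n ^ d + mr (fun _ => n) 0 d x) * I + i))
    (C * (3 * (O * m ^ d * I : ℕ) + P) + P + P + 1)
    ⟨rfl, by simpa using hL, fun o _ x _ i _ => by simp⟩
    (by
      rintro l hl _ X ⟨rfl, hX, hb⟩
      obtain ⟨k, rfl⟩ := Nat.exists_eq_add_of_lt hl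
      have e1 : l + k + 1 - l = k + 1 := by omega
      have e2 : l + k + 1 - (l + 1) = k := by omega
      have e3 : l + k + 1 - l - 1 = k := by omega
      rw [e1] at hX hb
      have b1 : O * n ^ k * (n * (n' ^ l * I)) ≤ O * m ^ (l + k + 1) * I := by
        calc _ ≤ O * m ^ k * (m * (m ^ l * I)) := by gcongr
          _ = _ := by ring
      have b2 : O * n ^ k * (n' * (n' ^ l * I)) ≤ O * m ^ (l + k + 1) * I := by
        calc _ ≤ O * m ^ k * (m * (m ^ l * I)) := by gcongr
          _ = _ := by ring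
      have p1 : 0 < O * n ^ k := by positivity
      have p2 : 0 < n * (n' ^ l * I) := by positivity
      have b3 : O * n ^ k ≤ O * m ^ (l + k + 1) * I := (Nat.le_mul_of_pos_right _ p2).trans b1
      obtain ⟨Y, hY, hT, hbY⟩ := hp B P r (O * n ^ k) (n * (n' ^ l * I)) (n' * (n' ^ l * I)) X hP
        (by rw [hX]; ring)
      have q1 : (Ex.pow (.var 3) (.var 2 - .var 0 - 1)).ev B P [l, O, l + k + 1, n, n', I] =
          n ^ k := by
        rw [Ex.ev_pow] <;> simp [e3, hn]
        exact pow_bound hO hI (by omega) hnm (by omega) hB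
      have q2 : (Ex.pow (.var 4) (.var 0)).ev B P [l, O, l + k + 1, n, n', I] = n' ^ l := by
        rw [Ex.ev_pow] <;> simp [hn']
        exact pow_bound hO hI (by omega) hnm' (by omega) hB
      refine ⟨_, Y, ((Go.call (by simp [q1, q2]) ?_ hT).seq
        (Go.set (v := l + 1) (by simp) (Or.inl (by omega)))).mono ?_, by simp, ?_, ?_⟩
      · intro v hv
        simp only [List.mem_cons, List.not_mem_nil, or_false] at hv
        rcases hv with rfl | rfl | rfl
        · exact Or.inl (b3.trans hB)
        · exact Or.inl (((Nat.le_mul_of_pos_left _ p1).trans b1).trans hB)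
        · exact Or.inl (((Nat.le_mul_of_pos_left _ p1).trans b2).trans hB)
      · have c1 : ((O * n ^ k : ℕ) : ℝ) * (n * (n' ^ l * I) : ℕ) ≤ (O * m ^ (l + k + 1) * I : ℕ) := by
          exact_mod_cast b1
        have c2 : ((O * n ^ k : ℕ) : ℝ) * (n' * (n' ^ l * I) : ℕ) ≤
            (O * m ^ (l + k + 1) * I : ℕ) := by exact_mod_cast b2
        have c3 : ((O * n ^ k : ℕ) : ℝ) ≤ (O * m ^ (l + k + 1) * I : ℕ) := by exact_mod_cast b3
        gcongr; linarith
      · rw [hY, e2]; ring
      · intro o ho x hx i hi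
        have m1 : mr (fun _ => n) (l + 1) (l + k + 1) x < n ^ k := by
          have := mr_lt (ns := fun _ => n) (a := l + 1) (b := l + k + 1) (x := x)
            fun i _ hi => (hx i hi).1
          rwa [pr_const, e2] at this
        have m2 : mr (fun _ => n') 0 l x < n' ^ l := by
          have := mr_lt (ns := fun _ => n') (a := 0) (b := l) (x := x)
            fun i _ hi => (hx i (by omega)).2
          rwa [pr_const] at this
        have j1 := idx_lt (hx l hl).1 (idx_lt m2 hi)
        have j2 := idx_lt (hx l hl).2 (idx_lt m2 hi)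
        have := hbY _ (idx_lt ho m1) _ j2
        rw [decide_eq_true j1, Bool.true_and] at this
        rw [← hb o ho x hx i hi, e2, mr_succ (Nat.zero_le l), pr_const,
          mr_split (Nat.le_succ l) (show l + 1 ≤ l + k + 1 by omega), mr_single, pr_single]
        convert this using 2
        · simp only [Nat.sub_zero]; ring
        · ring)
  refine ⟨L', by rw [h2]; simp [mul_assoc], ((Go.lett (v := 0) rfl (Or.inl (by omega)) h1).mono
    ?_).top, fun o ho x hx i hi => ?_⟩
  · have hP' : (1 : ℝ) ≤ P := by exact_mod_cast hP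
    push_cast
    generalize hT : (O : ℝ) * (m : ℝ) ^ d * I = T
    have hT0 : 0 ≤ T := hT ▸ (by positivity)
    have : (0 : ℝ) ≤ C := by positivity
    have : (0 : ℝ) ≤ d := by positivity
    have : (0 : ℝ) ≤ C * T := by positivity
    have : (0 : ℝ) ≤ C * P := by positivity
    have : (0 : ℝ) ≤ d * T := by positivity
    have : (0 : ℝ) ≤ d * (C * P) := by positivity
    have : (d : ℝ) ≤ d * P := le_mul_of_one_le_right (by positivity) hP'
    nlinarith
  · rw [← h3 o ho x hx i hi]
    congr 1
    simp; ring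

end Crest.Agent.IM
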