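import Crest.Agent.IM.P3A

/-! The single-`vec` arithmetic passes of `P3`. -/

set_option autoImplicit false
open Finset

namespace Crest.Agent.IM.P3

/-- conditional negation: state `(mask, carry, _)` -/
def gN (s : T3) (x _y : Bool) : T3 × Bool × Bool :=
  ((s.1, (x ^^ s.1) && s.2.1, false), ((x ^^ s.1) ^^ s.2.1), false)

/-- multiply-add and shift: state `(m, carry, previous y)` -/
def gM (s : T3) (x y : Bool) : T3 × Bool × Bool :=
  ((s.1, (x && (s.1 && y)) || (s.2.1 && (x ^^ (s.1 && y))), y), (x ^^ (s.1 && y)) ^^ s.2.1, s.2.2)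

theorem gN_spec (s : T3) (x y : Bool) : (gN s x y).1.1 = s.1 ∧
    ((x ^^ s.1).toNat : ℤ) + s.2.1.toNat =
      (gN s x y).2.1.toNat + 2 * (gN s x y).1.2.1.toNat := by
  obtain ⟨a, b, c⟩ := s
  cases a <;> cases b <;> cases x <;> simp [gN]

theorem gM_spec (s : T3) (x y : Bool) : (gM s x y).1.1 = s.1 ∧
    ((x.toNat : ℤ) + s.1.toNat * y.toNat + s.2.1.toNat =
      (gM s x y).2.1.toNat + 2 * (gM s x y).1.2.1.toNat) ∧
    (2 * (y.toNat : ℤ) + s.2.2.toNat =
      (gM s x y).2.2.toNat + 2 * (gM s x y).1.2.2.toNat) := by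
  obtain ⟨a, b, c⟩ := s
  cases a <;> cases b <;> cases c <;> cases x <;> cases y <;> simp [gM]

theorem st_fst (g : T3 → Bool → Bool → T3 × Bool × Bool) (hg : ∀ s x y, (g s x y).1.1 = s.1)
    (M : ℕ) (s : ℕ → T3) (d b : List Bool) (β j : ℕ) : (st g M s d b β j).1 = (s j).1 := by
  induction β with
  | zero => rfl
  | succ β ih => rw [st, hg, ih]

theorem neg_wd {w M a : ℕ} (ha : a < M) (m : ℕ → Bool) (d b : List Bool) :
    WR w M (tab (w * M) fun t => (out gN M (fun j => (m j, m j, false)) d b t).1) a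
      (if m a then -(wd w M d a : ℤ) else wd w M d a) := by
  have h := wd_chain (w := w) (M := M) (a := a)
    (Z := tab (w * M) fun t => (out gN M (fun j => (m j, m j, false)) d b t).1)
    (fun β => ((bit d (β * M + a) ^^ m a).toNat : ℤ))
    (fun β => (st gN M (fun j => (m j, m j, false)) d b β a).2.1.toNat) (fun β hβ => by
      rw [bit_tab _ (idx_lt hβ ha), out_eq _ _ _ _ _ ha, st]
      have := (gN_spec (st gN M (fun j => (m j, m j, false)) d b β a) (bit d (β * M + a))
        (bit b (β * M + a))).2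
      rwa [st_fst gN (fun s x y => (gN_spec s x y).1)] at this)
  refine h.congr ?_
  simp only [st, wd_cast]
  cases m a
  · simp
  · have : ∀ β, ((bit d (β * M + a) ^^ true).toNat : ℤ) = 1 - (bit d (β * M + a)).toNat :=
      fun β => by cases bit d (β * M + a) <;> simp
    simp only [this, sub_mul, one_mul, sum_sub_distrib, if_true]
    have h2 : ∑ β ∈ range w, (2 : ℤ) ^ β = 2 ^ w - 1 := by
      have := geom_sum_mul (2 : ℤ) w
      linarith
    rw [h2]
    exact Int.modEq_iff_dvd.2 ⟨-1, by simp; ring⟩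

theorem mad_wd {w M a : ℕ} (ha : a < M) (m : ℕ → Bool) (d b : List Bool) :
    WR w M (tab (w * M) fun t => (out gM M (fun j => (m j, false, false)) d b t).1) a
      (wd w M d a + (m a).toNat * wd w M b a) := by
  have h := wd_chain (w := w) (M := M) (a := a)
    (Z := tab (w * M) fun t => (out gM M (fun j => (m j, false, false)) d b t).1)
    (fun β => ((bit d (β * M + a)).toNat : ℤ) + (m a).toNat * (bit b (β * M + a)).toNat)
    (fun β => (st gM M (fun j => (m j, false, false)) d b β a).2.1.toNat) (fun β hβ => by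
      rw [bit_tab _ (idx_lt hβ ha), out_eq _ _ _ _ _ ha, st]
      have := (gM_spec (st gM M (fun j => (m j, false, false)) d b β a) (bit d (β * M + a))
        (bit b (β * M + a))).2.1
      rwa [st_fst gM (fun s x y => (gM_spec s x y).1)] at this)
  refine h.congr ?_
  simp only [st, wd_cast, add_mul, sum_add_distrib, mul_sum, mul_assoc]
  simp

theorem shl_wd {w M a : ℕ} (ha : a < M) (m : ℕ → Bool) (d b : List Bool) :
    WR w M (tab (w * M) fun t => (out gM M (fun j => (m j, false, false)) d b t).2) a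
      (2 * wd w M b a) := by
  have h := wd_chain (w := w) (M := M) (a := a)
    (Z := tab (w * M) fun t => (out gM M (fun j => (m j, false, false)) d b t).2)
    (fun β => 2 * ((bit b (β * M + a)).toNat : ℤ))
    (fun β => (st gM M (fun j => (m j, false, false)) d b β a).2.2.toNat) (fun β hβ => by
      rw [bit_tab _ (idx_lt hβ ha), out_eq _ _ _ _ _ ha, st]
      exact (gM_spec (st gM M (fun j => (m j, false, false)) d b β a) (bit d (β * M + a))
        (bit b (β * M + a))).2.2)
  refine h.congr ?_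
  simp only [st, wd_cast, mul_sum, mul_assoc]
  simp

/-! ### the programs; counts `0 ↦ w`, `1 ↦ M`, `2 ↦ 3 M`, `3 ↦ w M` -/

/-- conditional negation -/
def cnegV : V :=
  .seq (ini (fun x => (x, x, false)) 1 2) <| .seq (pass gN 0 1 2) <| .seq (.rep 3 (mv .a .d)) <|
    .seq (.rep 3 (pop .f)) (.rep 2 (pop .c))

theorem cnegV_cost {cn : ℕ → ℕ} {w M : ℕ} (h0 : cn 0 = w) (h1 : cn 1 = M) (h2 : cn 2 = 3 * M)
    (h3 : cn 3 = w * M) : cnegV.cost cn = 30 * (w * M) + 4 * w + 25 * M + 11 := by
  simp only [cnegV, V.cost, ini_cost, pass_cost, mv_cost, pop_cost, h0, h1, h2, h3]; ring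

theorem cnegV_run {cn : ℕ → ℕ} {w M : ℕ} (h0 : cn 0 = w) (h1 : cn 1 = M) (h2 : cn 2 = 3 * M)
    (h3 : cn 3 = w * M) {S X : List Bool} (hS : S.length = M) (hX : X.length = w * M) :
    ∃ Z : List Bool, Z.length = w * M ∧
      (∀ rest, cnegV.run cn (only (S ++ X ++ rest)) = only (Z ++ rest)) ∧
      ∀ a < M, ∀ u : ℤ, WR w M X a u → WR w M Z a (if bit S a then -u else u) := by
  refine ⟨tab (w * M) fun t => (out gN M (fun j => (bit S j, bit S j, false)) X [] t).1,
    by simp, fun rest => ?_, fun a ha u hu => (neg_wd ha _ X []).congr ?_⟩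
  · have e1 : ∀ β j, j < M → β ≤ w → st gN M (fun j => (bit S j, bit S j, false)) (X ++ rest) [] β j
        = st gN M (fun j => (bit S j, bit S j, false)) X [] β j := by
      intro β j hj hβ
      induction β with
      | zero => rfl
      | succ β ih =>
        rw [st, st, ih (by omega), bit_append_left _ (by rw [hX]; exact idx_lt (by omega) hj)]
    simp only [cnegV, seq_run, only]
    rw [ini_run _ h1 h2, List.append_assoc, List.drop_left' hS,
      enc_congr (s' := fun j => (bit S j, bit S j, false))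
        (fun j hj => by rw [bit_append_left _ (by omega)]),
      pass_run _ h0 h1 h2, mv_ad (h := by simp [h3]), pop_f, pop_c, h2, h3,
      List.drop_left' hX, List.drop_left' (by simp), List.drop_left' (by simp), List.drop_nil,
      tab_congr]
    intro t ht
    have hM : 0 < M := Nat.pos_of_ne_zero (by rintro rfl; simp at ht)
    rw [out, out, e1 _ _ (Nat.mod_lt _ hM) (Nat.div_le_of_le_mul (by rw [mul_comm]; exact ht.le)),
      bit_append_left _ (by omega)]
  · split_ifs
    · exact Int.ModEq.neg hu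
    · exact hu

/-- one multiply-add step: `d = A ++ …`, `b = X`, the multiplier bits are already in `c` -/
def madV : V :=
  .seq (pass gM 0 1 2) <| .seq (.rep 3 (mv .a .d)) <| .seq (.rep 3 (mv .f .b)) (.rep 2 (pop .c))

theorem madV_cost {cn : ℕ → ℕ} {w M : ℕ} (h0 : cn 0 = w) (h1 : cn 1 = M) (h2 : cn 2 = 3 * M)
    (h3 : cn 3 = w * M) : madV.cost cn = 30 * (w * M) + 4 * w + 9 * M + 7 := by
  simp only [madV, V.cost, pass_cost, mv_cost, pop_cost, h0, h1, h2, h3]; ring

theorem madV_run {cn : ℕ → ℕ} {w M : ℕ} (h0 : cn 0 = w) (h1 : cn 1 = M) (h2 : cn 2 = 3 * M)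
    (h3 : cn 3 = w * M) {A X : List Bool} (hA : A.length = w * M) (hX : X.length ≤ w * M)
    (m : ℕ → Bool) :
    ∃ Z X' : List Bool, Z.length = w * M ∧ X'.length = w * M ∧
      (∀ rest, madV.run cn (mk6 (A ++ rest) [] X (enc M fun j => (m j, false, false)) [] []) =
        mk6 (Z ++ rest) [] X' [] [] []) ∧
      ∀ a < M, WR w M Z a (wd w M A a + (m a).toNat * wd w M X a) ∧
        WR w M X' a (2 * wd w M X a) := by
  refine ⟨tab (w * M) fun t => (out gM M (fun j => (m j, false, false)) A X t).1,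
    tab (w * M) fun t => (out gM M (fun j => (m j, false, false)) A X t).2,
    by simp, by simp, fun rest => ?_, fun a ha => ⟨mad_wd ha _ A X, shl_wd ha _ A X⟩⟩
  have e1 : ∀ β j, j < M → β ≤ w → st gM M (fun j => (m j, false, false)) (A ++ rest) X β j
      = st gM M (fun j => (m j, false, false)) A X β j := by
    intro β j hj hβ
    induction β with
    | zero => rfl
    | succ β ih =>
      rw [st, st, ih (by omega), bit_append_left _ (by rw [hA]; exact idx_lt (by omega) hj)]
  have e2 : ∀ t < w * M, out gM M (fun j => (m j, false, false)) (A ++ rest) X t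
      = out gM M (fun j => (m j, false, false)) A X t := by
    intro t ht
    have hM : 0 < M := Nat.pos_of_ne_zero (by rintro rfl; simp at ht)
    rw [out, out, e1 _ _ (Nat.mod_lt _ hM) (Nat.div_le_of_le_mul (by rw [mul_comm]; exact ht.le)),
      bit_append_left _ (by omega)]
  simp only [madV, seq_run]
  rw [← List.append_nil (enc M _), pass_run _ h0 h1 h2, mv_ad (h := by simp [h3]),
    mv_fb (h := by simp [h3]), pop_c, h2, List.drop_left' hA, List.drop_left' (by simp),
    List.drop_eq_nil_of_le hX, List.append_nil,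
    tab_congr (fun t ht => congrArg Prod.fst (e2 t ht)),
    tab_congr (fun t ht => congrArg Prod.snd (e2 t ht))]

/-- addition -/
def addV : V :=
  .seq (.rep 3 (mv .d .a)) <| .seq (.rep 3 (mv .a .b)) <| .seq (.rep 1 (.push .d true)) <|
    .seq (ini (fun x => (x, false, false)) 1 2) <| .seq madV (.rep 3 (pop .b))

theorem addV_cost {cn : ℕ → ℕ} {w M : ℕ} (h0 : cn 0 = w) (h1 : cn 1 = M) (h2 : cn 2 = 3 * M)
    (h3 : cn 3 = w * M) : addV.cost cn = 39 * (w * M) + 4 * w + 27 * M + 19 := by
  simp only [addV, V.cost, ini_cost, madV_cost h0 h1 h2 h3, mv_cost, pop_cost, h1, h2, h3]; ring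

theorem bit_replicate_append {n j : ℕ} (x : Bool) (L : List Bool) (h : j < n) :
    bit (List.replicate n x ++ L) j = x := by
  rw [bit_append_left _ (by simpa using h), bit_eq_getElem (by simpa using h)]; simp

theorem addV_run {cn : ℕ → ℕ} {w M : ℕ} (h0 : cn 0 = w) (h1 : cn 1 = M) (h2 : cn 2 = 3 * M)
    (h3 : cn 3 = w * M) {X Y : List Bool} (hX : X.length = w * M) (hY : Y.length = w * M) :
    ∃ Z : List Bool, Z.length = w * M ∧
      (∀ rest, addV.run cn (only (X ++ Y ++ rest)) = only (Z ++ rest)) ∧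
      ∀ a < M, ∀ u v : ℤ, WR w M X a u → WR w M Y a v → WR w M Z a (u + v) := by
  obtain ⟨Z, X', hZ, hX', hrun, hw⟩ := madV_run h0 h1 h2 h3 hY hX.le (fun _ => true)
  refine ⟨Z, hZ, fun rest => ?_, fun a ha u v hu hv => (hw a ha).1.congr ?_⟩
  · simp only [addV, seq_run, only]
    rw [List.append_assoc, mv_da (h := by omega), mv_ab (h := by omega), push_d, ini_run _ h1 h2,
      h1, List.drop_left' (by simp), List.append_nil, List.append_nil,
      enc_congr (s' := fun _ => (true, false, false))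
        (fun j hj => by rw [bit_replicate_append _ _ hj]), hrun, pop_b, h3,
      List.drop_eq_nil_of_le hX'.le]
  · simpa [add_comm u] using Int.ModEq.add hv hu

/-- schoolbook step: fetch the next multiplier row from below the accumulator -/
def stepV : V :=
  .seq (.rep 3 (mv .d .f)) <| .seq (ini (fun x => (x, false, false)) 1 2) <|
    .seq (.rep 3 (mv .f .d)) madV

/-- schoolbook multiplication; counts `0 ↦ 2 m`, `4 ↦ m`, `5 ↦ m M` -/
def mulV : V :=
  .seq (.rep 5 (mv .d .a)) <| .seq (.rep 5 (mv .a .b)) <| .seq (.rep 3 (.push .d false)) <|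
    .seq (.rep 4 stepV) (.rep 3 (pop .b))

theorem mulV_cost {cn : ℕ → ℕ} {m M : ℕ} (h0 : cn 0 = 2 * m) (h1 : cn 1 = M) (h2 : cn 2 = 3 * M)
    (h3 : cn 3 = 2 * m * M) (h4 : cn 4 = m) (h5 : cn 5 = m * M) :
    mulV.cost cn = m * (72 * (m * M) + 8 * m + 25 * M + 16) + 16 * (m * M) + 9 := by
  simp only [mulV, stepV, V.cost, ini_cost, madV_cost h0 h1 h2 h3, mv_cost, pop_cost, h1, h2, h3,
    h4, h5]
  ring

theorem mulV_run {cn : ℕ → ℕ} {m M : ℕ} (h0 : cn 0 = 2 * m) (h1 : cn 1 = M) (h2 : cn 2 = 3 * M)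
    (h3 : cn 3 = 2 * m * M) (h4 : cn 4 = m) (h5 : cn 5 = m * M) {X Y : List Bool}
    (hX : X.length = m * M) (hY : Y.length = m * M) :
    ∃ Z : List Bool, Z.length = 2 * m * M ∧
      (∀ rest, mulV.run cn (only (X ++ Y ++ rest)) = only (Z ++ rest)) ∧
      ∀ a < M, wd (2 * m) M Z a = wd m M X a * wd m M Y a := by
  have hX0 : ∀ a, wd (2 * m) M X a = wd m M X a := fun a => by
    rw [two_mul, wd_add, List.drop_eq_nil_of_le hX.le]
    simp [wd, bit]
  have key : ∀ i ≤ m, ∃ A X' : List Bool, A.length = 2 * m * M ∧ X'.length ≤ 2 * m * M ∧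
      (∀ rest, (stepV.run cn)^[i]
        (mk6 (List.replicate (2 * m * M) false ++ (Y ++ rest)) [] X [] [] []) =
          mk6 (A ++ (Y.drop (i * M) ++ rest)) [] X' [] [] []) ∧
      ∀ a < M, WR (2 * m) M A a (wd m M X a * wd i M Y a) ∧
        WR (2 * m) M X' a (2 ^ i * wd m M X a) := by
    intro i hi
    induction i with
    | zero =>
      refine ⟨List.replicate (2 * m * M) false, X, by simp, by nlinarith, fun rest => by simp,
        fun a _ => ⟨?_, ?_⟩⟩
      · rw [WR, wd_replicate]; simp [wd]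
      · simp [WR, hX0]
    | succ i ih =>
      obtain ⟨A, X', hA, hX', hrun, hw⟩ := ih (by omega)
      obtain ⟨Z, X'', hZ, hX'', hrun', hw'⟩ := madV_run h0 h1 h2 h3 hA hX'
        (fun j => bit Y (i * M + j))
      refine ⟨Z, X'', hZ, hX''.le, fun rest => ?_, fun a ha => ⟨(hw' a ha).1.congr ?_,
        (hw' a ha).2.congr ?_⟩⟩
      · have hl : M ≤ (Y.drop (i * M)).length := by
          rw [List.length_drop, hY]
          have : (i + 1) * M ≤ m * M := Nat.mul_le_mul_right _ hi
          rw [add_mul] at this; omega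
        rw [Function.iterate_succ_apply', hrun]
        simp only [stepV, seq_run]
        rw [mv_df (h := by omega), ini_run _ h1 h2, mv_fd (h := by omega), List.append_nil,
          List.drop_append_of_le_length hl, List.drop_drop,
          enc_congr (s' := fun j => (bit Y (i * M + j), false, false))
            (fun j hj => by rw [bit_append_left _ (by omega), bit_drop]), hrun', add_mul, one_mul]
      · rw [wd_succ i M Y a]
        have := ((hw a ha).1).add (((hw a ha).2).mul_left ((bit Y (i * M + a)).toNat : ℤ))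
        refine Int.ModEq.trans this (by push_cast; ring_nf; rfl)
      · have := ((hw a ha).2).mul_left 2
        refine Int.ModEq.trans this (by ring_nf; rfl)
  obtain ⟨A, X', hA, hX', hrun, hw⟩ := key m le_rfl
  refine ⟨A, hA, fun rest => ?_, fun a ha => WR.eq_wd (by exact_mod_cast (hw a ha).1) ?_⟩
  · simp only [mulV, seq_run, only]
    rw [List.append_assoc, mv_da (h := by omega), mv_ab (h := by omega), push_d, h3,
      List.append_nil, rep_run _ _ h4, hrun, pop_b, h3, List.drop_eq_nil_of_le hX',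
      List.drop_eq_nil_of_le hY.le, List.nil_append]
  · rw [two_mul, pow_add]
    exact Nat.mul_lt_mul'' (wd_lt _ _ _ _) (wd_lt _ _ _ _)

/-- arithmetic shift; counts `0 ↦ D`, `1 ↦ M`, `2 ↦ D M`, `3 ↦ (w - D) M` -/
def asrV : V :=
  .seq (.rep 2 (pop .d)) <| .seq (.rep 3 (mv .d .a)) <|
    .seq (.rep 0 (.seq (.rep 1 dup) (.rep 1 (mv .c .a)))) (.rep 3 (mv .a .d))

theorem asrV_cost {cn : ℕ → ℕ} {D M N : ℕ} (h0 : cn 0 = D) (h1 : cn 1 = M) (h2 : cn 2 = D * M)
    (h3 : cn 3 = N) : asrV.cost cn = 11 * (D * M) + 6 * N + 4 * D + 7 := by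
  simp only [asrV, V.cost, dup_cost, mv_cost, pop_cost, h0, h1, h2, h3]; ring

theorem asrV_run {cn : ℕ → ℕ} {D M : ℕ} (h0 : cn 0 = D) (h1 : cn 1 = M) (h2 : cn 2 = D * M)
    {X Y R : List Bool} (hX : X.length = D * M) (h3 : cn 3 = (Y ++ R).length) (hR : R.length = M)
    (rest : List Bool) : asrV.run cn (only (X ++ (Y ++ R) ++ rest)) =
      only (Y ++ R ++ (List.replicate D R).flatten ++ rest) := by
  have key : ∀ i, ((V.seq (.rep 1 dup) (.rep 1 (mv .c .a))).run cn)^[i]
      (mk6 rest (R.reverse ++ Y.reverse) [] [] [] []) =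
        mk6 ((List.replicate i R).flatten ++ rest) (R.reverse ++ Y.reverse) [] [] [] [] := by
    intro i
    induction i with
    | zero => simp
    | succ i ih =>
      rw [Function.iterate_succ_apply', ih, seq_run, rep_run (n := R.reverse.length) dup _
        (by simp [h1, hR]), dup_iter, List.reverse_reverse, mv_ca (h := by omega)]
      simp [List.replicate_succ]
  simp only [asrV, seq_run, only]
  rw [pop_d, h2, List.append_assoc, List.drop_left' hX, mv_da (h := h3), rep_run _ _ h0,
    List.append_nil, List.reverse_append, key, ← List.reverse_append,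
    ← List.append_nil (Y ++ R).reverse, mv_ad (h := h3), List.append_assoc (Y ++ R)]

theorem bit_flatten_replicate {R : List Bool} {M D β a : ℕ} (hR : R.length = M) (hβ : β < D)
    (ha : a < M) : bit (List.replicate D R).flatten (β * M + a) = bit R a := by
  induction D generalizing β with
  | zero => omega
  | succ D ih =>
    rw [List.replicate_succ, List.flatten_cons]
    rcases β with _ | β
    · rw [zero_mul, zero_add, bit_append_left _ (by omega)]
    · rw [show (β + 1) * M + a = M + (β * M + a) by ring, bit_append_right _ hR, ih (by omega)]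

theorem asr_wd {D n M a : ℕ} (ha : a < M) {X Y R : List Bool} (hX : X.length = D * M)
    (hY : Y.length = n * M) (hR : R.length = M) {u : ℤ}
    (hu : WR (D + (n + 1)) M (X ++ (Y ++ R)) a u) (hb : 2 * |u| < 2 ^ (D + (n + 1))) :
    WR (D + (n + 1)) M (Y ++ R ++ (List.replicate D R).flatten) a (u / 2 ^ D) := by
  have hYR : (Y ++ R).length = (n + 1) * M := by simp [hY, hR]; ring
  have hs : bit (Y ++ R) (n * M + a) = bit R a := bit_append_right _ hY a
  have h1 : wd D M (List.replicate D R).flatten a + (bit R a).toNat = (bit R a).toNat * 2 ^ D := by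
    rw [wd, sum_congr rfl fun β hβ => by rw [bit_flatten_replicate hR (mem_range.1 hβ) ha],
      ← mul_sum, Nat.geomSum_eq le_rfl]
    have : 1 ≤ 2 ^ D := Nat.one_le_two_pow
    cases bit R a <;> simp
    omega
  unfold WR at hu ⊢
  rw [wd_add, List.drop_left' hX, wd_succ, hs] at hu
  rw [add_comm D (n + 1), wd_add, List.drop_left' hYR, wd_append_left _ hYR ha, wd_succ, hs]
  have h2 := wd_lt D M (X ++ (Y ++ R)) a
  have h3 := wd_lt n M (Y ++ R) a
  generalize wd D M (X ++ (Y ++ R)) a = x at *
  generalize wd n M (Y ++ R) a = y at *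
  generalize wd D M (List.replicate D R).flatten a = z at *
  have hs1 := Bool.toNat_le (bit R a)
  generalize (bit R a).toNat = s at *
  have hpD : (0 : ℤ) < 2 ^ D := by positivity
  have hpn : (0 : ℤ) < 2 ^ n := by positivity
  zify at h1 h2 h3
  have hx0 : (0 : ℤ) ≤ x := Int.natCast_nonneg x
  have hy0 : (0 : ℤ) ≤ y := Int.natCast_nonneg y
  have e : (2 : ℤ) ^ (D + (n + 1)) = 2 * (2 ^ D * 2 ^ n) := by ring
  have hu' : u = x + 2 ^ D * (y - s * 2 ^ n) := by
    have hd : (2 : ℤ) ^ (D + (n + 1)) ∣ u - (x + 2 ^ D * (y - s * 2 ^ n)) := by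
      obtain ⟨k, hk⟩ := hu.dvd
      push_cast at hk
      exact ⟨k + s, by rw [e] at hk ⊢; linear_combination hk⟩
    have hlt : (2 : ℤ) ^ D * (y + 1) ≤ 2 ^ D * 2 ^ n := by gcongr; omega
    have hy1 : (0 : ℤ) ≤ 2 ^ D * y := by positivity
    have := Int.eq_zero_of_abs_lt_dvd hd (by
      rw [e] at hb ⊢
      have := abs_lt.1 (show |u| < 2 ^ D * 2 ^ n by linarith)
      interval_cases s <;> rw [abs_lt] <;> constructor <;> push_cast <;> nlinarith)
    linarith
  rw [hu', Int.add_mul_ediv_left _ _ hpD.ne', Int.ediv_eq_zero_of_lt hx0 h2]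
  refine Int.modEq_iff_dvd.2 ⟨-s, ?_⟩
  push_cast
  linear_combination (-2 ^ (n + 1)) * h1

end Crest.Agent.IM.P3
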