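import Crest.Agent.IM.P2
import Crest.Agent.IM.P3B

/-! TASK IM-P3. Bit-sliced arithmetic (ripple carry with a carry row of `M` bits). -/

set_option autoImplicit false

namespace Crest.Agent.IM

theorem add2_ex : ∃ (p : Prog) (C : ℕ), ∀ (B P : ℕ) (r : Prog) (w M : ℕ) (X Y : List Bool),
    1 ≤ P → 1 ≤ w → 1 ≤ M → X.length = w * M → Y.length = w * M →
    ∃ Z : List Bool, Z.length = w * M ∧ Top B P r p [w, M] (X ++ Y) Z (C * (w * M + P)) ∧
      ∀ a < M, ∀ u v : ℤ, WR w M X a u → WR w M Y a v → WR w M Z a (u + v) := by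
  refine ⟨.vec [.var 0, .var 1, 3 * .var 1, .var 0 * .var 1] P3.addV, 100,
    fun B P r w M X Y hP hw hM hX hY => ?_⟩
  obtain ⟨Z, hZ, hrun, h⟩ := P3.addV_run (cn := fun i => [w, M, 3 * M, w * M].getD i 0)
    rfl rfl rfl rfl hX hY
  refine ⟨Z, hZ, ((Go.vec (vs := [w, M, 3 * M, w * M]) (by simp) hrun le_rfl).mono ?_).top, h⟩
  rw [P3.addV_cost (w := w) (M := M) rfl rfl rfl rfl]
  have h1 : w ≤ w * M := Nat.le_mul_of_pos_right _ hM
  have h2 : M ≤ w * M := Nat.le_mul_of_pos_left _ hw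
  exact_mod_cast (by omega : 39 * (w * M) + 4 * w + 27 * M + 19 + P ≤ 100 * (w * M + P))

/-- conditional negation `(x xor mask) + mask`; the mask row is consumed -/
theorem cneg_ex : ∃ (p : Prog) (C : ℕ), ∀ (B P : ℕ) (r : Prog) (w M : ℕ) (S X : List Bool),
    1 ≤ P → 1 ≤ w → 1 ≤ M → S.length = M → X.length = w * M →
    ∃ Z : List Bool, Z.length = w * M ∧ Top B P r p [w, M] (S ++ X) Z (C * (w * M + P)) ∧
      ∀ a < M, ∀ u : ℤ, WR w M X a u → WR w M Z a (if bit S a then -u else u) := by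
  refine ⟨.vec [.var 0, .var 1, 3 * .var 1, .var 0 * .var 1] P3.cnegV, 100,
    fun B P r w M S X hP hw hM hS hX => ?_⟩
  obtain ⟨Z, hZ, hrun, h⟩ := P3.cnegV_run (cn := fun i => [w, M, 3 * M, w * M].getD i 0)
    rfl rfl rfl rfl hS hX
  refine ⟨Z, hZ, ((Go.vec (vs := [w, M, 3 * M, w * M]) (by simp) hrun le_rfl).mono ?_).top, h⟩
  rw [P3.cnegV_cost (w := w) (M := M) rfl rfl rfl rfl]
  have h1 : w ≤ w * M := Nat.le_mul_of_pos_right _ hM
  have h2 : M ≤ w * M := Nat.le_mul_of_pos_left _ hw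
  exact_mod_cast (by omega : 30 * (w * M) + 4 * w + 25 * M + 11 + P ≤ 100 * (w * M + P))

theorem neg_ex : ∃ (p : Prog) (C : ℕ), ∀ (B P : ℕ) (r : Prog) (w M : ℕ) (X : List Bool),
    1 ≤ P → 1 ≤ w → 1 ≤ M → X.length = w * M →
    ∃ Z : List Bool, Z.length = w * M ∧ Top B P r p [w, M] X Z (C * (w * M + P)) ∧
      ∀ a < M, ∀ u : ℤ, WR w M X a u → WR w M Z a (-u) := by
  refine ⟨.vec [.var 0, .var 1, 3 * .var 1, .var 0 * .var 1]
    (.seq (.rep 1 (.push .d true)) P3.cnegV), 100, fun B P r w M X hP hw hM hX => ?_⟩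
  obtain ⟨Z, hZ, hrun, h⟩ := P3.cnegV_run (cn := fun i => [w, M, 3 * M, w * M].getD i 0)
    rfl rfl rfl rfl (S := List.replicate M true) (by simp) hX
  refine ⟨Z, hZ, ((Go.vec (vs := [w, M, 3 * M, w * M]) (by simp) (fun rest => ?_) le_rfl).mono
    ?_).top, fun a ha u hu => ?_⟩
  · rw [P3.seq_run, only, P3.push_d, ← hrun, List.append_assoc]; rfl
  · simp only [V.cost]
    rw [P3.cnegV_cost (w := w) (M := M) rfl rfl rfl rfl]
    have h1 : w ≤ w * M := Nat.le_mul_of_pos_right _ hM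
    have h2 : M ≤ w * M := Nat.le_mul_of_pos_left _ hw
    exact_mod_cast (by omega :
      M * (1 + 1) + 1 + (30 * (w * M) + 4 * w + 25 * M + 11) + 1 + P ≤ 100 * (w * M + P))
  · have := h a ha u hu
    rwa [← List.append_nil (List.replicate M true), P3.bit_replicate_append _ _ ha, if_pos rfl]
      at this

/-- arithmetic shift right: drop `D` slices, repeat the most significant slice `D` times -/
theorem asr_ex : ∃ (p : Prog) (C : ℕ), ∀ (B P : ℕ) (r : Prog) (w M D : ℕ) (X : List Bool),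
    1 ≤ P → 1 ≤ M → D < w → X.length = w * M →
    ∃ Z : List Bool, Z.length = w * M ∧ Top B P r p [w, M, D] X Z (C * (w * M + P)) ∧
      ∀ a < M, ∀ u : ℤ, WR w M X a u → 2 * |u| < 2 ^ w → WR w M Z a (u / 2 ^ D) := by
  refine ⟨.vec [.var 2, .var 1, .var 2 * .var 1, (.var 0 - .var 2) * .var 1] P3.asrV, 100,
    fun B P r w M D X hP hM hD hX => ?_⟩
  obtain ⟨n, rfl⟩ : ∃ n, w = D + (n + 1) := ⟨w - D - 1, by omega⟩
  obtain ⟨X₁, Y, R, rfl, h1, h2, h3⟩ : ∃ X₁ Y R : List Bool, X = X₁ ++ (Y ++ R) ∧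
      X₁.length = D * M ∧ Y.length = n * M ∧ R.length = M := by
    have e : (D + (n + 1)) * M = D * M + (n * M + M) := by ring
    refine ⟨X.take (D * M), (X.drop (D * M)).take (n * M), (X.drop (D * M)).drop (n * M),
      by rw [List.take_append_drop, List.take_append_drop], ?_, ?_, ?_⟩ <;>
      simp only [List.length_take, List.length_drop] <;> omega
  refine ⟨Y ++ R ++ (List.replicate D R).flatten, by simp [h2, h3]; ring,
    ((Go.vec (vs := [D, M, D * M, (n + 1) * M]) (by simp)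
      (P3.asrV_run (D := D) (M := M) rfl rfl rfl h1 (by simp [h2, h3]; ring) h3) le_rfl).mono ?_).top,
    fun a ha u hu hb => P3.asr_wd ha h1 h2 h3 hu hb⟩
  rw [P3.asrV_cost (D := D) (M := M) (N := (n + 1) * M) rfl rfl rfl rfl]
  have h4 : D ≤ D * M := Nat.le_mul_of_pos_right _ hM
  exact_mod_cast (by rw [add_mul D]; omega :
    11 * (D * M) + 6 * ((n + 1) * M) + 4 * D + 7 + P ≤ 100 * ((D + (n + 1)) * M + P))

/-- schoolbook multiplication (also for `m = 0`) -/
theorem school_ex : ∃ (p : Prog) (C : ℕ), ∀ (B P : ℕ) (r : Prog) (m M : ℕ),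
    1 ≤ P → 1 ≤ M → C * (m + 1) * M ≤ B → MulAt B P r p m M (C * (m + 1) * (m * M + P)) := by
  refine ⟨.vec [2 * .var 0, .var 1, 3 * .var 1, 2 * .var 0 * .var 1, .var 0, .var 0 * .var 1]
    P3.mulV, 200, fun B P r m M hP hM _ X Y hX hY => ?_⟩
  obtain ⟨Z, hZ, hrun, h⟩ := P3.mulV_run
    (cn := fun i => [2 * m, M, 3 * M, 2 * m * M, m, m * M].getD i 0) rfl rfl rfl rfl rfl rfl hX hY
  refine ⟨Z, hZ, ((Go.vec (vs := [2 * m, M, 3 * M, 2 * m * M, m, m * M]) (by simp) hrun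
    le_rfl).mono ?_).top, h⟩
  rw [P3.mulV_cost (m := m) (M := M) rfl rfl rfl rfl rfl rfl]
  have h1 : m ≤ m * M := Nat.le_mul_of_pos_right _ hM
  have h2 : m * m ≤ m * (m * M) := Nat.mul_le_mul_left _ h1
  exact_mod_cast (by nlinarith [Nat.zero_le (m * P), Nat.zero_le (m * (m * M))] :
    m * (72 * (m * M) + 8 * m + 25 * M + 16) + 16 * (m * M) + 9 + P ≤ 200 * (m + 1) * (m * M + P))

/-- Negacyclic rotation of the field of size `R` by `φ = e (o :: xs)` (any natural number):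
`rot` by `φ % R`, then two `cneg` with masks made by `fill`. -/
theorem tw_ex (e : Ex) (nx : ℕ) : ∃ (p : Prog) (C : ℕ), ∀ (B P : ℕ) (r : Prog) (w O R I : ℕ)
    (xs : List ℕ) (X : List Bool), 1 ≤ P → xs.length = nx → 1 ≤ w → 1 ≤ O → 1 ≤ R → 1 ≤ I →
    w * (O * R * I) ≤ B → X.length = w * (O * R * I) →
    ∃ Z : List Bool, Z.length = w * (O * R * I) ∧
      Top B P r p (w :: O :: R :: I :: xs) X Z (C * (w * (O * R * I) + w * O * P)) ∧
      ∀ o < O, ∀ j < R, ∀ i < I, ∀ u : ℤ, WR w (O * R * I) X ((o * R + j) * I + i) u →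
        WR w (O * R * I) Z ((o * R + (j + e.ev B P (o :: xs)) % R) * I + i)
          ((-1) ^ ((j + e.ev B P (o :: xs)) / R) * u) := by
  let φ : Ex := .cb (.var 0 % .var 1) 4 e
  obtain ⟨p₁, C₁, h₁⟩ := rot_ex (φ % .var 2 * .var 3) (nx + 3)
  obtain ⟨p₂, C₂, h₂⟩ := fill_ex (φ % .var 2 * .var 3) (nx + 3)
  obtain ⟨p₃, C₃, h₃⟩ := fill_ex (φ / .var 2 % 2 * (.var 2 * .var 3)) (nx + 3)
  obtain ⟨p₄, C₄, h₄⟩ := cneg_ex
  let fw : List Ex := .var 1 :: .var 2 :: .var 3 :: fwd 4 nx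
  refine ⟨.call (.var 0 * .var 1 :: .var 2 * .var 3 :: fw) p₁ ;;
    .call (.var 1 :: .var 2 * .var 3 :: fw) p₂ ;;
    .call [.var 0, .var 1 * .var 2 * .var 3] p₄ ;;
    .call (.var 1 :: .var 2 * .var 3 :: fw) p₃ ;;
    .call [.var 0, .var 1 * .var 2 * .var 3] p₄, 2 * (C₁ + C₂ + C₃ + C₄) + 9,
    fun B P r w O R I xs X hP hxs hw hO hR hI hB hX => ?_⟩
  have hRI : 1 ≤ R * I := Nat.mul_pos hR hI
  have hN : 1 ≤ O * R * I := Nat.mul_pos (Nat.mul_pos hO hR) hI
  have b1 : O * R * I ≤ w * (O * R * I) := Nat.le_mul_of_pos_left _ hw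
  have b2 : R * I ≤ O * R * I := by rw [mul_assoc]; exact Nat.le_mul_of_pos_left _ hO
  have b3 : w * O ≤ w * (O * R * I) := by
    rw [mul_assoc O]; exact Nat.mul_le_mul_left _ (Nat.le_mul_of_pos_right _ hRI)
  have b4 : O ≤ w * O := Nat.le_mul_of_pos_left _ hw
  have hfw : fw.map (fun a => a.ev B P (w :: O :: R :: I :: xs)) = O :: R :: I :: xs := by
    simp [fw, ev_fwd' (B := B) (P := P) (w :: O :: R :: I :: xs) (c := 4) (n := nx)
      (by simp [hxs]; ring)]
  have hok : ∀ a b : ℕ, a ≤ B → b ≤ B → ∀ v ∈ a :: b :: O :: R :: I :: xs,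
      Ok B (w :: O :: R :: I :: xs) v := by
    intro a b ha hb v hv
    rcases List.mem_cons.1 hv with rfl | hv
    · exact Or.inl ha
    rcases List.mem_cons.1 hv with rfl | hv
    · exact Or.inl hb
    exact Or.inr (List.mem_cons_of_mem _ hv)
  have hok' : ∀ v ∈ [w, O * R * I], Ok B (w :: O :: R :: I :: xs) v := by
    intro v hv
    simp only [List.mem_cons, List.not_mem_nil, or_false] at hv
    rcases hv with rfl | rfl
    · exact Or.inr List.mem_cons_self
    · exact Or.inl (by omega)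
  obtain ⟨X₁, l₁, t₁, s₁⟩ := h₁ B P r (w * O) (R * I) (O :: R :: I :: xs) X hP (by simp [hxs]) hRI
    (by rw [mul_assoc w, ← mul_assoc O]; exact hB) (by rw [hX]; ring)
  obtain ⟨S₁, l₂, t₂, s₂⟩ := h₂ B P r O (R * I) (O :: R :: I :: xs) hP (by simp [hxs]) hRI
    (by rw [← mul_assoc]; omega)
  obtain ⟨S₂, l₃, t₃, s₃⟩ := h₃ B P r O (R * I) (O :: R :: I :: xs) hP (by simp [hxs]) hRI
    (by rw [← mul_assoc]; omega)
  obtain ⟨X₂, l₄, t₄, s₄⟩ := h₄ B P r w (O * R * I) S₁ X₁ hP hw hN (by rw [l₂]; ring)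
    (by rw [l₁]; ring)
  obtain ⟨X₃, l₅, t₅, s₅⟩ := h₄ B P r w (O * R * I) S₂ X₂ hP hw hN (by rw [l₃]; ring) l₄
  have g₁ := Go.call (args := .var 0 * .var 1 :: .var 2 * .var 3 :: fw)
    (env := w :: O :: R :: I :: xs) (by simp [hfw]) (hok _ _ (by omega) (by omega)) t₁
  have g₂ := Go.call (args := .var 1 :: .var 2 * .var 3 :: fw)
    (env := w :: O :: R :: I :: xs) (by simp [hfw]) (hok _ _ (by omega) (by omega)) (t₂.frame X₁)
  have g₃ := Go.call (args := .var 1 :: .var 2 * .var 3 :: fw)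
    (env := w :: O :: R :: I :: xs) (by simp [hfw]) (hok _ _ (by omega) (by omega)) (t₃.frame X₂)
  have g₄ := Go.call (args := [.var 0, .var 1 * .var 2 * .var 3])
    (env := w :: O :: R :: I :: xs) (by simp) hok' t₄
  have g₅ := Go.call (args := [.var 0, .var 1 * .var 2 * .var 3])
    (env := w :: O :: R :: I :: xs) (by simp) hok' t₅
  refine ⟨X₃, l₅, ((g₁.seq (g₂.seq (g₄.seq (g₃.seq g₅)))).mono ?_).top,
    fun o ho j hj i hi u hu => ?_⟩
  · have c1 : P ≤ w * O * P := Nat.le_mul_of_pos_left _ (by omega)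
    have c2 : O * P ≤ w * O * P := Nat.mul_le_mul_right _ b4
    have k1 : w * O * (R * I) + w * O * P + P ≤ 2 * (w * (O * R * I) + w * O * P) := by
      have : w * O * (R * I) = w * (O * R * I) := by ring
      omega
    have k2 : O * (R * I) + O * P + P ≤ 2 * (w * (O * R * I) + w * O * P) := by
      rw [← mul_assoc]; omega
    have k3 : w * (O * R * I) + P ≤ w * (O * R * I) + w * O * P := by omega
    have k4 : 5 * P + 4 ≤ 9 * (w * (O * R * I) + w * O * P) := by omega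
    have k5 := Nat.mul_le_mul_left C₁ k1
    have k6 := Nat.mul_le_mul_left C₂ k2
    have k7 := Nat.mul_le_mul_left C₃ k2
    have k8 := Nat.mul_le_mul_left C₄ k3
    exact_mod_cast (by nlinarith : C₁ * (w * O * (R * I) + w * O * P + P) + P +
      (C₂ * (O * (R * I) + O * P + P) + P + (C₄ * (w * (O * R * I) + P) + P +
      (C₃ * (O * (R * I) + O * P + P) + P + (C₄ * (w * (O * R * I) + P) + P) + 1) + 1) + 1) + 1 ≤
      (2 * (C₁ + C₂ + C₃ + C₄) + 9) * (w * (O * R * I) + w * O * P))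
  · have hφ : ∀ β, φ.ev B P ((β * O + o) :: O :: R :: I :: xs) = e.ev B P (o :: xs) := fun β => by
      simp [φ, Nat.mod_eq_of_lt ho]
    have hφ0 := hφ 0
    rw [zero_mul, zero_add] at hφ0
    generalize e.ev B P (o :: xs) = t at hφ hφ0
    have hj' : (j + t) % R < R := Nat.mod_lt _ hR
    have hq : (j + t) % R * I + i < R * I := P3.idx_lt hj' hi
    have ea : (o * R + (j + t) % R) * I + i = o * (R * I) + ((j + t) % R * I + i) := by ring
    have ha : (o * R + (j + t) % R) * I + i < O * R * I := by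
      rw [ea, mul_assoc]; exact P3.idx_lt ho hq
    have w₁ : WR w (O * R * I) X₁ ((o * R + (j + t) % R) * I + i) u := hu.move fun β hβ => by
      have := s₁ (β * O + o) (P3.idx_lt hβ ho) (j * I + i) (P3.idx_lt hj hi)
      simp only [Ex.ev_mul, Ex.ev_mod, hφ, Ex.ev_var, List.getD_cons_succ, List.getD_cons_zero]
        at this
      have e1 : (j * I + i + t % R * I) % (R * I) = (j + t) % R * I + i := by
        rw [show j * I + i + t % R * I = i + I * (j + t % R) by ring, mul_comm R I, Nat.mod_mul,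
          Nat.add_mul_mod_self_left, Nat.mod_eq_of_lt hi, Nat.add_mul_div_left _ _ hI,
          Nat.div_eq_of_lt hi, zero_add, Nat.add_mod_mod]
        ring
      rw [e1] at this
      convert this using 2 <;> ring
    have m₁ : bit S₁ ((o * R + (j + t) % R) * I + i) = decide (R ≤ j + t % R) := by
      rw [ea, s₂ o ho _ hq]
      simp only [Ex.ev_mul, Ex.ev_mod, hφ0, Ex.ev_var, List.getD_cons_succ, List.getD_cons_zero]
      have h1 : t % R < R := Nat.mod_lt _ hR
      rw [← Nat.add_mod_mod, decide_eq_decide]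
      generalize t % R = s at *
      constructor
      · intro h
        by_contra hc
        rw [Nat.mod_eq_of_lt (by omega)] at h
        nlinarith
      · intro h
        rw [Nat.mod_eq_sub_mod h, Nat.mod_eq_of_lt (by omega)]
        exact P3.idx_lt (by omega) hi
    have m₂ : bit S₂ ((o * R + (j + t) % R) * I + i) = decide (t / R % 2 = 1) := by
      rw [ea, s₃ o ho _ hq]
      simp only [Ex.ev_mul, Ex.ev_mod, Ex.ev_div, hφ0, Ex.ev_var, List.getD_cons_succ,
        List.getD_cons_zero, Ex.ev_ofNat]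
      rcases Nat.mod_two_eq_zero_or_one (t / R) with h | h <;> simp [h, hq]
    have w₃ := s₅ _ ha _ (s₄ _ ha _ w₁)
    rw [m₁, m₂] at w₃
    convert w₃ using 1
    rw [Nat.add_div hR, Nat.div_eq_of_lt hj, Nat.mod_eq_of_lt hj, zero_add, pow_add]
    rcases Nat.mod_two_eq_zero_or_one (t / R) with h | h
    · rw [Even.neg_one_pow (Nat.even_iff.2 h)]
      by_cases h' : R ≤ j + t % R <;> simp [h, h']
    · rw [Odd.neg_one_pow (Nat.odd_iff.2 h)]
      by_cases h' : R ≤ j + t % R <;> simp [h, h']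

end Crest.Agent.IM
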