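import Crest.Agent.IM.Base

/-! Auxiliary vector programs for `P3`: moves, and a generic row-by-row transducer. -/

set_option autoImplicit false
open Finset

namespace Crest.Agent.IM.P3

/-- table of a function -/
def tab (n : ℕ) (h : ℕ → Bool) : List Bool := (List.range n).map h

@[simp] theorem length_tab (n : ℕ) (h : ℕ → Bool) : (tab n h).length = n := by simp [tab]

theorem bit_tab {n j : ℕ} (h : ℕ → Bool) (hj : j < n) : bit (tab n h) j = h j := by
  rw [bit_eq_getElem (by simpa using hj)]; simp [tab]

theorem tab_succ (n : ℕ) (h : ℕ → Bool) : tab (n + 1) h = h 0 :: tab n (fun j => h (j + 1)) := by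
  simp [tab, List.range_succ_eq_map, Function.comp_def]

theorem tab_add (m n : ℕ) (h : ℕ → Bool) :
    tab (m + n) h = tab m h ++ tab n (fun j => h (m + j)) := by
  simp [tab, List.range_add, Function.comp_def]

theorem tab_congr {n : ℕ} {h h' : ℕ → Bool} (H : ∀ j < n, h j = h' j) : tab n h = tab n h' :=
  List.map_congr_left fun j hj => H j (List.mem_range.1 hj)

/-- three state bits -/
abbrev T3 := Bool × Bool × Bool

/-- a row of states -/
def enc : ℕ → (ℕ → T3) → List Bool
  | 0, _ => []
  | n + 1, s => (s 0).1 :: (s 0).2.1 :: (s 0).2.2 :: enc n (fun j => s (j + 1))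

@[simp] theorem length_enc (n : ℕ) (s : ℕ → T3) : (enc n s).length = 3 * n := by
  induction n generalizing s with
  | zero => rfl
  | succ n ih => simp [enc, ih]; ring

theorem enc_congr {n : ℕ} {s s' : ℕ → T3} (H : ∀ j < n, s j = s' j) : enc n s = enc n s' := by
  induction n generalizing s s' with
  | zero => rfl
  | succ n ih => rw [enc, enc, H 0 (by omega), ih fun j hj => H (j + 1) (by omega)]

theorem bit_zero (L : List Bool) : bit L 0 = L.headD false := by cases L <;> rfl

theorem bit_tail (L : List Bool) (j : ℕ) : bit L.tail j = bit L (j + 1) := by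
  cases L <;> simp [bit]

/-- read a bit -/
def rd (k : K) (v : Bool → V) : V := .case k (v true) (v false)

theorem rd_run (cn : ℕ → ℕ) (k : K) (v : Bool → V) (s : St) :
    (rd k v).run cn s = (v ((s k).headD false)).run cn (Function.update s k (s k).tail) := by
  simp only [rd, V.run]
  cases (s k).headD false <;> simp

theorem rd_cost (cn : ℕ → ℕ) (k : K) (v : Bool → V) (x : ℕ) (h : ∀ b, (v b).cost cn = x) :
    (rd k v).cost cn = x + 1 := by simp [rd, V.cost, h]

/-- move a bit -/
def mv (k k' : K) : V := rd k (fun b => .push k' b)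

/-- pop a bit -/
def pop (k : K) : V := rd k (fun _ => .skip)

@[simp] theorem mv_cost (cn : ℕ → ℕ) (k k' : K) : (mv k k').cost cn = 2 := by
  simp [mv, rd, V.cost]

@[simp] theorem pop_cost (cn : ℕ → ℕ) (k : K) : (pop k).cost cn = 2 := by
  simp [pop, rd, V.cost]

theorem mv_iter (cn : ℕ → ℕ) {k k' : K} (h : k ≠ k') (L R : List Bool) (s : St)
    (hs : s k = L ++ R) : ((mv k k').run cn)^[L.length] s =
      Function.update (Function.update s k R) k' (L.reverse ++ s k') := by
  induction L generalizing s with
  | nil =>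
    have : R = s k := by simpa using hs.symm
    subst this
    simp
  | cons x L ih =>
    rw [List.length_cons, Function.iterate_succ_apply, ih]
    · funext j
      by_cases h1 : j = k'
      · subst h1; simp [mv, rd_run, V.run, hs, Function.update_of_ne h.symm]
      · by_cases h2 : j = k
        · subst h2; simp [Function.update_of_ne h1]
        · simp [mv, rd_run, V.run, Function.update_of_ne h1, Function.update_of_ne h2]
    · simp [mv, rd_run, V.run, hs, Function.update_of_ne h]

theorem pop_iter (cn : ℕ → ℕ) (k : K) (n : ℕ) (s : St) :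
    ((pop k).run cn)^[n] s = Function.update s k ((s k).drop n) := by
  induction n generalizing s with
  | zero => simp
  | succ n ih =>
    rw [Function.iterate_succ_apply, ih]
    simp [pop, rd_run, V.run]

theorem push_iter (cn : ℕ → ℕ) (k : K) (x : Bool) (n : ℕ) (s : St) :
    ((V.push k x).run cn)^[n] s = Function.update s k (List.replicate n x ++ s k) := by
  induction n with
  | zero => simp
  | succ n ih =>
    rw [Function.iterate_succ_apply', ih]
    simp [V.run, List.replicate_succ]

section moves
variable {cn : ℕ → ℕ} {i : ℕ} {L : List Bool} (d a b c e f : List Bool)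

theorem seq_run (u v : V) (s : St) : (V.seq u v).run cn s = v.run cn (u.run cn s) := rfl

theorem rep_run (v : V) (s : St) {n : ℕ} (h : cn i = n) :
    (V.rep i v).run cn s = (v.run cn)^[n] s := by subst h; rfl

theorem mv_da (h : cn i = L.length) :
    (V.rep i (mv .d .a)).run cn (mk6 (L ++ d) a b c e f) = mk6 d (L.reverse ++ a) b c e f := by
  rw [V.run, h, mv_iter cn (by decide) L d _ rfl]; simp

theorem mv_ad (h : cn i = L.length) :
    (V.rep i (mv .a .d)).run cn (mk6 d (L.reverse ++ a) b c e f) = mk6 (L ++ d) a b c e f := by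
  rw [V.run, h, ← L.length_reverse, mv_iter cn (by decide) L.reverse a _ rfl]; simp

theorem mv_ab (h : cn i = L.length) :
    (V.rep i (mv .a .b)).run cn (mk6 d (L.reverse ++ a) b c e f) = mk6 d a (L ++ b) c e f := by
  rw [V.run, h, ← L.length_reverse, mv_iter cn (by decide) L.reverse a _ rfl]; simp

theorem mv_df (h : cn i = L.length) :
    (V.rep i (mv .d .f)).run cn (mk6 (L ++ d) a b c e f) = mk6 d a b c e (L.reverse ++ f) := by
  rw [V.run, h, mv_iter cn (by decide) L d _ rfl]; simp

theorem mv_fd (h : cn i = L.length) :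
    (V.rep i (mv .f .d)).run cn (mk6 d a b c e (L.reverse ++ f)) = mk6 (L ++ d) a b c e f := by
  rw [V.run, h, ← L.length_reverse, mv_iter cn (by decide) L.reverse f _ rfl]; simp

theorem mv_fb (h : cn i = L.length) :
    (V.rep i (mv .f .b)).run cn (mk6 d a b c e (L.reverse ++ f)) = mk6 d a (L ++ b) c e f := by
  rw [V.run, h, ← L.length_reverse, mv_iter cn (by decide) L.reverse f _ rfl]; simp

theorem mv_ec (h : cn i = L.length) :
    (V.rep i (mv .e .c)).run cn (mk6 d a b c (L.reverse ++ e) f) = mk6 d a b (L ++ c) e f := by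
  rw [V.run, h, ← L.length_reverse, mv_iter cn (by decide) L.reverse e _ rfl]; simp

theorem mv_ca (h : cn i = L.length) :
    (V.rep i (mv .c .a)).run cn (mk6 d a b (L ++ c) e f) = mk6 d (L.reverse ++ a) b c e f := by
  rw [V.run, h, mv_iter cn (by decide) L c _ rfl]; simp

theorem pop_d : (V.rep i (pop .d)).run cn (mk6 d a b c e f) = mk6 (d.drop (cn i)) a b c e f := by
  rw [V.run, pop_iter]; simp

theorem pop_b : (V.rep i (pop .b)).run cn (mk6 d a b c e f) = mk6 d a (b.drop (cn i)) c e f := by
  rw [V.run, pop_iter]; simp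

theorem pop_c : (V.rep i (pop .c)).run cn (mk6 d a b c e f) = mk6 d a b (c.drop (cn i)) e f := by
  rw [V.run, pop_iter]; simp

theorem pop_f : (V.rep i (pop .f)).run cn (mk6 d a b c e f) = mk6 d a b c e (f.drop (cn i)) := by
  rw [V.run, pop_iter]; simp

theorem push_d (x : Bool) : (V.rep i (.push .d x)).run cn (mk6 d a b c e f) =
    mk6 (List.replicate (cn i) x ++ d) a b c e f := by
  rw [V.run, push_iter]; simp

end moves

/-! ### duplicating a row -/

/-- copy a bit from `a` to `d` and `c` -/
def dup : V := rd .a (fun x => .seq (.push .d x) (.push .c x))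

@[simp] theorem dup_cost (cn : ℕ → ℕ) : dup.cost cn = 4 := by simp [dup, rd, V.cost]

theorem dup_iter (cn : ℕ → ℕ) (L d a b c e f : List Bool) :
    (dup.run cn)^[L.length] (mk6 d (L ++ a) b c e f) =
      mk6 (L.reverse ++ d) a b (L.reverse ++ c) e f := by
  induction L generalizing d c with
  | nil => simp
  | cons x L ih =>
    rw [List.length_cons, Function.iterate_succ_apply]
    have : dup.run cn (mk6 d (x :: L ++ a) b c e f) = mk6 (x :: d) (L ++ a) b (x :: c) e f := by
      simp [dup, rd_run, V.run]
    rw [this, ih]; simp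

/-! ### the transducer -/

/-- push a state -/
def pushS (s : T3) : V := .seq (.push .e s.1) (.seq (.push .e s.2.1) (.push .e s.2.2))

/-- one cell: reads `x` from `d`, `y` from `b`, the state from `c`; writes to `a`, `f`, `e`. -/
def cell (g : T3 → Bool → Bool → T3 × Bool × Bool) : V :=
  rd .d fun x => rd .b fun y => rd .c fun s₁ => rd .c fun s₂ => rd .c fun s₃ =>
    .seq (.push .a (g (s₁, s₂, s₃) x y).2.1) (.seq (.push .f (g (s₁, s₂, s₃) x y).2.2)
      (pushS (g (s₁, s₂, s₃) x y).1))

@[simp] theorem cell_cost (cn : ℕ → ℕ) (g : T3 → Bool → Bool → T3 × Bool × Bool) :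
    (cell g).cost cn = 14 := by simp [cell, rd, V.cost, pushS]

theorem cell_iter (cn : ℕ → ℕ) (g : T3 → Bool → Bool → T3 × Bool × Bool) (n : ℕ) (s : ℕ → T3)
    (d a b c e f : List Bool) :
    ((cell g).run cn)^[n] (mk6 d a b (enc n s ++ c) e f) =
      mk6 (d.drop n) ((tab n fun j => (g (s j) (bit d j) (bit b j)).2.1).reverse ++ a) (b.drop n) c
        ((enc n fun j => (g (s j) (bit d j) (bit b j)).1).reverse ++ e)
        ((tab n fun j => (g (s j) (bit d j) (bit b j)).2.2).reverse ++ f) := by
  induction n generalizing s d a b e f with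
  | zero => simp [enc, tab]
  | succ n ih =>
    rw [Function.iterate_succ_apply]
    have : (cell g).run cn (mk6 d a b (enc (n + 1) s ++ c) e f) =
        mk6 d.tail ((g (s 0) (bit d 0) (bit b 0)).2.1 :: a) b.tail
          (enc n (fun j => s (j + 1)) ++ c)
          ((g (s 0) (bit d 0) (bit b 0)).1.2.2 :: (g (s 0) (bit d 0) (bit b 0)).1.2.1 ::
            (g (s 0) (bit d 0) (bit b 0)).1.1 :: e)
          ((g (s 0) (bit d 0) (bit b 0)).2.2 :: f) := by
      simp [cell, rd_run, V.run, pushS, enc, bit_zero]
    rw [this, ih]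
    simp [tab_succ, enc, bit_tail]

/-- states of the transducer before row `β` -/
def st (g : T3 → Bool → Bool → T3 × Bool × Bool) (M : ℕ) (s : ℕ → T3) (d b : List Bool) :
    ℕ → ℕ → T3
  | 0, j => s j
  | β + 1, j => (g (st g M s d b β j) (bit d (β * M + j)) (bit b (β * M + j))).1

/-- outputs of the transducer -/
def out (g : T3 → Bool → Bool → T3 × Bool × Bool) (M : ℕ) (s : ℕ → T3) (d b : List Bool)
    (t : ℕ) : Bool × Bool := (g (st g M s d b (t / M) (t % M)) (bit d t) (bit b t)).2

theorem out_eq (g : T3 → Bool → Bool → T3 × Bool × Bool) {M : ℕ} (s : ℕ → T3) (d b : List Bool)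
    (β : ℕ) {j : ℕ} (hj : j < M) : out g M s d b (β * M + j) =
      (g (st g M s d b β j) (bit d (β * M + j)) (bit b (β * M + j))).2 := by
  have h1 : (β * M + j) / M = β := by
    rw [add_comm, Nat.add_mul_div_right _ _ (by omega), Nat.div_eq_of_lt hj, zero_add]
  have h2 : (β * M + j) % M = j := by
    rw [add_comm, Nat.add_mul_mod_self_right, Nat.mod_eq_of_lt hj]
  rw [out, h1, h2]

/-- the pass: `cn i` rows of `cn j` lanes, `cn k = 3 * cn j` -/
def pass (g : T3 → Bool → Bool → T3 × Bool × Bool) (i j k : ℕ) : V :=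
  .rep i (.seq (.rep j (cell g)) (.rep k (mv .e .c)))

theorem pass_cost (cn : ℕ → ℕ) (g : T3 → Bool → Bool → T3 × Bool × Bool) (i j k : ℕ) :
    (pass g i j k).cost cn = cn i * (cn j * 15 + cn k * 3 + 4) + 1 := by
  simp only [pass, V.cost, cell_cost, mv_cost]; ring

theorem pass_run {cn : ℕ → ℕ} (g : T3 → Bool → Bool → T3 × Bool × Bool) {i j k w M : ℕ}
    (hi : cn i = w) (hj : cn j = M) (hk : cn k = 3 * M) (s : ℕ → T3) (d a b c e f : List Bool) :
    (pass g i j k).run cn (mk6 d a b (enc M s ++ c) e f) =
      mk6 (d.drop (w * M)) ((tab (w * M) fun t => (out g M s d b t).1).reverse ++ a)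
        (b.drop (w * M)) (enc M (st g M s d b w) ++ c) e
        ((tab (w * M) fun t => (out g M s d b t).2).reverse ++ f) := by
  rw [pass, V.run, hi]
  clear hi
  induction w with
  | zero =>
    have : st g M s d b 0 = s := by funext j; rfl
    simp [tab, this]
  | succ w ih =>
    rw [Function.iterate_succ_apply', ih, seq_run, rep_run _ _ hj, cell_iter,
      mv_ec (h := by simp [hk]), add_mul, one_mul, tab_add, tab_add]
    simp only [List.drop_drop, List.reverse_append, List.append_assoc, bit_drop]
    rw [tab_congr (h := fun j => (out g M s d b (w * M + j)).1)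
        (fun j hj => by rw [out_eq g s d b w hj]),
      tab_congr (h := fun j => (out g M s d b (w * M + j)).2)
        (fun j hj => by rw [out_eq g s d b w hj])]
    rfl

/-- initial states from a row of bits on `d` -/
def ini (h : Bool → T3) (j k : ℕ) : V :=
  .seq (.rep j (rd .d fun x => pushS (h x))) (.rep k (mv .e .c))

theorem ini_cost (cn : ℕ → ℕ) (h : Bool → T3) (j k : ℕ) :
    (ini h j k).cost cn = cn j * 7 + cn k * 3 + 3 := by
  simp [ini, V.cost, rd, pushS]; ring

theorem ini_run {cn : ℕ → ℕ} (h : Bool → T3) {j k M : ℕ} (hj : cn j = M) (hk : cn k = 3 * M)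
    (d a b c e f : List Bool) : (ini h j k).run cn (mk6 d a b c e f) =
      mk6 (d.drop M) a b (enc M (fun t => h (bit d t)) ++ c) e f := by
  have key : ∀ (n : ℕ) (d e : List Bool),
      ((rd .d fun x => pushS (h x)).run cn)^[n] (mk6 d a b c e f) =
        mk6 (d.drop n) a b c ((enc n fun t => h (bit d t)).reverse ++ e) f := by
    intro n
    induction n with
    | zero => intro d e; simp [enc]
    | succ n ih =>
      intro d e
      rw [Function.iterate_succ_apply]
      have : (rd .d fun x => pushS (h x)).run cn (mk6 d a b c e f) =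
          mk6 d.tail a b c ((h (bit d 0)).2.2 :: (h (bit d 0)).2.1 :: (h (bit d 0)).1 :: e) f := by
        simp [rd_run, V.run, pushS, bit_zero]
      rw [this, ih]
      simp [enc, bit_tail]
  rw [ini, seq_run, rep_run _ _ hj, key, mv_ec (h := by simp [hk])]

/-! ### carry chains -/

theorem chain (w : ℕ) (o t c : ℕ → ℤ) (h : ∀ β < w, t β + c β = o β + 2 * c (β + 1)) :
    ∑ β ∈ range w, o β * 2 ^ β + 2 ^ w * c w = ∑ β ∈ range w, t β * 2 ^ β + c 0 := by
  induction w with
  | zero => simp
  | succ w ih =>
    have h1 := ih fun β hβ => h β (by omega)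
    have h2 := h w (by omega)
    rw [sum_range_succ, sum_range_succ]
    linear_combination h1 - 2 ^ w * h2

theorem wd_cast (w M : ℕ) (L : List Bool) (a : ℕ) :
    (wd w M L a : ℤ) = ∑ β ∈ range w, ((bit L (β * M + a)).toNat : ℤ) * 2 ^ β := by
  simp [wd]

theorem wd_chain {w M : ℕ} {Z : List Bool} {a : ℕ} (t c : ℕ → ℤ)
    (h : ∀ β < w, t β + c β = (bit Z (β * M + a)).toNat + 2 * c (β + 1)) :
    WR w M Z a (∑ β ∈ range w, t β * 2 ^ β + c 0) := by
  unfold WR
  rw [← chain w _ t c h, wd_cast]
  exact (Int.modEq_iff_dvd.2 ⟨c w, by ring⟩)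

theorem idx_lt {w M β a : ℕ} (hβ : β < w) (ha : a < M) : β * M + a < w * M := by nlinarith

end Crest.Agent.IM.P3
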