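import Crest.Agent.IM.P3

/-! TASK IM-P4. Derived passes (compose `P1`-`P3` with `Go.seq`, `Go.call`, `Go.loop`). -/

set_option autoImplicit false

namespace Crest.Agent.IM

namespace Q4

theorem cle (C : ℕ) {x y : ℝ} (h : x ≤ y) : C * x ≤ C * y :=
  mul_le_mul_of_nonneg_left h (Nat.cast_nonneg C)

theorem lt_mul {a A b B : ℕ} (h : a < A) (h' : b < B) : a * B + b < A * B := by nlinarith

theorem one_le {k : ℕ} (h : 0 < k) : 1 ≤ k := h

theorem le_of_mul {x y B : ℕ} (k : ℕ) (hk : 1 ≤ k) (h : y ≤ B) (e : y = x * k) : x ≤ B := by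
  subst e; nlinarith

/-- xor of `c` layers, at positions where at most one layer is set -/
theorem xorAll_ex : ∃ (p : Prog) (C : ℕ), ∀ (B P : ℕ) (r : Prog) (c N : ℕ) (L : List Bool),
    1 ≤ P → 1 ≤ c → L.length = c * N →
    ∃ Z : List Bool, Z.length = N ∧ Top B P r p [c, N] L Z (C * c * (N + P)) ∧
      ∀ j < N, ∀ δ₀ < c, (∀ δ < c, δ ≠ δ₀ → bit L (δ * N + j) = false) →
        bit Z j = bit L (δ₀ * N + j) := by
  obtain ⟨p, C, hp⟩ := xor2_ex
  refine ⟨.loop (.var 0 - 1) (.call [.var 1] p), C + 3, fun B P r c N L hP hc hL => ?_⟩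
  obtain ⟨c, rfl⟩ : ∃ c', c = c' + 1 := ⟨c - 1, by omega⟩
  obtain ⟨env', L', h1, rfl, Z, hZ, rfl, h2⟩ := Go.loop (B := B) (P := P) (r := r)
    (p := .call [.var 1] p) (e := .var 0 - 1) (env := [c + 1, N]) (L := L) (n := c) (by simp)
    (fun k env M => env = [c + 1, N] ∧ ∃ Z : List Bool, Z.length = N ∧
      M = Z ++ L.drop ((k + 1) * N) ∧ ∀ j < N, ∀ δ₀ < c + 1,
        (∀ δ < c + 1, δ ≠ δ₀ → bit L (δ * N + j) = false) →
          bit Z j = (decide (δ₀ ≤ k) && bit L (δ₀ * N + j)))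
    (C * (N + P) + P)
    ⟨rfl, L.take N, by rw [List.length_take, hL]; exact min_eq_left (by nlinarith), by simp,
      fun j hj δ₀ h0 h => by
        rw [bit_take _ hj]
        rcases Nat.eq_zero_or_pos δ₀ with rfl | h1
        · simp
        · have := h 0 (by omega) (by omega)
          simp only [zero_mul, zero_add] at this
          simp [this, h1.ne']⟩
    (by
      rintro k hk env M ⟨rfl, Z, hZ, rfl, h⟩
      have hl : N ≤ (L.drop ((k + 1) * N)).length := by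
        rw [List.length_drop, hL]
        have : (k + 1) * N + N ≤ (c + 1) * N := by nlinarith
        omega
      obtain ⟨Z', hZ', t, hb⟩ := hp B P r N Z ((L.drop ((k + 1) * N)).take N) hP hZ
        (by rw [List.length_take]; exact min_eq_left hl)
      refine ⟨_, Z' ++ L.drop ((k + 1 + 1) * N), ?_, rfl, Z', hZ', rfl, fun j hj δ₀ h0 h' => ?_⟩
      · have := (Go.call (args := [.var 1]) (env := [c + 1, N]) rfl (by simp [Ok]) t).frame
          (L.drop ((k + 1 + 1) * N))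
        convert this using 1
        rw [List.append_assoc, add_mul (k + 1) 1 N, one_mul, ← List.drop_drop,
          List.take_append_drop]
      · rw [hb j hj, h j hj δ₀ h0 h', bit_take _ hj, bit_drop]
        by_cases e : δ₀ = k + 1
        · subst e; simp
        · rw [h' (k + 1) (by omega) (Ne.symm e)]
          have : decide (δ₀ ≤ k + 1) = decide (δ₀ ≤ k) := by
            rw [decide_eq_decide]; omega
          simp [this])
  rw [List.drop_of_length_le hL.le, List.append_nil] at h1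
  refine ⟨Z, hZ, h1.top.mono ?_, fun j hj δ₀ h0 h => ?_⟩
  · have h3 : (1 : ℝ) ≤ P := by exact_mod_cast hP
    have h4 : (0 : ℝ) ≤ N := Nat.cast_nonneg _
    have h5 : (0 : ℝ) ≤ c := Nat.cast_nonneg _
    have h6 : (0 : ℝ) ≤ C * (N + P) := by positivity
    push_cast
    nlinarith [mul_nonneg h5 h4, mul_nonneg h5 (sub_nonneg.2 h3)]
  · rw [h2 j hj δ₀ h0 h]
    simp [Nat.lt_succ_iff.1 h0]

/-- `c` copies -/
theorem copies_ex : ∃ (p : Prog) (C : ℕ), ∀ (B P : ℕ) (r : Prog) (c N : ℕ) (L : List Bool),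
    1 ≤ P → 1 ≤ c → L.length = N →
    ∃ Z : List Bool, Z.length = c * N ∧ Top B P r p [c, N] L Z (C * c * (N + P)) ∧
      ∀ δ < c, ∀ j < N, bit Z (δ * N + j) = bit L j := by
  obtain ⟨p, C, hp⟩ := pick_ex
  refine ⟨.loop (.var 0 - 1) (.call [0, .var 1] p), C + 3, fun B P r c N L hP hc hL => ?_⟩
  obtain ⟨c, rfl⟩ : ∃ c', c = c' + 1 := ⟨c - 1, by omega⟩
  obtain ⟨env', L', h1, rfl, Z, rfl, hZ, h2⟩ := Go.loop (B := B) (P := P) (r := r)
    (p := .call [0, .var 1] p) (e := .var 0 - 1) (env := [c + 1, N]) (L := L) (n := c) (by simp)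
    (fun k env M => env = [c + 1, N] ∧ ∃ Z : List Bool, M = L ++ Z ∧ Z.length = k * N ∧
      ∀ δ < k + 1, ∀ j < N, bit (L ++ Z) (δ * N + j) = bit L j)
    (C * (N + P) + P)
    ⟨rfl, [], by simp, by simp, fun δ hδ j hj => by
      obtain rfl : δ = 0 := by omega
      simp⟩
    (by
      rintro k hk env M ⟨rfl, Z, rfl, hZ, h⟩
      have t := hp B P r 0 N [] L hP rfl hL
      refine ⟨_, L ++ (L ++ Z), ?_, rfl, L ++ Z, rfl, by simp [hL, hZ]; ring,
        fun δ hδ j hj => ?_⟩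
      · have := (Go.call (args := [0, .var 1]) (env := [c + 1, N]) rfl (by simp [Ok]) t).frame Z
        simpa using this
      · rcases δ with _ | δ
        · rw [zero_mul, zero_add, bit_append_left _ (by omega)]
        · rw [show (δ + 1) * N + j = N + (δ * N + j) by ring, bit_append_right _ hL,
            h δ (by omega) j hj])
  refine ⟨L ++ Z, by simp [hL, hZ]; ring, h1.top.mono ?_, h2⟩
  have h3 : (1 : ℝ) ≤ P := by exact_mod_cast hP
  have h4 : (0 : ℝ) ≤ N := Nat.cast_nonneg _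
  have h5 : (0 : ℝ) ≤ c := Nat.cast_nonneg _
  have h6 : (0 : ℝ) ≤ C * (N + P) := by positivity
  push_cast
  nlinarith [mul_nonneg h5 h4, mul_nonneg h5 (sub_nonneg.2 h3)]

/-- add or subtract array `k` to the accumulator -/
theorem acc_ex (k : ℕ) (sg : Bool) : ∃ (p : Prog) (C : ℕ), ∀ (B P : ℕ) (r : Prog) (w M : ℕ)
    (A L : List Bool), 1 ≤ P → 1 ≤ w → 1 ≤ M → (k + 1) * (w * M) ≤ B → A.length = w * M →
    (k + 1) * (w * M) ≤ L.length →
    ∃ Z : List Bool, Z.length = w * M ∧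
      Go B P r p [w, M] (A ++ L) [w, M] (Z ++ L) (C * (w * M + P)) ∧
      ∀ j < M, ∀ u v : ℤ, WR w M A j u → WR w M (L.drop (k * (w * M))) j v →
        WR w M Z j ((if sg then -v else v) + u) := by
  obtain ⟨p₁, C₁, h₁⟩ := pick_ex
  obtain ⟨p₂, C₂, h₂⟩ := neg_ex
  obtain ⟨p₃, C₃, h₃⟩ := add2_ex
  refine ⟨.call [.cst (k + 1) * (.var 0 * .var 1), .var 0 * .var 1] p₁ ;;
    (if sg then .call [.var 0, .var 1] p₂ else .skip) ;; .call [.var 0, .var 1] p₃,
    C₁ * (k + 2) + C₂ + C₃ + 6, fun B P r w M A L hP hw hM hB hA hL => ?_⟩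
  set N := w * M with hN
  have hNB : N ≤ B := le_trans (by nlinarith) hB
  have hkN : k * N + N ≤ L.length := by rw [← add_one_mul]; exact hL
  set X := (L.drop (k * N)).take N with hX
  have hXl : X.length = N := by
    rw [hX, List.length_take, List.length_drop]; omega
  have hLe : L = L.take (k * N) ++ X ++ (L.drop (k * N)).drop N := by
    rw [List.append_assoc, hX, List.take_append_drop, List.take_append_drop]
  have t1 := h₁ B P r ((k + 1) * N) N (A ++ L.take (k * N)) X hP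
    (by rw [List.length_append, hA, List.length_take, min_eq_left (by omega)]; ring) hXl
  have g1 : Go B P r (.call [.cst (k + 1) * (.var 0 * .var 1), .var 0 * .var 1] p₁) [w, M]
      (A ++ L) [w, M] (X ++ (A ++ L)) (C₁ * (((k + 1) * N : ℕ) + (N : ℕ) + P) + P) := by
    have := (Go.call (args := [.cst (k + 1) * (.var 0 * .var 1), .var 0 * .var 1])
      (env := [w, M]) (vs := [(k + 1) * N, N]) rfl (by simp [Ok, hB, hNB]) t1).frame ((L.drop (k * N)).drop N)
    simp only [List.append_assoc] at this hLe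
    rw [← hLe] at this
    exact this
  have hT1 : (1 : ℝ) ≤ P := by exact_mod_cast hP
  have hT0 : (0 : ℝ) ≤ (w : ℝ) * M := by positivity
  obtain ⟨Y, hY, g2, hb2⟩ : ∃ Y : List Bool, Y.length = N ∧
      Go B P r (if sg then .call [.var 0, .var 1] p₂ else .skip) [w, M] X [w, M] Y
        (C₂ * (w * M + P) + P) ∧
      ∀ a < M, ∀ u : ℤ, WR w M X a u → WR w M Y a (if sg then -u else u) := by
    cases sg
    · refine ⟨X, hXl, Go.skip.mono ?_, fun a _ u h => h⟩
      have : (0 : ℝ) ≤ C₂ * (w * M + P) := by positivity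
      linarith
    · obtain ⟨Y, hY, t2, hb⟩ := h₂ B P r w M X hP hw hM hXl
      exact ⟨Y, hY, Go.call rfl (by simp [Ok]) t2, hb⟩
  obtain ⟨Z, hZ, t3, hb3⟩ := h₃ B P r w M Y A hP hw hM hY hA
  have g3 := (Go.call (args := [.var 0, .var 1]) (env := [w, M]) rfl (by simp [Ok]) t3).frame L
  rw [List.append_assoc] at g3
  refine ⟨Z, hZ, (g1.seq ((g2.frame (A ++ L)).seq g3)).mono ?_, fun j hj u v hu hv => ?_⟩
  · have := cle C₁ (x := (((k + 1) * N : ℕ) : ℝ) + (N : ℕ) + P) (y := (k + 2) * (w * M + P)) (by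
      rw [hN]; push_cast
      have : (0 : ℝ) ≤ k * P := by positivity
      nlinarith)
    push_cast at this ⊢
    nlinarith
  · refine hb3 j hj _ _ (hb2 j hj v ?_) hu
    unfold WR at hv ⊢
    rwa [hX, wd_take _ le_rfl hj]

/-- value of a signed sum -/
def sv (s : List (ℕ × Bool)) (u : ℕ → ℤ) : ℤ :=
  (s.map fun x => if x.2 then -u x.1 else u x.1).sum

/-- push a signed sum of arrays -/
theorem comb_ex (n : ℕ) (hn : 1 ≤ n) (s : List (ℕ × Bool)) (hs : ∀ x ∈ s, x.1 < n) :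
    ∃ (p : Prog) (C : ℕ), ∀ (B P : ℕ) (r : Prog) (w M : ℕ) (L : List Bool),
    1 ≤ P → 1 ≤ w → 1 ≤ M → n * (w * M) ≤ B → L.length = n * (w * M) →
    ∃ Z : List Bool, Z.length = w * M ∧
      Go B P r p [w, M] L [w, M] (Z ++ L) (C * (w * M + P)) ∧
      ∀ j < M, ∀ u : ℕ → ℤ, (∀ k < n, WR w M (L.drop (k * (w * M))) j (u k)) →
        WR w M Z j (sv s u) := by
  induction s with
  | nil =>
    obtain ⟨p, C, h⟩ := zeros_ex
    refine ⟨.call [.var 0 * .var 1] p, C + 1, fun B P r w M L hP hw hM hB hL => ?_⟩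
    have hNB : w * M ≤ B := le_trans (by nlinarith) hB
    refine ⟨List.replicate (w * M) false, by simp, ?_, fun j _ u _ => ?_⟩
    · have := (Go.call (args := [.var 0 * .var 1]) (env := [w, M]) rfl (by simp [Ok, hNB])
        (h B P r (w * M) hP)).frame L
      refine this.mono ?_
      have hT0 : (0 : ℝ) ≤ (w : ℝ) * M := by positivity
      push_cast
      nlinarith
    · simp [WR, wd_replicate, sv]
  | cons x s ih =>
    obtain ⟨p₁, C₁, h₁⟩ := ih fun y hy => hs y (List.mem_cons_of_mem _ hy)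
    obtain ⟨p₂, C₂, h₂⟩ := acc_ex x.1 x.2
    have hx : x.1 + 1 ≤ n := hs x List.mem_cons_self
    refine ⟨p₁ ;; p₂, C₁ + C₂ + 1, fun B P r w M L hP hw hM hB hL => ?_⟩
    obtain ⟨A, hA, g1, hb1⟩ := h₁ B P r w M L hP hw hM hB hL
    have hle : (x.1 + 1) * (w * M) ≤ n * (w * M) := Nat.mul_le_mul_right _ hx
    obtain ⟨Z, hZ, g2, hb2⟩ := h₂ B P r w M A L hP hw hM (hle.trans hB) hA (hL ▸ hle)
    refine ⟨Z, hZ, (g1.seq g2).mono ?_, fun j hj u hu => ?_⟩
    · have hT1 : (1 : ℝ) ≤ P := by exact_mod_cast hP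
      have hT0 : (0 : ℝ) ≤ (w : ℝ) * M := by positivity
      push_cast
      nlinarith
    · exact hb2 j hj _ _ (hb1 j hj u hu) (hu x.1 hx)

/-- effect of a list of in-place updates -/
def ap : List (ℕ × List (ℕ × Bool)) → (ℕ → ℤ) → ℕ → ℤ
  | [], u => u
  | x :: l, u => ap l (Function.update u x.1 (sv x.2 u))

/-- a list of in-place updates -/
theorem upd_ex (n : ℕ) (l : List (ℕ × List (ℕ × Bool)))
    (hl : ∀ x ∈ l, x.1 < n ∧ ∀ y ∈ x.2, y.1 < n) :
    ∃ (p : Prog) (C : ℕ), ∀ (B P : ℕ) (r : Prog) (w M : ℕ) (L : List Bool),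
    1 ≤ P → 1 ≤ w → 1 ≤ M → n * (w * M) ≤ B → L.length = n * (w * M) →
    ∃ L' : List Bool, L'.length = n * (w * M) ∧
      Go B P r p [w, M] L [w, M] L' (C * (w * M + P)) ∧
      ∀ j < M, ∀ u : ℕ → ℤ, (∀ k < n, WR w M (L.drop (k * (w * M))) j (u k)) →
        ∀ k < n, WR w M (L'.drop (k * (w * M))) j (ap l u k) := by
  induction l with
  | nil =>
    refine ⟨.skip, 1, fun B P r w M L hP hw hM hB hL => ⟨L, hL, Go.skip.mono ?_, fun j _ u h => h⟩⟩
    have hT1 : (1 : ℝ) ≤ P := by exact_mod_cast hP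
    have hT0 : (0 : ℝ) ≤ (w : ℝ) * M := by positivity
    push_cast
    linarith
  | cons x l ih =>
    obtain ⟨a, s⟩ := x
    obtain ⟨ha, hs⟩ : a < n ∧ ∀ y ∈ s, y.1 < n := hl _ List.mem_cons_self
    obtain ⟨p₁, C₁, h₁⟩ := comb_ex n (by omega) s hs
    obtain ⟨p₂, C₂, h₂⟩ := put_ex
    obtain ⟨p₃, C₃, h₃⟩ := ih fun y hy => hl y (List.mem_cons_of_mem _ hy)
    refine ⟨p₁ ;; .call [.cst a * (.var 0 * .var 1), .var 0 * .var 1] p₂ ;; p₃,
      C₁ + C₂ * (a + 1) + C₃ + 3, fun B P r w M L hP hw hM hB hL => ?_⟩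
    obtain ⟨Z, hZ, g1, hb1⟩ := h₁ B P r w M L hP hw hM hB hL
    have haN : a * (w * M) + (w * M) ≤ n * (w * M) := by rw [← add_one_mul]; exact Nat.mul_le_mul_right _ ha
    have hA : (L.take (a * (w * M))).length = a * (w * M) := by rw [List.length_take]; omega
    have t2 := h₂ B P r (a * (w * M)) (w * M) Z (L.take (a * (w * M))) ((L.drop (a * (w * M))).take (w * M)) hP hZ hA
      (by rw [List.length_take, List.length_drop]; omega)
    have g2 := (Go.call (args := [.cst a * (.var 0 * .var 1), .var 0 * .var 1])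
      (env := [w, M]) (vs := [a * (w * M), w * M]) rfl (by
        have e1 : a * (w * M) ≤ B := by omega
        have e2 : (w * M) ≤ B := by omega
        simp [Ok, e1, e2]) t2).frame ((L.drop (a * (w * M))).drop (w * M))
    simp only [List.append_assoc, List.take_append_drop] at g2
    obtain ⟨L', hL', g3, hb3⟩ := h₃ B P r w M (L.take (a * (w * M)) ++ (Z ++ (L.drop (a * (w * M))).drop (w * M)))
      hP hw hM hB (by simp only [List.length_append, hA, hZ, List.length_drop]; omega)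
    refine ⟨L', hL', (g1.seq (g2.seq g3)).mono ?_, fun j hj u hu => hb3 j hj _ fun k hk => ?_⟩
    · have hT1 : (1 : ℝ) ≤ P := by exact_mod_cast hP
      have hT0 : (0 : ℝ) ≤ (w : ℝ) * M := by positivity
      have := cle C₂ (x := ((a * (w * M) : ℕ) : ℝ) + ((w * M : ℕ) : ℝ) + P) (y := (a + 1) * (w * M + P)) (by
        push_cast
        have : (0 : ℝ) ≤ a * P := by positivity
        nlinarith)
      push_cast at this ⊢
      nlinarith
    · by_cases e : k = a
      · subst e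
        rw [Function.update_self, List.drop_left' hA]
        have := hb1 j hj u hu
        unfold WR at this ⊢
        rwa [wd_append_left _ hZ hj]
      · rw [Function.update_of_ne e]
        refine (hu k hk).move fun β hβ => ?_
        have hb : β * M + j < (w * M) := lt_mul hβ hj
        rw [bit_drop, bit_drop]
        rcases lt_or_gt_of_ne e with h | h
        · have : k * (w * M) + (w * M) ≤ a * (w * M) := by rw [← add_one_mul]; exact Nat.mul_le_mul_right _ h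
          rw [bit_append_left _ (by omega), bit_take _ (by omega)]
        · obtain ⟨d, rfl⟩ : ∃ d, k = a + 1 + d := ⟨k - (a + 1), by omega⟩
          rw [show (a + 1 + d) * (w * M) + (β * M + j) = a * (w * M) + ((w * M) + (d * (w * M) + (β * M + j))) by ring,
            bit_append_right _ hA, bit_append_right _ hZ, bit_drop, bit_drop]

theorem ap_dbl (l : List ℕ) (hl : l.Nodup) (u : ℕ → ℤ) (k : ℕ) :
    ap (l.map fun a => (a, [(a, false), (a, false)])) u k = if k ∈ l then 2 * u k else u k := by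
  induction l generalizing u with
  | nil => simp [ap]
  | cons a l ih =>
    rw [List.nodup_cons] at hl
    rw [List.map_cons, ap, ih hl.2]
    by_cases e : k = a
    · subst e
      simp [hl.1, sv, two_mul]
    · simp [e]

/-- move the re/im digit and the digit `δ` outermost -/
theorem split_ex : ∃ (p : Prog) (C : ℕ), ∀ (B P : ℕ) (r : Prog) (w O I₁ I₂ : ℕ) (X : List Bool),
    1 ≤ P → 1 ≤ w → 1 ≤ O → 1 ≤ I₁ → 1 ≤ I₂ → w * (O * 2 * I₁ * 2 * I₂) ≤ B →
    X.length = w * (O * 2 * I₁ * 2 * I₂) →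
    ∃ Z : List Bool, Z.length = 4 * (w * (O * I₁ * I₂)) ∧
      Go B P r p [w, O, I₁, I₂] X [w, O, I₁, I₂] Z (C * (w * (O * 2 * I₁ * 2 * I₂) + P)) ∧
      ∀ β < w, ∀ o < O, ∀ δ < 2, ∀ y < I₁, ∀ ρ < 2, ∀ z < I₂,
        bit Z ((δ * 2 + ρ) * (w * (O * I₁ * I₂)) + (β * (O * I₁ * I₂) + ((o * I₁ + y) * I₂ + z)))
          = bit X (β * (O * 2 * I₁ * 2 * I₂) + ((((o * 2 + δ) * I₁ + y) * 2 + ρ) * I₂ + z)) := by
  obtain ⟨p, C, h⟩ := tbw_ex
  refine ⟨.call [1, 2, .var 0 * .var 1 * 2 * .var 2, .var 3] p ;;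
    .call [1, 2, 2 * .var 0 * .var 1, .var 2 * .var 3] p, 4 * C + 3,
    fun B P r w O I₁ I₂ X hP hw hO h1 h2 hB hX => ?_⟩
  have b2 : 2 ≤ B := le_of_mul (w * O * I₁ * 2 * I₂) (one_le (by positivity)) hB (by ring)
  have b3 : w * O * 2 * I₁ ≤ B := le_of_mul (2 * I₂) (one_le (by positivity)) hB (by ring)
  have b4 : 2 * w * O ≤ B := le_of_mul (I₁ * 2 * I₂) (one_le (by positivity)) hB (by ring)
  have b5 : I₁ * I₂ ≤ B := le_of_mul (w * O * 4) (one_le (by positivity)) hB (by ring)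
  have b1 : 1 ≤ B := by omega
  obtain ⟨Y, hY, t1, e1⟩ := h B P r 1 2 (w * O * 2 * I₁) I₂ X hP (by omega) (one_le (by positivity)) h2 b2
    (by rw [hX]; ring)
  obtain ⟨Z, hZ, t2, e2⟩ := h B P r 1 2 (2 * w * O) (I₁ * I₂) Y hP (by omega) (one_le (by positivity))
    (one_le (by positivity)) b2 (by rw [hY]; ring)
  have g1 := Go.call (args := [1, 2, .var 0 * .var 1 * 2 * .var 2, .var 3]) (env := [w, O, I₁, I₂])
    rfl (by simp [Ok, b1, b2, b3]) t1
  have g2 := Go.call (args := [1, 2, 2 * .var 0 * .var 1, .var 2 * .var 3]) (env := [w, O, I₁, I₂])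
    rfl (by simp [Ok, b1, b2, b4, b5]) t2
  refine ⟨Z, by rw [hZ]; ring, (g1.seq g2).mono ?_, fun β hβ o ho δ hδ y hy ρ hρ z hz => ?_⟩
  · have hT1 : (1 : ℝ) ≤ P := by exact_mod_cast hP
    have hT0 : (0 : ℝ) ≤ (w : ℝ) * (O * 2 * I₁ * 2 * I₂) := by positivity
    push_cast
    nlinarith
  · have a2 := e2 0 one_pos δ hδ ((ρ * w + β) * O + o) (lt_mul (lt_mul hρ hβ) ho)
      (y * I₂ + z) (lt_mul hy hz)
    have a1 := e1 0 one_pos ρ hρ (((β * O + o) * 2 + δ) * I₁ + y)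
      (lt_mul (lt_mul (lt_mul hβ ho) hδ) hy) z hz
    refine Eq.trans (Eq.trans ?_ a2) (Eq.trans (Eq.trans ?_ a1) ?_) <;> congr 1 <;> ring

/-- inverse of `split_ex` -/
theorem join_ex : ∃ (p : Prog) (C : ℕ), ∀ (B P : ℕ) (r : Prog) (w O I₁ I₂ : ℕ) (Z : List Bool),
    1 ≤ P → 1 ≤ w → 1 ≤ O → 1 ≤ I₁ → 1 ≤ I₂ → w * (O * 2 * I₁ * 2 * I₂) ≤ B →
    Z.length = 4 * (w * (O * I₁ * I₂)) →
    ∃ X : List Bool, X.length = w * (O * 2 * I₁ * 2 * I₂) ∧
      Go B P r p [w, O, I₁, I₂] Z [w, O, I₁, I₂] X (C * (w * (O * 2 * I₁ * 2 * I₂) + P)) ∧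
      ∀ β < w, ∀ o < O, ∀ δ < 2, ∀ y < I₁, ∀ ρ < 2, ∀ z < I₂,
        bit X (β * (O * 2 * I₁ * 2 * I₂) + ((((o * 2 + δ) * I₁ + y) * 2 + ρ) * I₂ + z)) =
        bit Z ((δ * 2 + ρ) * (w * (O * I₁ * I₂)) +
          (β * (O * I₁ * I₂) + ((o * I₁ + y) * I₂ + z))) := by
  obtain ⟨p, C, h⟩ := tfw_ex
  refine ⟨.call [1, 2, 2 * .var 0 * .var 1, .var 2 * .var 3] p ;;
    .call [1, 2, .var 0 * .var 1 * 2 * .var 2, .var 3] p, 4 * C + 3,
    fun B P r w O I₁ I₂ Z hP hw hO h1 h2 hB hZ => ?_⟩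
  have b2 : 2 ≤ B := le_of_mul (w * O * I₁ * 2 * I₂) (one_le (by positivity)) hB (by ring)
  have b3 : w * O * 2 * I₁ ≤ B := le_of_mul (2 * I₂) (one_le (by positivity)) hB (by ring)
  have b4 : 2 * w * O ≤ B := le_of_mul (I₁ * 2 * I₂) (one_le (by positivity)) hB (by ring)
  have b5 : I₁ * I₂ ≤ B := le_of_mul (w * O * 4) (one_le (by positivity)) hB (by ring)
  have b1 : 1 ≤ B := by omega
  obtain ⟨Y, hY, t2, e2⟩ := h B P r 1 2 (2 * w * O) (I₁ * I₂) Z hP (by omega) (one_le (by positivity))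
    (one_le (by positivity)) b2 (by rw [hZ]; ring)
  obtain ⟨X, hX, t1, e1⟩ := h B P r 1 2 (w * O * 2 * I₁) I₂ Y hP (by omega) (one_le (by positivity)) h2 b2
    (by rw [hY]; ring)
  have g1 := Go.call (args := [1, 2, .var 0 * .var 1 * 2 * .var 2, .var 3]) (env := [w, O, I₁, I₂])
    rfl (by simp [Ok, b1, b2, b3]) t1
  have g2 := Go.call (args := [1, 2, 2 * .var 0 * .var 1, .var 2 * .var 3]) (env := [w, O, I₁, I₂])
    rfl (by simp [Ok, b1, b2, b4, b5]) t2
  refine ⟨X, by rw [hX]; ring, (g2.seq g1).mono ?_, fun β hβ o ho δ hδ y hy ρ hρ z hz => ?_⟩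
  · have hT1 : (1 : ℝ) ≤ P := by exact_mod_cast hP
    have hT0 : (0 : ℝ) ≤ (w : ℝ) * (O * 2 * I₁ * 2 * I₂) := by positivity
    push_cast
    nlinarith
  · have a2 := e2 0 one_pos δ hδ ((ρ * w + β) * O + o) (lt_mul (lt_mul hρ hβ) ho)
      (y * I₂ + z) (lt_mul hy hz)
    have a1 := e1 0 one_pos ρ hρ (((β * O + o) * 2 + δ) * I₁ + y)
      (lt_mul (lt_mul (lt_mul hβ ho) hδ) hy) z hz
    refine Eq.trans (Eq.trans ?_ a1) (Eq.trans (Eq.trans ?_ a2) ?_) <;> congr 1 <;> ring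

/-- the butterfly as in-place updates -/
def bl : List (ℕ × List (ℕ × Bool)) :=
  [(0, [(0, false), (2, false)]), (2, [(0, false), (2, true), (2, true)]),
   (1, [(1, false), (3, false)]), (3, [(1, false), (3, true), (3, true)]),
   (0, [(0, false), (3, true)]), (3, [(0, false), (3, false), (3, false)]),
   (1, [(1, false), (2, false)]), (2, [(1, false), (2, true), (2, true)]),
   (2, [(2, false), (3, false)]), (3, [(2, false), (3, true)]), (2, [(2, false), (3, true)])]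

theorem ap_bl (u : ℕ → ℤ) : ap bl u 0 = u 0 - u 1 + u 2 + u 3 ∧ ap bl u 1 = u 0 + u 1 - u 2 + u 3 ∧
    ap bl u 2 = u 0 + u 1 + u 2 - u 3 ∧ ap bl u 3 = -u 0 + u 1 + u 2 + u 3 := by
  simp [ap, bl, sv, Function.update]
  omega

end Q4

open Q4

/-- Multiply a field by a small unit `c`: spread (`resize` rows `I → c I`), move the digit
`c x / Q` outermost (`tbw`), and `xor2` the `c` layers. -/
theorem mulc_ex : ∃ (p : Prog) (C : ℕ), ∀ (B P : ℕ) (r : Prog) (O Q I c : ℕ) (L : List Bool),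
    1 ≤ P → 1 ≤ O → 1 ≤ Q → 1 ≤ I → 1 ≤ c → Nat.Coprime c Q → c * (O * Q * I) ≤ B →
    L.length = O * Q * I →
    ∃ L' : List Bool, L'.length = O * Q * I ∧
      Top B P r p [O, Q, I, c] L L' (C * c ^ 2 * (O * Q * I + P)) ∧
      ∀ o < O, ∀ x < Q, ∀ i < I,
        bit L' ((o * Q + c * x % Q) * I + i) = bit L ((o * Q + x) * I + i) := by
  obtain ⟨p₁, C₁, h₁⟩ := resize_ex
  obtain ⟨p₂, C₂, h₂⟩ := tbw_ex
  obtain ⟨p₃, C₃, h₃⟩ := xorAll_ex
  refine ⟨.call [.var 0 * .var 1, .var 2, .var 3 * .var 2] p₁ ;;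
    .call [1, .var 3, .var 0, .var 1 * .var 2] p₂ ;; .call [.var 3, .var 0 * .var 1 * .var 2] p₃,
    3 * C₁ + C₂ + C₃ + 5, fun B P r O Q I c L hP hO hQ hI hc hco hB hL => ?_⟩
  have b1 : O * Q ≤ B := le_of_mul (c * I) (one_le (by positivity)) hB (by ring)
  have b2 : c * I ≤ B := le_of_mul (O * Q) (one_le (by positivity)) hB (by ring)
  have b3 : Q * I ≤ B := le_of_mul (c * O) (one_le (by positivity)) hB (by ring)
  have b4 : O * Q * I ≤ B := le_of_mul c hc hB (by ring)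
  have b5 : c ≤ B := le_of_mul (O * Q * I) (one_le (by positivity)) hB (by ring)
  have b6 : 1 ≤ B := by omega
  obtain ⟨L₁, l1, t1, e1⟩ := h₁ B P r (O * Q) I (c * I) L hP hL
  obtain ⟨L₂, l2, t2, e2⟩ := h₂ B P r 1 c O (Q * I) L₁ hP hc hO (one_le (by positivity)) b5
    (by rw [l1]; ring)
  obtain ⟨L₃, l3, t3, e3⟩ := h₃ B P r c (O * Q * I) L₂ hP hc (by rw [l2]; ring)
  have g1 := Go.call (args := [.var 0 * .var 1, .var 2, .var 3 * .var 2]) (env := [O, Q, I, c])
    rfl (by simp [Ok, b1, b2]) t1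
  have g2 := Go.call (args := [1, .var 3, .var 0, .var 1 * .var 2]) (env := [O, Q, I, c])
    rfl (by simp [Ok, b3, b6]) t2
  have g3 := Go.call (args := [.var 3, .var 0 * .var 1 * .var 2]) (env := [O, Q, I, c])
    rfl (by simp [Ok, b4]) t3
  refine ⟨L₃, l3, (g1.seq (g2.seq g3)).top.mono ?_, fun o ho x hx i hi => ?_⟩
  · have hP1 : (1 : ℝ) ≤ P := by exact_mod_cast hP
    have hc1 : (1 : ℝ) ≤ c := by exact_mod_cast hc
    have hI1 : (1 : ℝ) ≤ I := by exact_mod_cast hI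
    have hOQ : (0 : ℝ) ≤ (O : ℝ) * Q := by positivity
    have hN : (O : ℝ) * Q ≤ O * Q * I := le_mul_of_one_le_right hOQ hI1
    set N : ℝ := O * Q * I with hNd
    have hcc : (c : ℝ) ≤ c ^ 2 := by nlinarith
    have k0 : N + P ≤ c * (N + P) := le_mul_of_one_le_left (by linarith) hc1
    have k1 : c * (N + P) ≤ c ^ 2 * (N + P) := mul_le_mul_of_nonneg_right hcc (by linarith)
    have k2 : (c : ℝ) * P ≤ c ^ 2 * P := mul_le_mul_of_nonneg_right hcc (by linarith)
    have k3 : (0 : ℝ) ≤ c * P := by positivity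
    have c1 := cle C₁ (x := N + c * N + O * Q + P) (y := 3 * (c ^ 2 * (N + P))) (by linarith)
    have c2 := cle C₂ (x := c * (c * N + P)) (y := c ^ 2 * (N + P)) (by linarith)
    have c3 := cle C₃ k1
    push_cast
    rw [hNd] at *
    linarith
  · have hy : c * x % Q < Q := Nat.mod_lt _ hQ
    have hd : c * x / Q < c := by
      rw [Nat.div_lt_iff_lt_mul hQ]; exact Nat.mul_lt_mul_of_pos_left hx hc
    have key : ∀ δ < c, bit L₂ (δ * (O * Q * I) + ((o * Q + c * x % Q) * I + i)) =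
        (decide ((δ * Q + c * x % Q) % c * I + i < I) &&
          bit L ((o * Q + (δ * Q + c * x % Q) / c) * I + ((δ * Q + c * x % Q) % c * I + i))) := by
      intro δ hδ
      have a2 := e2 0 one_pos δ hδ o ho (c * x % Q * I + i) (lt_mul hy hi)
      have ht : (δ * Q + c * x % Q) / c < Q := by
        rw [Nat.div_lt_iff_lt_mul hc, mul_comm Q c]; exact lt_mul hδ hy
      have a1 := e1 (o * Q + (δ * Q + c * x % Q) / c) (lt_mul ho ht)
        ((δ * Q + c * x % Q) % c * I + i) (lt_mul (Nat.mod_lt _ hc) hi)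
      refine Eq.trans (Eq.trans ?_ a2) (Eq.trans ?_ a1)
      · congr 1; ring
      · congr 1
        have := Nat.div_add_mod (δ * Q + c * x % Q) c
        generalize (δ * Q + c * x % Q) / c = s at this ⊢
        generalize (δ * Q + c * x % Q) % c = t at this ⊢
        calc _ = o * c * Q * I + (δ * Q + c * x % Q) * I + i := by ring
          _ = _ := by rw [← this]; ring
    have hcx : c * x / Q * Q + c * x % Q = c * x := Nat.div_add_mod' _ _
    rw [e3 _ (lt_mul (lt_mul ho hy) hi) (c * x / Q) hd, key _ hd, hcx, Nat.mul_mod_right,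
      Nat.mul_div_cancel_left _ hc]
    · simp [hi]
    · intro δ hδ hne
      rw [key δ hδ]
      have : (δ * Q + c * x % Q) % c ≠ 0 := by
        intro h0
        apply hne
        have h1 : δ * Q + c * x % Q ≡ c * x / Q * Q + c * x % Q [MOD c] := by
          rw [hcx, Nat.ModEq, h0, Nat.mul_mod_right]
        exact Nat.ModEq.eq_of_lt_of_lt
          (Nat.ModEq.cancel_right_of_coprime hco (Nat.ModEq.add_right_cancel' _ h1)) hδ hd
      have h2 : ¬((δ * Q + c * x % Q) % c * I + i < I) := by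
        have : I ≤ (δ * Q + c * x % Q) % c * I := Nat.le_mul_of_pos_left _ (by omega)
        omega
      simp [h2]

/-- Divide a field by `c`: `c` copies (`pick`), `tfw`, then keep every `c`-th block (`resize`). -/
theorem divc_ex : ∃ (p : Prog) (C : ℕ), ∀ (B P : ℕ) (r : Prog) (O Q I c : ℕ) (L : List Bool),
    1 ≤ P → 1 ≤ O → 1 ≤ Q → 1 ≤ I → 1 ≤ c → c * (O * Q * I) ≤ B → L.length = O * Q * I →
    ∃ L' : List Bool, L'.length = O * Q * I ∧
      Top B P r p [O, Q, I, c] L L' (C * c ^ 2 * (O * Q * I + P)) ∧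
      ∀ o < O, ∀ x < Q, ∀ i < I,
        bit L' ((o * Q + x) * I + i) = bit L ((o * Q + c * x % Q) * I + i) := by
  obtain ⟨p₁, C₁, h₁⟩ := resize_ex
  obtain ⟨p₂, C₂, h₂⟩ := tfw_ex
  obtain ⟨p₃, C₃, h₃⟩ := copies_ex
  refine ⟨.call [.var 3, .var 0 * .var 1 * .var 2] p₃ ;;
    .call [1, .var 3, .var 0, .var 1 * .var 2] p₂ ;;
    .call [.var 0 * .var 1, .var 3 * .var 2, .var 2] p₁,
    3 * C₁ + C₂ + C₃ + 5, fun B P r O Q I c L hP hO hQ hI hc hB hL => ?_⟩
  have b1 : O * Q ≤ B := le_of_mul (c * I) (one_le (by positivity)) hB (by ring)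
  have b2 : c * I ≤ B := le_of_mul (O * Q) (one_le (by positivity)) hB (by ring)
  have b3 : Q * I ≤ B := le_of_mul (c * O) (one_le (by positivity)) hB (by ring)
  have b4 : O * Q * I ≤ B := le_of_mul c hc hB (by ring)
  have b5 : c ≤ B := le_of_mul (O * Q * I) (one_le (by positivity)) hB (by ring)
  have b6 : 1 ≤ B := by omega
  obtain ⟨L₃, l3, t3, e3⟩ := h₃ B P r c (O * Q * I) L hP hc hL
  obtain ⟨L₂, l2, t2, e2⟩ := h₂ B P r 1 c O (Q * I) L₃ hP hc hO (one_le (by positivity)) b5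
    (by rw [l3]; ring)
  obtain ⟨L₁, l1, t1, e1⟩ := h₁ B P r (O * Q) (c * I) I L₂ hP (by rw [l2]; ring)
  have g1 := Go.call (args := [.var 0 * .var 1, .var 3 * .var 2, .var 2]) (env := [O, Q, I, c])
    rfl (by simp [Ok, b1, b2]) t1
  have g2 := Go.call (args := [1, .var 3, .var 0, .var 1 * .var 2]) (env := [O, Q, I, c])
    rfl (by simp [Ok, b3, b6]) t2
  have g3 := Go.call (args := [.var 3, .var 0 * .var 1 * .var 2]) (env := [O, Q, I, c])
    rfl (by simp [Ok, b4]) t3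
  refine ⟨L₁, l1, (g3.seq (g2.seq g1)).top.mono ?_, fun o ho x hx i hi => ?_⟩
  · have hP1 : (1 : ℝ) ≤ P := by exact_mod_cast hP
    have hc1 : (1 : ℝ) ≤ c := by exact_mod_cast hc
    have hI1 : (1 : ℝ) ≤ I := by exact_mod_cast hI
    have hOQ : (0 : ℝ) ≤ (O : ℝ) * Q := by positivity
    have hN : (O : ℝ) * Q ≤ O * Q * I := le_mul_of_one_le_right hOQ hI1
    set N : ℝ := O * Q * I with hNd
    have hcc : (c : ℝ) ≤ c ^ 2 := by nlinarith
    have k0 : N + P ≤ c * (N + P) := le_mul_of_one_le_left (by linarith) hc1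
    have k1 : c * (N + P) ≤ c ^ 2 * (N + P) := mul_le_mul_of_nonneg_right hcc (by linarith)
    have k2 : (c : ℝ) * P ≤ c ^ 2 * P := mul_le_mul_of_nonneg_right hcc (by linarith)
    have k3 : (0 : ℝ) ≤ c * P := by positivity
    have c1 := cle C₁ (x := N + c * N + O * Q + P) (y := 3 * (c ^ 2 * (N + P))) (by linarith)
    have c2 := cle C₂ (x := c * (c * N + P)) (y := c ^ 2 * (N + P)) (by linarith)
    have c3 := cle C₃ k1
    push_cast
    rw [hNd] at *
    linarith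
  · have hy : c * x % Q < Q := Nat.mod_lt _ hQ
    have hd : c * x / Q < c := by
      rw [Nat.div_lt_iff_lt_mul hQ]; exact Nat.mul_lt_mul_of_pos_left hx hc
    have hcx : c * x / Q * Q + c * x % Q = c * x := Nat.div_add_mod' _ _
    have hi' : i < c * I := lt_of_lt_of_le hi (Nat.le_mul_of_pos_left _ hc)
    have a2 := e2 0 one_pos _ hd o ho (c * x % Q * I + i) (lt_mul hy hi)
    have a3 := e3 _ hd _ (lt_mul (lt_mul ho hy) hi)
    rw [e1 _ (lt_mul ho hx) i hi, decide_eq_true hi', Bool.true_and]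
    refine Eq.trans (Eq.trans ?_ a2) (Eq.trans ?_ a3)
    · congr 1
      calc _ = o * c * Q * I + (c * x) * I + i := by ring
        _ = o * c * Q * I + (c * x / Q * Q + c * x % Q) * I + i := by rw [hcx]
        _ = _ := by ring
    · congr 1; ring

/-- naive exchange of two fields of size `F` (`tfw` then `tbw`) -/
theorem nswap_ex : ∃ (p : Prog) (C : ℕ), ∀ (B P : ℕ) (r : Prog) (O F M I : ℕ) (L : List Bool),
    1 ≤ P → 1 ≤ O → 1 ≤ F → 1 ≤ M → 1 ≤ I → O * F * M * F * I ≤ B →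
    L.length = O * F * M * F * I →
    ∃ L' : List Bool, L'.length = O * F * M * F * I ∧
      Top B P r p [O, F, M, I] L L' (C * F * (O * F * M * F * I + P)) ∧
      ∀ o < O, ∀ u < F, ∀ y < M, ∀ v < F, ∀ i < I,
        bit L' ((((o * F + v) * M + y) * F + u) * I + i) =
          bit L ((((o * F + u) * M + y) * F + v) * I + i) := by
  obtain ⟨p₁, C₁, h₁⟩ := tfw_ex
  obtain ⟨p₂, C₂, h₂⟩ := tbw_ex
  refine ⟨.call [.var 0, .var 1, .var 2 * .var 1, .var 3] p₁ ;;
    .call [.var 0, .var 1, .var 2, .var 1 * .var 3] p₂, C₁ + C₂ + 3,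
    fun B P r O F M I L hP hO hF hM hI hB hL => ?_⟩
  have b1 : F ≤ B := le_of_mul (O * M * F * I) (one_le (by positivity)) hB (by ring)
  have b2 : M * F ≤ B := le_of_mul (O * F * I) (one_le (by positivity)) hB (by ring)
  have b3 : F * I ≤ B := le_of_mul (O * F * M) (one_le (by positivity)) hB (by ring)
  obtain ⟨L₁, l1, t1, e1⟩ := h₁ B P r O F (M * F) I L hP hF (one_le (by positivity)) hI b1
    (by rw [hL]; ring)
  obtain ⟨L₂, l2, t2, e2⟩ := h₂ B P r O F M (F * I) L₁ hP hF hM (one_le (by positivity)) b1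
    (by rw [l1]; ring)
  have g1 := Go.call (args := [.var 0, .var 1, .var 2 * .var 1, .var 3]) (env := [O, F, M, I])
    rfl (by simp [Ok, b2]) t1
  have g2 := Go.call (args := [.var 0, .var 1, .var 2, .var 1 * .var 3]) (env := [O, F, M, I])
    rfl (by simp [Ok, b3]) t2
  refine ⟨L₂, by rw [l2]; ring, (g1.seq g2).top.mono ?_, fun o ho u hu y hy v hv i hi => ?_⟩
  · have hP1 : (1 : ℝ) ≤ P := by exact_mod_cast hP
    have hF1 : (1 : ℝ) ≤ F := by exact_mod_cast hF
    have hN : (0 : ℝ) ≤ (O : ℝ) * F * M * F * I := by positivity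
    have k0 : (O : ℝ) * F * M * F * I + P ≤ F * (O * F * M * F * I + P) :=
      le_mul_of_one_le_left (by linarith) hF1
    push_cast
    linarith
  · have a2 := e2 o ho v hv y hy (u * I + i) (lt_mul hu hi)
    have a1 := e1 o ho u hu (y * F + v) (lt_mul hy hv) i hi
    refine Eq.trans (Eq.trans ?_ a2) (Eq.trans (Eq.trans ?_ a1) ?_) <;> congr 1 <;> ring

/-- The butterfly `[[1 + i, 1 - i], [1 - i, 1 + i]]` on the layout
`(slice, o < O, δ < 2, y < I₁, re/im, z < I₂)`: move re/im and `δ` outermost (`tbw`), combine the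
four real arrays (`pick`, `put`, `add2`, `neg`), move the two digits back (`tfw`). -/
theorem bfly_ex : ∃ (p : Prog) (C : ℕ), ∀ (B P : ℕ) (r : Prog) (w O I₁ I₂ : ℕ) (X : List Bool),
    1 ≤ P → 1 ≤ w → 1 ≤ O → 1 ≤ I₁ → 1 ≤ I₂ → w * (O * 2 * I₁ * 2 * I₂) ≤ B →
    X.length = w * (O * 2 * I₁ * 2 * I₂) →
    ∃ Z : List Bool, Z.length = w * (O * 2 * I₁ * 2 * I₂) ∧
      Top B P r p [w, O, I₁, I₂] X Z (C * (w * (O * 2 * I₁ * 2 * I₂) + P)) ∧
      ∀ o < O, ∀ y < I₁, ∀ z < I₂, ∀ a b : ℂ,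
        CR w (O * 2 * I₁ * 2 * I₂) I₂ X ((o * 2 * I₁ + y) * 2 * I₂ + z) a →
        CR w (O * 2 * I₁ * 2 * I₂) I₂ X (((o * 2 + 1) * I₁ + y) * 2 * I₂ + z) b →
        CR w (O * 2 * I₁ * 2 * I₂) I₂ Z ((o * 2 * I₁ + y) * 2 * I₂ + z)
          ((1 + Complex.I) * a + (1 - Complex.I) * b) ∧
        CR w (O * 2 * I₁ * 2 * I₂) I₂ Z (((o * 2 + 1) * I₁ + y) * 2 * I₂ + z)
          ((1 - Complex.I) * a + (1 + Complex.I) * b) := by
  obtain ⟨p₁, C₁, h₁⟩ := split_ex
  obtain ⟨p₂, C₂, h₂⟩ := upd_ex 4 bl (by decide)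
  obtain ⟨p₃, C₃, h₃⟩ := join_ex
  refine ⟨p₁ ;; .call [.var 0, .var 1 * .var 2 * .var 3] p₂ ;; p₃, C₁ + C₂ + C₃ + 3,
    fun B P r w O I₁ I₂ X hP hw hO h1 h2 hB hX => ?_⟩
  have b1 : O * I₁ * I₂ ≤ B := le_of_mul (w * 4) (one_le (by positivity)) hB (by ring)
  obtain ⟨L₁, l1, g1, e1⟩ := h₁ B P r w O I₁ I₂ X hP hw hO h1 h2 hB hX
  obtain ⟨L₂, l2, t2, e2⟩ := h₂ B P r w (O * I₁ * I₂) L₁ hP hw (one_le (by positivity))
    (le_of_eq_of_le (by ring) hB) l1
  obtain ⟨Z, l3, g3, e3⟩ := h₃ B P r w O I₁ I₂ L₂ hP hw hO h1 h2 hB l2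
  have g2 := Go.call (args := [.var 0, .var 1 * .var 2 * .var 3]) (env := [w, O, I₁, I₂])
    rfl (by simp [Ok, b1]) t2.top
  refine ⟨Z, l3, (g1.seq (g2.seq g3)).top.mono ?_, fun o ho y hy z hz a b ha hb => ?_⟩
  · have hP1 : (1 : ℝ) ≤ P := by exact_mod_cast hP
    have hN : (0 : ℝ) ≤ (w : ℝ) * (O * I₁ * I₂) := by positivity
    have c2 := cle C₂ (x := w * (O * I₁ * I₂) + P) (y := w * (O * 2 * I₁ * 2 * I₂) + P)
      (by linarith)
    push_cast
    linarith
  · obtain ⟨u₀, u₁, rfl, a0, a1⟩ := ha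
    obtain ⟨u₂, u₃, rfl, a2, a3⟩ := hb
    have hj : (o * I₁ + y) * I₂ + z < O * I₁ * I₂ := lt_mul (lt_mul ho hy) hz
    have s1 : ∀ δ < 2, ∀ ρ < 2, ∀ u : ℤ,
        WR w (O * 2 * I₁ * 2 * I₂) X ((((o * 2 + δ) * I₁ + y) * 2 + ρ) * I₂ + z) u →
        WR w (O * I₁ * I₂) (L₁.drop ((δ * 2 + ρ) * (w * (O * I₁ * I₂)))) ((o * I₁ + y) * I₂ + z)
          u := fun δ hδ ρ hρ u h => h.move fun β hβ => by
      rw [bit_drop, e1 β hβ o ho δ hδ y hy ρ hρ z hz]
    have s3 : ∀ δ < 2, ∀ ρ < 2, ∀ u : ℤ,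
        WR w (O * I₁ * I₂) (L₂.drop ((δ * 2 + ρ) * (w * (O * I₁ * I₂)))) ((o * I₁ + y) * I₂ + z)
          u →
        WR w (O * 2 * I₁ * 2 * I₂) Z ((((o * 2 + δ) * I₁ + y) * 2 + ρ) * I₂ + z) u :=
      fun δ hδ ρ hρ u h => h.move fun β hβ => by
        rw [bit_drop, e3 β hβ o ho δ hδ y hy ρ hρ z hz]
    have s2 := e2 _ hj (fun k => [u₀, u₁, u₂, u₃].getD k 0) (fun k hk => by
      interval_cases k
      · exact s1 0 (by omega) 0 (by omega) u₀ (by convert a0 using 1; ring)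
      · exact s1 0 (by omega) 1 (by omega) u₁ (by convert a1 using 1; ring)
      · exact s1 1 (by omega) 0 (by omega) u₂ (by convert a2 using 1; ring)
      · exact s1 1 (by omega) 1 (by omega) u₃ (by convert a3 using 1; ring))
    obtain ⟨v0, v1, v2, v3⟩ := ap_bl (fun k => [u₀, u₁, u₂, u₃].getD k 0)
    have w0 := s3 0 (by omega) 0 (by omega) _ (s2 0 (by omega))
    have w1 := s3 0 (by omega) 1 (by omega) _ (s2 1 (by omega))
    have w2 := s3 1 (by omega) 0 (by omega) _ (s2 2 (by omega))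
    have w3 := s3 1 (by omega) 1 (by omega) _ (s2 3 (by omega))
    rw [v0] at w0; rw [v1] at w1; rw [v2] at w2; rw [v3] at w3
    simp only [List.getD_cons_zero, List.getD_cons_succ] at w0 w1 w2 w3
    refine ⟨⟨u₀ - u₁ + u₂ + u₃, u₀ + u₁ - u₂ + u₃, ?_, by convert w0 using 1; ring,
      by convert w1 using 1; ring⟩, ⟨u₀ + u₁ + u₂ - u₃, -u₀ + u₁ + u₂ + u₃, ?_,
      by convert w2 using 1; ring, by convert w3 using 1; ring⟩⟩
    · push_cast
      linear_combination ((u₁ : ℂ) - u₃) * Complex.I_mul_I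
    · push_cast
      linear_combination ((u₃ : ℂ) - u₁) * Complex.I_mul_I

/-- Among `n` consecutive sliced arrays: array `a` becomes `2 x_a + c x_b`, all others are
doubled (`pick`, `neg`, `shl`, `add2`, `put`, `exch`). -/
theorem lin_ex (n a b : ℕ) (c : ℤ) (ha : a < n) (hb : b < n) (hab : a ≠ b) (hc : |c| ≤ 2) :
    ∃ (p : Prog) (C : ℕ), ∀ (B P : ℕ) (r : Prog) (w M : ℕ) (L : List Bool),
    1 ≤ P → 1 ≤ w → 1 ≤ M → (n + 2) * (w * M) ≤ B → L.length = n * (w * M) →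
    ∃ L' : List Bool, L'.length = n * (w * M) ∧ Top B P r p [w, M] L L' (C * (w * M + P)) ∧
      (∀ j < M, ∀ u v : ℤ, WR w M (L.drop (a * (w * M))) j u → WR w M (L.drop (b * (w * M))) j v →
        WR w M (L'.drop (a * (w * M))) j (2 * u + c * v)) ∧
      ∀ a' < n, a' ≠ a → ∀ j < M, ∀ u : ℤ, WR w M (L.drop (a' * (w * M))) j u →
        WR w M (L'.drop (a' * (w * M))) j (2 * u) := by
  have _ := hc
  obtain ⟨p, C, h⟩ := upd_ex n
    ((a, (a, false) :: (a, false) :: List.replicate c.natAbs (b, decide (c < 0))) ::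
      ((List.range n).erase a).map fun a => (a, [(a, false), (a, false)])) (by
      intro x hx
      rcases List.mem_cons.1 hx with rfl | hx
      · refine ⟨ha, fun y hy => ?_⟩
        simp only [List.mem_cons, List.mem_replicate] at hy
        rcases hy with rfl | rfl | ⟨_, rfl⟩ <;> assumption
      · obtain ⟨k, hk, rfl⟩ := List.mem_map.1 hx
        have := List.mem_range.1 (List.mem_of_mem_erase hk)
        simp [this])
  refine ⟨p, C, fun B P r w M L hP hw hM hB hL => ?_⟩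
  obtain ⟨L', l, g, e⟩ := h B P r w M L hP hw hM
    (le_trans (Nat.mul_le_mul_right _ (by omega)) hB) hL
  have nd : ((List.range n).erase a).Nodup := List.nodup_range.erase a
  refine ⟨L', l, g.top, fun j hj u v hu hv => ?_, fun a' ha' hne j hj u hu => ?_⟩
  · have := e j hj (fun k => if k = a then u else if k = b then v else
      wd w M (L.drop (k * (w * M))) j) (fun k _ => by
        split_ifs with h1 h2
        · rw [h1]; exact hu
        · rw [h2]; exact hv
        · exact WR.of_wd _ _ _ _) a ha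
    rw [ap, ap_dbl _ nd, if_neg (List.nodup_range.not_mem_erase), Function.update_self] at this
    convert this using 1
    simp only [sv, List.map_cons, List.map_replicate, List.sum_cons, List.sum_replicate,
      if_neg hab.symm, if_true, Bool.false_eq_true, if_false, nsmul_eq_mul, Int.natCast_natAbs,
      decide_eq_true_eq]
    split_ifs with h1
    · rw [abs_of_neg h1]; ring
    · rw [abs_of_nonneg (not_lt.1 h1)]; ring
  · have := e j hj (fun k => if k = a' then u else wd w M (L.drop (k * (w * M))) j) (fun k _ => by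
        split_ifs with h1
        · rw [h1]; exact hu
        · exact WR.of_wd _ _ _ _) a' ha'
    rw [ap, ap_dbl _ nd, if_pos ((List.mem_erase_of_ne hne).2 (List.mem_range.2 ha')),
      Function.update_of_ne hne, if_pos rfl] at this
    exact this

end Crest.Agent.IM
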