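import Crest.Agent.IM.TransA

/-! TASK IM-T. Fast transposition of two adjacent fields of arbitrary sizes.
Pad `A` to `q ^ α`, `A'` to `q ^ β` (least powers; `resize`). Let `t = mu ^ j` and `λ` least with
`WW ^ j P ≤ q ^ λ I`. If `β < λ` move the `β` digits of `a'` outwards one by one (`tbw`).
Otherwise write `β = u t + ρ` with `λ ≤ ρ < λ + t`, `α = ρ' + u' t` with `ρ' < t`: the address is
`(o, h₀ : ρ', h₁ : u' t, l₁ : u t, l₂ : ρ, i)`. Pad the inner part `(l₂, i)` to a multiple of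
`WW ^ j` (at most doubling), turn `(h₁, l₁)` into `(l₁, h₁)` by three reversals of the order of
blocks of `t` digits (reverse `h₁`, reverse `l₁`, reverse all; a reversal of `n` blocks is `n / 2`
exchanges), unpad, move the digits of `l₂` outwards across `h₁` (`tbw`) and those of `h₀` inwards
across `(l₁, l₂)` (`tfw`), unpad. -/

set_option autoImplicit false

namespace Crest.Agent.IM

/-- Number of passes of a transposition. -/
noncomputable def trc (j l u : ℕ) : ℝ := (mu : ℝ) ^ j + l * (sg / mu) ^ j + u + j + 1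

/-- Fast transposition. -/
def TransStmt : Prop :=
  ∃ (p : Prog) (C : ℕ), ∀ (B P : ℕ) (r : Prog) (j O A A' I : ℕ) (L : List Bool),
    1 ≤ P → 1 ≤ O → 1 ≤ A → 1 ≤ A' → 1 ≤ I → C * (O * A * A' * I) ≤ B → WW ^ j * P ≤ B →
    L.length = O * A * A' * I →
    ∃ L' : List Bool, L'.length = O * A * A' * I ∧
      Top B P r p [j, O, A, A', I] L L'
        (C * (O * A * A' * I + P) * trc j (A * A').size (P / I).size) ∧
      ∀ o < O, ∀ a < A, ∀ a' < A', ∀ i < I,
        bit L' (((o * A' + a') * A + a) * I + i) = bit L (((o * A + a) * A' + a') * I + i)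

theorem one_le_trc (j l u : ℕ) : 1 ≤ trc j l u := by
  have := two_le_sg
  unfold trc
  have : (0 : ℝ) ≤ (mu : ℝ) ^ j + l * (sg / mu) ^ j + u + j := by positivity
  linarith

theorem trc_mono (j : ℕ) {l l' u u' : ℕ} (h : l ≤ l') (h' : u ≤ u') : trc j l u ≤ trc j l' u' := by
  have := two_le_sg
  unfold trc
  gcongr

namespace TT
open Q4

/-- Change of the row length. -/
def Rs (O A A' : ℕ) (L L' : List Bool) : Prop :=
  L'.length = O * A' ∧ ∀ o < O, ∀ j, j < A → j < A' → bit L' (o * A' + j) = bit L (o * A + j)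

theorem rs_ex : ∃ (p : Prog) (C : ℕ), ∀ (B P : ℕ) (r : Prog) (O A A' N : ℕ) (L : List Bool),
    1 ≤ P → 1 ≤ A → O * A ≤ N → O * A' ≤ N → L.length = O * A →
    ∃ L', Top B P r p [O, A, A'] L L' (C * (N + P)) ∧ Rs O A A' L L' := by
  obtain ⟨p, C, hp⟩ := resize_ex
  refine ⟨p, 3 * C, fun B P r O A A' N L hP hA h1 h2 hL => ?_⟩
  obtain ⟨L', l1, t1, e⟩ := hp B P r O A A' L hP hL
  refine ⟨L', t1.mono ?_, l1, fun o ho j h3 h4 => by rw [e o ho j h4]; simp [h3]⟩
  have h3 : O ≤ N := (Nat.le_mul_of_pos_right _ hA).trans h1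
  have k1 : (O : ℝ) * A ≤ N := by exact_mod_cast h1
  have k2 : (O : ℝ) * A' ≤ N := by exact_mod_cast h2
  have k3 : (O : ℝ) ≤ N := by exact_mod_cast h3
  have := cle C (x := (O : ℝ) * A + O * A' + O + P) (y := 3 * (N + P))
    (by linarith [Nat.cast_nonneg (α := ℝ) P])
  push_cast
  linarith

/-- block transposition with a padded inner field -/
theorem mid_ex {q : ℕ} (hq : 2 ≤ q) (h : SwapStmt q) : ∃ (p : Prog) (C : ℕ), 1 ≤ C ∧
    ∀ (B P : ℕ) (r : Prog) (j F O u' u I : ℕ) (L : List Bool), 1 ≤ P → 1 ≤ O → F = q ^ mu ^ j →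
    P * WW ^ j ≤ I → C * (O * F ^ u' * F ^ u * I) ≤ B →
    L.length = O * F ^ u' * F ^ u * I →
    ∃ L', Top B P r p [j, F, O, u', u, I] L L'
        (C * ((u + u') * sg ^ j + 1) * (O * F ^ u' * F ^ u * I)) ∧
      Tr O (F ^ u') (F ^ u) I L L' := by
  obtain ⟨p, C, hC, hp⟩ := blk_ex hq h
  obtain ⟨p', C', hp'⟩ := rs_ex
  refine ⟨.lett ((.var 5 + Ex.pow (.cst WW) (.var 0) - 1) / Ex.pow (.cst WW) (.var 0) *
      Ex.pow (.cst WW) (.var 0))
    (.lett (.var 3 * Ex.pow (.var 2) (.var 4) * Ex.pow (.var 2) (.var 5))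
      (.call [.var 0, .var 7, .var 1] p' ;;
        .call [.var 2, .var 3, .var 4, .var 5, .var 6, .var 1] p ;;
        .call [.var 0, .var 1, .var 7] p')), 2 * C + 6 * C' + 7,
    by omega, fun B P r j F O u' u I L hP hO hF hI hB hL => ?_⟩
  have hmu : 0 < mu ^ j := pow_pos (by have := two_le_mu; omega) _
  have hF2 : 2 ≤ F := hF ▸ hq.trans (Nat.le_self_pow (by omega) q)
  have hF0 : 0 < F := by omega
  have hW : 0 < WW ^ j := pow_pos (by have := two_le_WW; omega) _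
  have hWI : WW ^ j ≤ I := (Nat.le_mul_of_pos_left _ hP).trans hI
  have hI0 : 0 < I := by omega
  obtain ⟨I₂, hI₂⟩ : ∃ I₂, I₂ = (I + WW ^ j - 1) / WW ^ j * WW ^ j := ⟨_, rfl⟩
  have i1 : I₂ ≤ 2 * I := by have := Nat.div_mul_le_self (I + WW ^ j - 1) (WW ^ j); omega
  have i2 : I ≤ I₂ := by
    have := Nat.div_add_mod' (I + WW ^ j - 1) (WW ^ j)
    have := Nat.mod_lt (I + WW ^ j - 1) hW
    omega
  obtain ⟨R, hR⟩ : ∃ R, R = O * F ^ u' * F ^ u := ⟨_, rfl⟩
  have hR0 : 0 < R := by rw [hR]; positivity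
  rw [← hR] at hB hL
  have n1 : R * I₂ ≤ 2 * (R * I) := by nlinarith
  have n2 : R * I ≤ 2 * (R * I) := by omega
  have hB2 : 2 * (R * I) ≤ B := le_trans (Nat.mul_le_mul_right _ (by omega)) hB
  have b1 : R ≤ B := le_of_mul (2 * I) (by omega) hB2 (by ring)
  have b2 : 2 * I ≤ B := le_of_mul R hR0 hB2 (by ring)
  have b3 : F ^ u' ≤ B := le_of_mul (O * F ^ u) (one_le (by positivity)) b1 (by rw [hR]; ring)
  have b4 : F ^ u ≤ B := le_of_mul (O * F ^ u') (one_le (by positivity)) b1 (by rw [hR]; ring)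
  have b5 : WW ^ j ≤ B := by omega
  obtain ⟨L₁, t1, e1⟩ := hp' B P r R I I₂ _ L hP hI0 n2 n1 hL
  obtain ⟨L₂, t2, e2⟩ := hp B P r j F O u' u I₂ L₁ hP hO hF (hI₂ ▸ Dvd.intro_left _ rfl)
    (hI.trans i2) (by rw [← hR]; nlinarith) (by rw [← hR]; exact e1.1)
  obtain ⟨L₃, t3, e3⟩ := hp' B P r R I₂ I _ L₂ hP (by omega) n1 n2 (by rw [hR]; exact e2.1)
  have g1 := Go.call (args := [.var 0, .var 7, .var 1]) (env := [R, I₂, j, F, O, u', u, I])
    rfl (by simp [Ok]) t1
  have g2 := Go.call (args := [.var 2, .var 3, .var 4, .var 5, .var 6, .var 1])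
    (env := [R, I₂, j, F, O, u', u, I]) rfl (by simp [Ok]) t2
  have g3 := Go.call (args := [.var 0, .var 1, .var 7]) (env := [R, I₂, j, F, O, u', u, I])
    rfl (by simp [Ok]) t3
  have g4 := Go.lett (e := .var 3 * Ex.pow (.var 2) (.var 4) * Ex.pow (.var 2) (.var 5))
    (by simp [Ex.ev_pow, hF2, b3, b4, hR]) (Or.inl b1) (g1.seq (g2.seq g3))
  have g5 := Go.lett (e := (.var 5 + Ex.pow (.cst WW) (.var 0) - 1) / Ex.pow (.cst WW) (.var 0) *
      Ex.pow (.cst WW) (.var 0))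
    (by simp [Ex.ev_pow, two_le_WW, b5, hI₂]) (Or.inl (i1.trans b2)) g4
  refine ⟨L₃, g5.top.mono ?_, by rw [e3.1, hR], fun o ho a ha a' ha' i hi => ?_⟩
  · have hP1 : (1 : ℝ) ≤ P := by exact_mod_cast hP
    have hPN : (P : ℝ) ≤ R * I := by
      have : P ≤ R * I := ((Nat.le_mul_of_pos_right _ hW).trans hI).trans
        (Nat.le_mul_of_pos_left _ hR0)
      exact_mod_cast this
    have hs : (0 : ℝ) ≤ (u + u') * sg ^ j := by have := two_le_sg; positivity
    have hR' : (O : ℝ) * F ^ u' * F ^ u = R := by rw [hR]; push_cast; ring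
    have n1' : (R : ℝ) * I₂ ≤ 2 * (R * I) := by exact_mod_cast n1
    rw [hR']
    push_cast
    generalize (R : ℝ) * I = N at *
    generalize ((u : ℝ) + u') * sg ^ j = s at *
    have k1 := mul_le_mul_of_nonneg_left n1' (show (0 : ℝ) ≤ C * (s + 1) by positivity)
    have k2 := cle C' hPN
    have k3 : (0 : ℝ) ≤ s * N := mul_nonneg hs (by linarith)
    have k4 := mul_nonneg (Nat.cast_nonneg (α := ℝ) C') k3
    nlinarith
  · have r1 : (o * F ^ u + a') * F ^ u' + a < R := by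
      rw [hR, mul_right_comm]; exact lt_mul (lt_mul ho ha') ha
    have r2 : (o * F ^ u' + a) * F ^ u + a' < R := by
      rw [hR]; exact lt_mul (lt_mul ho ha) ha'
    rw [e3.2 _ r1 i (by omega) hi, e2.2 o ho a ha a' ha' i (by omega), e1.2 _ r2 i hi (by omega)]

theorem mu_le_WW : mu ≤ WW := by rw [mu_eq, WW_eq]; norm_num

set_option maxHeartbeats 1000000 in
/-- transposition of two fields whose sizes are powers of `q` -/
theorem pw_ex {q : ℕ} (hq : 2 ≤ q) (h : SwapStmt q) : ∃ (p : Prog) (C : ℕ), 1 ≤ C ∧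
    ∀ (B P : ℕ) (r : Prog) (j O α β I : ℕ) (L : List Bool), 1 ≤ P → 1 ≤ O → 1 ≤ I →
    C * (O * q ^ α * q ^ β * I) ≤ B → WW ^ j * P ≤ B → L.length = O * q ^ α * q ^ β * I →
    ∃ L', Top B P r p [j, O, α, β, I] L L'
        (C * (O * q ^ α * q ^ β * I + P) * trc j (α + β) (P / I).size) ∧
      Tr O (q ^ α) (q ^ β) I L L' := by
  obtain ⟨p₁, C₁, hC₁, h₁⟩ := mid_ex hq h
  obtain ⟨p₂, C₂, h₂⟩ := out_ex hq
  obtain ⟨p₃, C₃, h₃⟩ := in_ex hq
  refine ⟨.lett (Ex.pow (.cst mu) (.var 0))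
    (.lett ((.var 4 - (44 * .var 1 + Ex.size (Ex.unit / .var 5))) / .var 0)
      (.lett (.var 4 / .var 1)
        (.ite (.var 1) (.call [.var 3, Ex.pow (.cst q) (.var 2),
            .var 4 * Ex.pow (.cst q) (.var 5 - .var 2 * .var 0), .var 0, .var 1,
            Ex.pow (.cst q) (.var 6 - .var 2 * .var 1) * .var 7] p₁) .skip ;;
          .call [.var 4 * Ex.pow (.cst q) (.var 5 - .var 2 * .var 0) *
            Ex.pow (.cst q) (.var 2 * .var 1), Ex.pow (.cst q) (.var 2 * .var 0),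
            .var 6 - .var 2 * .var 1, .var 7] p₂ ;;
          .call [.var 4, .var 5 - .var 2 * .var 0, Ex.pow (.cst q) (.var 6),
            Ex.pow (.cst q) (.var 2 * .var 0) * .var 7] p₃))), C₁ + 44 * C₂ + C₃ + 10,
    by omega, fun B P r j O α β I L hP hO hI hB hWP hL => ?_⟩
  have hq0 : 0 < q := by omega
  have hW : 0 < WW ^ j := pow_pos (by have := two_le_WW; omega) _
  obtain ⟨t, ht⟩ : ∃ t, t = mu ^ j := ⟨_, rfl⟩
  have ht0 : 0 < t := ht ▸ pow_pos (by have := two_le_mu; omega) _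
  have bt : t ≤ B := by
    rw [ht]
    exact (Nat.pow_le_pow_left mu_le_WW j).trans ((Nat.le_mul_of_pos_right _ hP).trans hWP)
  obtain ⟨u, hu⟩ : ∃ u, u = (β - (44 * j + (P / I).size)) / t := ⟨_, rfl⟩
  obtain ⟨u', hu'⟩ : ∃ u', u' = α / t := ⟨_, rfl⟩
  have u1 := Nat.div_add_mod (β - (44 * j + (P / I).size)) t
  have u2 := Nat.mod_lt (β - (44 * j + (P / I).size)) ht0
  have u3 := Nat.div_add_mod α t
  have u4 := Nat.mod_lt α ht0
  rw [← hu] at u1
  rw [← hu'] at u3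
  obtain ⟨ρ, hρ⟩ : ∃ ρ, β = t * u + ρ := ⟨β - t * u, by omega⟩
  obtain ⟨ρ', hρ'⟩ : ∃ ρ', α = ρ' + t * u' := ⟨α - t * u', by omega⟩
  have r1 : ρ < 44 * j + (P / I).size + t := by omega
  have r2 : ρ' < t := by omega
  have r3 : u ≠ 0 → 44 * j + (P / I).size ≤ ρ := fun h0 => by
    have : t ≤ t * u := Nat.le_mul_of_pos_right _ (by omega)
    omega
  have e1 : β - t * u = ρ := by omega
  have e2 : α - t * u' = ρ' := by omega
  have eα : q ^ α = q ^ ρ' * q ^ (t * u') := by rw [hρ', pow_add]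
  have eβ : q ^ β = q ^ (t * u) * q ^ ρ := by rw [hρ, pow_add]
  obtain ⟨N, hN⟩ : ∃ N, N = O * q ^ α * q ^ β * I := ⟨_, rfl⟩
  have eN : N = O * q ^ ρ' * q ^ (t * u') * q ^ (t * u) * q ^ ρ * I := by rw [hN, eα, eβ]; ring
  rw [← hN] at hB hL
  have hB1 : N ≤ B := le_of_mul _ (by omega) hB (mul_comm _ _)
  have b1 : q ^ β ≤ B := le_of_mul (O * q ^ α * I) (one_le (by positivity)) hB1 (by rw [hN]; ring)
  have b2 : q ^ α ≤ B := le_of_mul (O * q ^ β * I) (one_le (by positivity)) hB1 (by rw [hN]; ring)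
  have b3 : q ^ ρ ≤ B := le_of_mul (q ^ (t * u)) (one_le (by positivity)) b1 (by rw [eβ]; ring)
  have b4 : q ^ (t * u) ≤ B := le_of_mul (q ^ ρ) (one_le (by positivity)) b1 eβ
  have b5 : q ^ ρ' ≤ B := le_of_mul (q ^ (t * u')) (one_le (by positivity)) b2 eα
  have b6 : q ^ (t * u') ≤ B := le_of_mul (q ^ ρ') (one_le (by positivity)) b2 (by rw [eα]; ring)
  have b7 : O * q ^ ρ' * q ^ (t * u) ≤ B :=
    le_of_mul (q ^ (t * u') * q ^ ρ * I) (one_le (by positivity)) hB1 (by rw [eN]; ring)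
  have b8 : O * q ^ ρ' ≤ B := le_of_mul (q ^ (t * u)) (one_le (by positivity)) b7 rfl
  have b9 : q ^ ρ * I ≤ B := le_of_mul (O * q ^ ρ' * q ^ (t * u') * q ^ (t * u))
    (one_le (by positivity)) hB1 (by rw [eN]; ring)
  have b10 : q ^ (t * u') * I ≤ B := le_of_mul (O * q ^ ρ' * q ^ ρ * q ^ (t * u))
    (one_le (by positivity)) hB1 (by rw [eN]; ring)
  have b11 : ρ ≤ B := (lt_pw hq ρ).le.trans b3
  have b12 : ρ' ≤ B := (lt_pw hq ρ').le.trans b5
  have b13 : u ≤ B := (Nat.le_mul_of_pos_left _ ht0).trans ((lt_pw hq _).le.trans b4)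
  have b14 : u' ≤ B := (Nat.le_mul_of_pos_left _ ht0).trans ((lt_pw hq _).le.trans b6)
  have hP1 : (1 : ℝ) ≤ P := by exact_mod_cast hP
  have hN0 : (0 : ℝ) ≤ N := by positivity
  have hs : (0 : ℝ) ≤ (u + u') * sg ^ j := by have := two_le_sg; positivity
  have hmid : ∃ L₁, Go B P r (.ite (.var 1) (.call [.var 3, Ex.pow (.cst q) (.var 2),
        .var 4 * Ex.pow (.cst q) (.var 5 - .var 2 * .var 0), .var 0, .var 1,
        Ex.pow (.cst q) (.var 6 - .var 2 * .var 1) * .var 7] p₁) .skip)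
      [u', u, t, j, O, α, β, I] L [u', u, t, j, O, α, β, I] L₁
      (C₁ * ((u + u') * sg ^ j + 1) * N + P + P) ∧
      Tr (O * q ^ ρ') (q ^ (t * u')) (q ^ (t * u)) (q ^ ρ * I) L L₁ := by
    by_cases h0 : u = 0
    · refine ⟨L, (Go.iteF (by simp [h0]) Go.skip).mono ?_, ?_⟩
      · have : (0 : ℝ) ≤ C₁ * ((u + u') * sg ^ j + 1) * N := by positivity
        linarith
      · rw [h0, mul_zero, pow_zero]
        exact Tr.one_right (by rw [hL, eN, h0]; ring)
    · have bF : q ^ t ≤ B := (Nat.pow_le_pow_right hq0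
        (Nat.le_mul_of_pos_right _ (by omega))).trans b4
      have eN' : O * q ^ ρ' * (q ^ t) ^ u' * (q ^ t) ^ u * (q ^ ρ * I) = N := by
        rw [eN, pow_mul, pow_mul]; ring
      obtain ⟨L₁, t1, e⟩ := h₁ B P r j (q ^ t) (O * q ^ ρ') u' u (q ^ ρ * I) L hP
        (one_le (by positivity)) (by rw [ht]) (by
          have k1 : P ≤ 2 ^ (P / I).size * I := by
            have := Nat.lt_size_self (P / I)
            have := Nat.div_add_mod' P I
            have := Nat.mod_lt P hI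
            nlinarith
          calc P * WW ^ j ≤ 2 ^ (P / I).size * I * WW ^ j := Nat.mul_le_mul_right _ k1
            _ = 2 ^ (44 * j + (P / I).size) * I := by rw [WW_eq, ← pow_mul]; ring
            _ ≤ q ^ ρ * I := Nat.mul_le_mul_right _ ((Nat.pow_le_pow_left hq _).trans
              (Nat.pow_le_pow_right hq0 (r3 h0))))
        (by rw [eN']; exact le_trans (Nat.mul_le_mul_right _ (by omega)) hB) (by rw [eN', hL])
      refine ⟨L₁, (Go.iteT (by simpa using h0) (Go.call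
        (by simp [Ex.ev_pow, hq, bF, b5, b3, e1, e2]) (by simp [Ok, bF, b8, b9]) t1)).mono
        (le_of_eq ?_), by rwa [pow_mul, pow_mul]⟩
      rw [← eN']; push_cast; ring
  obtain ⟨L₁, g1, f1⟩ := hmid
  obtain ⟨L₂, t2, f2⟩ := h₂ B P r (O * q ^ ρ' * q ^ (t * u)) (q ^ (t * u')) ρ I L₁ hP
    (one_le (by positivity)) (one_le (by positivity)) hI (le_trans (le_of_eq (by rw [eN]; ring)) hB1)
    (by rw [f1.1]; ring)
  have f3 := f1.out f2
  rw [← eβ] at f3
  obtain ⟨L₃, t3, f4⟩ := h₃ B P r O ρ' (q ^ β) (q ^ (t * u') * I) L₂ hP hO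
    (one_le (by positivity)) (one_le (by positivity))
    (le_trans (le_of_eq (by rw [eN, eβ]; ring)) hB1) (by rw [f3.1]; ring)
  have f5 := f3.inn f4
  rw [← eα] at f5
  have g2 := Go.call (args := [.var 4 * Ex.pow (.cst q) (.var 5 - .var 2 * .var 0) *
      Ex.pow (.cst q) (.var 2 * .var 1), Ex.pow (.cst q) (.var 2 * .var 0),
      .var 6 - .var 2 * .var 1, .var 7]) (env := [u', u, t, j, O, α, β, I])
    (by simp [Ex.ev_pow, hq, b4, b5, b6, e1, e2]) (by simp [Ok, b6, b7, b11]) t2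
  have g3 := Go.call (args := [.var 4, .var 5 - .var 2 * .var 0, Ex.pow (.cst q) (.var 6),
      Ex.pow (.cst q) (.var 2 * .var 0) * .var 7]) (env := [u', u, t, j, O, α, β, I])
    (by simp [Ex.ev_pow, hq, b1, b6, e2]) (by simp [Ok, b1, b10, b12]) t3
  have g4 := Go.lett (e := .var 4 / .var 1) (env := [u, t, j, O, α, β, I]) (by simp [hu'])
    (Or.inl b14) (g1.seq (g2.seq g3))
  have g5 := Go.lett (e := (.var 4 - (44 * .var 1 + Ex.size (Ex.unit / .var 5))) / .var 0)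
    (env := [t, j, O, α, β, I]) (by simp [hu]) (Or.inl b13) g4
  have g6 := Go.lett (e := Ex.pow (.cst mu) (.var 0)) (env := [j, O, α, β, I])
    (by simp [Ex.ev_pow, two_le_mu, ← ht, bt]) (Or.inl bt) g5
  refine ⟨L₃, g6.top.mono ?_, f5⟩
  have n1 : ((O * q ^ ρ' * q ^ (t * u) : ℕ) : ℝ) * (q ^ (t * u') : ℕ) * q ^ ρ * I = N := by
    rw [eN]; push_cast; ring
  have n2 : (O : ℝ) * q ^ ρ' * (q ^ β : ℕ) * (q ^ (t * u') * I : ℕ) = N := by
    rw [eN, eβ]; push_cast; ring
  have n3 : (O : ℝ) * q ^ α * q ^ β * I = N := by rw [hN]; push_cast; ring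
  rw [n1, n2, n3]
  have hT := one_le_trc j (α + β) (P / I).size
  have htR : (t : ℝ) = (mu : ℝ) ^ j := by rw [ht]; push_cast; rfl
  have ht1 : (0 : ℝ) < t := by exact_mod_cast ht0
  have c0 : (0 : ℝ) ≤ (α + β : ℕ) * (sg / mu) ^ j := by have := two_le_sg; positivity
  have c1 : (u + u') * sg ^ j ≤ (α + β : ℕ) * (sg / mu) ^ j := by
    rw [div_pow, ← htR, mul_div_assoc', le_div_iff₀ ht1, mul_right_comm]
    refine mul_le_mul_of_nonneg_right ?_ (by have := two_le_sg; positivity)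
    have : (u + u') * t ≤ α + β := by rw [add_mul, mul_comm u, mul_comm u']; omega
    exact_mod_cast this
  have c2 : (ρ : ℝ) + 1 ≤ 44 * j + (P / I).size + t := by exact_mod_cast r1
  have c3 : (ρ' : ℝ) + 1 ≤ t := by exact_mod_cast r2
  have c4 : (0 : ℝ) ≤ j := by positivity
  have c5 : (0 : ℝ) ≤ (P / I).size := by positivity
  have d1 : (u + u') * sg ^ j + 1 ≤ trc j (α + β) (P / I).size := by unfold trc; linarith
  have d2 : (ρ : ℝ) + 1 ≤ 44 * trc j (α + β) (P / I).size := by unfold trc; linarith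
  have d3 : (ρ' : ℝ) + 1 ≤ trc j (α + β) (P / I).size := by unfold trc; linarith
  generalize trc j (α + β) (P / I).size = T at *
  have k1 := cle C₁ (mul_le_mul d1 (show (N : ℝ) ≤ N + P by linarith) hN0 (by linarith))
  have k2 := cle C₂ (mul_le_mul_of_nonneg_right d2 (show (0 : ℝ) ≤ N + P by linarith))
  have k3 := cle C₃ (mul_le_mul_of_nonneg_right d3 (show (0 : ℝ) ≤ N + P by linarith))
  have k4 : (N : ℝ) + P ≤ T * (N + P) := le_mul_of_one_le_left (by linarith) hT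
  push_cast
  linarith

/-- ceiling logarithm as an expression -/
def clogE (q : ℕ) (a : Ex) : Ex :=
  Ex.fold (Ex.size a) 0 (Ex.ifLt (Ex.pow (.cst q) (.var 0)) (Ex.drop 2 a) (.var 0 + 1) (.var 0))

theorem pow_clog_le {q A : ℕ} (hq : 2 ≤ q) (hA : 1 ≤ A) : q ^ Nat.clog q A ≤ q * A := by
  rcases Nat.eq_or_lt_of_le hA with rfl | h
  · simp; omega
  · have h1 := Nat.pow_pred_clog_lt_self (b := q) (by omega) h
    have h2 := Nat.clog_pos (b := q) (by omega) h
    obtain ⟨c, hc⟩ : ∃ c, Nat.clog q A = c + 1 := ⟨Nat.clog q A - 1, by omega⟩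
    rw [hc] at h1 ⊢
    rw [pow_succ']
    exact Nat.mul_le_mul_left _ h1.le

theorem ev_clogE {q B P : ℕ} {a : Ex} {env : List ℕ} (hq : 2 ≤ q) (hA : 1 ≤ a.ev B P env)
    (hB : q * a.ev B P env ≤ B) : (clogE q a).ev B P env = Nat.clog q (a.ev B P env) := by
  generalize hA' : a.ev B P env = A at hA hB
  have h1 := (pow_clog_le hq hA).trans hB
  have h2 : Nat.clog q A ≤ A.size := (Nat.clog_le_iff_le_pow (by omega)).2
    ((Nat.lt_size_self A).le.trans (Nat.pow_le_pow_left hq _))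
  have := Ex.ev_fold (B := B) (P := P) (env := env) (n := Ex.size a) (init := 0)
    (body := Ex.ifLt (Ex.pow (.cst q) (.var 0)) (Ex.drop 2 a) (.var 0 + 1) (.var 0)) (N := A.size)
    (fun i => min i (Nat.clog q A)) (by simp [hA'])
    (Nat.size_le_size ((Nat.le_mul_of_pos_left _ (by omega)).trans hB)) (by simp)
    (fun i _ => by
      have h3 : q ^ min i (Nat.clog q A) ≤ B :=
        (Nat.pow_le_pow_right (by omega) (min_le_right _ _)).trans h1
      rw [Ex.ev_ifLt, Ex.ev_pow (by simpa using hq) (by simpa using h3)]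
      simp only [Ex.ev_cst, Ex.ev_var, List.getD_cons_zero, Ex.ev_drop, List.drop_succ_cons,
        List.drop_zero, hA', Ex.ev_add, Ex.ev_ofNat, ← Nat.lt_clog_iff_pow_lt (show 1 < q by omega)]
      split_ifs <;> omega)
    (fun i _ => (min_le_right _ _).trans ((lt_pw hq _).le.trans h1))
  rw [clogE, this, min_eq_right h2]

end TT

open TT Q4

theorem trans_ex {q : ℕ} (hq : 2 ≤ q) (h : SwapStmt q) : TransStmt := by
  obtain ⟨p, C, hC, hp⟩ := pw_ex hq h
  obtain ⟨p', C', hp'⟩ := rs_ex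
  refine ⟨.lett (clogE q (.var 2)) (.lett (clogE q (.var 4))
    (.lett (Ex.pow (.cst q) (.var 1)) (.lett (Ex.pow (.cst q) (.var 1))
      (.call [.var 5, .var 6 * (.var 7 * .var 8), .var 1 * (.var 7 * .var 8)] p' ;;
        .call [.var 5 * .var 1, .var 7 * .var 8, .var 0 * .var 8] p' ;;
        .call [.var 4, .var 5, .var 3, .var 2, .var 8] p ;;
        .call [.var 5 * .var 0, .var 1 * .var 8, .var 6 * .var 8] p' ;;
        .call [.var 5, .var 0 * (.var 6 * .var 8), .var 7 * (.var 6 * .var 8)] p')))),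
    (3 * C + 4 * C' + 13) * q ^ 2, fun B P r j O A A' I L hP hO hA hA' hI hB hWP hL => ?_⟩
  have hq0 : 0 < q := by omega
  obtain ⟨α, hα⟩ : ∃ α, α = Nat.clog q A := ⟨_, rfl⟩
  obtain ⟨β, hβ⟩ : ∃ β, β = Nat.clog q A' := ⟨_, rfl⟩
  obtain ⟨X, hX⟩ : ∃ X, X = q ^ α := ⟨_, rfl⟩
  obtain ⟨Y, hY⟩ : ∃ Y, Y = q ^ β := ⟨_, rfl⟩
  have x1 : A ≤ X := by rw [hX, hα]; exact Nat.le_pow_clog (by omega) _
  have y1 : A' ≤ Y := by rw [hY, hβ]; exact Nat.le_pow_clog (by omega) _
  have x2 : X ≤ q * A := by rw [hX, hα]; exact pow_clog_le hq hA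
  have y2 : Y ≤ q * A' := by rw [hY, hβ]; exact pow_clog_le hq hA'
  have x0 : 0 < X := by omega
  have y0 : 0 < Y := by omega
  obtain ⟨M, hM⟩ : ∃ M, M = q ^ 2 * (O * A * A' * I) := ⟨_, rfl⟩
  have hB1 : (3 * C + 4 * C' + 13) * M ≤ B := by rw [hM, ← mul_assoc]; exact hB
  have hMB : M ≤ B := le_of_mul _ (by omega) hB1 (mul_comm _ _)
  have m0 : O * X * Y * I ≤ M := by
    calc O * X * Y * I ≤ O * (q * A) * (q * A') * I := by gcongr
      _ = M := by rw [hM]; ring
  have m1 : O * (X * (A' * I)) ≤ M := le_trans (by rw [← mul_assoc, ← mul_assoc]; gcongr) m0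
  have m2 : O * (A * (A' * I)) ≤ M := le_trans (by gcongr) m1
  have m3 : O * X * (A' * I) ≤ M := by rw [mul_assoc]; exact m1
  have m4 : O * X * (Y * I) ≤ M := by rw [← mul_assoc]; exact m0
  have m5 : O * Y * (X * I) ≤ M := le_trans (le_of_eq (by ring)) m0
  have m6 : O * Y * (A * I) ≤ M := le_trans (by gcongr) m5
  have m7 : O * (Y * (A * I)) ≤ M := by rw [← mul_assoc]; exact m6
  have m8 : O * (A' * (A * I)) ≤ M := le_trans (by gcongr) m7
  have lo : ∀ {x y : ℕ}, 0 < x → x * y ≤ M → y ≤ B := fun h1 h2 =>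
    (Nat.le_mul_of_pos_left _ h1).trans (h2.trans hMB)
  have hi : ∀ {x y : ℕ}, 0 < y → x * y ≤ M → x ≤ B := fun h1 h2 =>
    (Nat.le_mul_of_pos_right _ h1).trans (h2.trans hMB)
  have b1 : q * A ≤ B := le_of_mul (q * O * A' * I) (one_le (by positivity)) hMB (by rw [hM]; ring)
  have b2 : q * A' ≤ B := le_of_mul (q * O * A * I) (one_le (by positivity)) hMB (by rw [hM]; ring)
  obtain ⟨L₁, t1, e1⟩ := hp' B P r O _ _ M L hP (one_le (by positivity)) m2 m1 (by rw [hL]; ring)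
  obtain ⟨L₂, t2, e2⟩ := hp' B P r _ _ _ M L₁ hP (one_le (by positivity)) m3 m4
    (by rw [e1.1]; ring)
  obtain ⟨L₃, t3, e3⟩ := hp B P r j O α β I L₂ hP hO hI
    (by rw [← hX, ← hY]; exact le_trans (Nat.mul_le_mul (by omega) m0) hB1) hWP
    (by rw [e2.1, ← hX, ← hY]; ring)
  rw [← hX, ← hY] at e3
  obtain ⟨L₄, t4, e4⟩ := hp' B P r _ _ _ M L₃ hP (one_le (by positivity)) m5 m6
    (by rw [e3.1]; ring)
  obtain ⟨L₅, t5, e5⟩ := hp' B P r _ _ _ M L₄ hP (one_le (by positivity)) m7 m8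
    (by rw [e4.1]; ring)
  have g1 := Go.call (args := [.var 5, .var 6 * (.var 7 * .var 8), .var 1 * (.var 7 * .var 8)])
    (env := [Y, X, β, α, j, O, A, A', I]) rfl (by simp [Ok, lo hO m1, lo hO m2]) t1
  have g2 := Go.call (args := [.var 5 * .var 1, .var 7 * .var 8, .var 0 * .var 8])
    (env := [Y, X, β, α, j, O, A, A', I]) rfl (by
      simp [Ok, hi (by positivity) m3, lo (by positivity) m3, lo (by positivity) m4]) t2
  have g3 := Go.call (args := [.var 4, .var 5, .var 3, .var 2, .var 8])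
    (env := [Y, X, β, α, j, O, A, A', I]) rfl (by simp [Ok]) t3
  have g4 := Go.call (args := [.var 5 * .var 0, .var 1 * .var 8, .var 6 * .var 8])
    (env := [Y, X, β, α, j, O, A, A', I]) rfl (by
      simp [Ok, hi (by positivity) m5, lo (by positivity) m5, lo (by positivity) m6]) t4
  have g5 := Go.call (args := [.var 5, .var 0 * (.var 6 * .var 8), .var 7 * (.var 6 * .var 8)])
    (env := [Y, X, β, α, j, O, A, A', I]) rfl (by simp [Ok, lo hO m7, lo hO m8]) t5
  have bX : X ≤ B := x2.trans b1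
  have bY : Y ≤ B := y2.trans b2
  have g6 := Go.lett (e := Ex.pow (.cst q) (.var 1)) (env := [X, β, α, j, O, A, A', I])
    (by simp [Ex.ev_pow, hq, ← hY, bY]) (Or.inl bY) (g1.seq (g2.seq (g3.seq (g4.seq g5))))
  have g7 := Go.lett (e := Ex.pow (.cst q) (.var 1)) (env := [β, α, j, O, A, A', I])
    (by simp [Ex.ev_pow, hq, ← hX, bX]) (Or.inl bX) g6
  have g8 := Go.lett (e := clogE q (.var 4)) (env := [α, j, O, A, A', I])
    ((ev_clogE (a := .var 4) (env := [α, j, O, A, A', I]) hq hA' b2).trans hβ.symm) (Or.inl ((lt_pw hq β).le.trans (hY ▸ bY))) g7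
  have g9 := Go.lett (e := clogE q (.var 2)) (env := [j, O, A, A', I])
    ((ev_clogE (a := .var 2) (env := [j, O, A, A', I]) hq hA b1).trans hα.symm) (Or.inl ((lt_pw hq α).le.trans (hX ▸ bX))) g8
  refine ⟨L₅, by rw [e5.1]; ring, g9.top.mono ?_, fun o ho a ha a' ha' i hi => ?_⟩
  · have hP1 : (1 : ℝ) ≤ P := by exact_mod_cast hP
    have s1 : α + β ≤ (A * A').size + 2 := by
      have k1 : q ^ (α + β) < q ^ ((A * A').size + 2) := by
        calc q ^ (α + β) = X * Y := by rw [pow_add, hX, hY]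
          _ ≤ q * A * (q * A') := Nat.mul_le_mul x2 y2
          _ = A * A' * q ^ 2 := by ring
          _ < q ^ (A * A').size * q ^ 2 := Nat.mul_lt_mul_of_pos_right
            ((Nat.lt_size_self _).trans_le (Nat.pow_le_pow_left hq _)) (by positivity)
          _ = _ := by rw [pow_add]
      exact ((Nat.pow_lt_pow_iff_right (by omega)).1 k1).le
    have s2 : trc j (α + β) (P / I).size ≤ 3 * trc j (A * A').size (P / I).size := by
      refine (trc_mono j s1 le_rfl).trans ?_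
      have hT := one_le_trc j (A * A').size (P / I).size
      have hmu : (0 : ℝ) < mu := by exact_mod_cast (by have := two_le_mu; omega : 0 < mu)
      have : (sg / mu) ^ j ≤ 1 := pow_le_one₀ (by have := two_le_sg; positivity)
        ((div_le_one hmu).2 sg_le_mu)
      unfold trc at hT ⊢
      push_cast
      linarith
    have hT := one_le_trc j (A * A').size (P / I).size
    have hT' := one_le_trc j (α + β) (P / I).size
    have m0' : (O : ℝ) * q ^ α * q ^ β * I ≤ M := by rw [hX, hY] at m0; exact_mod_cast m0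
    have hq1 : (1 : ℝ) ≤ (q : ℝ) ^ 2 := one_le_pow₀ (by exact_mod_cast hq0)
    have m1' : (M : ℝ) + P ≤ q ^ 2 * (O * A * A' * I + P) := by
      rw [hM]; push_cast; nlinarith
    have hM0 : (0 : ℝ) ≤ M := by positivity
    generalize trc j (A * A').size (P / I).size = T at *
    generalize trc j (α + β) (P / I).size = T' at *
    have k1 := cle C (mul_le_mul (show (O : ℝ) * q ^ α * q ^ β * I + P ≤ M + P by linarith) s2
      (by linarith) (by linarith))
    have k4 : (M : ℝ) + P ≤ (M + P) * T := le_mul_of_one_le_right (by linarith) hT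
    have k5 := cle C' k4
    have k6 := mul_le_mul_of_nonneg_left (mul_le_mul_of_nonneg_right m1' (show 0 ≤ T by linarith))
      (show (0 : ℝ) ≤ 3 * C + 4 * C' + 13 by positivity)
    push_cast
    linarith
  · have a5 := e5.2 o ho (a' * (A * I) + (a * I + i)) (lt_mul (by omega) (lt_mul ha hi))
      (lt_mul ha' (lt_mul ha hi))
    have a4 := e4.2 (o * Y + a') (lt_mul ho (by omega)) (a * I + i) (lt_mul (by omega) hi)
      (lt_mul ha hi)
    have a3 := e3.2 o ho a (by omega) a' (by omega) i hi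
    have a2 := e2.2 (o * X + a) (lt_mul ho (by omega)) (a' * I + i) (lt_mul ha' hi)
      (lt_mul (by omega) hi)
    have a1 := e1.2 o ho (a * (A' * I) + (a' * I + i)) (lt_mul ha (lt_mul ha' hi))
      (lt_mul (by omega) (lt_mul ha' hi))
    refine Eq.trans (Eq.trans ?_ a5) (Eq.trans (Eq.trans ?_ a4) (Eq.trans (Eq.trans ?_ a3)
      (Eq.trans (Eq.trans ?_ a2) (Eq.trans (Eq.trans ?_ a1) ?_)))) <;> congr 1 <;> ring

end Crest.Agent.IM
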