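import Crest.Agent.IM.Net
import Crest.Agent.IM.Trans
import Crest.Agent.IM.Gauss
import Crest.Agent.IM.Exp

/-! Parameters of one level of the multiplication algorithm. -/

set_option autoImplicit false

namespace Crest.Agent.IM

/-- `z` is approximated within `ε` by the represented element, in fixed point with `p` bits. -/
def Apx (w M n : ℕ) (ad : ℕ → ℕ) (p : ℕ) (ε : ℝ) (L : List Bool) (z : RA n) : Prop :=
  nrm n z ≤ 2 ^ p * ε ∧ ∃ a : RA n, AR w M n ad L a ∧ nrm n (a - z) ≤ ε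

theorem Apx.mono {w M n : ℕ} {ad : ℕ → ℕ} {p : ℕ} {ε ε' : ℝ} {L : List Bool} {z : RA n}
    (h : Apx w M n ad p ε L z) (hε : ε ≤ ε') : Apx w M n ad p ε' L z :=
  let ⟨h1, a, h2, h3⟩ := h
  ⟨h1.trans (by gcongr), a, h2, h3.trans hε⟩

theorem mu_pow_le_Dn (bb j : ℕ) : mu ^ j ≤ Dn bb j := by
  induction j with
  | zero => simp [Dn]
  | succ j ih =>
    have := two_le_WW
    rw [Dn, pow_succ]
    calc mu ^ j * mu ≤ Dn bb j * mu := Nat.mul_le_mul_right _ ih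
      _ = 1 * mu * Dn bb j := by ring
      _ ≤ WW * mu * Dn bb j + bb := by
        have : 1 * mu * Dn bb j ≤ WW * mu * Dn bb j := by gcongr; omega
        omega

/-- Basic parameters. -/
structure Par : Type where
  /-- depth of the butterfly network -/
  J : ℕ
  /-- `t = 2 ^ k` -/
  k : ℕ
  /-- `2 n = 2 ^ e` -/
  e : ℕ
  /-- helper digits have size `q ^ mu ^ jg` -/
  jg : ℕ
  /-- padding of the places -/
  G : ℕ
  /-- block level of transpositions -/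
  jt : ℕ
  /-- width of the Gaussians -/
  α : ℕ
  /-- offset of the moduli -/
  a0 : ℕ
  /-- step of the moduli -/
  D0 : ℕ
  /-- batch size -/
  Bt : ℕ
  /-- size of helper digits -/
  Qg : ℕ
  /-- innermost field of the network layout -/
  Y : ℕ

namespace Par
variable (π : Par)

/-- dimension -/
def d : ℕ := mu ^ π.J
/-- power-of-two length -/
def t : ℕ := 2 ^ π.k
/-- complex dimension of the coefficient algebra -/
def n : ℕ := 2 ^ (π.e - 1)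
/-- fixed-point precision -/
def p : ℕ := π.d ^ 4 * π.α ^ 2
/-- word size -/
def w : ℕ := 6 * π.p
/-- moduli -/
def s (i : ℕ) : ℕ := 1 + (π.a0 + i) * π.D0
/-- product of the moduli -/
def S : ℕ := pr π.s 0 π.d
/-- padded length -/
def S' : ℕ := 2 ^ π.k + 2 ^ (π.k - π.G)
/-- `X = x ^ ρx` has order `2 t` -/
def ρx : ℕ := 2 ^ (π.e - π.k)
/-- half bandwidth of the resampling -/
def β : ℕ := π.d ^ 2 * π.α ^ 2
/-- size of an array -/
def N0 : ℕ := π.w * (π.t ^ π.d * (2 * π.n) * π.Bt)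
/-- logarithm of the error growth of a transform -/
def g : ℕ := 3 * π.d * π.α ^ 2 + π.k * π.d + π.e + 20
/-- number of word-multiplication passes of a transform -/
def np : ℕ := π.d * (2 * π.β + 1) + π.d * (2 * π.d ^ 5) * (2 * π.d ^ 2 + 1) + π.d + 10

/-- The argument list; positions: 0 `J`, 1 `k`, 2 `e`, 3 `jg`, 4 `G`, 5 `jt`, 6 `α`, 7 `a0`,
8 `D0`, 9 `Bt`, 10 `Qg`, 11 `Y`, 12 `d`, 13 `t`, 14 `n`, 15 `p`, 16 `w`, 17 `S`, 18 `S'`,
19 `ρx`. -/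
def args : List ℕ :=
  [π.J, π.k, π.e, π.jg, π.G, π.jt, π.α, π.a0, π.D0, π.Bt, π.Qg, π.Y,
    π.d, π.t, π.n, π.p, π.w, π.S, π.S', π.ρx]

/-- passes of a transposition -/
noncomputable def tr (P : ℕ) : ℝ :=
  trc π.jt (3 * π.w * (π.t ^ π.d * (2 * π.n))).size (P / π.Bt).size

/-- passes of a synthetic transform -/
noncomputable def ovG (P : ℕ) : ℝ :=
  π.k * (π.J + 1) * sg ^ (π.J + π.jg) + π.d * (π.G + π.Qg.size + 1) * sg ^ π.jg + π.tr P +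
    π.d + π.k

/-- passes of one level -/
noncomputable def ov (P : ℕ) : ℝ := π.ovG P + (π.d + 1) * π.tr P + π.np

/-- Constraints on the parameters. -/
structure Ok (q bb P : ℕ) : Prop where
  hP : 1 ≤ P
  hBt : 1 ≤ π.Bt
  hJ : 1 ≤ π.J
  hG : π.G < π.k
  hke : π.k < π.e
  hQ : π.Qg = q ^ mu ^ π.jg
  hQ3 : 3 ≤ π.Qg
  hQd : π.Qg ^ π.d ≤ 2 * (π.Qg - 1) ^ π.d
  hQρ : π.Qg ^ π.d ≤ π.ρx
  hS' : π.S' ^ π.d ≤ 2 * π.t ^ π.d
  hY1 : π.ρx * π.Bt ≤ (π.Qg - 1) ^ π.d * π.Qg ^ π.d * π.Y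
  hY2 : (π.Qg - 1) ^ π.d * π.Qg ^ π.d * π.Y ≤ 2 * (π.ρx * π.Bt)
  hY3 : WW ^ (π.J + π.jg) ∣ π.Y
  hY4 : P * WW ^ (π.J + π.jg) ≤ π.Y
  hPn : P ≤ 2 * π.n * π.Bt
  hD : 3 * π.k * π.d + π.e + π.d + Dn bb π.J + 4 ≤ 2 * π.p
  hs1 : ∀ i < π.d, π.s i < π.t
  hs2 : ∀ i < π.d, π.t ≤ 2 * π.s i
  hs3 : ∀ i < π.d, π.s i ≤ 2 * π.d * (π.t - π.s i)
  hD0 : Even π.D0
  hD1 : ∀ l, 1 ≤ l → l < π.d → l ∣ π.D0
  hα1 : 2 * π.d ≤ π.α ^ 2
  hα2 : 2 ^ 20 * π.p ^ 2 ≤ 2 ^ (π.α ^ 2)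
  hα3 : π.t ^ 2 * π.α ^ 2 ≤ 2 ^ π.p
  hS : π.S ≤ 2 ^ π.p

/-- The register bound is large enough. -/
def Big (C B P : ℕ) : Prop :=
  C * π.N0 ≤ B ∧ 2 ^ (C * (π.p + 1) ^ 2) ≤ B ∧ WW ^ π.jt * P ≤ B

theorem Big.mono {π : Par} {C C' B P : ℕ} (h : π.Big C B P) (hC : C' ≤ C) : π.Big C' B P :=
  ⟨(Nat.mul_le_mul_right _ hC).trans h.1,
    (Nat.pow_le_pow_right (by norm_num) (Nat.mul_le_mul_right _ hC)).trans h.2.1, h.2.2⟩

/-- Multiplier for packed polynomials. -/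
def Mul1 (B P : ℕ) (r mul : Prog) (x : ℝ) : Prop :=
  ∀ O, π.S ≤ O → O ≤ π.t ^ π.d → MulAt B P r mul (2 * π.n * (3 * π.w)) (O * π.Bt) x

/-- Multiplier for words. -/
def Mul2 (B P : ℕ) (r mul : Prog) (x : ℝ) : Prop :=
  ∀ O, π.S ≤ O → O ≤ π.t ^ π.d → MulAt B P r mul π.w (O * (2 * π.n) * π.Bt) x

/-- Lane address in the network layout. -/
def nad' (bt : ℕ) (x : ℕ → ℕ) (c : ℕ) : ℕ :=
  nad π.Qg π.S' π.d (2 ^ π.k * π.Qg ^ π.d * π.Y)
    (dig (fun _ => π.Qg - 1) 0 π.d ((c % π.ρx * π.Bt + bt) / (π.Qg ^ π.d * π.Y))) x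
    (c / π.ρx * (π.Qg ^ π.d * π.Y) + (c % π.ρx * π.Bt + bt) % (π.Qg ^ π.d * π.Y))

theorem length_args : π.args.length = 20 := rfl
theorem one_le_n : 1 ≤ π.n := Nat.one_le_two_pow
theorem one_le_t : 1 ≤ π.t := Nat.one_le_two_pow
theorem one_le_ρx : 1 ≤ π.ρx := Nat.one_le_two_pow
theorem one_le_s (i : ℕ) : 1 ≤ π.s i := Nat.le_add_right _ _
theorem one_le_S : 1 ≤ π.S := pr_pos fun i _ _ => π.one_le_s i
theorem t_le_S' : π.t ≤ π.S' := Nat.le_add_right _ _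

namespace Ok
variable {π} {q bb P : ℕ} (h : π.Ok q bb P)
include h

theorem eight_dvd_d : 8 ∣ π.d :=
  Dvd.dvd.trans (by rw [mu_eq]; norm_num) (dvd_pow_self mu (by have := h.hJ; omega))

theorem eight_le_d : 8 ≤ π.d :=
  Nat.le_of_dvd (pow_pos (by have := two_le_mu; omega) _) h.eight_dvd_d

theorem t_mul_ρx : π.t * π.ρx = 2 * π.n := by
  have := h.hke
  unfold t ρx n
  rw [← pow_add, ← pow_succ']
  congr 1; omega

theorem two_le_t : 2 ≤ π.t := by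
  have := h.hG
  calc 2 = 2 ^ 1 := rfl
    _ ≤ 2 ^ π.k := Nat.pow_le_pow_right (by norm_num) (by omega)

theorem β_le_p : 64 * π.β ≤ π.p := by
  have := h.eight_le_d
  unfold p β
  have : 64 ≤ π.d ^ 2 := by nlinarith
  calc 64 * (π.d ^ 2 * π.α ^ 2) ≤ π.d ^ 2 * (π.d ^ 2 * π.α ^ 2) := Nat.mul_le_mul_right _ this
    _ = _ := by ring

theorem le_β : 64 * π.α ^ 2 ≤ π.β := by
  have := h.eight_le_d
  exact Nat.mul_le_mul_right _ (by nlinarith)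

theorem le_p : 1000 ≤ π.p := by
  have := h.β_le_p
  have := h.le_β
  have := h.hα1
  have := h.eight_le_d
  omega

theorem odd_s (i : ℕ) : Odd (π.s i) := by
  unfold s
  exact Odd.add_even odd_one (h.hD0.mul_left _)

theorem S_le : π.S ≤ π.t ^ π.d := by
  have := Finset.prod_le_pow_card (Finset.Ico 0 π.d) π.s π.t
    fun i hi => (h.hs1 i (Finset.mem_Ico.1 hi).2).le
  rwa [Nat.card_Ico, Nat.sub_zero] at this

theorem one_le_Y : 1 ≤ π.Y := by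
  have h1 := h.hP
  have h2 : 1 ≤ WW ^ (π.J + π.jg) := Nat.one_le_pow _ _ (by have := two_le_WW; omega)
  exact le_trans (by nlinarith) h.hY4

theorem nM_le : nM π.Qg π.S' π.d (2 ^ π.k) π.Y ≤ 8 * (π.t ^ π.d * (2 * π.n) * π.Bt) := by
  unfold nM
  rw [← h.t_mul_ρx]
  calc π.Qg ^ π.d * π.S' ^ π.d * (2 ^ π.k * π.Qg ^ π.d * π.Y)
      ≤ (2 * (π.Qg - 1) ^ π.d) * (2 * π.t ^ π.d) * (2 ^ π.k * π.Qg ^ π.d * π.Y) := by
        gcongr; exacts [h.hQd, h.hS']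
    _ = 4 * π.t ^ π.d * π.t * ((π.Qg - 1) ^ π.d * π.Qg ^ π.d * π.Y) := by unfold t; ring
    _ ≤ 4 * π.t ^ π.d * π.t * (2 * (π.ρx * π.Bt)) := Nat.mul_le_mul_left _ h.hY2
    _ = _ := by ring

theorem P_le_N0 : P ≤ π.N0 := by
  have h1 : 1 ≤ π.w := by have := h.le_p; unfold w; omega
  have h2 : 1 ≤ π.t ^ π.d := Nat.one_le_pow _ _ π.one_le_t
  calc P ≤ 1 * (1 * (2 * π.n) * π.Bt) := by simpa using h.hPn
    _ ≤ _ := by unfold N0; gcongr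

end Ok

theorem one_le_tr (P : ℕ) : 1 ≤ π.tr P := one_le_trc _ _ _

theorem tr_le_ovG (P : ℕ) : π.tr P ≤ π.ovG P := by
  have := two_le_sg
  unfold ovG
  have : (0 : ℝ) ≤ π.k * (π.J + 1) * sg ^ (π.J + π.jg) := by positivity
  have : (0 : ℝ) ≤ π.d * (π.G + π.Qg.size + 1) * sg ^ π.jg := by positivity
  have : (0 : ℝ) ≤ π.d + π.k := by positivity
  linarith

theorem ovG_le_ov (P : ℕ) : π.ovG P ≤ π.ov P := by
  have := π.one_le_tr P
  unfold ov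
  have : (0 : ℝ) ≤ (π.d + 1) * π.tr P + π.np := by positivity
  linarith

end Par

end Crest.Agent.IM
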