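import Crest.Agent.IM.ParamD

/-! Elementary estimates of the parameters of `ParamD`. -/

set_option autoImplicit false
set_option linter.unusedSectionVars false

namespace Crest.Agent.IM.PA

theorem bern (a b d : ℕ) (h : 2 * d * b ≤ a + b) : (a + b) ^ d ≤ 2 * a ^ d := by
  rcases Nat.eq_zero_or_pos (a + b) with h0 | h0
  · have ha : a = 0 := by omega
    have hb : b = 0 := by omega
    subst ha hb
    simp only [add_zero]; omega
  have hs : (0 : ℝ) < (a : ℝ) + b := by exact_mod_cast h0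
  have h' : (2 : ℝ) * d * b ≤ a + b := by exact_mod_cast h
  have hb : (b : ℝ) / (a + b) ≤ 1 := by
    rw [div_le_one hs]; have : (0 : ℝ) ≤ a := by positivity
    linarith
  have h1 := one_add_mul_le_pow (a := -((b : ℝ) / (a + b))) (by linarith) d
  have h2 : (1 : ℝ) + -((b : ℝ) / (a + b)) = a / (a + b) := by field_simp; ring
  have h3 : (1 : ℝ) / 2 ≤ 1 + d * -((b : ℝ) / (a + b)) := by
    have : (d : ℝ) * (b / (a + b)) ≤ 1 / 2 := by
      rw [← mul_div_assoc, div_le_iff₀ hs]; linarith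
    linarith
  rw [h2, div_pow] at h1
  have h4 := h3.trans h1
  rw [le_div_iff₀ (by positivity)] at h4
  have : ((a : ℝ) + b) ^ d ≤ 2 * (a : ℝ) ^ d := by linarith
  exact_mod_cast this

theorem Dn_le (bb j : ℕ) : Dn bb j + bb ≤ (1 + bb) * (WW * mu) ^ j := by
  induction j with
  | zero => simp [Dn]
  | succ j ih =>
    have h2 : 2 ≤ WW * mu := by have := two_le_WW; have := two_le_mu; nlinarith
    rw [Dn, pow_succ]
    calc WW * mu * Dn bb j + bb + bb ≤ WW * mu * (Dn bb j + bb) := by nlinarith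
      _ ≤ WW * mu * ((1 + bb) * (WW * mu) ^ j) := Nat.mul_le_mul_left _ ih
      _ = _ := by ring

theorem size_le_self (n : ℕ) : n.size ≤ n := Nat.size_le.2 Nat.lt_two_pow_self

theorem two_pow_size_le {n : ℕ} (h : 1 ≤ n) : 2 ^ n.size ≤ 2 * n := by
  have h1 : 0 < n.size := Nat.size_pos.2 h
  have h2 : 2 ^ (n.size - 1) ≤ n := Nat.lt_size.1 (by omega)
  calc 2 ^ n.size = 2 * 2 ^ (n.size - 1) := by rw [← pow_succ']; congr 1; omega
    _ ≤ _ := by omega

theorem sq_le_two_pow {R : ℕ} (h : 6 ≤ R) : (R + 1) * (R + 1) ≤ 2 ^ R := by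
  induction R, h using Nat.le_induction with
  | base => norm_num
  | succ n hn ih => rw [pow_succ]; nlinarith

theorem mu_le : mu ≤ 2 ^ 14 := by rw [mu_eq]; norm_num
theorem le_mu : 2 ^ 13 ≤ mu := by rw [mu_eq]; norm_num
theorem le_EE : 2001 ≤ EE := by rw [EE_eq]; norm_num

theorem ceil_le {a b : ℕ} (hb : 1 ≤ b) : a ≤ (a + b - 1) / b * b := by
  have := Nat.lt_div_mul_add (a := a + b - 1) hb
  omega

theorem pJ_large (K : ℕ) : ∃ m₀, ∀ m, m₀ ≤ m → K ≤ pJ m := by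
  refine ⟨2 ^ 2 ^ (K * EE), fun m hm => ?_⟩
  have h1 : 2 ^ (K * EE) < m.size := Nat.lt_size.2 hm
  have h2 : K * EE < m.size.size := Nat.lt_size.2 h1.le
  exact (Nat.le_div_iff_mul_le (by have := le_EE; omega)).2 h2.le

/-- the unit of smallness -/
def z (m : ℕ) : ℕ := 2 ^ pJ m
/-- the square root of the length -/
def R (m : ℕ) : ℕ := Nat.sqrt m.size
/-- the logarithm of `2 n₁` -/
def σ (m : ℕ) : ℕ := (2 * pn1 m).size - 1

section
variable {m : ℕ} (h : 100 ≤ pJ m)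
include h

theorem le_z : 2 ^ 100 ≤ z m := Nat.pow_le_pow_right (by norm_num) h

omit h in
theorem J_lt_z : pJ m < z m := Nat.lt_two_pow_self

theorem two_J_le : 2 * pJ m ≤ z m := by
  have h1 : pJ m - 1 < 2 ^ (pJ m - 1) := Nat.lt_two_pow_self
  have h2 : z m = 2 * 2 ^ (pJ m - 1) := by unfold z; rw [← pow_succ']; congr 1; omega
  omega

omit h in
theorem zz {a b : ℕ} (hab : a ≤ b) : z m ^ a ≤ z m ^ b :=
  Nat.pow_le_pow_right (Nat.two_pow_pos _) hab

omit h in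
theorem EE_J_le : EE * pJ m ≤ m.size.size := Nat.mul_div_le _ _

omit h in
theorem x_lt : m.size.size < EE * (pJ m + 1) := Nat.lt_mul_div_succ _ (by have := le_EE; omega)

theorem one_le_L : 1 ≤ m.size := by
  have h1 := EE_J_le (m := m)
  have h2 := le_EE
  have : 0 < m.size.size := by nlinarith
  exact Nat.size_pos.1 this

theorem one_le_m : 1 ≤ m := Nat.size_pos.1 (one_le_L h)

theorem z_le_R : z m ^ 1000 ≤ R m := by
  have h1 := EE_J_le (m := m)
  have h2 := le_EE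
  have h3 : 2000 * pJ m < m.size.size := by nlinarith
  have h4 := Nat.lt_size.1 h3
  unfold R
  rw [Nat.le_sqrt]
  unfold z
  rw [← pow_add, ← pow_mul, mul_comm]
  exact h4

theorem small {X a : ℕ} (hX : X ≤ z m ^ a) (ha : a ≤ 999) : 1000 * X ≤ R m := by
  have h1 := le_z h
  calc 1000 * X ≤ z m * z m ^ a := Nat.mul_le_mul (by omega) hX
    _ = z m ^ (a + 1) := by ring
    _ ≤ z m ^ 1000 := zz (by omega)
    _ ≤ _ := z_le_R h

theorem le_R : 1000 * z m ≤ R m := small h (a := 1) (by simp) (by norm_num)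

omit h in
theorem R_sq : R m * R m ≤ m.size := Nat.sqrt_le _

theorem R_le_L : 1000 * R m ≤ m.size := by
  have h1 := le_R h
  have h2 := le_z h
  have := R_sq (m := m)
  nlinarith

theorem L_le : m.size ≤ 2 ^ R m := by
  have h1 := le_R h
  have h2 := le_z h
  have h3 : m.size < (R m + 1) * (R m + 1) := Nat.lt_succ_sqrt _
  exact h3.le.trans (sq_le_two_pow (by omega))

omit h in
theorem d_le : pd m ≤ z m ^ 14 := by
  unfold pd z
  calc mu ^ pJ m ≤ (2 ^ 14) ^ pJ m := Nat.pow_le_pow_left mu_le _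
    _ = _ := by rw [← pow_mul, ← pow_mul, mul_comm]

omit h in
theorem le_d : z m ^ 13 ≤ pd m := by
  unfold pd z
  calc (2 ^ pJ m) ^ 13 = (2 ^ 13) ^ pJ m := by rw [← pow_mul, ← pow_mul, mul_comm]
    _ ≤ _ := Nat.pow_le_pow_left le_mu _

theorem z_le_d : z m ≤ pd m := by
  have := zz (m := m) (a := 1) (b := 13) (by norm_num)
  rw [pow_one] at this
  exact this.trans le_d

theorem d_large : 1000 ≤ pd m := by
  have := le_z h
  have := z_le_d h
  omega

omit h in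
theorem d_pow_le (a : ℕ) : pd m ^ a ≤ z m ^ (14 * a) := by
  rw [pow_mul]; exact Nat.pow_le_pow_left d_le _

theorem d_small : 1000 * (pd m * pd m) ≤ R m :=
  small h (a := 14 * 2) (by rw [← sq]; exact d_pow_le 2) (by norm_num)

theorem d4_small : 1000 * pd m ^ 4 ≤ R m := small h (d_pow_le 4) (by norm_num)

theorem m_le : m ≤ pn1 m * m.size := ceil_le (one_le_L h)

theorem n1_mul_le : pn1 m * m.size ≤ 2 * m := by
  have h1 : pn1 m * m.size ≤ m + m.size - 1 := Nat.div_mul_le_self _ _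
  have := size_le_self m
  omega

theorem n1_le : pn1 m ≤ m := by
  have h1 := n1_mul_le h
  have h2 := R_le_L h
  have h3 := le_R h
  have h4 := le_z h
  nlinarith

omit h in
theorem m_lt : m < 2 ^ m.size := Nat.lt_size_self m

theorem le_m : 2 ^ m.size ≤ 2 * m := two_pow_size_le (one_le_m h)

theorem one_le_n1 : 1 ≤ pn1 m := by
  have h1 := m_le h
  have h2 := one_le_m h
  by_contra hc
  have : pn1 m = 0 := by omega
  rw [this] at h1; omega

theorem σ_le : 2 ^ σ m ≤ 2 * pn1 m := by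
  have h1 := one_le_n1 h
  have : 0 < (2 * pn1 m).size := Nat.size_pos.2 (by omega)
  exact Nat.lt_size.1 (by unfold σ; omega)

theorem lt_σ : 2 * pn1 m < 2 ^ (σ m + 1) := by
  have h1 := one_le_n1 h
  have : 0 < (2 * pn1 m).size := Nat.size_pos.2 (by omega)
  exact Nat.size_le.1 (by unfold σ; omega)

theorem σ_le_L : σ m ≤ m.size := by
  have h1 := σ_le h
  have h2 := n1_le h
  have h3 := m_lt (m := m)
  have : 2 ^ σ m < 2 ^ (m.size + 1) := by rw [pow_succ]; omega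
  have := (Nat.pow_lt_pow_iff_right (by norm_num)).1 this
  omega

theorem L_le_σ : m.size ≤ σ m + R m := by
  have h1 := lt_σ h
  have h2 := m_le h
  have h3 := le_m h
  have h4 := L_le h
  have : 2 ^ m.size < 2 ^ (σ m + 1 + R m) := by
    calc 2 ^ m.size ≤ 2 * pn1 m * m.size := by nlinarith
      _ ≤ 2 * pn1 m * 2 ^ R m := Nat.mul_le_mul_left _ h4
      _ < 2 ^ (σ m + 1) * 2 ^ R m := Nat.mul_lt_mul_of_pos_right h1 (Nat.two_pow_pos _)
      _ = _ := by rw [← pow_add]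
  have := (Nat.pow_lt_pow_iff_right (by norm_num)).1 this
  omega

omit h in
theorem k_mul_le : pk m * (pd m + 2) ≤ σ m := Nat.div_mul_le_self _ _

omit h in
theorem lt_k_mul : σ m < (pk m + 1) * (pd m + 2) := by
  rw [mul_comm]; exact Nat.lt_mul_div_succ _ (by omega)

theorem kd_le : pk m * pd m + 2 * pk m ≤ m.size := by
  have := k_mul_le (m := m)
  have := σ_le_L h
  nlinarith

theorem k_small : 1000 * pk m ≤ m.size := by
  have := kd_le h
  have := d_large h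
  nlinarith

theorem R_le_k : 1000 * R m ≤ pk m := by
  by_contra hc
  have h1 := lt_k_mul (m := m)
  have h2 := L_le_σ h
  have h3 := R_sq (m := m)
  have h4 := d_small h
  have h5 := d_large h
  have h6 : 1000 * (pd m + 2) + 1 ≤ R m := by nlinarith
  have h7 : (pk m + 1) * (pd m + 2) ≤ 1000 * R m * (pd m + 2) := Nat.mul_le_mul_right _ (by omega)
  nlinarith

theorem D0_le : 8 * (pd m * pd m) * pD0 m ≤ 2 ^ pk m := by
  have h1 : pd m ≤ 2 ^ pd m := Nat.lt_two_pow_self.le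
  have h2 : (pd m).factorial ≤ 2 ^ (pd m * pd m) := by
    rw [pow_mul]; exact (Nat.factorial_le_pow _).trans (Nat.pow_le_pow_left h1 _)
  have h3 := d_small h
  have h4 := R_le_k h
  have h5 := d_large h
  have h6 : 1000 * pd m ≤ pd m * pd m := Nat.mul_le_mul_right _ h5
  calc 8 * (pd m * pd m) * pD0 m ≤ 8 * (2 ^ pd m * 2 ^ pd m) * (2 * 2 ^ (pd m * pd m)) := by
        unfold pD0; gcongr
    _ = 2 ^ (pd m * pd m + 2 * pd m + 4) := by ring
    _ ≤ _ := Nat.pow_le_pow_right (by norm_num) (by omega)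

omit h in
theorem D0_pos : 1 ≤ pD0 m := by
  have := Nat.factorial_pos (pd m)
  unfold pD0; omega

omit h in
theorem le_s (i : ℕ) : 2 ^ pk m - 2 ^ pk m / pd m ≤ 1 + (pa0 m + i) * pD0 m := by
  have h1 := Nat.lt_div_mul_add (a := 2 ^ pk m - 2 ^ pk m / pd m) (D0_pos (m := m))
  unfold pa0
  nlinarith [Nat.zero_le (i * pD0 m)]

omit h in
theorem s_le {i : ℕ} (hi : i < pd m) :
    1 + (pa0 m + i) * pD0 m ≤ 1 + (2 ^ pk m - 2 ^ pk m / pd m) + pd m * pD0 m := by
  have h1 := Nat.div_mul_le_self (2 ^ pk m - 2 ^ pk m / pd m) (pD0 m)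
  have h2 : (i + 1) * pD0 m ≤ pd m * pD0 m := Nat.mul_le_mul_right _ hi
  unfold pa0
  nlinarith

theorem s_facts {i : ℕ} (hi : i < pd m) : 1 + (pa0 m + i) * pD0 m < 2 ^ pk m ∧
    2 ^ pk m ≤ 2 * (1 + (pa0 m + i) * pD0 m) ∧
    1 + (pa0 m + i) * pD0 m ≤ 2 * pd m * (2 ^ pk m - (1 + (pa0 m + i) * pD0 m)) := by
  have h1 := le_s (m := m) i
  have h2 := s_le hi
  have h3 := D0_le h
  have h4 := D0_pos (m := m)
  have h5 := d_large h
  generalize 1 + (pa0 m + i) * pD0 m = s at *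
  generalize 2 ^ pk m = t at *
  generalize pd m = d at *
  generalize pD0 m = D at *
  have h6 : t / d * d ≤ t := Nat.div_mul_le_self _ _
  have h7 : t < t / d * d + d := Nat.lt_div_mul_add (by omega)
  generalize t / d = u at *
  have h8 : d ≤ d * D := Nat.le_mul_of_pos_right _ h4
  have h9 : 7 * (d * D) ≤ u := by
    by_contra hc
    have : (u + 1) * d ≤ 7 * (d * D) * d := Nat.mul_le_mul_right _ (by omega)
    nlinarith
  have h10 : 1000 * u ≤ t := by nlinarith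
  refine ⟨by omega, by omega, ?_⟩
  have h11 : u ≤ 2 * (t - s) - (u + 1) / 2 := by omega
  have h12 : u + 1 ≤ 2 * (t - s) := by omega
  have h13 : (u + 1) * d ≤ 2 * (t - s) * d := Nat.mul_le_mul_right _ h12
  have h14 : s ≤ t := by omega
  nlinarith

theorem S_le : pS m ≤ 2 ^ (pk m * pd m) := by
  have := Finset.prod_le_pow_card (Finset.Ico 0 (pd m)) (fun i => 1 + (pa0 m + i) * pD0 m)
    (2 ^ pk m) fun i hi => (s_facts h (Finset.mem_Ico.1 hi).2).1.le
  rwa [Nat.card_Ico, Nat.sub_zero, ← pow_mul] at this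

theorem le_S : 2 ^ (pk m * pd m) ≤ 4 * pS m := by
  have h1 := Finset.pow_card_le_prod (Finset.Ico 0 (pd m)) (fun i => 1 + (pa0 m + i) * pD0 m)
    (2 ^ pk m - 2 ^ pk m / pd m) fun i _ => le_s i
  rw [Nat.card_Ico, Nat.sub_zero] at h1
  obtain ⟨g, hg⟩ : 2 ∣ pd m :=
    Dvd.dvd.trans (by rw [mu_eq]; norm_num) (dvd_pow_self mu (by omega))
  have h2 : 2 ^ pk m - 2 ^ pk m / pd m + 2 ^ pk m / pd m = 2 ^ pk m :=
    Nat.sub_add_cancel (Nat.div_le_self _ _)
  have h3 := bern (2 ^ pk m - 2 ^ pk m / pd m) (2 ^ pk m / pd m) g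
    (by rw [h2, ← hg]; exact Nat.mul_div_le _ _)
  rw [h2] at h3
  calc 2 ^ (pk m * pd m) = ((2 ^ pk m) ^ g) ^ 2 := by rw [← pow_mul, ← pow_mul, hg]; congr 1; ring
    _ ≤ (2 * (2 ^ pk m - 2 ^ pk m / pd m) ^ g) ^ 2 := Nat.pow_le_pow_left h3 _
    _ = 4 * (2 ^ pk m - 2 ^ pk m / pd m) ^ (2 * g) := by ring
    _ ≤ 4 * pS m := by rw [← hg]; exact Nat.mul_le_mul_left _ h1

omit h in
theorem S_pos : 0 < pS m := pr_pos fun i _ _ => by omega

theorem le_u : 2 ^ (2 * pk m) ≤ 2 * pn1 m / pS m := by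
  rw [Nat.le_div_iff_mul_le S_pos]
  calc 2 ^ (2 * pk m) * pS m ≤ 2 ^ (2 * pk m) * 2 ^ (pk m * pd m) := Nat.mul_le_mul_left _ (S_le h)
    _ = 2 ^ (pk m * (pd m + 2)) := by rw [← pow_add]; congr 1; ring
    _ ≤ 2 ^ σ m := Nat.pow_le_pow_right (by norm_num) k_mul_le
    _ ≤ _ := σ_le h

theorem lt_e : 2 * pk m < pe m := Nat.lt_size.2 (le_u h)

omit h in
theorem n1_le_eS : 2 * pn1 m ≤ 2 ^ pe m * pS m := by
  have h1 := Nat.lt_div_mul_add (a := 2 * pn1 m) (S_pos (m := m))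
  have h2 : 2 * pn1 m / pS m + 1 ≤ 2 ^ pe m := Nat.lt_size_self _
  nlinarith

theorem eS_le : 2 ^ pe m * pS m ≤ 4 * pn1 m := by
  have h1 : 2 ^ pe m ≤ 2 * (2 * pn1 m / pS m) :=
    two_pow_size_le ((Nat.one_le_two_pow).trans (le_u h))
  have h2 := Nat.div_mul_le_self (2 * pn1 m) (pS m)
  nlinarith

theorem et_le : 2 ^ (pk m * pd m) * 2 ^ pe m ≤ 16 * pn1 m := by
  have h1 := eS_le h
  have h2 := le_S h
  nlinarith [Nat.two_pow_pos (pe m)]

theorem e_le_σ : pk m * pd m + pe m ≤ σ m + 3 := by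
  have h1 := et_le h
  have h2 := lt_σ h
  have : 2 ^ (pk m * pd m + pe m) < 2 ^ (σ m + 4) := by
    rw [pow_add, show σ m + 4 = σ m + 1 + 3 by ring, pow_add 2 (σ m + 1)]; omega
  have := (Nat.pow_lt_pow_iff_right (by norm_num)).1 this
  omega

theorem e_le : pe m ≤ 2 * pk m + pd m + 6 := by
  have h1 := e_le_σ h
  have h2 := lt_k_mul (m := m)
  nlinarith

theorem two_n : 2 * 2 ^ (pe m - 1) = 2 ^ pe m := by
  have := lt_e h
  rw [← pow_succ']; congr 1; omega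

omit h in
theorem jg_le : pjg m ≤ pJ m := size_le_self _

theorem mu_jg_le : mu ^ pjg m ≤ (2 * pJ m) ^ 14 := by
  calc mu ^ pjg m ≤ (2 ^ 14) ^ pjg m := Nat.pow_le_pow_left mu_le _
    _ = (2 ^ pjg m) ^ 14 := by rw [← pow_mul, ← pow_mul, mul_comm]
    _ ≤ _ := Nat.pow_le_pow_left (two_pow_size_le (by omega)) _

theorem mu_jg_le' : mu ^ pjg m ≤ z m ^ 14 :=
  (mu_jg_le h).trans (Nat.pow_le_pow_left (two_J_le h) _)

theorem le_mu_jg : 14 * pJ m + 1 ≤ mu ^ pjg m := by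
  have h1 : pJ m ≤ 2 ^ pjg m := (Nat.lt_size_self _).le
  calc 14 * pJ m + 1 ≤ pJ m ^ 2 := by nlinarith
    _ ≤ pJ m ^ 13 := Nat.pow_le_pow_right (by omega) (by norm_num)
    _ ≤ (2 ^ pjg m) ^ 13 := Nat.pow_le_pow_left h1 _
    _ = (2 ^ 13) ^ pjg m := by rw [← pow_mul, ← pow_mul, mul_comm]
    _ ≤ _ := Nat.pow_le_pow_left le_mu _

theorem le_Qg {q : ℕ} (hq : 2 ≤ q) : 2 * pd m ≤ pQg q m := by
  calc 2 * pd m ≤ 2 * z m ^ 14 := Nat.mul_le_mul_left _ d_le
    _ = 2 ^ (14 * pJ m + 1) := by unfold z; rw [← pow_mul, pow_succ']; congr 2; ring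
    _ ≤ 2 ^ mu ^ pjg m := Nat.pow_le_pow_right (by norm_num) (le_mu_jg h)
    _ ≤ _ := Nat.pow_le_pow_left hq _

theorem Qg_le {q : ℕ} (hq : q ≤ pJ m) : pQg q m ≤ 2 ^ z m ^ 15 := by
  have h1 : q ≤ 2 ^ z m := by
    have := J_lt_z (m := m)
    have : z m < 2 ^ z m := Nat.lt_two_pow_self
    omega
  calc pQg q m ≤ (2 ^ z m) ^ mu ^ pjg m := Nat.pow_le_pow_left h1 _
    _ ≤ (2 ^ z m) ^ z m ^ 14 := Nat.pow_le_pow_right (Nat.two_pow_pos _) (mu_jg_le' h)
    _ = _ := by rw [← pow_mul, ← pow_succ']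

theorem Qg_pow_le {q : ℕ} (hq : q ≤ pJ m) : pQg q m ^ pd m ≤ 2 ^ R m := by
  have h1 := small h (X := z m ^ 29) le_rfl (by norm_num)
  calc pQg q m ^ pd m ≤ (2 ^ z m ^ 15) ^ pd m := Nat.pow_le_pow_left (Qg_le h hq) _
    _ ≤ (2 ^ z m ^ 15) ^ z m ^ 14 := Nat.pow_le_pow_right (Nat.two_pow_pos _) d_le
    _ = 2 ^ z m ^ 29 := by rw [← pow_mul, ← pow_add]
    _ ≤ _ := Nat.pow_le_pow_right (by norm_num) (by omega)

theorem V_le : WW ^ (pJ m + pjg m) ≤ 2 ^ R m := by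
  have h1 := jg_le (m := m)
  have h2 := J_lt_z (m := m)
  have h3 := le_R h
  rw [WW_eq, ← pow_mul]
  exact Nat.pow_le_pow_right (by norm_num) (by omega)

theorem U_le {q : ℕ} (hq : q ≤ pJ m) : 2 ^ R m * pU q m ≤ 2 ^ (pe m - pk m) := by
  have h1 := Qg_pow_le h hq
  have h2 : (pQg q m - 1) ^ pd m ≤ 2 ^ R m := (Nat.pow_le_pow_left (Nat.sub_le _ _) _).trans h1
  have h3 := V_le h
  have h4 := lt_e h
  have h5 := R_le_k h
  calc 2 ^ R m * pU q m ≤ 2 ^ R m * (2 ^ R m * 2 ^ R m * 2 ^ R m) := by unfold pU; gcongr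
    _ = 2 ^ (4 * R m) := by ring
    _ ≤ _ := Nat.pow_le_pow_right (by norm_num) (by omega)

theorem U_pos {q : ℕ} (hq : 2 ≤ q) : 1 ≤ pU q m := by
  have h1 := le_Qg h hq
  have h2 := d_large h
  have h3 := two_le_WW
  unfold pU
  have : 0 < pQg q m - 1 := by omega
  have : 0 < pQg q m := by omega
  have : 0 < WW := by omega
  exact Nat.succ_le_of_lt (by positivity)

theorem α_sq : (pα m) ^ 2 = 2 ^ (2 * (((100 * m.size / pd m ^ 4).size + 1) / 2)) := by
  unfold pα; rw [← pow_mul, mul_comm]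

theorem lt_p : 100 * m.size < pd m ^ 4 * pα m ^ 2 := by
  have h0 : 0 < pd m ^ 4 := by have := d_large h; positivity
  have h1 := Nat.lt_mul_div_succ (100 * m.size) h0
  have h2 : 100 * m.size / pd m ^ 4 + 1 ≤ pα m ^ 2 := by
    rw [α_sq h]
    exact (Nat.lt_size_self _).trans_le (Nat.pow_le_pow_right (by norm_num) (by omega))
  exact h1.trans_le (Nat.mul_le_mul_left _ h2)

theorem p_le : pd m ^ 4 * pα m ^ 2 ≤ 400 * m.size := by
  have h0 : 0 < pd m ^ 4 := by have := d_large h; positivity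
  have h1 := Nat.mul_div_le (100 * m.size) (pd m ^ 4)
  have h2 : 1 ≤ 100 * m.size / pd m ^ 4 := by
    rw [Nat.le_div_iff_mul_le h0]
    have := d4_small h
    have := R_le_L h
    omega
  have h3 : pα m ^ 2 ≤ 4 * (100 * m.size / pd m ^ 4) := by
    rw [α_sq h]
    have := two_pow_size_le h2
    calc _ ≤ 2 ^ ((100 * m.size / pd m ^ 4).size + 1) :=
          Nat.pow_le_pow_right (by norm_num) (by omega)
      _ ≤ _ := by rw [pow_succ]; omega
  nlinarith

theorem le_α : 100 * R m ≤ pα m ^ 2 := by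
  by_contra hc
  have h1 := lt_p h
  have h2 := d4_small h
  have h3 := R_sq (m := m)
  have h4 : pd m ^ 4 * pα m ^ 2 ≤ R m * (100 * R m) := Nat.mul_le_mul (by omega) (by omega)
  nlinarith

theorem p_le' : pd m ^ 4 * pα m ^ 2 ≤ 2 ^ (R m + 9) := by
  have := p_le h
  have := L_le h
  rw [pow_add]; omega

theorem Dn_small {bb : ℕ} (hb : bb ≤ pJ m) : 1000 * Dn bb (pJ m) ≤ R m := by
  refine small h (a := 59) ?_ (by norm_num)
  have h1 := Dn_le bb (pJ m)
  have h2 := J_lt_z (m := m)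
  have h3 : WW * mu ≤ 2 ^ 58 := by rw [WW_eq, mu_eq]; norm_num
  calc Dn bb (pJ m) ≤ (1 + bb) * (WW * mu) ^ pJ m := by omega
    _ ≤ z m * (2 ^ 58) ^ pJ m := Nat.mul_le_mul (by omega) (Nat.pow_le_pow_left h3 _)
    _ = z m * z m ^ 58 := by unfold z; rw [← pow_mul, ← pow_mul, mul_comm 58]
    _ = _ := by ring

end

end Crest.Agent.IM.PA
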