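import Crest.Agent.IM.ParamD
import Crest.Agent.IM.CrtM
import Crest.Agent.IM.ParamAA

/-! TASK IM-PA. The parameters satisfy the constraints for large `m`.
`L = size m`, `x = size L`, `J = x / EE → ∞`; `2 ^ (EE J - 1) ≤ L < 2 ^ (EE (J + 1))`,
`2 ^ (13 J) ≤ d ≤ 2 ^ (14 J)`, `mu ^ jg ≤ (2 J) ^ 14`, `Dn bb J ≤ (1 + bb) (WW mu) ^ J`. First
prove crude facts such as `c d ^ 10 (J + 1) ^ 20 ≤ sqrt L` eventually, `100 L < p ≤ 400 L`,
`k d ≤ L + 1`, `L / (2 (d + 2)) ≤ k`, `2 k < e ≤ 2 k + d + 6`, `t (1 - 1 / d) ≤ s i`,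
`t ^ d ≤ 4 S`, `2 n₁ ≤ 2 ^ e S ≤ 4 n₁` (Bernoulli: `one_add_mul_le_pow`). -/

set_option autoImplicit false

namespace Crest.Agent.IM

namespace PA

theorem ok {q bb m Bt P : ℕ} (h : 100 ≤ pJ m) (hq : 2 ≤ q) (hqJ : q ≤ pJ m) (hb : bb ≤ pJ m)
    (hBt : 1 ≤ Bt) (hP : 1 ≤ P) (hPB : P ≤ Bt * 2 ^ R m) : (mkPar q m Bt).Ok q bb P := by
  have hd := d_large h
  have hdd := d_small h
  have hd1 : 1000 * pd m ≤ pd m * pd m := Nat.mul_le_mul_right _ hd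
  have hRk := R_le_k h
  have hke := lt_e h
  have hQ := le_Qg h hq
  have hU := U_le h hqJ
  have hU1 := U_pos h hq
  have hRL := R_le_L h
  have hkd := kd_le h
  have hp := lt_p h
  have hα := le_α h
  have hR := le_R h
  have hz := le_z h
  have hUM : pU q m ≤ 2 ^ (pe m - pk m) * Bt := by
    have : 1 * pU q m ≤ 2 ^ R m * pU q m := Nat.mul_le_mul_right _ Nat.one_le_two_pow
    have : 2 ^ (pe m - pk m) ≤ 2 ^ (pe m - pk m) * Bt := Nat.le_mul_of_pos_right _ hBt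
    omega
  have hAY : (pQg q m - 1) ^ pd m * pQg q m ^ pd m * pY q m Bt =
      (2 ^ (pe m - pk m) * Bt + pU q m - 1) / pU q m * pU q m := by
    unfold pY
    generalize (2 ^ (pe m - pk m) * Bt + pU q m - 1) / pU q m = y
    unfold pU; ring
  refine
    { hP := hP, hBt := hBt, hJ := le_trans (by norm_num) h, hG := ?_, hke := ?_, hQ := rfl
      hQ3 := ?_, hQd := ?_, hQρ := ?_, hS' := ?_, hY1 := ?_, hY2 := ?_, hY3 := Dvd.intro _ rfl
      hY4 := ?_, hPn := ?_, hD := ?_, hs1 := fun i hi => (s_facts h hi).1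
      hs2 := fun i hi => (s_facts h hi).2.1, hs3 := fun i hi => (s_facts h hi).2.2
      hD0 := even_two_mul _, hD1 := ?_, hα1 := ?_, hα2 := ?_, hα3 := ?_, hS := ?_ }
  · change (pd m).size + 1 < pk m
    have := size_le_self (pd m)
    omega
  · change pk m < pe m
    omega
  · change 3 ≤ pQg q m
    omega
  · change pQg q m ^ pd m ≤ 2 * (pQg q m - 1) ^ pd m
    have := bern (pQg q m - 1) 1 (pd m) (by omega)
    rwa [Nat.sub_add_cancel (by omega)] at this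
  · change pQg q m ^ pd m ≤ 2 ^ (pe m - pk m)
    exact (Qg_pow_le h hqJ).trans (Nat.pow_le_pow_right (by norm_num) (by omega))
  · change (2 ^ pk m + 2 ^ (pk m - ((pd m).size + 1))) ^ pd m ≤ 2 * (2 ^ pk m) ^ pd m
    refine bern _ _ _ ?_
    have h1 := size_le_self (pd m)
    have h2 : pd m < 2 ^ (pd m).size := Nat.lt_size_self _
    calc 2 * pd m * 2 ^ (pk m - ((pd m).size + 1))
        ≤ 2 ^ ((pd m).size + 1) * 2 ^ (pk m - ((pd m).size + 1)) :=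
          Nat.mul_le_mul_right _ (by rw [pow_succ]; omega)
      _ = 2 ^ pk m := by rw [← pow_add]; congr 1; omega
      _ ≤ _ := Nat.le_add_right _ _
  · change 2 ^ (pe m - pk m) * Bt ≤ (pQg q m - 1) ^ pd m * pQg q m ^ pd m * pY q m Bt
    rw [hAY]; exact ceil_le hU1
  · change (pQg q m - 1) ^ pd m * pQg q m ^ pd m * pY q m Bt ≤ 2 * (2 ^ (pe m - pk m) * Bt)
    rw [hAY]
    have := Nat.div_mul_le_self (2 ^ (pe m - pk m) * Bt + pU q m - 1) (pU q m)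
    omega
  · change P * WW ^ (pJ m + pjg m) ≤ pY q m Bt
    unfold pY
    rw [mul_comm]
    refine Nat.mul_le_mul_left _ ((Nat.le_div_iff_mul_le hU1).2 ?_)
    have : P * pU q m ≤ 2 ^ (pe m - pk m) * Bt :=
      calc P * pU q m ≤ Bt * 2 ^ R m * pU q m := Nat.mul_le_mul_right _ hPB
        _ = 2 ^ R m * pU q m * Bt := by ring
        _ ≤ _ := Nat.mul_le_mul_right _ hU
    omega
  · change P ≤ 2 * 2 ^ (pe m - 1) * Bt
    rw [two_n h, mul_comm]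
    exact hPB.trans (Nat.mul_le_mul_left _ (Nat.pow_le_pow_right (by norm_num) (by omega)))
  · change 3 * pk m * pd m + pe m + pd m + Dn bb (pJ m) + 4 ≤ 2 * (pd m ^ 4 * pα m ^ 2)
    have := Dn_small h hb
    have := e_le h
    rw [mul_assoc]
    omega
  · intro l h1 h2
    exact Dvd.dvd.mul_left (Nat.dvd_factorial h1 h2.le) 2
  · change 2 * pd m ≤ pα m ^ 2
    omega
  · change 2 ^ 20 * (pd m ^ 4 * pα m ^ 2) ^ 2 ≤ 2 ^ (pα m ^ 2)
    calc 2 ^ 20 * (pd m ^ 4 * pα m ^ 2) ^ 2 ≤ 2 ^ 20 * (2 ^ (R m + 9)) ^ 2 := by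
          gcongr; exact p_le' h
      _ = 2 ^ (2 * R m + 38) := by ring
      _ ≤ _ := Nat.pow_le_pow_right (by norm_num) (by omega)
  · change (2 ^ pk m) ^ 2 * pα m ^ 2 ≤ 2 ^ (pd m ^ 4 * pα m ^ 2)
    have h1 : pα m ^ 2 ≤ pd m ^ 4 * pα m ^ 2 := Nat.le_mul_of_pos_left _ (by positivity)
    calc (2 ^ pk m) ^ 2 * pα m ^ 2 ≤ (2 ^ pk m) ^ 2 * 2 ^ (R m + 9) :=
          Nat.mul_le_mul_left _ (h1.trans (p_le' h))
      _ = 2 ^ (2 * pk m + R m + 9) := by ring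
      _ ≤ _ := Nat.pow_le_pow_right (by norm_num) (by omega)
  · change pS m ≤ 2 ^ (pd m ^ 4 * pα m ^ 2)
    exact (S_le h).trans (Nat.pow_le_pow_right (by norm_num) (by omega))

theorem WW_jt_le {m : ℕ} (h : 100 ≤ pJ m) : WW ^ (m.size.size / 28) ≤ 2 ^ (2 * R m + 2) := by
  have h1 : m.size.size ≤ R m + 1 :=
    Nat.size_le.2 ((L_le h).trans_lt (Nat.pow_lt_pow_right (by norm_num) (by omega)))
  rw [WW_eq, ← pow_mul]
  exact Nat.pow_le_pow_right (by norm_num) (by omega)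

end PA

open PA in
theorem param_ok (q bb c : ℕ) (hq : 2 ≤ q) : ∃ m₀ : ℕ, ∀ m, m₀ ≤ m → ∀ Bt P : ℕ, 1 ≤ Bt → 1 ≤ P →
    P ≤ Bt * 2 ^ Nat.sqrt m.size →
    (mkPar q m Bt).Ok q bb P ∧ m ≤ pn1 m * m.size ∧
    2 * pn1 m ≤ 2 * (mkPar q m Bt).n * (mkPar q m Bt).S ∧ pn1 m ≤ 2 ^ m.size ∧
    2 * m.size + 3 * (mkPar q m Bt).g + (mkPar q m Bt).e + 30 ≤ (mkPar q m Bt).p ∧
    (mkPar q m Bt).N0 ≤ 10 ^ 5 * (m * Bt) ∧ WW ^ (mkPar q m Bt).jt * P ≤ m * Bt ∧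
    c * ((mkPar q m Bt).p + 1) ^ 2 ≤ m.size ^ 3 ∧ 2 ^ Nat.sqrt m.size ≤ (mkPar q m Bt).S ∧
    c * (2 * (mkPar q m Bt).n * (3 * (mkPar q m Bt).w)) ≤ m ∧
    (mkPar q m Bt).p ≤ 400 * m.size ∧ (mkPar q m Bt).k * (mkPar q m Bt).d ≤ m.size + 1 ∧
    (mkPar q m Bt).e ≤ 2 * (mkPar q m Bt).k + (mkPar q m Bt).d + 6 ∧ c ≤ pJ m := by
  obtain ⟨m₀, hm₀⟩ := pJ_large (100 + q + bb + c)
  refine ⟨m₀, fun m hm Bt P hBt hP hPB => ?_⟩
  have hK := hm₀ m hm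
  have h : 100 ≤ pJ m := by omega
  have hd := d_large h
  have hdd := d_small h
  have hd1 : 1000 * pd m ≤ pd m * pd m := Nat.mul_le_mul_right _ hd
  have hRk := R_le_k h
  have hRL := R_le_L h
  have hkd := kd_le h
  have hkL := k_small h
  have hp := lt_p h
  have hp' := p_le h
  have hR := le_R h
  have hz := le_z h
  have hJz := J_lt_z (m := m)
  have he := e_le h
  have hm1 := le_m h
  refine ⟨ok h hq (by omega) (by omega) hBt hP hPB, m_le h, ?_, (n1_le h).trans m_lt.le, ?_, ?_,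
    ?_, ?_, ?_, ?_, hp', ?_, he, by omega⟩
  · change 2 * pn1 m ≤ 2 * 2 ^ (pe m - 1) * pS m
    rw [two_n h]; exact n1_le_eS
  · change 2 * m.size + 3 * (3 * pd m * pα m ^ 2 + pk m * pd m + pe m + 20) + pe m + 30 ≤
      pd m ^ 4 * pα m ^ 2
    have h1 : 18 * pd m ≤ pd m ^ 4 := by
      calc 18 * pd m ≤ pd m ^ 2 := by rw [sq]; omega
        _ ≤ _ := Nat.pow_le_pow_right (by omega) (by norm_num)
    have h2 : 6 * (3 * pd m * pα m ^ 2) ≤ pd m ^ 4 * pα m ^ 2 :=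
      calc 6 * (3 * pd m * pα m ^ 2) = 18 * pd m * pα m ^ 2 := by ring
        _ ≤ _ := Nat.mul_le_mul_right _ h1
    omega
  · change 6 * (pd m ^ 4 * pα m ^ 2) * ((2 ^ pk m) ^ pd m * (2 * 2 ^ (pe m - 1)) * Bt) ≤
      10 ^ 5 * (m * Bt)
    rw [two_n h, ← pow_mul]
    have h1 := n1_mul_le h
    calc 6 * (pd m ^ 4 * pα m ^ 2) * (2 ^ (pk m * pd m) * 2 ^ pe m * Bt)
        ≤ 6 * (400 * m.size) * (16 * pn1 m * Bt) :=
          Nat.mul_le_mul (Nat.mul_le_mul_left _ hp') (Nat.mul_le_mul_right _ (et_le h))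
      _ = 38400 * (pn1 m * m.size) * Bt := by ring
      _ ≤ 38400 * (2 * m) * Bt := by gcongr
      _ = 76800 * (m * Bt) := by ring
      _ ≤ _ := Nat.mul_le_mul_right _ (by norm_num)
  · change WW ^ (m.size.size / 28) * P ≤ m * Bt
    have h1 : 2 * 2 ^ (3 * R m + 2) ≤ 2 ^ m.size := by
      rw [← pow_succ']; exact Nat.pow_le_pow_right (by norm_num) (by omega)
    calc WW ^ (m.size.size / 28) * P ≤ 2 ^ (2 * R m + 2) * (Bt * 2 ^ R m) :=
          Nat.mul_le_mul (WW_jt_le h) hPB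
      _ = 2 ^ (3 * R m + 2) * Bt := by ring
      _ ≤ _ := Nat.mul_le_mul_right _ (by omega)
  · change c * (pd m ^ 4 * pα m ^ 2 + 1) ^ 2 ≤ m.size ^ 3
    calc c * (pd m ^ 4 * pα m ^ 2 + 1) ^ 2 ≤ c * (401 * m.size) ^ 2 := by gcongr; omega
      _ = 160801 * c * m.size ^ 2 := by ring
      _ ≤ m.size * m.size ^ 2 := Nat.mul_le_mul_right _ (by omega)
      _ = _ := by ring
  · change 2 ^ R m ≤ pS m
    have h1 := le_S h
    have h2 : pk m ≤ pk m * pd m := Nat.le_mul_of_pos_right _ (by omega)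
    have h3 : 2 ^ (R m + 2) ≤ 2 ^ (pk m * pd m) := Nat.pow_le_pow_right (by norm_num) (by omega)
    rw [pow_add] at h3
    omega
  · change c * (2 * 2 ^ (pe m - 1) * (3 * (6 * (pd m ^ 4 * pα m ^ 2)))) ≤ m
    rw [two_n h]
    have h1 : c ≤ 2 ^ R m := le_trans (by omega) (Nat.lt_two_pow_self (n := R m)).le
    have h2 := p_le' h
    have h3 : 2 * 2 ^ (2 * R m + pe m + 14) ≤ 2 ^ m.size := by
      rw [← pow_succ']; exact Nat.pow_le_pow_right (by norm_num) (by omega)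
    calc c * (2 ^ pe m * (3 * (6 * (pd m ^ 4 * pα m ^ 2))))
        ≤ 2 ^ R m * (2 ^ pe m * (4 * (8 * 2 ^ (R m + 9)))) := by gcongr <;> norm_num
      _ = 2 ^ (2 * R m + pe m + 14) := by ring
      _ ≤ _ := by omega
  · change pk m * pd m ≤ m.size + 1
    omega

end Crest.Agent.IM
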