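import Crest.Agent.IM.Par

/-! The choice of the parameters for `m`-bit numbers. -/

set_option autoImplicit false

namespace Crest.Agent.IM

/-- `d = L ^ (13.4 / EE)` -/
@[irreducible] def EE : ℕ := 2 ^ 70

theorem EE_eq : EE = 2 ^ 70 := by unfold EE; rfl

/-- depth -/
def pJ (m : ℕ) : ℕ := m.size.size / EE
/-- dimension -/
def pd (m : ℕ) : ℕ := mu ^ pJ m
/-- number of coefficients -/
def pn1 (m : ℕ) : ℕ := (m + m.size - 1) / m.size
/-- `t = 2 ^ k` -/
def pk (m : ℕ) : ℕ := ((2 * pn1 m).size - 1) / (pd m + 2)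
/-- step of the moduli -/
def pD0 (m : ℕ) : ℕ := 2 * (pd m).factorial
/-- offset of the moduli -/
def pa0 (m : ℕ) : ℕ := (2 ^ pk m - 2 ^ pk m / pd m) / pD0 m + 1
/-- product of the moduli -/
def pS (m : ℕ) : ℕ := pr (fun i => 1 + (pa0 m + i) * pD0 m) 0 (pd m)
/-- `2 n = 2 ^ e` -/
def pe (m : ℕ) : ℕ := (2 * pn1 m / pS m).size
/-- helper digit level -/
def pjg (m : ℕ) : ℕ := (pJ m).size
/-- helper digit size -/
def pQg (q m : ℕ) : ℕ := q ^ mu ^ pjg m
/-- Gaussian width -/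
def pα (m : ℕ) : ℕ := 2 ^ (((100 * m.size / pd m ^ 4).size + 1) / 2)
/-- granularity of the padding -/
def pU (q m : ℕ) : ℕ := (pQg q m - 1) ^ pd m * pQg q m ^ pd m * WW ^ (pJ m + pjg m)
/-- innermost field -/
def pY (q m Bt : ℕ) : ℕ :=
  WW ^ (pJ m + pjg m) * ((2 ^ (pe m - pk m) * Bt + pU q m - 1) / pU q m)

/-- All parameters. -/
def mkPar (q m Bt : ℕ) : Par where
  J := pJ m
  k := pk m
  e := pe m
  jg := pjg m
  G := (pd m).size + 1
  jt := m.size.size / 28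
  α := pα m
  a0 := pa0 m
  D0 := pD0 m
  Bt := Bt
  Qg := pQg q m
  Y := pY q m Bt

/-- The exponent. -/
noncomputable def κ' : ℝ := 1 - 1 / (2 : ℝ) ^ 182

end Crest.Agent.IM
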