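import Crest.Agent.IM.Scal

/-! Auxiliary facts for `IM/StN`: the Neumann iteration on one line and the weight expressions. -/

set_option autoImplicit false
open Finset

namespace Crest.Agent.IM.SN

variable {n : ℕ}

theorem nrm_row {s : ℕ} (E : ℕ → ℝ) (y : ℕ → RA n) {m : ℝ} (hy : ∀ j < s, nrm n (y j) ≤ m) :
    nrm n (∑ j ∈ range s, (E j : ℂ) • y j) ≤ (∑ j ∈ range s, |E j|) * m := by
  rw [sum_mul]
  refine (nrm_sum_le _ _).trans (sum_le_sum fun j hj => ?_)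
  rw [nrm_smul, Complex.norm_real, Real.norm_eq_abs]
  exact mul_le_mul_of_nonneg_left (hy j (mem_range.1 hj)) (abs_nonneg _)

theorem fix_bound {s : ℕ} (E : ℕ → ℕ → ℝ) (v y : ℕ → RA n) {m : ℝ}
    (hE : ∀ μ < s, ∑ j ∈ range s, |E μ j| ≤ 1 / 2)
    (h : ∀ μ < s, v μ = y μ + ∑ j ∈ range s, (E μ j : ℂ) • y j) (hv : ∀ μ < s, nrm n (v μ) ≤ m) :
    ∀ μ < s, nrm n (y μ) ≤ 2 * m := by
  intro μ hμ
  obtain ⟨k, hk, hmax⟩ := exists_max_image (range s) (fun j => nrm n (y j)) ⟨μ, mem_range.2 hμ⟩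
  have hk' := mem_range.1 hk
  have h1 := nrm_row (s := s) (E k) y fun j hj => hmax j (mem_range.2 hj)
  have h2 : y k = v k - ∑ j ∈ range s, (E k j : ℂ) • y j := by rw [h k hk']; abel
  have h3 := nrm_sub_le (v k) (∑ j ∈ range s, (E k j : ℂ) • y j)
  rw [← h2] at h3
  have h4 := mul_le_mul_of_nonneg_right (hE k hk') (nrm_nonneg (y k))
  have h5 := hmax μ (mem_range.2 hμ)
  have := hv k hk'
  linarith

theorem step_bound {s nl : ℕ} (E : ℕ → ℝ) (wt : ℕ → ℝ) (ix : ℕ → ℕ) (hix : ∀ l, ix l < s)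
    (y Y : ℕ → RA n) (v yμ V Bd : RA n) {θ κ e m ε₁ δ : ℝ}
    (hE : ∑ j ∈ range s, |E j| ≤ θ)
    (hE' : ∑ j ∈ range s, |E j - ∑ l ∈ range nl, if ix l = j then wt l else 0| ≤ κ)
    (h : v = yμ + ∑ j ∈ range s, (E j : ℂ) • y j) (hV : nrm n (V - v) ≤ ε₁)
    (hY : ∀ j < s, nrm n (Y j - y j) ≤ e) (hm : ∀ j < s, nrm n (Y j) ≤ m)
    (hB : nrm n (Bd - ∑ l ∈ range nl, (wt l : ℂ) • Y (ix l)) ≤ δ) :
    nrm n (V + -Bd - yμ) ≤ ε₁ + θ * e + κ * m + δ := by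
  have hs : 0 < s := lt_of_le_of_lt (Nat.zero_le _) (hix 0)
  have he : 0 ≤ e := (nrm_nonneg _).trans (hY 0 hs)
  have hm0 : 0 ≤ m := (nrm_nonneg _).trans (hm 0 hs)
  have e1 : ∑ l ∈ range nl, (wt l : ℂ) • Y (ix l) =
      ∑ j ∈ range s, ((∑ l ∈ range nl, if ix l = j then wt l else 0 : ℝ) : ℂ) • Y j := by
    simp only [Complex.ofReal_sum, sum_smul]
    rw [sum_comm]
    refine sum_congr rfl fun l _ => ?_
    rw [sum_eq_single (ix l)]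
    · simp
    · intro j _ hj; simp [hj.symm]
    · intro h'; exact absurd (mem_range.2 (hix l)) h'
  have h1 := nrm_row (s := s) E (fun j => Y j - y j) hY
  have h2 := nrm_row (s := s) (fun j => E j - ∑ l ∈ range nl, if ix l = j then wt l else 0) Y hm
  have e2 : V + -Bd - yμ = (V - v) - (∑ j ∈ range s, (E j : ℂ) • (Y j - y j)) +
      (∑ j ∈ range s, ((E j - ∑ l ∈ range nl, if ix l = j then wt l else 0 : ℝ) : ℂ) • Y j) -
      (Bd - ∑ l ∈ range nl, (wt l : ℂ) • Y (ix l)) := by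
    rw [e1, h]
    simp only [Complex.ofReal_sub, sub_smul, smul_sub, sum_sub_distrib]
    abel
  rw [e2]
  refine (nrm_sub_le _ _).trans (add_le_add ((nrm_add_le _ _).trans (add_le_add
    ((nrm_sub_le _ _).trans (add_le_add hV (h1.trans ?_))) (h2.trans ?_))) hB)
  · exact mul_le_mul_of_nonneg_right hE he
  · exact mul_le_mul_of_nonneg_right hE' hm0

/-- absolute difference -/
def ad (a b : Ex) : Ex := a - b + (b - a)

theorem ad_sq (a b : ℕ) : (((a - b + (b - a) : ℕ) : ℝ)) ^ 2 = ((a : ℝ) - b) ^ 2 := by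
  rcases le_total a b with h | h
  · rw [Nat.sub_eq_zero_of_le h, zero_add, Nat.cast_sub h]; ring
  · rw [Nat.sub_eq_zero_of_le h, add_zero, Nat.cast_sub h]

theorem gm_eq (s μ : ℕ) : (gm s μ : ℝ) = (μ : ℝ) - ((if 2 * μ < s then 0 else s : ℕ) : ℝ) := by
  unfold gm; split_ifs <;> simp

theorem nn_aux {s t z g : ℝ} (hs : 0 < s) (ht : s ≤ t) (hg : |2 * g| ≤ s)
    (hz : z ≤ -1 ∨ z = 0 ∨ 1 ≤ z) : 0 ≤ z * t * (2 * g + z * t) := by
  rw [abs_le] at hg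
  rcases hz with h | h | h
  · have : z * t ≤ -t := by nlinarith
    exact mul_nonneg_of_nonpos_of_nonpos (by linarith) (by linarith)
  · simp [h]
  · have : t ≤ z * t := by nlinarith
    exact mul_nonneg (by linarith) (by linarith)

theorem ub_aux {s t z g D : ℝ} (hs : 0 < s) (ht0 : 0 ≤ t) (ht : t ≤ 2 * s) (hg : |2 * g| ≤ s)
    (hD : 1 ≤ D) (hz : |z| ≤ D) : z * t * (2 * g + z * t) ≤ (2 * D * s) * (3 * D * s) := by
  have h3 : |z * t| ≤ 2 * D * s := by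
    rw [abs_mul, abs_of_nonneg ht0]
    calc _ ≤ D * (2 * s) := mul_le_mul hz ht ht0 (by linarith)
      _ = _ := by ring
  have h4 : |2 * g + z * t| ≤ 3 * D * s := (abs_add_le _ _).trans (by nlinarith)
  refine (le_abs_self _).trans ?_
  rw [abs_mul]
  exact mul_le_mul h3 h4 (abs_nonneg _) (by positivity)

theorem nE_aux {s t d k l g x : ℕ} (hst : s < t) (hts : t ≤ 2 * s) (hd : 1 ≤ d) (hk : k < s)
    (hl : l < 2 * d ^ 2 + 1) (hg2 : (g : ℝ) ^ 2 = (gm s k : ℝ) ^ 2)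
    (hx2 : (x : ℝ) ^ 2 = (((l : ℝ) - (d ^ 2 : ℕ)) * t + gm s k) ^ 2) :
    ((x * x - g * g : ℕ) : ℝ) =
      ((l : ℝ) - (d ^ 2 : ℕ)) * t * (2 * gm s k + ((l : ℝ) - (d ^ 2 : ℕ)) * t) ∧
      x * x - g * g ≤ (2 * d ^ 2 * s) * (3 * d ^ 2 * s) := by
  have hs' : (0 : ℝ) < s := by exact_mod_cast (by omega : 0 < s)
  have hgm := G.abs_gm hk
  have ht' : (s : ℝ) ≤ t := by exact_mod_cast hst.le
  have ht2 : (t : ℝ) ≤ 2 * s := by exact_mod_cast hts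
  set z : ℝ := (l : ℝ) - (d ^ 2 : ℕ) with hz
  have hz1 : |z| ≤ (d : ℝ) ^ 2 := by
    have : (l : ℝ) ≤ 2 * d ^ 2 := by exact_mod_cast Nat.lt_succ_iff.1 hl
    rw [hz, abs_le]; push_cast
    constructor <;> linarith [Nat.cast_nonneg (α := ℝ) l]
  have hnn : 0 ≤ z * t * (2 * gm s k + z * t) := by
    refine nn_aux hs' ht' hgm ?_
    rcases lt_trichotomy l (d ^ 2) with h' | h' | h'
    · have : (l : ℝ) + 1 ≤ (d ^ 2 : ℕ) := by exact_mod_cast h'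
      left; linarith
    · simp [hz, h']
    · have : ((d ^ 2 : ℕ) : ℝ) + 1 ≤ l := by exact_mod_cast h'
      right; right; linarith
  have e : (x : ℝ) * x - g * g = z * t * (2 * gm s k + z * t) := by
    rw [← pow_two, ← pow_two, hx2, hg2]; ring
  have hgx : g * g ≤ x * x := by
    have : (g : ℝ) * g ≤ x * x := by linarith
    exact_mod_cast this
  have hn : ((x * x - g * g : ℕ) : ℝ) = z * t * (2 * gm s k + z * t) := by
    rw [Nat.cast_sub hgx]; push_cast; exact e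
  refine ⟨hn, ?_⟩
  have := ub_aux hs' (Nat.cast_nonneg t) ht2 hgm
    (by exact_mod_cast Nat.one_le_pow _ _ hd : (1 : ℝ) ≤ (d : ℝ) ^ 2) hz1
  rw [← hn] at this
  exact_mod_cast this

/-- The callbacks of the two banded products; `xs = [s, t, α, d, p, w]`. -/
theorem cb_ex : ∃ (eψ eG eW : Ex) (C : ℕ), ∀ (B P s t α d p w : ℕ), 1 ≤ s → s < t → t ≤ 2 * s →
    1 ≤ α → 1 ≤ d → p = d ^ 4 * α ^ 2 → t ^ 2 * α ^ 2 ≤ 2 ^ p → w ≤ 8 * p →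
    2 ^ (C * (p + 1) ^ 2) ≤ B → ∀ k,
    eψ.ev B P [k, s, t, α, d, p, w] = gψ s t k ∧ (k < s → ∀ l,
    (∃ c : ℤ, (eG.ev B P [k, l, s, t, α, d, p, w] : ℤ) ≡ c [ZMOD 2 ^ w] ∧
      |(c : ℝ) - 2 ^ p * wG s t α k| ≤ 1) ∧ (l < 2 * d ^ 2 + 1 →
    ∃ c : ℤ, (eW.ev B P [k, l, s, t, α, d, p, w] : ℤ) ≡ c [ZMOD 2 ^ w] ∧
      |(c : ℝ) - 2 ^ p * wE s t α (d ^ 2) l k| ≤ 1)) := by
  obtain ⟨eE, eC, eS, C, h⟩ := exp_ex
  let ec : Ex := .ifLt (2 * .var 0) (.var 2) 0 (.var 2)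
  let eg : Ex := ad (.var 0) ec
  let ex : Ex := ad (.var 1 * .var 3 + .var 0) (.var 5 * .var 5 * .var 3 + ec)
  refine ⟨.ifLt (2 * .var 0) (.var 1) (.var 0) (.var 0 + .var 2 - .var 1),
    .app [1, .var 4 * .var 4 * (eg * eg), .var 2 * .var 2, .var 2, .var 4 * .var 3, .var 6, .var 7] eE,
    .app [0, .var 4 * .var 4 * (ex * ex - eg * eg), .var 2 * .var 2,
      .ifEq (.var 1) (.var 5 * .var 5) 0 1, 1, .var 6, .var 7] eE, C,
    fun B P s t α d p w hs hst hts hα hd hp htα hw hB k => ⟨by simp [gψ], fun hk l => ?_⟩⟩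
  have hp1 : α * α ≤ p := by rw [hp, ← pow_two]; exact Nat.le_mul_of_pos_left _ (by positivity)
  have hα2 : 1 ≤ α * α := Nat.mul_pos hα hα
  have hαt : t ≤ α * t := Nat.le_mul_of_pos_left _ hα
  have htα' : (α * t) * (α * t) ≤ 2 ^ p := le_trans (le_of_eq (by ring)) htα
  have hD : s * s ≤ 2 ^ p := le_trans (Nat.mul_le_mul (by omega) (by omega)) htα'
  have hv : α * t ≤ 2 ^ p := le_trans (Nat.le_mul_of_pos_left _ (by omega)) htα'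
  have hss : 1 ≤ s * s := Nat.mul_pos hs hs
  set c0 : ℕ := if 2 * k < s then 0 else s with hc0
  set g : ℕ := k - c0 + (c0 - k) with hg
  have hg2 : (g : ℝ) ^ 2 = (gm s k : ℝ) ^ 2 := by rw [hg, ad_sq, gm_eq]
  have hgs : g ≤ s := by rw [hg, hc0]; split_ifs <;> omega
  refine ⟨?_, fun hl => ?_⟩
  · obtain ⟨c, h1, h2⟩ := (h B P 1 (α * α * (g * g)) (s * s) s (α * t) p w
      [k, l, s, t, α, d, p, w] (by omega) hss hD (by omega) hv (by omega)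
      ((Nat.mul_le_mul hp1 (Nat.mul_le_mul hgs hgs)).trans (by nlinarith)) hw hB).1
    refine ⟨c, by simpa [eg, ec, ad] using h1, ?_⟩
    convert h2 using 4
    unfold wG
    push_cast
    congr 2
    rw [← hg2]; simp; ring
  · set x : ℕ := l * t + k - (d * d * t + c0) + (d * d * t + c0 - (l * t + k)) with hx
    obtain ⟨hn, h6⟩ := nE_aux (x := x) hst hts hd hk hl hg2 (by
      rw [hx, ad_sq, gm_eq, ← hc0]; push_cast; ring)
    have hb : α * α * (x * x - g * g) ≤ 16 * (s * s) * p :=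
      calc _ ≤ α * α * ((2 * d ^ 2 * s) * (3 * d ^ 2 * s)) := Nat.mul_le_mul_left _ h6
        _ = 6 * (s * s) * p := by rw [hp]; ring
        _ ≤ _ := by gcongr; norm_num
    obtain ⟨c, h1, h2⟩ := (h B P 0 (α * α * (x * x - g * g)) (s * s) (if l = d * d then 0 else 1)
      1 p w [k, l, s, t, α, d, p, w] (by omega) hss hD le_rfl Nat.one_le_two_pow
      (by split_ifs <;> omega) hb hw hB).1
    refine ⟨c, by simpa [ex, eg, ec, ad] using h1, ?_⟩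
    convert h2 using 4
    unfold wE
    rw [← pow_two d, if_pos rfl]
    split_ifs with h'
    · simp
    · rw [Nat.cast_mul, hn]; simp; ring_nf

/-- The data on one line. -/
structure Line (n s t α d p : ℕ) (E : ℕ → ℕ → ℝ) (z y : ℕ → RA n) : Prop where
  h1 : ∀ μ < s, ∑ j ∈ range s, |E μ j - ∑ l ∈ range (2 * d ^ 2 + 1),
    if iE s t (d ^ 2) l μ = j then wE s t α (d ^ 2) l μ else 0| ≤ 2⁻¹ ^ p
  h2 : ∀ μ < s, ∑ j ∈ range s, |E μ j| ≤ 2⁻¹ ^ (α ^ 2 / d)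
  h3 : ∀ μ < s, (wG s t α μ : ℂ) • z (gψ s t μ) = y μ + ∑ j ∈ range s, (E μ j : ℂ) • y j

theorem gψ_lt {s t k : ℕ} (hst : s < t) (hk : k < s) : gψ s t k < t := by
  unfold gψ; split_ifs <;> omega

theorem gψ_mono {s t k : ℕ} (hst : s < t) : gψ s t k ≤ gψ s t (k + 1) := by
  unfold gψ; split_ifs <;> omega

theorem th_le {α d : ℕ} (hd : 1 ≤ d) (hα : 2 * d ≤ α ^ 2) : (2⁻¹ : ℝ) ^ (α ^ 2 / d) ≤ 1 / 2 := by
  have : 1 ≤ α ^ 2 / d := (Nat.le_div_iff_mul_le hd).2 (by omega)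
  calc _ ≤ (2⁻¹ : ℝ) ^ 1 := pow_le_pow_of_le_one (by norm_num) (by norm_num) this
    _ = _ := by norm_num

theorem th_pow {α d : ℕ} (hd : 1 ≤ d) (hα : 2 * d ≤ α ^ 2) :
    ((2⁻¹ : ℝ) ^ (α ^ 2 / d)) ^ (2 * d ^ 5) * 2 ^ (d ^ 4 * α ^ 2) ≤ 1 := by
  have h1 : α ^ 2 ≤ α ^ 2 / d * (2 * d) := by
    have := Nat.div_add_mod (α ^ 2) d
    have := Nat.mod_lt (α ^ 2) hd
    nlinarith
  have h2 : d ^ 4 * α ^ 2 ≤ α ^ 2 / d * (2 * d ^ 5) :=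
    (Nat.mul_le_mul_left _ h1).trans (le_of_eq (by ring))
  rw [← pow_mul]
  calc _ ≤ (2⁻¹ : ℝ) ^ (d ^ 4 * α ^ 2) * 2 ^ (d ^ 4 * α ^ 2) := by
        gcongr ?_ * _
        exact pow_le_pow_of_le_one (by norm_num) (by norm_num) h2
    _ = 1 := by rw [← mul_pow]; norm_num

theorem Line.y_le {s t α d p : ℕ} {E : ℕ → ℕ → ℝ} {z y : ℕ → RA n} (h : Line n s t α d p E z y)
    (hd : 1 ≤ d) (hα : 2 * d ≤ α ^ 2) (hst : s < t) {G m : ℝ}
    (hG : ∀ μ < s, 0 ≤ wG s t α μ ∧ wG s t α μ ≤ G) (hz : ∀ j < t, nrm n (z j) ≤ m) :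
    ∀ k < s, nrm n (y k) ≤ 2 * (G * m) :=
  fix_bound E (fun μ => (wG s t α μ : ℂ) • z (gψ s t μ)) y
    (fun μ hμ => (h.h2 μ hμ).trans (th_le hd hα)) h.h3 fun μ hμ => by
      rw [nrm_smul, Complex.norm_real, Real.norm_of_nonneg (hG μ hμ).1]
      exact mul_le_mul (hG μ hμ).2 (hz _ (gψ_lt hst hμ)) (nrm_nonneg _)
        ((hG μ hμ).1.trans (hG μ hμ).2)

/-- error bound after `m` steps; `u = G ε` -/
noncomputable def eb (θ Q L u : ℝ) (m : ℕ) : ℝ := θ ^ m * (2 * (Q * u)) + 66 * L * u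

section
variable {θ Q L u : ℝ} (h0 : 0 ≤ θ) (h1 : θ ≤ 1 / 2) (hL : 1 ≤ L) (hQ : 33 * L ≤ Q) (hu : 1 ≤ u)
include h0 h1 hL hQ hu

theorem eb_le (m : ℕ) : 2 * (Q * u) + eb θ Q L u m ≤ 8 * (Q * u) := by
  have h2 : θ ^ m ≤ 1 := pow_le_one₀ h0 (by linarith)
  have h3 : 0 ≤ Q * u := by nlinarith
  unfold eb
  nlinarith

omit h0 in
theorem eb_zero : 7 * u + θ * (2 * (Q * u)) ≤ eb θ Q L u 0 := by
  have h3 : 0 ≤ Q * u := by nlinarith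
  unfold eb
  nlinarith

omit h0 in
theorem eb_succ (m : ℕ) : 7 * u + θ * eb θ Q L u m + Q⁻¹ * (8 * (Q * u)) +
    L * (2 * (1 + 8 * (Q * u) / Q)) ≤ eb θ Q L u (m + 1) := by
  have hQ0 : Q ≠ 0 := by linarith
  have e1 : Q⁻¹ * (8 * (Q * u)) = 8 * u := by field_simp
  have e2 : 8 * (Q * u) / Q = 8 * u := by field_simp
  have h3 : u ≤ L * u := by nlinarith
  have h4 : L ≤ L * u := by nlinarith
  have h5 : θ * (L * u) ≤ 1 / 2 * (L * u) := by gcongr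
  rw [e1, e2]
  unfold eb
  rw [pow_succ]
  nlinarith

end

theorem big_aux {G Q f ε : ℝ} (hG : 1 ≤ G) (hf : 33 ≤ f) (hQ : f ≤ Q) (h1 : 1 ≤ ε)
    (h2 : 2 * (G * (2 ^ 10 * f) * ε) ≤ Q) :
    1 ≤ G * ε ∧ 8 * (Q * (G * ε)) ≤ Q * Q * Q ∧ 2 * (Q * ε) ≤ Q * Q * Q ∧ ε ≤ Q * ε ∧
      ε ≤ G * ε ∧ 2 * (Q * (G * ε)) ≤ Q * (G * (2 ^ 10 * f) * ε) := by
  have h3 : 1 ≤ G * ε := by nlinarith
  have h4 : 8 * (G * ε) ≤ Q := by nlinarith
  have h5 : Q ≤ Q * Q := by nlinarith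
  have h6 : ε ≤ G * ε := by nlinarith
  have h7 : 8 * (Q * (G * ε)) ≤ Q * Q * Q := by nlinarith
  have h8 : Q * ε ≤ Q * (G * ε) := mul_le_mul_of_nonneg_left h6 (by linarith)
  have h9 : 2 * (G * ε) ≤ G * (2 ^ 10 * f) * ε := by nlinarith
  exact ⟨h3, h7, by nlinarith, by nlinarith, h6, by nlinarith⟩

theorem fin_aux {θ G Q L f ε : ℝ} {m : ℕ} (h3 : 1 ≤ G * ε) (hL : 1 ≤ L) (hf : 33 * L ≤ f)
    (h6 : θ ^ m * Q ≤ 1) : eb θ Q L (G * ε) m ≤ G * (2 ^ 10 * f) * ε := by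
  have h7 : G * ε ≤ L * (G * ε) := by nlinarith
  have h8 : 33 * L * (G * ε) ≤ f * (G * ε) := by gcongr
  have h9 : θ ^ m * Q * (G * ε) ≤ 1 * (G * ε) := by gcongr
  unfold eb
  nlinarith

theorem first_aux {a a' z : RA n} {c G Q ε : ℝ} (hc0 : 0 ≤ c) (hc : c ≤ G) (hQ : 0 < Q)
    (h1 : 1 ≤ ε) (h5 : ε ≤ G * ε) (ha : nrm n (a - z) ≤ ε)
    (h8 : nrm n (a' - (c : ℂ) • a) ≤ (1 : ℕ) * (2 * (1 + 2 * (Q * ε) / Q))) :
    nrm n (a' - (c : ℂ) • z) ≤ 7 * (G * ε) := by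
  have h9 := nrm_add_le (a' - (c : ℂ) • a) ((c : ℂ) • (a - z))
  rw [nrm_smul, smul_sub, sub_add_sub_cancel, Complex.norm_real, Real.norm_of_nonneg hc0] at h9
  have h10 := mul_le_mul hc ha (nrm_nonneg _) (by linarith)
  have e : 2 * (Q * ε) / Q = 2 * ε := by field_simp
  rw [e] at h8
  push_cast at h8
  linarith

theorem nrm_le_add {a z : RA n} {e m : ℝ} (h : nrm n (a - z) ≤ e) (h' : nrm n z ≤ m) :
    nrm n a ≤ m + e := by
  have := nrm_add_le (a - z) z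
  rw [sub_add_cancel] at this
  linarith

/-- Hypotheses on the parameters of one direction. -/
structure Hy (C B P w O t s Oi n Bt f α d : ℕ) : Prop where
  hP : 1 ≤ P
  hO : 1 ≤ O
  hOi : 1 ≤ Oi
  hn : 1 ≤ n
  hBt : 1 ≤ Bt
  hs : Odd s
  hst : s < t
  hts : t ≤ 2 * s
  hθ : s ≤ 2 * d * (t - s)
  hd : 8 ≤ d
  hα : 2 * d ≤ α ^ 2
  hf : f = d ^ 4 * α ^ 2
  hw : w = 6 * f
  htα : t ^ 2 * α ^ 2 ≤ 2 ^ f
  hPn : P ≤ 2 * n * Bt
  hB : 2 ^ (C * (f + 1) ^ 2) ≤ B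
  hB' : C * (w * (O * t * Oi * (2 * n) * Bt)) ≤ B

namespace Hy
variable {C B P w O t s Oi n Bt f α d : ℕ} (h : Hy C B P w O t s Oi n Bt f α d)
include h

theorem mono {C' : ℕ} (hC : C' ≤ C) : Hy C' B P w O t s Oi n Bt f α d :=
  { h with
    hB := (Nat.pow_le_pow_right (by norm_num) (Nat.mul_le_mul_right _ hC)).trans h.hB
    hB' := (Nat.mul_le_mul_right _ hC).trans h.hB' }

theorem s1 : 1 ≤ s := h.hs.pos
theorem α1 : 1 ≤ α := Nat.pos_of_ne_zero (by rintro rfl; have := h.hα; have := h.hd; omega)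

theorem fα : 64 * (d ^ 2 * α ^ 2) ≤ f := by
  have hd2 : 64 ≤ d ^ 2 := by nlinarith [h.hd]
  rw [h.hf]; exact (Nat.mul_le_mul_right _ hd2).trans (le_of_eq (by ring))

theorem d2 : 64 ≤ d ^ 2 := by nlinarith [h.hd]
theorem fd : 1024 * d ^ 2 ≤ f := le_trans (by nlinarith [h.hα, h.hd]) h.fα
theorem fα' : 2 * α ^ 2 ≤ f := le_trans (by nlinarith [h.d2]) h.fα

theorem Bw (hC : 6 ≤ C) : 2 ^ w ≤ B :=
  le_trans (Nat.pow_le_pow_right (by norm_num) (by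
    have : f ≤ (f + 1) ^ 2 := by nlinarith
    rw [h.hw]; exact Nat.mul_le_mul hC this)) h.hB

theorem MM : O * s * Oi * (2 * n) * Bt ≤ O * t * Oi * (2 * n) * Bt := by
  have := h.hst.le; gcongr

theorem sM : s * (2 * n * Bt) ≤ O * s * Oi * (2 * n) * Bt :=
  calc _ = 1 * s * 1 * (2 * n) * Bt := by ring
    _ ≤ _ := by have := h.hO; have := h.hOi; gcongr

theorem PM : P ≤ O * s * Oi * (2 * n) * Bt :=
  h.hPn.trans ((Nat.le_mul_of_pos_left _ h.s1).trans h.sM)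

theorem w1 : 1 ≤ w := by have := h.fd; have := h.d2; have := h.hw; omega

theorem MN : O * s * Oi * (2 * n) * Bt ≤ w * (O * s * Oi * (2 * n) * Bt) :=
  Nat.le_mul_of_pos_left _ h.w1

theorem NN : w * (O * s * Oi * (2 * n) * Bt) ≤ w * (O * t * Oi * (2 * n) * Bt) :=
  Nat.mul_le_mul_left _ h.MM

theorem NB (hC : 1 ≤ C) : w * (O * s * Oi * (2 * n) * Bt) ≤ B :=
  h.NN.trans (le_trans (Nat.le_mul_of_pos_left _ hC) h.hB')

theorem wN : w ≤ w * (O * s * Oi * (2 * n) * Bt) := Nat.le_mul_of_pos_right _ (h.hP.trans h.PM)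

theorem σN : d ^ 2 * (2 * s - t) ≤ w * (O * s * Oi * (2 * n) * Bt) := by
  have h1 : s ≤ O * s * Oi * (2 * n) * Bt :=
    (Nat.le_mul_of_pos_right _ (h.hP.trans h.hPn)).trans h.sM
  have := h.fd
  have := h.hw
  have := h.hst
  exact Nat.mul_le_mul (by omega) (by omega)

theorem CB {c a b : ℕ} (hc : 2 * c ≤ C) (ha : a ≤ w * (O * t * Oi * (2 * n) * Bt))
    (hb : b ≤ w * (O * t * Oi * (2 * n) * Bt)) : c * (a + b) ≤ B :=
  calc _ ≤ c * (2 * (w * (O * t * Oi * (2 * n) * Bt))) := Nat.mul_le_mul_left _ (by omega)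
    _ = 2 * c * (w * (O * t * Oi * (2 * n) * Bt)) := by ring
    _ ≤ _ := (Nat.mul_le_mul_right _ hc).trans h.hB'

theorem wts : (∀ μ < s, 0 ≤ wG s t α μ ∧ wG s t α μ ≤ 2 ^ (2 * α ^ 2)) ∧
    ∀ μ < s, ∀ l, 0 ≤ wE s t α (d ^ 2) l μ ∧ wE s t α (d ^ 2) l μ ≤ 1 := by
  obtain ⟨-, -, -, -, -, hG, hW, -⟩ := gauss d α s t (by have := h.hd; omega) h.hα h.hs h.hst
    h.hts h.hθ
  exact ⟨hG, hW⟩

theorem Lf : 33 * ((2 * d ^ 2 + 1 : ℕ) : ℝ) ≤ f := by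
  have := h.fd
  have := h.d2
  exact_mod_cast (by omega : 33 * (2 * d ^ 2 + 1) ≤ f)

omit h in
theorem fQ : (f : ℝ) ≤ 2 ^ f := by exact_mod_cast Nat.lt_two_pow_self.le

omit h in
theorem L1 : (1 : ℝ) ≤ ((2 * d ^ 2 + 1 : ℕ) : ℝ) := by exact_mod_cast Nat.le_add_left _ _

theorem big {ε : ℝ} (h1 : 1 ≤ ε) (h2 : 2 * (2 ^ (2 * α ^ 2) * (2 ^ 10 * f) * ε) ≤ 2 ^ f) :
    1 ≤ 2 ^ (2 * α ^ 2) * ε ∧ 8 * (2 ^ f * (2 ^ (2 * α ^ 2) * ε)) ≤ 2 ^ (3 * f) ∧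
      2 * (2 ^ f * ε) ≤ 2 ^ (3 * f) ∧ ε ≤ 2 ^ f * ε ∧ ε ≤ 2 ^ (2 * α ^ 2) * ε ∧
      2 * (2 ^ f * (2 ^ (2 * α ^ 2) * ε)) ≤ 2 ^ f * (2 ^ (2 * α ^ 2) * (2 ^ 10 * f) * ε) := by
  rw [show (2 : ℝ) ^ (3 * f) = 2 ^ f * 2 ^ f * 2 ^ f by ring]
  exact big_aux (one_le_pow₀ (by norm_num)) (by linarith [h.Lf, L1 (d := d)]) fQ h1 h2

theorem y_le {E : ℕ → ℕ → ℝ} {z y : ℕ → RA n} {ε : ℝ} (hl : Line n s t α d f E z y)
    (hz : ∀ j < t, nrm n (z j) ≤ 2 ^ f * ε) :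
    ∀ k < s, nrm n (y k) ≤ 2 * (2 ^ f * (2 ^ (2 * α ^ 2) * ε)) := fun k hk =>
  (hl.y_le (by have := h.hd; omega) h.hα h.hst h.wts.1 hz k hk).trans (le_of_eq (by ring))

theorem lane {o k oi bt c : ℕ} (ho : o < O) (hk : k < s) (hoi : oi < Oi) (hbt : bt < Bt)
    (hc : c < 2 * n) : sad n Bt ((o * s + k) * Oi + oi) bt c < O * s * Oi * (2 * n) * Bt := by
  have _ := h
  refine sad_lt (O := O * s * Oi) ?_ hbt hc
  have : o * s + k + 1 ≤ O * s := by nlinarith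
  nlinarith

end Hy

theorem tens_line {ns : ℕ → ℕ} {d c : ℕ} (hc : c < d) (Kn : ℕ → ℕ → ℕ → ℂ)
    (z : (ℕ → ℕ) → RA n) (x : ℕ → ℕ) (j : ℕ) :
    tens ns d Kn z (Function.update x c j) = ∑ u ∈ box ns d,
      (Kn c j (u c) * ∏ i ∈ (range d).erase c, Kn i (x i) (u i)) • z u := by
  refine sum_congr rfl fun u _ => ?_
  rw [← mul_prod_erase _ _ (mem_range.2 hc), Function.update_self]
  congr 2
  exact prod_congr rfl fun i hi => by rw [Function.update_of_ne (mem_erase.1 hi).1]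

end Crest.Agent.IM.SN
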