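import Crest.Agent.IM.SwapU

/-! TASK IM-S. Fast exchange of two address fields (recursion on `J`, `Prog.fix`/`Prog.self`).
Take `Z, l` from `netS` and a prime `q > 216` above all entries of all `unit` instructions of `l`.
`J = 0`: `nswap`. Level `J + 1`, `Q = q ^ mu ^ J`, `F = Q ^ mu`, digits `u, v ∈ (ℤ / Q) ^ mu`:
(1) `v c -= u c` for all `c` (`rot`); (2) `u += v`: move the top digit (size `WW`) of the inner
field outermost (`tbw`), push `Z` scratch slots (`zeros`), run `l` (`lin a b c`: `xor` if `c` is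
odd; `unit`: `pick`, `unit_ex` with `sw := self [var 0, .., var 4]`, `put`), `drop`, `tfw`;
for fixed `(o, y, i)` the slots are functions `(u, v) ↦ ZMod 2` and
`Ψ A f (u, v) = f (u - 216⁻¹ A v, v)`; (3) `compl` the field `v`, then `v c += u c + 1`.
Use `Go.seqs_map`. Cost: prove `C (2 sg ^ J - 1) N` by induction (`two_le_sg`). -/

set_option autoImplicit false

namespace Crest.Agent.IM

/-- Fast exchange. -/
def SwapStmt (q : ℕ) : Prop :=
  ∃ (p : Prog) (C : ℕ), ∀ (B P : ℕ) (r : Prog) (J O F M I : ℕ),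
    1 ≤ P → 1 ≤ O → 1 ≤ M → F = q ^ mu ^ J → WW ^ J ∣ I → P * WW ^ J ≤ I →
    C * (O * F * M * F * I) ≤ B →
    SwAt B P r p J O F M I (C * sg ^ J * (O * F * M * F * I))

namespace SW

open SU Q4 Function

/-- copy slot `a` to the top -/
theorem pickS (a : ℕ) (e : Ex) : ∃ (p : Prog) (C : ℕ), ∀ (B P : ℕ) (r : Prog) (env : List ℕ)
    (N : ℕ) (L : List Bool), 1 ≤ P → e.ev B P env = N → (a + 1) * N ≤ B → (a + 1) * N ≤ L.length →
    ∃ X : List Bool, X.length = N ∧ Go B P r p env L env (X ++ L) (C * (N + P)) ∧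
      ∀ j < N, bit X j = bit L (a * N + j) := by
  obtain ⟨p, C, h⟩ := pick_ex
  refine ⟨.call [.cst a * e, e] p, C * (a + 1) + 1, fun B P r env N L hP he hB hL => ?_⟩
  rw [add_one_mul] at hB hL
  have hX : ((L.drop (a * N)).take N).length = N := by
    rw [List.length_take, List.length_drop]; omega
  have t := h B P r (a * N) N (L.take (a * N)) _ hP (by rw [List.length_take]; omega) hX
  have g := (Go.call (args := [.cst a * e, e]) (env := env) (by simp [he]) (by
    have e1 : a * N ≤ B := by omega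
    have e2 : N ≤ B := by omega
    simp [Ok, e1, e2]) t).frame ((L.drop (a * N)).drop N)
  simp only [List.append_assoc, List.take_append_drop] at g
  refine ⟨_, hX, g.mono ?_, fun j hj => by rw [bit_take _ hj, bit_drop]⟩
  have h1 : (0 : ℝ) ≤ N := Nat.cast_nonneg _
  have h2 : (0 : ℝ) ≤ (C : ℝ) * a * P := by positivity
  push_cast
  linarith

/-- overwrite slot `a` by the top -/
theorem putS (a : ℕ) (e : Ex) : ∃ (p : Prog) (C : ℕ), ∀ (B P : ℕ) (r : Prog) (env : List ℕ)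
    (N : ℕ) (Y L : List Bool), 1 ≤ P → e.ev B P env = N → (a + 1) * N ≤ B → Y.length = N →
    (a + 1) * N ≤ L.length →
    ∃ L' : List Bool, L'.length = L.length ∧ Go B P r p env (Y ++ L) env L' (C * (N + P)) ∧
      (∀ j < N, bit L' (a * N + j) = bit Y j) ∧
      ∀ a', a' ≠ a → ∀ j < N, bit L' (a' * N + j) = bit L (a' * N + j) := by
  obtain ⟨p, C, h⟩ := put_ex
  refine ⟨.call [.cst a * e, e] p, C * (a + 1) + 1, fun B P r env N Y L hP he hB hY hL => ?_⟩
  rw [add_one_mul] at hB hL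
  have hA : (L.take (a * N)).length = a * N := by rw [List.length_take]; omega
  have t := h B P r (a * N) N Y (L.take (a * N)) ((L.drop (a * N)).take N) hP hY hA
    (by rw [List.length_take, List.length_drop]; omega)
  have g := (Go.call (args := [.cst a * e, e]) (env := env) (by simp [he]) (by
    have e1 : a * N ≤ B := by omega
    have e2 : N ≤ B := by omega
    simp [Ok, e1, e2]) t).frame ((L.drop (a * N)).drop N)
  simp only [List.append_assoc, List.take_append_drop] at g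
  refine ⟨_, by simp only [List.length_append, hA, hY, List.length_drop]; omega, g.mono ?_,
    fun j hj => by rw [bit_append_right _ hA, bit_append_left _ (by omega)],
    fun k e j hj => ?_⟩
  · have h1 : (0 : ℝ) ≤ N := Nat.cast_nonneg _
    have h2 : (0 : ℝ) ≤ (C : ℝ) * a * P := by positivity
    push_cast
    linarith
  · rcases lt_or_gt_of_ne e with h | h
    · have : k * N + N ≤ a * N := by rw [← add_one_mul]; exact Nat.mul_le_mul_right _ h
      rw [bit_append_left _ (by omega), bit_take _ (by omega)]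
    · obtain ⟨d, rfl⟩ : ∃ d, k = a + 1 + d := ⟨k - (a + 1), by omega⟩
      rw [show (a + 1 + d) * N + j = a * N + (N + (d * N + j)) by ring,
        bit_append_right _ hA, bit_append_right _ hY, bit_drop, bit_drop]

/-- bits as elements of `ZMod 2` -/
def enc (b : Bool) : ZMod 2 := if b then 1 else 0

theorem enc_inj : Injective enc := by decide

theorem enc_xor (a b : Bool) : enc (xor a b) = enc a + enc b := by revert a b; decide

/-- slot contents -/
abbrev VV (Q : ℕ) : Type := ℕ × ℕ × ℕ → (Dg → ZMod Q) → ZMod 2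

/-- the shear `u += 216⁻¹ A v` -/
def sh {Q : ℕ} (A : Matrix (Fin mu) (Fin mu) ℤ) (s : Dg → ZMod Q) : Dg → ZMod Q :=
  Sum.elim (fun l => s (.inl l) + (216 : ZMod Q)⁻¹ * ∑ l', (A l l' : ZMod Q) * s (.inr l'))
    (fun l => s (.inr l))

theorem sh_add {Q : ℕ} (A A' : Matrix (Fin mu) (Fin mu) ℤ) (s : Dg → ZMod Q) :
    sh A (sh A' s) = sh (A + A') s := by
  funext d
  rcases d with l | l
  · simp only [sh, Sum.elim_inl, Sum.elim_inr, Matrix.add_apply, Int.cast_add, add_mul,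
      Finset.sum_add_distrib]
    ring
  · rfl

theorem sh_zero {Q : ℕ} (s : Dg → ZMod Q) : sh 0 s = s := by
  funext d
  rcases d with l | l <;> simp [sh]

/-- the action on slot contents -/
def Ps (Q : ℕ) (A : Matrix (Fin mu) (Fin mu) ℤ) : VV Q →ₗ[ZMod 2] VV Q where
  toFun f := fun t s => f t (sh (-A) s)
  map_add' _ _ := rfl
  map_smul' _ _ := rfl

theorem Ps_add (Q : ℕ) (A A' : Matrix (Fin mu) (Fin mu) ℤ) :
    Ps Q (A + A') = Ps Q A ∘ₗ Ps Q A' := by
  ext f t s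
  change f t (sh (-(A + A')) s) = f t (sh (-A') (sh (-A) s))
  rw [sh_add, neg_add_rev]

theorem Ps_zero (Q : ℕ) : Ps Q 0 = LinearMap.id := by
  ext f t s
  change f t (sh (-0) s) = f t s
  rw [neg_zero, sh_zero]

/-- the list `L` holds the slots `x` -/
def Rep (n O Q M I : ℕ) (L : List Bool) (x : ℕ → VV Q) : Prop :=
  L.length = n * NN O Q M I ∧ ∀ a < n, ∀ o < O, ∀ y < M, ∀ i < I, ∀ s,
    x a (o, y, i) s = enc (bit L (a * NN O Q M I + ad M I o y i s))

theorem ad_lt {O Q M I o y i : ℕ} (hQ : 1 ≤ Q) (ho : o < O) (hy : y < M) (hi : i < I)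
    (s : Dg → ZMod Q) : ad M I o y i s < NN O Q M I := by
  rw [← (ad_eq O M I o y i s).1, ← (ad_eq O M I o y i s).2]
  exact mr_lt fun l _ hl => dg_lt hQ ho hy hi s hl

theorem ev_N (B P J O Q M I : ℕ) : (ep 0 DD).ev B P [J, O, Q, M, I] = NN O Q M I := by
  rw [ev_ep _ _ _ _ _ _ _ (Nat.zero_le _), (ad_eq O M I 0 0 0 (fun _ => (0 : ZMod Q))).1]

theorem Rep.upd {n O Q M I a : ℕ} {L L' Y : List Bool} {x : ℕ → VV Q} {z : VV Q} (hQ : 1 ≤ Q)
    (h : Rep n O Q M I L x) (hl : L'.length = L.length)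
    (h1 : ∀ j < NN O Q M I, bit L' (a * NN O Q M I + j) = bit Y j)
    (h2 : ∀ a', a' ≠ a → ∀ j < NN O Q M I,
      bit L' (a' * NN O Q M I + j) = bit L (a' * NN O Q M I + j))
    (hz : ∀ o < O, ∀ y < M, ∀ i < I, ∀ s, z (o, y, i) s = enc (bit Y (ad M I o y i s))) :
    Rep n O Q M I L' (update x a z) := by
  refine ⟨hl.trans h.1, fun k hk o ho y hy i hi s => ?_⟩
  by_cases e : k = a
  · subst e
    rw [update_self, h1 _ (ad_lt hQ ho hy hi s), hz o ho y hy i hi]
  · rw [update_of_ne e, h2 k e _ (ad_lt hQ ho hy hi s), h.2 k hk o ho y hy i hi]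

/-- Side conditions at level `J`. -/
structure Lv (q B P : ℕ) (r sw : Prog) (J O Q M I : ℕ) (x : ℝ) : Prop where
  hP : 1 ≤ P
  hO : 1 ≤ O
  hM : 1 ≤ M
  hQ : Q = q ^ mu ^ J
  h1 : WW ^ J ∣ I
  h2 : P * WW ^ J ≤ I
  hx : 0 ≤ x
  hs : ∀ O' M' I', 1 ≤ O' → 1 ≤ M' → WW ^ J ∣ I' → P * WW ^ J ≤ I' →
    O' * Q * M' * Q * I' = NN O Q M I → SwAt B P r sw J O' Q M' I' x

theorem Lv.cx {q B P : ℕ} {r sw : Prog} {J O Q M I : ℕ} {x : ℝ} (hq : 0 < q)
    (h : Lv q B P r sw J O Q M I x) : Cx q P O Q M I :=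
  ⟨h.hP, h.hO, h.hM,
    le_trans (Nat.le_mul_of_pos_right _ (pow_pos (by have := two_le_WW; omega) _)) h.h2,
    h.hQ ▸ pow_pos hq _, fun _ hc => h.hQ ▸ hc.pow_right _⟩

theorem ins_ex (q : ℕ) (hq : q.Prime) (hq' : 216 < q) (n : ℕ) (sw : Prog) (ins : NI) :
    ∃ (p : Prog) (C : ℕ), ins.WF n → (∀ a S, ins ≠ .free a S) →
      (∀ a v v', ins = .unit a v v' → (∀ l, |v l| < q) ∧ ∀ l, |v' l| < q) →
      ∀ (B P : ℕ) (r : Prog) (J O Q M I : ℕ) (x : ℝ) (L : List Bool) (xs : ℕ → VV Q),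
        Lv q B P r sw J O Q M I x → C * NN O Q M I ≤ B → Rep n O Q M I L xs →
        ∃ L', Go B P r p [J, O, Q, M, I] L [J, O, Q, M, I] L'
            ((if ins.isUnit then x else 0) + C * (NN O Q M I : ℕ)) ∧
          Rep n O Q M I L' (NI.step (1 : ZMod 2) (Ps Q) xs ins) := by
  rcases ins with ⟨a, b, c⟩ | a | ⟨a, v, v'⟩ | ⟨a, S⟩
  · by_cases hc : Even c
    · refine ⟨.skip, 1, fun _ _ _ B P r J O Q M I x L xs lv hB h => ⟨L, Go.skip.mono ?_, ?_⟩⟩
      · have cx := lv.cx hq.pos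
        have : (1 : ℝ) ≤ (NN O Q M I : ℕ) := by exact_mod_cast cx.hP.trans cx.P_le
        simpa [NI.isUnit] using this
      · have : ((c : ℤ) : ZMod 2) = 0 := (ZMod.intCast_eq_zero_iff_even).2 hc
        simpa [NI.step, this] using h
    obtain ⟨p₁, C₁, h₁⟩ := pickS b (ep 0 DD)
    obtain ⟨p₂, C₂, h₂⟩ := pickS (a + 1) (ep 0 DD)
    obtain ⟨p₃, C₃, h₃⟩ := xor2_ex
    obtain ⟨p₄, C₄, h₄⟩ := putS a (ep 0 DD)
    refine ⟨p₁ ;; p₂ ;; .call [ep 0 DD] p₃ ;; p₄, 2 * (C₁ + C₂ + C₃ + C₄) + n + 4,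
      fun wf _ _ B P r J O Q M I x L xs lv hB h => ?_⟩
    obtain ⟨ha, hb, hab, -⟩ := wf
    have cx := lv.cx hq.pos
    have hle : ∀ k, k ≤ 2 * (C₁ + C₂ + C₃ + C₄) + n + 4 → k * NN O Q M I ≤ B := fun k hk =>
      le_trans (Nat.mul_le_mul_right _ hk) hB
    obtain ⟨X, hX, g1, e1⟩ := h₁ B P r _ _ L lv.hP (ev_N B P J O Q M I) (hle _ (by omega))
      (h.1 ▸ Nat.mul_le_mul_right _ hb)
    obtain ⟨X', hX', g2, e2⟩ := h₂ B P r _ _ (X ++ L) lv.hP (ev_N B P J O Q M I)
      (hle _ (by omega)) (by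
        rw [List.length_append, hX, h.1, add_one_mul, add_comm]
        exact Nat.add_le_add_left (Nat.mul_le_mul_right _ ha) _)
    obtain ⟨Y, hY, t3, e3⟩ := h₃ B P r _ X' X lv.hP hX' hX
    have g3 := (Go.call (args := [ep 0 DD]) (env := [J, O, Q, M, I]) (by simp [ev_N]) (by
      have := hle 1 (by omega)
      simp [Ok]; omega) t3).frame L
    rw [List.append_assoc] at g3
    obtain ⟨L', hL', g4, e4, e5⟩ := h₄ B P r _ _ Y L lv.hP (ev_N B P J O Q M I) (hle _ (by omega))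
      hY (h.1 ▸ Nat.mul_le_mul_right _ ha)
    refine ⟨L', (g1.seq (g2.seq (g3.seq g4))).mono ?_,
      h.upd cx.hQ hL' e4 e5 fun o ho y hy i hi s => ?_⟩
    · have k1 : (1 : ℝ) ≤ P := by exact_mod_cast lv.hP
      have k2 : (P : ℝ) ≤ (NN O Q M I : ℕ) := by exact_mod_cast cx.P_le
      have := cle C₁ k2; have := cle C₂ k2; have := cle C₃ k2; have := cle C₄ k2
      have : (0 : ℝ) ≤ n * (NN O Q M I : ℕ) := by positivity
      simp only [NI.isUnit]
      push_cast
      linarith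
    · have hj := ad_lt cx.hQ ho hy hi s
      have : ((c : ℤ) : ZMod 2) = 1 := (ZMod.intCast_eq_one_iff_odd).2 (Int.not_even_iff_odd.1 hc)
      rw [e3 _ hj, enc_xor, e2 _ hj, e1 _ hj, add_one_mul, add_comm _ (NN O Q M I), add_assoc,
        bit_append_right _ hX, ← h.2 a ha o ho y hy i hi, ← h.2 b hb o ho y hy i hi, this]
      simp
  · obtain ⟨p₁, C₁, h₁⟩ := zeros_ex
    obtain ⟨p₄, C₄, h₄⟩ := putS a (ep 0 DD)
    refine ⟨.call [ep 0 DD] p₁ ;; p₄, 2 * (C₁ + C₄) + n + 4,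
      fun ha _ _ B P r J O Q M I x L xs lv hB h => ?_⟩
    change a < n at ha
    have cx := lv.cx hq.pos
    have hle : ∀ k, k ≤ 2 * (C₁ + C₄) + n + 4 → k * NN O Q M I ≤ B := fun k hk =>
      le_trans (Nat.mul_le_mul_right _ hk) hB
    have g1 := (Go.call (args := [ep 0 DD]) (env := [J, O, Q, M, I]) (by simp [ev_N]) (by
      have := hle 1 (by omega)
      simp [Ok]; omega) (h₁ B P r (NN O Q M I) lv.hP)).frame L
    obtain ⟨L', hL', g4, e4, e5⟩ := h₄ B P r _ _ (List.replicate (NN O Q M I) false) L lv.hP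
      (ev_N B P J O Q M I) (hle _ (by omega)) (by simp) (h.1 ▸ Nat.mul_le_mul_right _ ha)
    refine ⟨L', (g1.seq g4).mono ?_, h.upd cx.hQ hL' e4 e5 fun o ho y hy i hi s => ?_⟩
    · have k1 : (1 : ℝ) ≤ P := by exact_mod_cast lv.hP
      have k2 : (P : ℝ) ≤ (NN O Q M I : ℕ) := by exact_mod_cast cx.P_le
      have := cle C₁ k2; have := cle C₄ k2
      have : (0 : ℝ) ≤ n * (NN O Q M I : ℕ) := by positivity
      simp only [NI.isUnit]
      push_cast
      linarith
    · rw [bit_replicate]; rfl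
  · by_cases hv : (∀ l, |v l| < q) ∧ ∀ l, |v' l| < q
    swap
    · exact ⟨.skip, 0, fun _ _ h => absurd (h a v v' rfl) hv⟩
    obtain ⟨p₁, C₁, h₁⟩ := pickS a (ep 0 DD)
    obtain ⟨p₂, C₂, h₂⟩ := unit_ex q hq hq' v v' hv.1 hv.2 sw
    obtain ⟨p₄, C₄, h₄⟩ := putS a (ep 0 DD)
    refine ⟨p₁ ;; .call [.var 0, .var 1, .var 2, .var 3, .var 4] p₂ ;; p₄,
      2 * (C₁ + C₂ + C₄) + n + 4, fun ha _ _ B P r J O Q M I x L xs lv hB h => ?_⟩
    change a < n at ha
    have cx := lv.cx hq.pos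
    have hle : ∀ k, k ≤ 2 * (C₁ + C₂ + C₄) + n + 4 → k * NN O Q M I ≤ B := fun k hk =>
      le_trans (Nat.mul_le_mul_right _ hk) hB
    obtain ⟨X, hX, g1, e1⟩ := h₁ B P r _ _ L lv.hP (ev_N B P J O Q M I) (hle _ (by omega))
      (h.1 ▸ Nat.mul_le_mul_right _ ha)
    obtain ⟨Y, hY, t2, e2⟩ := h₂ B P r J O Q M I x X lv.hP lv.hO lv.hM lv.hQ lv.h1 lv.h2
      (hle _ (by omega)) lv.hx lv.hs hX
    have g2 := (Go.call (args := [.var 0, .var 1, .var 2, .var 3, .var 4])
      (env := [J, O, Q, M, I]) rfl (by simp [Ok]) t2).frame L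
    obtain ⟨L', hL', g4, e4, e5⟩ := h₄ B P r _ _ Y L lv.hP (ev_N B P J O Q M I) (hle _ (by omega))
      hY (h.1 ▸ Nat.mul_le_mul_right _ ha)
    refine ⟨L', (g1.seq (g2.seq g4)).mono ?_, h.upd cx.hQ hL' e4 e5 fun o ho y hy i hi s => ?_⟩
    · have k1 : (1 : ℝ) ≤ P := by exact_mod_cast lv.hP
      have k2 : (P : ℝ) ≤ (NN O Q M I : ℕ) := by exact_mod_cast cx.P_le
      have := cle C₁ k2; have := cle C₄ k2
      have : (0 : ℝ) ≤ n * (NN O Q M I : ℕ) := by positivity
      have : (0 : ℝ) ≤ C₂ * (NN O Q M I : ℕ) := by positivity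
      have e : (O : ℝ) * Q ^ mu * M * Q ^ mu * I = (NN O Q M I : ℕ) := by unfold NN; push_cast; rfl
      simp only [NI.isUnit, e]
      push_cast
      linarith
    · change xs a (o, y, i) (sh (-Matrix.vecMulVec v v') s) = _
      rw [h.2 a ha o ho y hy i hi, ← e1 _ (ad_lt cx.hQ ho hy hi _)]
      conv_rhs => rw [← sh_zero s, ← add_neg_cancel (Matrix.vecMulVec v v'), ← sh_add]
      generalize sh (-Matrix.vecMulVec v v') s = s'
      rw [ad, ← e2 o ho _ y hy _ i hi, ad]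
      simp only [sh, Sum.elim_inl, Sum.elim_inr, Matrix.vecMulVec_apply, Int.cast_mul,
        Finset.mul_sum, mul_assoc]
  · exact ⟨.skip, 0, fun _ h => absurd rfl (h a S)⟩

theorem sum_cost (l : List NI) (Cf : NI → ℕ) (x N : ℝ) :
    (l.map fun a => (if a.isUnit then x else 0) + Cf a * N + 1).sum =
      l.countP NI.isUnit * x + ((l.map Cf).sum : ℕ) * N + l.length := by
  induction l with
  | nil => simp
  | cons a l ih =>
    rw [List.map_cons, List.sum_cons, ih, List.countP_cons, List.map_cons, List.sum_cons,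
      List.length_cons]
    split_ifs <;> push_cast <;> ring

theorem zv_lt {Q : ℕ} (hQ : 1 ≤ Q) (u : Fin mu → ZMod Q) : zv u < Q ^ mu := by
  have : NeZero Q := ⟨by omega⟩
  have := mr_lt (ns := fun _ => Q) (a := 0) (b := mu)
    (x := fun l => if h : l < mu then (u ⟨l, h⟩).val else 0)
    fun l _ hl => by simp only [dif_pos hl]; exact ZMod.val_lt _
  rwa [pr_const] at this

theorem zv_surj {Q : ℕ} (hQ : 1 ≤ Q) {U : ℕ} (hU : U < Q ^ mu) :
    ∃ u : Fin mu → ZMod Q, zv u = U := by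
  refine ⟨fun l => (dig (fun _ => Q) 0 mu U l : ℕ), ?_⟩
  have h := mr_dig (ns := fun _ => Q) (a := 0) (b := mu) (n := U) (Nat.zero_le _)
  rw [pr_const, Nat.sub_zero, Nat.mod_eq_of_lt hU] at h
  rw [← h]
  refine mr_congr (fun _ _ _ => rfl) fun l _ hl => ?_
  rw [h, dif_pos hl, ZMod.val_natCast, Nat.mod_eq_of_lt (dig_lt (ns := fun _ => Q) hQ)]

/-- The network pass `u += v`. -/
theorem net_ex (sw : Prog) : ∃ q : ℕ, q.Prime ∧ 216 < q ∧ ∃ (p : Prog) (C : ℕ),
    ∀ (B P : ℕ) (r : Prog) (J O Q M I : ℕ) (x : ℝ) (L : List Bool),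
      Lv q B P r sw J O Q M I x → C * NN O Q M I ≤ B → L.length = NN O Q M (WW * I) →
      ∃ L', Go B P r p [J, O, Q, M, I] L [J, O, Q, M, I] L'
          (((WW : ℝ) * mu - 1) * x + C * (NN O Q M I : ℕ)) ∧
        Mv O Q M (WW * I) (fun s => Sum.elim (fun l => s (.inl l) + s (.inr l))
          (fun l => s (.inr l))) L L' := by
  obtain ⟨Z, l, wf, nf, cnt, net⟩ := netS
  obtain ⟨K, hK⟩ : ∃ K : ℕ, ∀ a v v', NI.unit a v v' ∈ l → (∀ c, |v c| < K) ∧ ∀ c, |v' c| < K := by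
    clear wf nf cnt net
    induction l with
    | nil => exact ⟨0, by simp⟩
    | cons ins l ih =>
      obtain ⟨K, hK⟩ := ih
      obtain ⟨K', hK'⟩ : ∃ K' : ℕ, ∀ a v v', NI.unit a v v' = ins →
          (∀ c, |v c| < K') ∧ ∀ c, |v' c| < K' := by
        rcases ins with _ | _ | ⟨a, v, v'⟩ | _
        · exact ⟨0, by simp⟩
        · exact ⟨0, by simp⟩
        · refine ⟨∑ c, (v c).natAbs + ∑ c, (v' c).natAbs + 1, fun _ _ _ h => ?_⟩
          cases h
          refine ⟨fun c => ?_, fun c => ?_⟩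
          · have := Finset.single_le_sum (f := fun c => (v c).natAbs) (fun _ _ => Nat.zero_le _)
              (Finset.mem_univ c)
            rw [← Int.natCast_natAbs]
            exact_mod_cast (by omega)
          · have := Finset.single_le_sum (f := fun c => (v' c).natAbs) (fun _ _ => Nat.zero_le _)
              (Finset.mem_univ c)
            rw [← Int.natCast_natAbs]
            exact_mod_cast (by omega)
        · exact ⟨0, by simp⟩
      refine ⟨K + K', fun a v v' h => ?_⟩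
      rcases List.mem_cons.1 h with h | h
      · obtain ⟨h1, h2⟩ := hK' a v v' h
        exact ⟨fun c => by have := h1 c; push_cast; omega, fun c => by
          have := h2 c; push_cast; omega⟩
      · obtain ⟨h1, h2⟩ := hK a v v' h
        exact ⟨fun c => by have := h1 c; push_cast; omega, fun c => by
          have := h2 c; push_cast; omega⟩
  obtain ⟨q, hqK, hq⟩ := Nat.exists_infinite_primes (K + 217)
  have hq' : 216 < q := by omega
  refine ⟨q, hq, hq', ?_⟩
  choose f Cf hf using ins_ex q hq hq' (Z + WW) sw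
  obtain ⟨p₁, C₁, h₁⟩ := tbw_ex
  obtain ⟨p₂, C₂, h₂⟩ := zeros_ex
  obtain ⟨p₄, C₄, h₄⟩ := drop_ex
  obtain ⟨p₅, C₅, h₅⟩ := tfw_ex
  refine ⟨.call [1, .cst WW, ep 0 DD / .var 4, .var 4] p₁ ;; .call [.cst Z * ep 0 DD] p₂ ;;
    seqs (l.map f) ;; .call [.cst Z * ep 0 DD] p₄ ;;
    .call [1, .cst WW, ep 0 DD / .var 4, .var 4] p₅,
    (C₁ + C₅) * WW * (WW + 1) + (C₂ + C₄) * (Z + 1) + (l.map Cf).sum + l.length + Z + WW + 9,
    fun B P r J O Q M I x L lv hB hL => ?_⟩
  have cx := lv.cx hq.pos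
  have hW : 1 ≤ WW := by have := two_le_WW; omega
  have hO := cx.hO; have hM := cx.hM; have hQ := cx.hQ
  have hI : 1 ≤ I := cx.hP.trans cx.hI
  have hN : 1 ≤ NN O Q M I := cx.hP.trans cx.P_le
  have hle : ∀ k, k ≤ (l.map Cf).sum + l.length + Z + WW + 9 → k * NN O Q M I ≤ B := fun k hk =>
    le_trans (Nat.mul_le_mul_right _ (by omega)) hB
  have b1 : NN O Q M I ≤ B := by have := hle 1 (by omega); omega
  have b2 : WW ≤ B := le_of_mul _ hN (hle WW (by omega)) rfl
  have b3 : O * Q ^ mu * M * Q ^ mu ≤ B := le_of_mul _ hI b1 rfl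
  have b4 : Z * NN O Q M I ≤ B := hle Z (by omega)
  have b5 : 1 ≤ B := by omega
  have eA : NN O Q M I / I = O * Q ^ mu * M * Q ^ mu := Nat.mul_div_cancel _ hI
  have hA : 1 ≤ O * Q ^ mu * M * Q ^ mu := one_le (by positivity)
  obtain ⟨L₁, l1, t1, e1⟩ := h₁ B P r 1 WW (O * Q ^ mu * M * Q ^ mu) I L lv.hP hW hA hI b2
    (by rw [hL, NN]; ring)
  have l1' : L₁.length = WW * NN O Q M I := by rw [l1, NN]; ring
  have g1 := Go.call (args := [1, .cst WW, ep 0 DD / .var 4, .var 4]) (env := [J, O, Q, M, I])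
    (by simp [ev_N, eA]) (by simp [Ok, b2, b3, b5]) t1
  have g2 := (Go.call (args := [.cst Z * ep 0 DD]) (env := [J, O, Q, M, I]) (by simp [ev_N])
    (by simp [Ok, b4]) (h₂ B P r (Z * NN O Q M I) lv.hP)).frame L₁
  set L₂ := List.replicate (Z * NN O Q M I) false ++ L₁ with hL₂
  let x₀ : ℕ → VV Q := fun a t s => enc (bit L₂ (a * NN O Q M I + ad M I t.1 t.2.1 t.2.2 s))
  obtain ⟨env₃, L₃, g3, rfl, xs, r3, hxs⟩ := Go.seqs_map (B := B) (P := P) (r := r) f
    (fun a => (if a.isUnit then x else 0) + Cf a * (NN O Q M I : ℕ))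
    (fun l' env L => env = [J, O, Q, M, I] ∧ ∃ xs, Rep (Z + WW) O Q M I L xs ∧
      l'.foldl (NI.step (1 : ZMod 2) (Ps Q)) xs = l.foldl (NI.step (1 : ZMod 2) (Ps Q)) x₀) l
    (by
      rintro a l' hs env L ⟨rfl, xs, h1, h2⟩
      have ha : a ∈ l := hs.subset List.mem_cons_self
      obtain ⟨L', g, h3⟩ := hf a (wf a ha) (fun b S e => nf b S (e ▸ ha))
        (fun b v v' e => by
          obtain ⟨k1, k2⟩ := hK b v v' (e ▸ ha)
          exact ⟨fun c => by have := k1 c; omega, fun c => by have := k2 c; omega⟩)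
        B P r J O Q M I x L xs lv (hle _ (by
          have := List.single_le_sum (l := l.map Cf) (fun _ _ => Nat.zero_le _) _
            (List.mem_map_of_mem ha)
          omega)) h1
      exact ⟨_, L', g, rfl, _, h3, h2⟩)
    (env := [J, O, Q, M, I]) (L := L₂)
    ⟨rfl, x₀, ⟨by rw [hL₂, List.length_append, List.length_replicate, l1', add_mul],
      fun _ _ _ _ _ _ _ _ _ => rfl⟩, rfl⟩
  rw [sum_cost] at g3
  have l3 : (L₃.take (Z * NN O Q M I)).length = Z * NN O Q M I := by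
    rw [List.length_take, r3.1, add_mul]; omega
  have g4 := (Go.call (args := [.cst Z * ep 0 DD]) (env := [J, O, Q, M, I]) (by simp [ev_N])
    (by simp [Ok, b4]) (h₄ B P r (Z * NN O Q M I) _ lv.hP l3)).frame (L₃.drop (Z * NN O Q M I))
  rw [List.take_append_drop, List.nil_append] at g4
  obtain ⟨L₅, l5, t5, e5⟩ := h₅ B P r 1 WW (O * Q ^ mu * M * Q ^ mu) I (L₃.drop (Z * NN O Q M I))
    lv.hP hW hA hI b2 (by
      rw [List.length_drop, r3.1, add_mul, Nat.add_sub_cancel_left, NN]; ring)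
  have g5 := Go.call (args := [1, .cst WW, ep 0 DD / .var 4, .var 4]) (env := [J, O, Q, M, I])
    (by simp [ev_N, eA]) (by simp [Ok, b2, b3, b5]) t5
  refine ⟨L₅, (g1.seq (g2.seq (g3.seq (g4.seq g5)))).mono ?_, by rw [l5, NN]; ring,
    fun o ho y hy i hi s => ?_⟩
  · have k1 : (1 : ℝ) ≤ P := by exact_mod_cast lv.hP
    have k2 : (P : ℝ) ≤ (NN O Q M I : ℕ) := by exact_mod_cast cx.P_le
    have k3 : ((l.countP NI.isUnit : ℕ) : ℝ) ≤ (WW : ℝ) * mu - 1 := by
      have : ((l.countP NI.isUnit + 1 : ℕ) : ℝ) ≤ (WW * mu : ℕ) := by exact_mod_cast cnt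
      push_cast at this; linarith
    have k4 := mul_le_mul_of_nonneg_right k3 lv.hx
    have e : ((O * Q ^ mu * M * Q ^ mu : ℕ) : ℝ) * I = (NN O Q M I : ℕ) := by
      unfold NN; push_cast; rfl
    have k5 := cle (C₁ * WW) k2; have k6 := cle (C₅ * WW) k2
    have k7 := cle C₂ k2; have k8 := cle C₄ k2
    have k9 := cle l.length (k1.trans k2)
    have : (0 : ℝ) ≤ Z * (NN O Q M I : ℕ) := by positivity
    have : (0 : ℝ) ≤ WW * (NN O Q M I : ℕ) := by positivity
    simp only [mul_assoc ((1 : ℕ) * (WW : ℝ)), e]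
    push_cast at k5 k6 ⊢
    linarith
  · obtain ⟨ω, i₁, hω, hi₁, rfl⟩ : ∃ ω i₁, ω < WW ∧ i₁ < I ∧ i = ω * I + i₁ :=
      ⟨i / I, i % I, (Nat.div_lt_iff_lt_mul hI).2 hi, Nat.mod_lt _ hI, (Nat.div_add_mod' _ _).symm⟩
    have hα : ∀ s : Dg → ZMod Q, ((o * Q ^ mu + zv fun l => s (.inl l)) * M + y) * Q ^ mu +
        (zv fun l => s (.inr l)) < O * Q ^ mu * M * Q ^ mu := fun s =>
      lt_mul (lt_mul (lt_mul ho (zv_lt hQ _)) hy) (zv_lt hQ _)
    have a1 : ∀ s : Dg → ZMod Q, bit L₂ ((Z + ω) * NN O Q M I + ad M I o y i₁ s) =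
        bit L (ad M (WW * I) o y (ω * I + i₁) s) := fun s => by
      rw [add_mul, add_assoc, hL₂, bit_append_right _ (List.length_replicate ..)]
      refine Eq.trans ?_ ((e1 0 one_pos ω hω _ (hα s) i₁ hi₁).trans ?_) <;>
        (unfold ad swad; congr 1; try unfold NN) <;> ring
    have a5 : ∀ s : Dg → ZMod Q, bit L₅ (ad M (WW * I) o y (ω * I + i₁) s) =
        bit L₃ ((Z + ω) * NN O Q M I + ad M I o y i₁ s) := fun s => by
      rw [add_mul Z, add_assoc, ← bit_drop]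
      refine Eq.trans ?_ ((e5 0 one_pos ω hω _ (hα s) i₁ hi₁).trans ?_) <;>
        (unfold ad swad; congr 1; try unfold NN) <;> ring
    have hs : (Sum.elim (fun l => s (.inl l) + s (.inr l)) (fun l => s (.inr l)) : Dg → ZMod Q) =
        sh ((216 : ℤ) • 1) s := by
      have u216 := cx.unit (c := 216) ((Nat.coprime_of_lt_prime (by norm_num) hq' hq).symm)
      funext d
      rcases d with c | c
      · simp only [sh, Sum.elim_inl, Matrix.smul_apply, Matrix.one_apply, smul_eq_mul, mul_ite,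
          mul_one, mul_zero, Int.cast_ite, Int.cast_zero, ite_mul, zero_mul, Finset.sum_ite_eq,
          Finset.mem_univ, if_true]
        push_cast at u216 ⊢
        linear_combination (-s (.inr c)) * u216
      · rfl
    apply enc_inj
    beta_reduce
    rw [a5, ← a1, ← r3.2 (Z + ω) (by omega) o ho y hy i₁ hi₁, hs]
    rw [List.foldl_nil] at hxs
    rw [hxs, net (VV Q) (Ps Q) (Ps_add Q) (Ps_zero Q) x₀ (Z + ω) (by omega) (by omega)]
    change x₀ (Z + ω) (o, y, i₁) (sh (-((216 : ℤ) • 1)) (sh ((216 : ℤ) • 1) s)) = _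
    rw [sh_add, neg_add_cancel, sh_zero]

theorem re_pre (q : ℕ) : Re q (fun _ s => Sum.elim (fun l => s (.inl l))
    (fun l => s (.inr l) - s (.inl l))) := by
  classical
  refine (re_par (Finset.univ.map ⟨Sum.inr, Sum.inr_injective⟩) Sum.swap
    (fun Q _ x z => x + ((-1 : ℤ) : ZMod Q) * z) (fun d hd => ?_) fun d hd => ?_).congr
    fun Q _ s => ?_
  · obtain ⟨l, -, rfl⟩ := Finset.mem_map.1 hd
    simp
  · obtain ⟨l, -, rfl⟩ := Finset.mem_map.1 hd
    exact re_shear (.inr l) (.inl l) (by simp only [pos]; omega) (-1)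
  · funext d
    rcases d with l | l <;> simp [sub_eq_add_neg]

theorem re_post (q : ℕ) : Re q (fun _ s => Sum.elim (fun l => s (.inl l))
    (fun l => s (.inl l) - s (.inr l))) := by
  classical
  refine (re_par (Finset.univ.map ⟨Sum.inr, Sum.inr_injective⟩) Sum.swap
    (fun Q _ x z => z - x) (fun d hd => ?_) fun d hd => ?_).congr fun Q _ s => ?_
  · obtain ⟨l, -, rfl⟩ := Finset.mem_map.1 hd
    simp
  · obtain ⟨l, -, rfl⟩ := Finset.mem_map.1 hd
    refine ((re_neg (.inr l)).comp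
      (re_shear (.inr l) (.inl l) (by simp only [pos]; omega) 1)).congr fun Q _ s => ?_
    simp only [update_idem, update_self, update_of_ne Sum.inl_ne_inr,
      Function.Embedding.coeFn_mk, Sum.swap_inr]
    congr 1
    push_cast
    ring
  · funext d
    rcases d with l | l <;> simp

end SW

open SW SU Q4 in
theorem swap_ex : ∃ q, 2 ≤ q ∧ SwapStmt q := by
  obtain ⟨q, hq, hq', p₂, C₂, h₂⟩ := net_ex (.self [.var 0, .var 1, .var 2, .var 3, .var 4])
  obtain ⟨p₁, C₁, h₁⟩ := re_pre q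
  obtain ⟨p₃, C₃, h₃⟩ := re_post q
  obtain ⟨p₀, C₀, h₀⟩ := nswap_ex
  let body : Prog := .ite (.var 0)
    (.call [.var 0 - 1, .var 1, .pow (.cst q) (.pow (.cst mu) (.var 0 - 1)), .var 3, .var 4]
      (p₁ ;; .call [.var 0, .var 1, .var 2, .var 3, .var 4 / .cst WW] p₂ ;; p₃))
    (.call [.var 1, .var 2, .var 3, .var 4] p₀)
  obtain ⟨C, hC⟩ : ∃ C, C = 2 * C₀ * q + C₁ + C₂ + C₃ + mu + 5 := ⟨_, rfl⟩
  have hW : 1 ≤ WW := by have := two_le_WW; omega
  have hsg := two_le_sg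
  have key : ∀ (B P J O F M I : ℕ), 1 ≤ P → 1 ≤ O → 1 ≤ M → F = q ^ mu ^ J → WW ^ J ∣ I →
      P * WW ^ J ≤ I → C * (O * F * M * F * I) ≤ B →
      SwAt B P body body J O F M I (C * (2 * sg ^ J - 1) * (O * F * M * F * I : ℕ)) := by
    intro B P J
    induction J with
    | zero =>
      intro O F M I hP hO hM hF _ h2 hB L hL
      simp only [pow_zero, pow_one, mul_one] at hF h2
      subst hF
      have hF := hq.pos
      obtain ⟨L', l', t, e⟩ := h₀ B P body O F M I L hP hO hF hM (hP.trans h2)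
        (le_of_mul C (by omega) hB (by ring)) hL
      refine ⟨L', l', (Go.iteF (env := [0, O, F, M, I]) rfl
        (Go.call rfl (by simp [Ok]) t)).top.mono ?_, e⟩
      have k2 : (P : ℝ) ≤ (O * F * M * F * I : ℕ) := by
        exact_mod_cast h2.trans (Nat.le_mul_of_pos_left _ (by positivity))
      have k3 := cle (C₀ * F) k2
      have k4 : (0 : ℝ) ≤ ((C₁ + C₂ + C₃ + mu + 3 : ℕ) : ℝ) * (O * F * M * F * I : ℕ) := by
        positivity
      rw [hC]
      push_cast at k2 k3 k4 ⊢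
      linarith
    | succ J ih =>
      intro O F M I hP hO hM hF h1 h2 hB L hL
      obtain ⟨Q, hQ⟩ : ∃ Q, Q = q ^ mu ^ J := ⟨_, rfl⟩
      have hFQ : F = Q ^ mu := by rw [hF, hQ, pow_succ, pow_mul]
      subst hFQ
      obtain ⟨I₁, rfl⟩ : WW ∣ I := (dvd_pow_self WW (by omega)).trans h1
      have h1' : WW ^ J ∣ I₁ := by
        rw [pow_succ'] at h1; exact Nat.dvd_of_mul_dvd_mul_left hW h1
      have h2' : P * WW ^ J ≤ I₁ := by
        rw [pow_succ', mul_left_comm] at h2; exact Nat.le_of_mul_le_mul_left h2 hW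
      change C * NN O Q M (WW * I₁) ≤ B at hB
      have eN : NN O Q M (WW * I₁) = WW * NN O Q M I₁ := by unfold NN; ring
      have hN1 : NN O Q M I₁ ≤ NN O Q M (WW * I₁) := eN ▸ Nat.le_mul_of_pos_left _ hW
      have hB1 : C * NN O Q M I₁ ≤ B := le_trans (Nat.mul_le_mul_left _ hN1) hB
      have hs1 : (1 : ℝ) ≤ sg ^ J := one_le_pow₀ (by linarith)
      have hx0 : (0 : ℝ) ≤ C * (2 * sg ^ J - 1) * (NN O Q M I₁ : ℕ) :=
        mul_nonneg (mul_nonneg (Nat.cast_nonneg _) (by linarith)) (Nat.cast_nonneg _)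
      have lv : Lv q B P body (.self [.var 0, .var 1, .var 2, .var 3, .var 4]) J O Q M I₁
          (C * (2 * sg ^ J - 1) * (NN O Q M I₁ : ℕ) + P) :=
        ⟨hP, hO, hM, hQ, h1', h2', by positivity, fun O' M' I' k1 k2 k3 k4 k5 L hL => by
          obtain ⟨L', l', t, e⟩ := ih O' Q M' I' hP k1 k2 hQ k3 k4 (k5 ▸ hB1) L hL
          rw [k5] at t
          exact ⟨L', l', (Go.self (env := [J, O', Q, M', I']) rfl (by simp [Ok]) t).top, e⟩⟩
      have cx1 := lv.cx hq.pos
      have cx : Cx q P O Q M (WW * I₁) :=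
        ⟨hP, hO, hM, cx1.hI.trans (Nat.le_mul_of_pos_left _ hW), cx1.hQ, cx1.cop⟩
      obtain ⟨L₁, g1, m1⟩ := h₁ B P body J O Q M _ L cx
        (le_trans (Nat.mul_le_mul_right _ (by omega)) hB) hL
      obtain ⟨L₂, g2, m2⟩ := h₂ B P body J O Q M I₁ _ L₁ lv
        (le_trans (Nat.mul_le_mul_right _ (by omega)) hB1) m1.1
      obtain ⟨L₃, g3, m3⟩ := h₃ B P body J O Q M _ L₂ cx
        (le_trans (Nat.mul_le_mul_right _ (by omega)) hB) m2.1
      have hQ1 := cx.hQ
      have hI1 : 1 ≤ I₁ := cx1.hP.trans cx1.hI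
      have b0 : NN O Q M I₁ ≤ B := le_of_mul C (by omega) hB1 (by ring)
      have b1 : I₁ ≤ B := le_of_mul (O * Q ^ mu * M * Q ^ mu) (one_le (by positivity)) b0
        (by unfold NN; ring)
      have b2 : Q ≤ B := (Nat.le_self_pow (n := mu) (by have := two_le_mu; omega) Q).trans
        (le_of_mul (O * M * Q ^ mu * I₁) (one_le (by positivity)) b0 (by unfold NN; ring))
      have b3 : mu ^ J ≤ B := (Nat.lt_pow_self hq.one_lt).le.trans (hQ ▸ b2)
      have b4 : J ≤ B := (Nat.lt_pow_self two_le_mu).le.trans b3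
      have g2' := Go.call (args := [.var 0, .var 1, .var 2, .var 3, .var 4 / .cst WW])
        (env := [J, O, Q, M, WW * I₁]) (by simp [Nat.mul_div_cancel_left _ hW])
        (by simp [Ok, b1]) g2.top
      have eQ : (Ex.pow (.cst q) (.pow (.cst mu) (.var 0 - 1))).ev B P
          [J + 1, O, Q ^ mu, M, WW * I₁] = Q := by
        have e1 : (Ex.pow (.cst mu) (.var 0 - 1)).ev B P [J + 1, O, Q ^ mu, M, WW * I₁] =
            mu ^ J := by
          rw [Ex.ev_pow] <;> simp [two_le_mu, b3]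
        rw [Ex.ev_pow, e1, hQ]
        · rfl
        · exact hq.two_le
        · rw [e1]; exact hQ ▸ b2
      have g := Go.iteT (e := .var 0) (q := .call [.var 1, .var 2, .var 3, .var 4] p₀)
        (env := [J + 1, O, Q ^ mu, M, WW * I₁]) (by simp)
        (Go.call (args := [.var 0 - 1, .var 1, .pow (.cst q) (.pow (.cst mu) (.var 0 - 1)),
          .var 3, .var 4]) (by simp [eQ]) (by simp [Ok, b2, b4]) (g1.seq (g2'.seq g3)).top)
      refine ⟨L₃, m3.1, g.top.mono ?_, fun o ho U hU y hy V hV i hi => ?_⟩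
      · change _ ≤ C * (2 * sg ^ (J + 1) - 1) * (NN O Q M (WW * I₁) : ℕ)
        have k1 : (1 : ℝ) ≤ P := by exact_mod_cast hP
        have k2 : (P : ℝ) ≤ (NN O Q M I₁ : ℕ) := by exact_mod_cast cx1.P_le
        have k3 : ((NN O Q M I₁ : ℕ) : ℝ) ≤ (NN O Q M (WW * I₁) : ℕ) := by exact_mod_cast hN1
        have k4 : ((WW : ℝ) * mu - 1) * (NN O Q M I₁ : ℕ) = sg * (NN O Q M (WW * I₁) : ℕ) := by
          have : (WW : ℝ) ≠ 0 := by positivity
          rw [eN, sg]; push_cast; field_simp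
        have k5 : ((WW : ℝ) * mu - 1) * P ≤ mu * (NN O Q M (WW * I₁) : ℕ) := by
          have := cle (WW * mu) k2
          rw [eN]; push_cast at this ⊢; linarith
        have k6 := cle C₂ k3
        generalize ((NN O Q M I₁ : ℕ) : ℝ) = N₁ at *
        generalize ((NN O Q M (WW * I₁) : ℕ) : ℝ) = N at *
        have k7 : (C : ℝ) * N ≤ C * (sg - 1) * N := by
          rw [mul_assoc]; exact cle C (by nlinarith)
        have k8 : ((C₁ : ℝ) + C₂ + C₃ + mu + 5) * N ≤ C * N := by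
          refine mul_le_mul_of_nonneg_right ?_ (by linarith)
          rw [hC]; push_cast
          have : (0 : ℝ) ≤ 2 * C₀ * q := by positivity
          linarith
        have k9 : ((WW : ℝ) * mu - 1) * (C * (2 * sg ^ J - 1) * N₁) =
            C * (2 * sg ^ J - 1) * (sg * N) := by rw [← k4]; ring
        rw [mul_add, k9, pow_succ]
        linarith
      · obtain ⟨u, rfl⟩ := zv_surj hQ1 hU
        obtain ⟨v, rfl⟩ := zv_surj hQ1 hV
        have := ((m1.comp m2).comp m3).2 o ho y hy i hi (Sum.elim u v)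
        simpa [ad, swad] using this
  refine ⟨q, hq.two_le, .fix body, 2 * C, fun B P r J O F M I hP hO hM hF h1 h2 hB L hL => ?_⟩
  obtain ⟨L', l', t, e⟩ := key B P J O F M I hP hO hM hF h1 h2
    (le_trans (Nat.mul_le_mul_right _ (by omega)) hB) L hL
  refine ⟨L', l', t.fix.mono ?_, e⟩
  have hF1 : 1 ≤ F := hF ▸ pow_pos hq.pos _
  have hI : 1 ≤ I := le_trans (Nat.mul_pos hP (pow_pos hW _)) h2
  have k1 : (1 : ℝ) ≤ (C * (O * F * M * F * I) : ℕ) := by
    have : 0 < C := by omega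
    exact_mod_cast one_le (by positivity)
  push_cast at k1 ⊢
  linarith

end Crest.Agent.IM
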