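import Crest.Agent.IM.P4
import Crest.Agent.IM.NetEx

/-! TASK IM-SU. One rank-one shear `u += 216⁻¹ (b ⬝ v) a` on addresses `(o, u, y, v, i)` with
`u, v ∈ (ℤ / Q) ^ mu`, using ONE exchange of two fields of size `Q`.
If `a = 0` or `b = 0` do nothing. Otherwise let `i₀` be the LARGEST index with `a i₀ ≠ 0`
(outermost), `j₀` the SMALLEST with `b j₀ ≠ 0` (innermost), `γ = a i₀ b j₀ / 216`. All shears
below are controlled by outer digits, i.e. are `rot` passes (first prove a lemma "add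
`n₁ n₂⁻¹ · (digit at an outer place)` to a digit", `n₂⁻¹ = n₂ ^ (φ Q - 1)` by `Ex.powmod`,
`φ Q = Q / q * (q - 1)`):
(1) `u l -= (a l / a i₀) u i₀` (`l < i₀`); (2) `v j₀ += (b l / b j₀) v l` (`l > j₀`);
(3) `u i₀ += γ v j₀` as: `v j₀ += γ⁻¹ u i₀`; exchange `u i₀` and `v j₀` (call `sw` with
`[J, O Q ^ (mu - 1 - i₀), Q, Q ^ i₀ M Q ^ (mu - 1 - j₀), Q ^ j₀ I]`); scale place `u i₀` by `γ`,
place `v j₀` by `-γ⁻¹` (`mulc`, `divc`; negation = `compl` then rotate by one);
`v j₀ += γ⁻¹ u i₀`; (4) undo (2); (5) undo (1). -/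

set_option autoImplicit false

namespace Crest.Agent.IM

/-- Specification of the exchange of two fields of size `F`. -/
def SwAt (B P : ℕ) (r sw : Prog) (J O F M I : ℕ) (x : ℝ) : Prop :=
  ∀ L : List Bool, L.length = O * F * M * F * I →
    ∃ L' : List Bool, L'.length = O * F * M * F * I ∧ Top B P r sw [J, O, F, M, I] L L' x ∧
      ∀ o < O, ∀ u < F, ∀ y < M, ∀ v < F, ∀ i < I,
        bit L' ((((o * F + v) * M + y) * F + u) * I + i) =
          bit L ((((o * F + u) * M + y) * F + v) * I + i)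

/-- Value of a digit vector. -/
def zv {Q : ℕ} (u : Fin mu → ZMod Q) : ℕ :=
  mr (fun _ => Q) 0 mu (fun l => if h : l < mu then (u ⟨l, h⟩).val else 0)

/-- Address in the shear layout. -/
def swad {Q : ℕ} (M I o : ℕ) (u : Fin mu → ZMod Q) (y : ℕ) (v : Fin mu → ZMod Q) (i : ℕ) : ℕ :=
  (((o * Q ^ mu + zv u) * M + y) * Q ^ mu + zv v) * I + i

namespace SU

open Q4 Function

/-- digit places -/
abbrev Dg : Type := Fin mu ⊕ Fin mu

/-- position of a digit place -/
def pos : Dg → ℕ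
  | .inl l => mu + 2 + l
  | .inr l => 1 + l

/-- number of positions -/
def DD : ℕ := 2 * mu + 3

theorem pos_inj : Injective pos := by
  rintro (a | a) (b | b) h <;> simp only [pos] at h
  · congr 1; ext; omega
  · have := b.2; omega
  · have := a.2; omega
  · congr 1; ext; omega

theorem pos_lt (d : Dg) : pos d < DD := by
  rcases d with a | a <;> have := a.2 <;> simp only [pos, DD] <;> omega

theorem pos_pos (d : Dg) : 1 ≤ pos d := by
  rcases d with a | a <;> simp only [pos] <;> omega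

/-- radices -/
def ns (O Q M I : ℕ) (l : ℕ) : ℕ :=
  if l = 0 then I else if l = mu + 1 then M else if l = 2 * mu + 2 then O else Q

theorem ns_pos (O Q M I : ℕ) (d : Dg) : ns O Q M I (pos d) = Q := by
  unfold ns
  rcases d with a | a <;> have := a.2 <;> simp only [pos] <;>
    rw [if_neg (by omega), if_neg (by omega), if_neg (by omega)]

open Classical in
/-- digits -/
noncomputable def dg {Q : ℕ} (o y i : ℕ) (s : Dg → ZMod Q) (l : ℕ) : ℕ :=
  if h : ∃ d, pos d = l then (s h.choose).val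
  else if l = 0 then i else if l = mu + 1 then y else o

theorem dg_pos {Q : ℕ} (o y i : ℕ) (s : Dg → ZMod Q) (d : Dg) : dg o y i s (pos d) = (s d).val := by
  have h : ∃ d', pos d' = pos d := ⟨d, rfl⟩
  rw [dg, dif_pos h, pos_inj h.choose_spec]

theorem dg_update {Q : ℕ} (o y i : ℕ) (s : Dg → ZMod Q) (d : Dg) (a : ZMod Q) :
    dg o y i (update s d a) = update (dg o y i s) (pos d) a.val := by
  funext l
  by_cases h : ∃ d', pos d' = l
  · obtain ⟨d', rfl⟩ := h
    by_cases e : d' = d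
    · subst e; rw [dg_pos, update_self, update_self]
    · rw [dg_pos, update_of_ne e, update_of_ne (pos_inj.ne e), dg_pos]
  · rw [update_of_ne fun e => h ⟨d, e.symm⟩, dg, dg, dif_neg h, dif_neg h]

theorem not_pos_iff {l : ℕ} (hl : l < DD) :
    (¬∃ d, pos d = l) ↔ l = 0 ∨ l = mu + 1 ∨ l = 2 * mu + 2 := by
  constructor
  · intro h
    by_contra h'
    apply h
    unfold DD at hl
    by_cases e : l ≤ mu
    · exact ⟨.inr ⟨l - 1, by omega⟩, by simp only [pos]; omega⟩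
    · exact ⟨.inl ⟨l - (mu + 2), by omega⟩, by simp only [pos]; omega⟩
  · rintro h ⟨a | a, rfl⟩ <;> have := a.2 <;> simp only [pos] at h <;> omega

theorem dg_lt {O Q M I o y i : ℕ} (hQ : 1 ≤ Q) (ho : o < O) (hy : y < M) (hi : i < I)
    (s : Dg → ZMod Q) {l : ℕ} (hl : l < DD) : dg o y i s l < ns O Q M I l := by
  by_cases h : ∃ d', pos d' = l
  · obtain ⟨d', rfl⟩ := h
    have : NeZero Q := ⟨by omega⟩
    rw [dg_pos, ns_pos]; exact ZMod.val_lt _
  · rw [dg, dif_neg h, ns]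
    rcases (not_pos_iff hl).1 h with rfl | rfl | rfl
    · simpa
    · simpa
    · rw [if_neg (by omega), if_neg (by omega), if_neg (by omega), if_neg (by omega), if_pos rfl]
      exact ho

theorem mr_shift {f : ℕ → ℕ} {Q a : ℕ} (n : ℕ) (x : ℕ → ℕ) (h : ∀ l < n, f (a + l) = Q) :
    pr f a (a + n) = Q ^ n ∧ mr f a (a + n) x = mr (fun _ => Q) 0 n (fun l => x (a + l)) := by
  induction n with
  | zero => simp
  | succ n ih =>
    obtain ⟨h1, h2⟩ := ih fun l hl => h l (by omega)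
    rw [← add_assoc, pr_succ (by omega), mr_succ (by omega), mr_succ (by omega), h1, h2,
      h n (by omega), pr_const, pow_succ']
    exact ⟨rfl, rfl⟩

/-- total size -/
def NN (O Q M I : ℕ) : ℕ := O * Q ^ mu * M * Q ^ mu * I

/-- address -/
def ad {Q : ℕ} (M I o y i : ℕ) (s : Dg → ZMod Q) : ℕ :=
  swad M I o (fun l => s (.inl l)) y (fun l => s (.inr l)) i

theorem ad_eq (O : ℕ) {Q : ℕ} (M I o y i : ℕ) (s : Dg → ZMod Q) :
    pr (ns O Q M I) 0 DD = NN O Q M I ∧ mr (ns O Q M I) 0 DD (dg o y i s) = ad M I o y i s := by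
  have hm := two_le_mu
  obtain ⟨p1, m1⟩ := mr_shift (f := ns O Q M I) (Q := Q) (a := 1) mu (dg o y i s)
    fun l hl => ns_pos O Q M I (.inr ⟨l, hl⟩)
  obtain ⟨p2, m2⟩ := mr_shift (f := ns O Q M I) (Q := Q) (a := mu + 2) mu (dg o y i s)
    fun l hl => ns_pos O Q M I (.inl ⟨l, hl⟩)
  have z1 : mr (fun _ => Q) 0 mu (fun l => dg o y i s (1 + l)) = zv fun l => s (.inr l) :=
    mr_congr (fun _ _ _ => rfl) fun l _ hl => by
      rw [dif_pos hl]; exact dg_pos o y i s (.inr ⟨l, hl⟩)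
  have z2 : mr (fun _ => Q) 0 mu (fun l => dg o y i s (mu + 2 + l)) = zv fun l => s (.inl l) :=
    mr_congr (fun _ _ _ => rfl) fun l _ hl => by
      rw [dif_pos hl]; exact dg_pos o y i s (.inl ⟨l, hl⟩)
  have n0 : ns O Q M I 0 = I := by simp [ns]
  have n1 : ns O Q M I (1 + mu) = M := by simp [ns, add_comm]
  have n2 : ns O Q M I (mu + 2 + mu) = O := by
    rw [ns, if_neg (by omega), if_neg (by omega), if_pos (by omega)]
  have d0 : dg o y i s 0 = i := by
    rw [dg, dif_neg ((not_pos_iff (by unfold DD; omega)).2 (by omega)), if_pos rfl]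
  have d1 : dg o y i s (1 + mu) = y := by
    rw [dg, dif_neg ((not_pos_iff (by unfold DD; omega)).2 (by omega)), if_neg (by omega),
      if_pos (by omega)]
  have d2 : dg o y i s (mu + 2 + mu) = o := by
    rw [dg, dif_neg ((not_pos_iff (by unfold DD; omega)).2 (by omega)), if_neg (by omega),
      if_neg (by omega)]
  have e1 : DD = mu + 2 + mu + 1 := by unfold DD; omega
  have e2 : mu + 2 = 1 + mu + 1 := by omega
  have q1 : pr (ns O Q M I) 0 (1 + mu) = Q ^ mu * I := by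
    rw [pr_split (b := 1) (by omega) (by omega), p1, pr_single (a := 0), n0]
  have q2 : pr (ns O Q M I) 0 (mu + 2) = M * (Q ^ mu * I) := by
    rw [e2, pr_succ (by omega), q1, n1]
  have q3 : pr (ns O Q M I) 0 (mu + 2 + mu) = Q ^ mu * (M * (Q ^ mu * I)) := by
    rw [pr_split (b := mu + 2) (by omega) (by omega), p2, q2]
  have r1 : mr (ns O Q M I) 0 (1 + mu) (dg o y i s) = (zv fun l => s (.inr l)) * I + i := by
    rw [mr_split (b := 1) (by omega) (by omega), m1, z1, pr_single (a := 0), mr_single (a := 0),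
      n0, d0]
  have r2 : mr (ns O Q M I) 0 (mu + 2) (dg o y i s) =
      y * (Q ^ mu * I) + ((zv fun l => s (.inr l)) * I + i) := by
    rw [e2, mr_succ (by omega), q1, r1, d1]
  constructor
  · rw [e1, pr_succ (by omega), q3, n2, NN]; ring
  · rw [e1, mr_succ (by omega), q3, d2, mr_split (b := mu + 2) (by omega) (by omega), m2, z2, q2,
      r2, ad, swad]
    ring

/-- expression for a radix -/
def er (l : ℕ) : Ex :=
  if l = 0 then .var 4 else if l = mu + 1 then .var 3 else if l = 2 * mu + 2 then .var 1 else .var 2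

/-- expression for a product of radices -/
def epr (a : ℕ) : ℕ → Ex
  | 0 => 1
  | n + 1 => er (a + n) * epr a n

theorem ev_epr (B P J O Q M I a n : ℕ) :
    (epr a n).ev B P [J, O, Q, M, I] = pr (ns O Q M I) a (a + n) := by
  induction n with
  | zero => simp [epr]
  | succ n ih =>
    rw [epr, Ex.ev_mul, ih, ← add_assoc, pr_succ (by omega)]
    congr 1
    unfold er ns
    split_ifs <;> rfl

/-- expression for `pr a b` -/
def ep (a b : ℕ) : Ex := epr a (b - a)

theorem ev_ep (B P J O Q M I : ℕ) {a b : ℕ} (h : a ≤ b) :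
    (ep a b).ev B P [J, O, Q, M, I] = pr (ns O Q M I) a b := by
  rw [ep, ev_epr, Nat.add_sub_cancel' h]

/-- Standing side conditions. -/
structure Cx (q P O Q M I : ℕ) : Prop where
  hP : 1 ≤ P
  hO : 1 ≤ O
  hM : 1 ≤ M
  hI : P ≤ I
  hQ : 1 ≤ Q
  cop : ∀ c : ℕ, c.Coprime q → c.Coprime Q

namespace Cx
variable {q P O Q M I : ℕ} (h : Cx q P O Q M I)
include h

theorem ns_pos' (l : ℕ) : 0 < ns O Q M I l := by
  have := h.hP; have := h.hO; have := h.hM; have := h.hI; have := h.hQ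
  unfold ns; split_ifs <;> omega

theorem pr_pos' (a b : ℕ) : 0 < pr (ns O Q M I) a b := pr_pos fun l _ _ => h.ns_pos' l

theorem three (d : Dg) :
    NN O Q M I = pr (ns O Q M I) (pos d + 1) DD * Q * pr (ns O Q M I) 0 (pos d) := by
  have _ := h
  rw [← (ad_eq O M I 0 0 0 (fun _ => (0 : ZMod Q))).1, pr_three (Nat.zero_le _) (pos_lt d), ns_pos]

theorem dvd_inner (d : Dg) : pr (ns O Q M I) 0 (pos d) = pr (ns O Q M I) 1 (pos d) * I := by
  have _ := h
  rw [pr_split (b := 1) (by omega) (pos_pos d), pr_single (a := 0)]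
  simp [ns]

theorem le_inner (d : Dg) : I ≤ pr (ns O Q M I) 0 (pos d) := by
  rw [h.dvd_inner]; exact Nat.le_mul_of_pos_left _ (h.pr_pos' _ _)

theorem P_le : P ≤ NN O Q M I := by
  have := h.hO; have := h.hM; have := h.hQ
  exact h.hI.trans (Nat.le_mul_of_pos_left _ (by positivity))

theorem unit {c : ℤ} (hc : c.natAbs.Coprime q) : (c : ZMod Q) * (c : ZMod Q)⁻¹ = 1 := by
  apply ZMod.mul_inv_of_unit
  have := (ZMod.isUnit_iff_coprime _ _).2 (h.cop _ hc)
  rcases Int.natAbs_eq c with e | e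
  · rw [e]; simpa using this
  · rw [e]; simpa using this.neg

end Cx

/-- `L'` arises from `L` by the address map `σ`. -/
def Mv (O Q M I : ℕ) (σ : (Dg → ZMod Q) → Dg → ZMod Q) (L L' : List Bool) : Prop :=
  L'.length = NN O Q M I ∧ ∀ o < O, ∀ y < M, ∀ i < I, ∀ s,
    bit L' (ad M I o y i (σ s)) = bit L (ad M I o y i s)

theorem Mv.comp {O Q M I : ℕ} {σ τ : (Dg → ZMod Q) → Dg → ZMod Q} {L L₁ L₂ : List Bool}
    (h : Mv O Q M I σ L L₁) (h' : Mv O Q M I τ L₁ L₂) : Mv O Q M I (fun s => τ (σ s)) L L₂ :=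
  ⟨h'.1, fun o ho y hy i hi s => (h'.2 o ho y hy i hi _).trans (h.2 o ho y hy i hi s)⟩

/-- The address map `σ` is realised in linear time. -/
def Re (q : ℕ) (σ : ∀ Q : ℕ, (Dg → ZMod Q) → Dg → ZMod Q) : Prop :=
  ∃ (p : Prog) (C : ℕ), ∀ (B P : ℕ) (r : Prog) (J O Q M I : ℕ) (L : List Bool),
    Cx q P O Q M I → C * NN O Q M I ≤ B → L.length = NN O Q M I →
    ∃ L', Go B P r p [J, O, Q, M, I] L [J, O, Q, M, I] L' (C * (NN O Q M I : ℕ)) ∧
      Mv O Q M I (σ Q) L L'

variable {q : ℕ}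

theorem Re.congr {σ τ : ∀ Q : ℕ, (Dg → ZMod Q) → Dg → ZMod Q} (h : Re q σ)
    (e : ∀ Q, (∀ c : ℤ, c.natAbs.Coprime q → (c : ZMod Q) * (c : ZMod Q)⁻¹ = 1) →
      ∀ s, σ Q s = τ Q s) : Re q τ := by
  obtain ⟨p, C, h⟩ := h
  refine ⟨p, C, fun B P r J O Q M I L cx hB hL => ?_⟩
  rw [← funext (e Q fun c hc => cx.unit hc)]
  exact h B P r J O Q M I L cx hB hL

theorem Re.id : Re q (fun _ s => s) :=
  ⟨.skip, 1, fun B P r J O Q M I L cx _ hL => ⟨L, Go.skip.mono (by
    have := cx.hP.trans cx.P_le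
    rw [Nat.cast_one, one_mul]; exact_mod_cast this), hL, fun _ _ _ _ _ _ _ => rfl⟩⟩

theorem Re.comp {σ τ : ∀ Q : ℕ, (Dg → ZMod Q) → Dg → ZMod Q} (h : Re q σ) (h' : Re q τ) :
    Re q (fun Q s => τ Q (σ Q s)) := by
  obtain ⟨p, C, h⟩ := h
  obtain ⟨p', C', h'⟩ := h'
  refine ⟨p ;; p', C + C' + 1, fun B P r J O Q M I L cx hB hL => ?_⟩
  obtain ⟨L₁, g1, m1⟩ := h B P r J O Q M I L cx (le_trans (Nat.mul_le_mul_right _ (by omega)) hB) hL
  obtain ⟨L₂, g2, m2⟩ := h' B P r J O Q M I L₁ cx (le_trans (Nat.mul_le_mul_right _ (by omega)) hB)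
    m1.1
  refine ⟨L₂, (g1.seq g2).mono ?_, m1.comp m2⟩
  have : (1 : ℝ) ≤ (NN O Q M I : ℕ) := by exact_mod_cast cx.hP.trans cx.P_le
  push_cast
  linarith

theorem ad_three {O Q M I o y i : ℕ} (s : Dg → ZMod Q) (d : Dg) (a : ZMod Q) :
    ad M I o y i (update s d a) =
      (mr (ns O Q M I) (pos d + 1) DD (dg o y i s) * Q + a.val) * pr (ns O Q M I) 0 (pos d) +
        mr (ns O Q M I) 0 (pos d) (dg o y i s) := by
  rw [← (ad_eq O M I o y i _).2, dg_update, mr_update (Nat.zero_le _) (pos_lt d), ns_pos]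

/-- A pass acting on one digit, from a procedure on the layout `(outer, digit, inner)`. -/
theorem re_digit (d : Dg) (p : Prog) (C c : ℕ) (g : ∀ Q : ℕ, ZMod Q → ZMod Q)
    (h : ∀ (B P : ℕ) (r : Prog) (O Q I : ℕ) (L : List Bool), 1 ≤ P → 1 ≤ O → 1 ≤ Q → 1 ≤ I →
      (∀ c : ℕ, c.Coprime q → c.Coprime Q) → (c + 1) * (O * Q * I) ≤ B → L.length = O * Q * I →
      ∃ L' : List Bool, L'.length = O * Q * I ∧
        Top B P r p [O, Q, I, c] L L' (C * (O * Q * I + P)) ∧
        ∀ o < O, ∀ x : ZMod Q, ∀ i < I,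
          bit L' ((o * Q + (g Q x).val) * I + i) = bit L ((o * Q + x.val) * I + i)) :
    Re q (fun Q s => update s d (g Q (s d))) := by
  refine ⟨.call [ep (pos d + 1) DD, .var 2, ep 0 (pos d), .cst c] p, 2 * C + c + 1,
    fun B P r J O Q M I L cx hB hL => ?_⟩
  have e3 := cx.three d
  have p1 := cx.pr_pos' (pos d + 1) DD
  have p2 := cx.pr_pos' 0 (pos d)
  have hQ := cx.hQ
  have hN := cx.hP.trans cx.P_le
  have hB' : (c + 1) * NN O Q M I ≤ B := le_trans (Nat.mul_le_mul_right _ (by omega)) hB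
  obtain ⟨L', l', t, e⟩ := h B P r _ Q _ L cx.hP p1 cx.hQ p2 cx.cop (e3 ▸ hB') (e3 ▸ hL)
  have b0 : NN O Q M I ≤ B := le_of_mul (c + 1) (by omega) hB' (by ring)
  have b1 : pr (ns O Q M I) (pos d + 1) DD ≤ B :=
    le_of_mul (Q * pr (ns O Q M I) 0 (pos d)) (one_le (by positivity)) b0 (by rw [e3]; ring)
  have b2 : pr (ns O Q M I) 0 (pos d) ≤ B :=
    le_of_mul (pr (ns O Q M I) (pos d + 1) DD * Q) (one_le (by positivity)) b0 (by rw [e3]; ring)
  have b3 : c ≤ B := by nlinarith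
  refine ⟨L', (Go.call (by simp [ev_ep, (pos_lt d).nat_succ_le]) (by simp [Ok, b1, b2, b3]) t).mono
    ?_, by rw [l', e3], fun o ho y hy i hi s => ?_⟩
  · have h1 : (P : ℝ) ≤ (NN O Q M I : ℕ) := by exact_mod_cast cx.P_le
    have h2 : ((NN O Q M I : ℕ) : ℝ) = (pr (ns O Q M I) (pos d + 1) DD : ℕ) * Q *
        (pr (ns O Q M I) 0 (pos d) : ℕ) := by rw [e3]; push_cast; ring
    rw [← h2]
    have h3 := cle C h1
    have h4 : (0 : ℝ) ≤ c * (NN O Q M I : ℕ) := by positivity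
    push_cast
    linarith
  · conv_rhs => rw [← update_eq_self d s]
    rw [ad_three (O := O), ad_three (O := O)]
    exact e _ (mr_lt fun l _ hl => dg_lt cx.hQ ho hy hi s hl) _ _
      (mr_lt fun l _ hl => dg_lt cx.hQ ho hy hi s (hl.trans (pos_lt d)))

theorem re_mulc (d : Dg) (c : ℕ) (hc : 1 ≤ c) (hcq : c.Coprime q) :
    Re q (fun Q s => update s d ((c : ZMod Q) * s d)) := by
  obtain ⟨p, C, h⟩ := mulc_ex
  refine re_digit d p (C * c ^ 2) c (fun Q x => (c : ZMod Q) * x)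
    fun B P r O Q I L hP hO hQ hI cop hB hL => ?_
  obtain ⟨L', l', t, e⟩ := h B P r O Q I c L hP hO hQ hI hc (cop c hcq)
    (le_trans (Nat.mul_le_mul_right _ (by omega)) hB) hL
  have : NeZero Q := ⟨by omega⟩
  refine ⟨L', l', t.mono (by push_cast; exact le_rfl), fun o ho x i hi => ?_⟩
  rw [← e o ho x.val (ZMod.val_lt _) i hi, ZMod.val_mul, ZMod.val_natCast, Nat.mod_mul_mod]

theorem re_divc (d : Dg) (c : ℕ) (hc : 1 ≤ c) (hcq : c.Coprime q) :
    Re q (fun Q s => update s d ((c : ZMod Q)⁻¹ * s d)) := by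
  obtain ⟨p, C, h⟩ := divc_ex
  refine re_digit d p (C * c ^ 2) c (fun Q x => (c : ZMod Q)⁻¹ * x)
    fun B P r O Q I L hP hO hQ hI cop hB hL => ?_
  obtain ⟨L', l', t, e⟩ := h B P r O Q I c L hP hO hQ hI hc
    (le_trans (Nat.mul_le_mul_right _ (by omega)) hB) hL
  have : NeZero Q := ⟨by omega⟩
  refine ⟨L', l', t.mono (by push_cast; exact le_rfl), fun o ho x i hi => ?_⟩
  rw [e o ho _ (ZMod.val_lt _) i hi, ← Nat.mod_mul_mod, ← ZMod.val_natCast Q c, ← ZMod.val_mul,
    ← mul_assoc, ZMod.coe_mul_inv_eq_one c (cop c hcq), one_mul]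

theorem re_compl (d : Dg) : Re q (fun _ s => update s d (-1 - s d)) := by
  obtain ⟨p, C, h⟩ := compl_ex
  refine re_digit d (.call [.var 0, .var 1, .var 2] p) (C + 1) 0 (fun Q x => -1 - x)
    fun B P r O Q I L hP hO hQ hI cop hB hL => ?_
  obtain ⟨L', l', t, e⟩ := h B P r O Q I L hP hO hQ hI (by omega) hL
  have : NeZero Q := ⟨by omega⟩
  refine ⟨L', l', (Go.call (env := [O, Q, I, 0]) rfl (by simp [Ok]) t).top.mono ?_,
    fun o ho x i hi => ?_⟩
  · have : (0 : ℝ) ≤ (O : ℝ) * Q * I := by positivity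
    push_cast; linarith
  · have hx := ZMod.val_lt x
    rw [← e o ho x.val hx i hi]
    have : (-1 - x : ZMod Q) = ((Q - 1 - x.val : ℕ) : ZMod Q) := by
      rw [Nat.cast_sub (by omega), Nat.cast_sub hQ]; simp
    rw [this, ZMod.val_natCast, Nat.mod_eq_of_lt (by omega)]

theorem mod_aux {a n Q lo : ℕ} (h : lo < n) : (a * n + lo) % (Q * n) = a % Q * n + lo := by
  rw [mul_comm Q, Nat.mod_mul, Nat.mul_add_mod_of_lt h, add_comm (a * n),
    Nat.add_mul_div_right _ _ (by omega), Nat.div_eq_of_lt h, zero_add]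
  ring

theorem re_rot (d : Dg) (e : Ex) (f : ∀ Q : ℕ, (Dg → ZMod Q) → ZMod Q)
    (h : ∀ (B P J O Q M I o y i : ℕ) (s : Dg → ZMod Q), 1 ≤ Q → o < O → y < M → i < I →
      ((e.ev B P (mr (ns O Q M I) (pos d + 1) DD (dg o y i s) :: [J, O, Q, M, I]) : ℕ) : ZMod Q) =
        f Q s) :
    Re q (fun Q s => update s d (s d + f Q s)) := by
  obtain ⟨p, C, hp⟩ := rot_ex (e * .drop 1 (ep 0 (pos d))) 5
  refine ⟨.call [ep (pos d + 1) DD, .var 2 * ep 0 (pos d), .var 0, .var 1, .var 2, .var 3, .var 4]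
    p, 3 * C + 1, fun B P r J O Q M I L cx hB hL => ?_⟩
  have e3 := cx.three d
  have p1 := cx.pr_pos' (pos d + 1) DD
  have p2 := cx.pr_pos' 0 (pos d)
  have hQ := cx.hQ
  have hN := cx.hP.trans cx.P_le
  have b0 : NN O Q M I ≤ B := le_of_mul (3 * C + 1) (by omega) hB (by ring)
  rw [mul_assoc] at e3
  obtain ⟨L', l', t, eq⟩ := hp B P r (pr (ns O Q M I) (pos d + 1) DD)
    (Q * pr (ns O Q M I) 0 (pos d)) [J, O, Q, M, I] L cx.hP rfl (one_le (by positivity))
    (e3 ▸ b0) (e3 ▸ hL)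
  have b1 : pr (ns O Q M I) (pos d + 1) DD ≤ B :=
    le_of_mul (Q * pr (ns O Q M I) 0 (pos d)) (one_le (by positivity)) b0 e3
  have b2 : Q * pr (ns O Q M I) 0 (pos d) ≤ B :=
    le_of_mul (pr (ns O Q M I) (pos d + 1) DD) p1 b0 (by rw [e3]; ring)
  refine ⟨L', (Go.call (by simp [ev_ep, (pos_lt d).nat_succ_le]) (by simp [Ok, b1, b2]) t).mono
    ?_, by rw [l', e3], fun o ho y hy i hi s => ?_⟩
  · have h1 : (P : ℝ) ≤ (NN O Q M I : ℕ) := by exact_mod_cast cx.P_le
    have h2 : ((NN O Q M I : ℕ) : ℝ) = (pr (ns O Q M I) (pos d + 1) DD : ℕ) *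
        (Q * pr (ns O Q M I) 0 (pos d) : ℕ) := by rw [e3]; push_cast; ring
    have h5 : ((pr (ns O Q M I) (pos d + 1) DD : ℕ) : ℝ) * P ≤ (NN O Q M I : ℕ) := by
      have : pr (ns O Q M I) (pos d + 1) DD * P ≤ NN O Q M I := by
        rw [e3]
        exact Nat.mul_le_mul_left _ ((cx.hI.trans (cx.le_inner d)).trans
          (Nat.le_mul_of_pos_left _ hQ))
      exact_mod_cast this
    rw [← h2]
    have h3 := cle C h1
    have h4 := cle C h5
    push_cast
    linarith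
  · have : NeZero Q := ⟨by omega⟩
    have hlo : mr (ns O Q M I) 0 (pos d) (dg o y i s) < pr (ns O Q M I) 0 (pos d) :=
      mr_lt fun l _ hl => dg_lt cx.hQ ho hy hi s (hl.trans (pos_lt d))
    have := eq _ (mr_lt fun l _ hl => dg_lt cx.hQ ho hy hi s hl) _ (lt_mul (ZMod.val_lt (s d)) hlo)
    conv_rhs => rw [← update_eq_self d s]
    rw [ad_three (O := O), ad_three (O := O)]
    rw [Ex.ev_mul, Ex.ev_drop, List.drop_one, List.tail_cons, ev_ep _ _ _ _ _ _ _ (Nat.zero_le _),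
      add_right_comm, ← add_mul, mod_aux hlo] at this
    rw [← h B P J O Q M I o y i s hQ ho hy hi, ZMod.val_add, ZMod.val_natCast, Nat.add_mod_mod]
    refine Eq.trans (Eq.trans ?_ this) ?_ <;> congr 1 <;> ring

theorem re_inc (d : Dg) : Re q (fun _ s => update s d (s d + 1)) :=
  re_rot d 1 (fun _ _ => 1) fun _ _ _ _ _ _ _ _ _ _ _ _ _ _ _ => by simp

theorem re_shear (d d' : Dg) (h : pos d < pos d') (κ : ℤ) :
    Re q (fun _ s => update s d (s d + κ * s d')) := by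
  refine re_rot d ((if κ < 0 then .var 3 - 1 else 1) * .cst κ.natAbs *
    (.var 0 / .drop 1 (ep (pos d + 1) (pos d')) % .var 3)) (fun Q s => κ * s d')
    fun B P J O Q M I o y i s hQ ho hy hi => ?_
  have : NeZero Q := ⟨by omega⟩
  have e := mr_digit (ns := ns O Q M I) (x := dg o y i s) (a := pos d + 1) (b := DD) h (pos_lt d')
    fun l _ hl => dg_lt hQ ho hy hi s (lt_of_le_of_lt hl (pos_lt d'))
  rw [ns_pos, dg_pos] at e
  simp only [Ex.ev_mul, Ex.ev_mod, Ex.ev_div, Ex.ev_drop, Ex.ev_var, Ex.ev_cst, List.drop_one,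
    List.tail_cons, List.getD_cons_zero, List.getD_cons_succ, ev_ep _ _ _ _ _ _ _ h.nat_succ_le, e]
  push_cast
  rw [ZMod.natCast_zmod_val]
  congr 1
  split_ifs with hk
  · have : ((κ.natAbs : ℕ) : ZMod Q) = -κ := by
      rw [← Int.cast_natCast, Int.ofNat_natAbs_of_nonpos hk.le, Int.cast_neg]
    simp [Nat.cast_sub hQ, this]
  · have : ((κ.natAbs : ℕ) : ZMod Q) = κ := by
      rw [← Int.cast_natCast, Int.natAbs_of_nonneg (not_lt.1 hk)]
    simp [this]

theorem re_neg (d : Dg) : Re q (fun _ s => update s d (-s d)) :=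
  ((re_compl d).comp (re_inc d)).congr fun Q _ s => by
    rw [update_idem, update_self]; congr 1; ring

theorem re_scale (d : Dg) (c : ℤ) (hc : c ≠ 0) (hcq : c.natAbs.Coprime q) :
    Re q (fun Q s => update s d ((c : ZMod Q) * s d)) := by
  have h := re_mulc d c.natAbs (Int.natAbs_pos.2 hc) hcq
  rcases Int.natAbs_eq c with e | e
  · exact h.congr fun Q _ s => by rw [← Int.cast_natCast, ← e]
  · exact (h.comp (re_neg d)).congr fun Q _ s => by
      rw [update_idem, update_self, ← neg_mul, ← Int.cast_natCast, ← Int.cast_neg, ← e]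

theorem re_unscale (d : Dg) (c : ℤ) (hc : c ≠ 0) (hcq : c.natAbs.Coprime q) :
    Re q (fun Q s => update s d ((c : ZMod Q)⁻¹ * s d)) := by
  have h := re_divc d c.natAbs (Int.natAbs_pos.2 hc) hcq
  rcases Int.natAbs_eq c with e | e
  · exact h.congr fun Q _ s => by rw [← Int.cast_natCast, ← e]
  · refine (h.comp (re_neg d)).congr fun Q hu s => ?_
    rw [update_idem, update_self, ← neg_mul]
    congr 2
    have h1 := hu c hcq
    have h2 := hu (c.natAbs : ℕ) (by rw [Int.natAbs_natCast]; exact hcq)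
    have h3 : (c : ZMod Q) = -((c.natAbs : ℕ) : ZMod Q) := by
      rw [← Int.cast_natCast, ← Int.cast_neg, ← e]
    rw [Int.cast_natCast] at h2
    generalize (c : ZMod Q)⁻¹ = x at h1
    rw [h3] at h1
    linear_combination (((c.natAbs : ℕ) : ZMod Q)⁻¹) * h1 + x * h2

theorem re_fshear (d d' : Dg) (h : pos d < pos d') (n₁ n₂ : ℤ) (hc : n₂ ≠ 0)
    (hcq : n₂.natAbs.Coprime q) :
    Re q (fun Q s => update s d (s d + n₁ * (n₂ : ZMod Q)⁻¹ * s d')) := by
  refine (((re_scale d n₂ hc hcq).comp (re_shear d d' h n₁)).comp (re_unscale d n₂ hc hcq)).congr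
    fun Q hu s => ?_
  have hne : d' ≠ d := fun e => by rw [e] at h; omega
  simp only [update_idem, update_self, update_of_ne hne]
  congr 1
  linear_combination (s d) * hu n₂ hcq

open Classical in
theorem re_par (T : Finset Dg) (ctl : Dg → Dg) (g : ∀ Q : ℕ, Dg → ZMod Q → ZMod Q → ZMod Q)
    (hctl : ∀ d ∈ T, ctl d ∉ T)
    (h : ∀ d ∈ T, Re q (fun Q s => update s d (g Q d (s d) (s (ctl d))))) :
    Re q (fun Q s d => if d ∈ T then g Q d (s d) (s (ctl d)) else s d) := by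
  suffices H : ∀ T' ⊆ T, Re q (fun Q s d => if d ∈ T' then g Q d (s d) (s (ctl d)) else s d) from
    H T le_rfl
  intro T' hT'
  induction T' using Finset.induction_on with
  | empty => exact Re.id.congr fun Q _ s => by simp
  | insert a T' ha ih =>
    have haT : a ∈ T := hT' (Finset.mem_insert_self _ _)
    have hs : T' ⊆ T := (Finset.subset_insert _ _).trans hT'
    refine ((ih hs).comp (h a haT)).congr fun Q _ s => ?_
    funext d
    by_cases e : d = a
    · subst e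
      have : ctl d ∉ T' := fun h => hctl d haT (hs h)
      simp [ha, this]
    · simp [e]

theorem re_sum (d : Dg) (T : Finset Dg) (κ : ∀ Q : ℕ, Dg → ZMod Q) (hd : d ∉ T)
    (h : ∀ d' ∈ T, Re q (fun Q s => update s d (s d + κ Q d' * s d'))) :
    Re q (fun Q s => update s d (s d + ∑ d' ∈ T, κ Q d' * s d')) := by
  classical
  induction T using Finset.induction_on with
  | empty => exact Re.id.congr fun Q _ s => by simp
  | insert a T ha ih =>
    have hne : a ≠ d := fun e => hd (e ▸ Finset.mem_insert_self _ _)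
    refine ((ih (fun h => hd (Finset.mem_insert_of_mem h))
      fun d' hd' => h d' (Finset.mem_insert_of_mem hd')).comp
        (h a (Finset.mem_insert_self _ _))).congr fun Q _ s => ?_
    simp only [update_idem, update_self, update_of_ne hne, Finset.sum_insert ha]
    congr 1; ring

/-- The exchange of two digits by a call of `sw`. -/
theorem exch (d d' : Dg) (h : pos d < pos d') (sw : Prog) {B P : ℕ} {r : Prog} {J O Q M I : ℕ}
    {x : ℝ} {L : List Bool} (cx : Cx q P O Q M I) (hB : NN O Q M I ≤ B) (h1 : WW ^ J ∣ I)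
    (h2 : P * WW ^ J ≤ I)
    (hs : ∀ O' M' I', 1 ≤ O' → 1 ≤ M' → WW ^ J ∣ I' → P * WW ^ J ≤ I' →
        O' * Q * M' * Q * I' = NN O Q M I → SwAt B P r sw J O' Q M' I' x)
    (hL : L.length = NN O Q M I) :
    ∃ L', Go B P r (.call [.var 0, ep (pos d' + 1) DD, .var 2, ep (pos d + 1) (pos d'),
        ep 0 (pos d)] sw) [J, O, Q, M, I] L [J, O, Q, M, I] L' (x + P) ∧
      Mv O Q M I (fun s => update (update s d' (s d)) d (s d')) L L' := by
  have e3 := cx.three d
  have p1 := cx.pr_pos' (pos d' + 1) DD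
  have p2 := cx.pr_pos' (pos d + 1) (pos d')
  have p3 := cx.pr_pos' 0 (pos d)
  have hQ := cx.hQ
  rw [pr_three (i := pos d') h (pos_lt d'), ns_pos] at e3
  obtain ⟨L', l', t, e⟩ := hs _ _ _ p1 p2 (h1.trans (by rw [cx.dvd_inner]; exact dvd_mul_left _ _))
    (h2.trans (cx.le_inner d)) e3.symm L (e3 ▸ hL)
  have b1 : pr (ns O Q M I) (pos d' + 1) DD ≤ B :=
    le_of_mul (Q * pr (ns O Q M I) (pos d + 1) (pos d') * Q * pr (ns O Q M I) 0 (pos d))
      (one_le (by positivity)) hB (by rw [e3]; ring)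
  have b2 : pr (ns O Q M I) (pos d + 1) (pos d') ≤ B :=
    le_of_mul (pr (ns O Q M I) (pos d' + 1) DD * Q * Q * pr (ns O Q M I) 0 (pos d))
      (one_le (by positivity)) hB (by rw [e3]; ring)
  have b3 : pr (ns O Q M I) 0 (pos d) ≤ B :=
    le_of_mul (pr (ns O Q M I) (pos d' + 1) DD * Q * pr (ns O Q M I) (pos d + 1) (pos d') * Q)
      (one_le (by positivity)) hB (by rw [e3]; ring)
  refine ⟨L', Go.call (by simp [ev_ep, (pos_lt d').nat_succ_le, h.nat_succ_le])
    (by simp [Ok, b1, b2, b3]) t, by rw [l', e3], fun o ho y hy i hi s => ?_⟩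
  have : NeZero Q := ⟨by omega⟩
  have hlt := fun l hl => dg_lt (O := O) cx.hQ ho hy hi s (l := l) hl
  have := e _ (mr_lt fun l _ hl => hlt l hl) _ (ZMod.val_lt (s d')) _
    (mr_lt fun l _ hl => hlt l (hl.trans (pos_lt d'))) _ (ZMod.val_lt (s d)) _
    (mr_lt fun l _ hl => hlt l (hl.trans (pos_lt d)))
  conv_rhs => rw [← update_eq_self d s]
  rw [ad_three (O := O), ad_three (O := O), dg_update, mr_update h (pos_lt d'),
    mr_update_of_not (by omega), mr_three (i := pos d') h (pos_lt d'), ns_pos, dg_pos]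
  exact this

end SU

open SU Q4 Function in
theorem unit_ex (q : ℕ) (hq : q.Prime) (hq' : 216 < q) (a b : Fin mu → ℤ)
    (ha : ∀ l, |a l| < q) (hb : ∀ l, |b l| < q) (sw : Prog) :
    ∃ (p : Prog) (C : ℕ), ∀ (B P : ℕ) (r : Prog) (J O Q M I : ℕ) (x : ℝ) (L : List Bool),
      1 ≤ P → 1 ≤ O → 1 ≤ M → Q = q ^ mu ^ J → WW ^ J ∣ I → P * WW ^ J ≤ I →
      C * (O * Q ^ mu * M * Q ^ mu * I) ≤ B → 0 ≤ x →
      (∀ O' M' I', 1 ≤ O' → 1 ≤ M' → WW ^ J ∣ I' → P * WW ^ J ≤ I' →
        O' * Q * M' * Q * I' = O * Q ^ mu * M * Q ^ mu * I → SwAt B P r sw J O' Q M' I' x) →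
      L.length = O * Q ^ mu * M * Q ^ mu * I →
      ∃ L' : List Bool, L'.length = O * Q ^ mu * M * Q ^ mu * I ∧
        Top B P r p [J, O, Q, M, I] L L' (x + C * (O * Q ^ mu * M * Q ^ mu * I)) ∧
        ∀ o < O, ∀ (u : Fin mu → ZMod Q), ∀ y < M, ∀ (v : Fin mu → ZMod Q), ∀ i < I,
          bit L' (swad M I o (fun l => u l + (216 : ZMod Q)⁻¹ *
              ((a l : ZMod Q) * ∑ l', (b l' : ZMod Q) * v l')) y v i) =
            bit L (swad M I o u y v i) := by
  classical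
  have mkCx : ∀ {P J O Q M I : ℕ}, 1 ≤ P → 1 ≤ O → 1 ≤ M → Q = q ^ mu ^ J → P * WW ^ J ≤ I →
      Cx q P O Q M I := fun {P J O Q M I} hP hO hM hQ hI =>
    ⟨hP, hO, hM, le_trans (Nat.le_mul_of_pos_right _ (pow_pos (by have := two_le_WW; omega) _)) hI,
      hQ ▸ pow_pos hq.pos _, fun c hc => hQ ▸ hc.pow_right _⟩
  by_cases h0 : (∀ l, a l = 0) ∨ ∀ l, b l = 0
  · refine ⟨.skip, 1, fun B P r J O Q M I x L hP hO hM hQ h1 h2 hB hx hs hL =>
      ⟨L, hL, Go.skip.top.mono ?_, fun o _ u y _ v i _ => ?_⟩⟩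
    · have cx := mkCx hP hO hM hQ h2
      have : (1 : ℝ) ≤ (NN O Q M I : ℕ) := by exact_mod_cast cx.hP.trans cx.P_le
      unfold NN at this
      push_cast at this ⊢
      linarith
    · rcases h0 with h0 | h0 <;> simp [h0]
  push Not at h0
  obtain ⟨⟨ia, hia⟩, ⟨ib, hib⟩⟩ := h0
  obtain ⟨i₀, hi₀, imax⟩ := Finset.exists_max_image (Finset.univ.filter fun l => a l ≠ 0) id
    ⟨ia, by simpa using hia⟩
  obtain ⟨j₀, hj₀, jmin⟩ := Finset.exists_min_image (Finset.univ.filter fun l => b l ≠ 0) id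
    ⟨ib, by simpa using hib⟩
  have hA : a i₀ ≠ 0 := by simpa using hi₀
  have hB' : b j₀ ≠ 0 := by simpa using hj₀
  have a0 : ∀ l, i₀ < l → a l = 0 := fun l hl => by
    by_contra h
    exact absurd (imax l (by simpa using h)) (not_le.2 hl)
  have b0 : ∀ l, l < j₀ → b l = 0 := fun l hl => by
    by_contra h
    exact absurd (jmin l (by simpa using h)) (not_le.2 hl)
  have cop : ∀ c : ℤ, c ≠ 0 → |c| < q → c.natAbs.Coprime q := fun c h1 h2 =>
    (Nat.coprime_of_lt_prime (Int.natAbs_pos.2 h1).ne' (by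
      have := Int.natCast_natAbs c
      omega) hq).symm
  have cA := cop _ hA (ha i₀)
  have cB := cop _ hB' (hb j₀)
  have c216 : (216 : ℤ).natAbs.Coprime q := cop _ (by norm_num) (by norm_num; exact_mod_cast hq')
  have cAB : (a i₀ * b j₀).natAbs.Coprime q := by rw [Int.natAbs_mul]; exact cA.mul_left cB
  have hAB : a i₀ * b j₀ ≠ 0 := mul_ne_zero hA hB'
  have hlt : pos (.inr j₀) < pos (.inl i₀) := by have := j₀.2; simp only [pos]; omega
  let T₁ : Finset Dg := (Finset.Iio i₀).map ⟨Sum.inl, Sum.inl_injective⟩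
  let T₂ : Finset Dg := (Finset.Ioi j₀).map ⟨Sum.inr, Sum.inr_injective⟩
  have s1 : ∀ ε : ℤ, Re q (fun Q s d => if d ∈ T₁ then
      s d + (ε * Sum.elim a b d : ℤ) * ((a i₀ : ℤ) : ZMod Q)⁻¹ * s (.inl i₀) else s d) := fun ε =>
    re_par T₁ (fun _ => .inl i₀)
      (fun Q d x z => x + (ε * Sum.elim a b d : ℤ) * ((a i₀ : ℤ) : ZMod Q)⁻¹ * z)
      (fun d _ => by simp [T₁]) fun d hd => by
        obtain ⟨l, hl, rfl⟩ := Finset.mem_map.1 hd
        refine re_fshear _ _ ?_ _ _ hA cA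
        have : (l : ℕ) < i₀ := Fin.lt_def.1 (Finset.mem_Iio.1 hl)
        simp only [pos, Function.Embedding.coeFn_mk]; omega
  let Sg : ∀ {Q : ℕ}, (Dg → ZMod Q) → ZMod Q := fun {Q} s =>
    ∑ l ∈ Finset.Ioi j₀, (b l : ZMod Q) * s (.inr l)
  have s2 : ∀ ε : ℤ, Re q (fun Q s => update s (.inr j₀) (s (.inr j₀) +
      ε * ((b j₀ : ℤ) : ZMod Q)⁻¹ * Sg s)) := fun ε =>
    (re_sum (.inr j₀) T₂ (fun Q d => (ε * Sum.elim a b d : ℤ) * ((b j₀ : ℤ) : ZMod Q)⁻¹) (by simp [T₂])
      fun d hd => by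
        obtain ⟨l, hl, rfl⟩ := Finset.mem_map.1 hd
        refine re_fshear _ _ ?_ _ _ hB' cB
        have : (j₀ : ℕ) < l := Fin.lt_def.1 (Finset.mem_Ioi.1 hl)
        simp only [pos, Function.Embedding.coeFn_mk]; omega).congr fun Q _ s => by
      rw [Finset.sum_map, Finset.mul_sum]
      congr 2
      refine Finset.sum_congr rfl fun l _ => ?_
      simp only [Function.Embedding.coeFn_mk, Sum.elim_inr]
      push_cast; ring
  have s3 := re_fshear (q := q) _ _ hlt 216 _ hAB cAB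
  obtain ⟨p₁, C₁, h₁⟩ := ((s1 (-1)).comp (s2 1)).comp s3
  obtain ⟨p₂, C₂, h₂⟩ := ((((((re_scale (.inl i₀) _ hAB cAB).comp
    (re_unscale (.inl i₀) 216 (by norm_num) c216)).comp
    (re_scale (.inr j₀) (-216) (by norm_num) (by simpa using c216))).comp
    (re_unscale (.inr j₀) _ hAB cAB)).comp s3).comp (s2 (-1))).comp (s1 1)
  refine ⟨p₁ ;; .call [.var 0, ep (pos (.inl i₀) + 1) DD, .var 2,
    ep (pos (.inr j₀) + 1) (pos (.inl i₀)), ep 0 (pos (.inr j₀))] sw ;; p₂, C₁ + C₂ + 3,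
    fun B P r J O Q M I x L hP hO hM hQ h1 h2 hB hx hs hL => ?_⟩
  have cx := mkCx hP hO hM hQ h2
  change (C₁ + C₂ + 3) * NN O Q M I ≤ B at hB
  obtain ⟨L₁, g1, m1⟩ := h₁ B P r J O Q M I L cx
    (le_trans (Nat.mul_le_mul_right _ (by omega)) hB) hL
  obtain ⟨L₂, g2, m2⟩ := exch _ _ hlt sw cx (le_of_mul (C₁ + C₂ + 3) (by omega) hB (by ring)) h1 h2
    hs m1.1
  obtain ⟨L₃, g3, m3⟩ := h₂ B P r J O Q M I L₂ cx
    (le_trans (Nat.mul_le_mul_right _ (by omega)) hB) m2.1
  refine ⟨L₃, m3.1, (g1.seq (g2.seq g3)).top.mono ?_, fun o ho u y hy v i hi => ?_⟩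
  · have k1 : (1 : ℝ) ≤ P := by exact_mod_cast hP
    have k2 : (P : ℝ) ≤ (NN O Q M I : ℕ) := by exact_mod_cast cx.P_le
    unfold NN at k2 ⊢
    push_cast at k2 ⊢
    linarith
  · have := ((m1.comp m2).comp m3).2 o ho y hy i hi (Sum.elim u v)
    refine Eq.trans ?_ this
    have uA := cx.unit cA
    have uB := cx.unit cB
    have uAB := cx.unit cAB
    have u216 := cx.unit c216
    have hsum : ∑ l', (b l' : ZMod Q) * v l' = b j₀ * v j₀ + Sg (Sum.elim u v) := by
      simp only [Sg, Sum.elim_inr]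
      rw [Finset.add_sum_Ioi_eq_sum_Ici (f := fun l => (b l : ZMod Q) * v l)]
      symm
      refine Finset.sum_subset (Finset.subset_univ _) fun l _ hl => ?_
      rw [b0 l (by simpa using hl)]; simp
    have g1 : ∀ (s : Dg → ZMod Q) z, Sg (update s (.inr j₀) z) = Sg s := fun s z =>
      Finset.sum_congr rfl fun l hl => by
        rw [update_of_ne (by simpa using (Finset.mem_Ioi.1 hl).ne')]
    have g2 : ∀ (s : Dg → ZMod Q) z, Sg (update s (.inl i₀) z) = Sg s := fun s z =>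
      Finset.sum_congr rfl fun l hl => by rw [update_of_ne (by simp)]
    have t1 : ∀ l, Sum.inl l ∈ T₁ ↔ l < i₀ := fun l => by simp [T₁]
    have t2 : ∀ l, Sum.inr l ∈ T₁ ↔ False := fun l => by simp [T₁]
    have g3 : ∀ (s s' : Dg → ZMod Q), Sg (fun d => if d ∈ T₁ then s' d else s d) = Sg s :=
      fun s s' => Finset.sum_congr rfl fun l hl => by simp only [t2, if_false]
    rw [hsum]
    simp only [g1, g2, g3]
    generalize Sg (Sum.elim u v) = S
    unfold ad
    push_cast at uAB u216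
    have key : (216 : ZMod Q)⁻¹ * (a i₀ * b j₀ * (v j₀ + 1 * ((b j₀ : ℤ) : ZMod Q)⁻¹ * S +
        216 * ((a i₀ : ZMod Q) * b j₀)⁻¹ * u i₀)) =
        u i₀ + (216 : ZMod Q)⁻¹ * (a i₀ * (b j₀ * v j₀ + S)) := by
      linear_combination ((216 : ZMod Q)⁻¹ * a i₀ * S) * uB +
        (u i₀ * (a i₀ * b j₀ * ((a i₀ : ZMod Q) * b j₀)⁻¹)) * u216 + u i₀ * uAB
    have hRA : ((a i₀ : ZMod Q) * b j₀)⁻¹ * a i₀ = ((b j₀ : ℤ) : ZMod Q)⁻¹ := by
      linear_combination (-(((a i₀ : ZMod Q) * b j₀)⁻¹ * a i₀)) * uB +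
        ((b j₀ : ℤ) : ZMod Q)⁻¹ * uAB
    have n1 : ∀ l l' : Fin mu, (Sum.inl l : Dg) ≠ Sum.inr l' := fun _ _ => Sum.inl_ne_inr
    have n2 : ∀ l l' : Fin mu, (Sum.inr l : Dg) ≠ Sum.inl l' := fun _ _ => Sum.inr_ne_inl
    congr 2
    · funext l
      simp only [t1, t2, if_false, lt_irrefl, update_self, update_of_ne (n1 _ _),
        update_of_ne (n2 _ _), Sum.elim_inl, Sum.elim_inr]
      rcases lt_trichotomy l i₀ with h | rfl | h
      · simp only [h, if_true, update_of_ne (Sum.inl_injective.ne h.ne), update_of_ne (n1 _ _),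
          t1, Sum.elim_inl]
        push_cast
        rw [key]
        linear_combination (-((216 : ZMod Q)⁻¹ * a l * (b j₀ * v j₀ + S))) * uA
      · simp only [lt_irrefl, if_false, update_self]
        push_cast
        rw [key]
      · simp only [h.not_gt, if_false, update_of_ne (Sum.inl_injective.ne h.ne'),
          update_of_ne (n1 _ _), t1, Sum.elim_inl, a0 l h]
        simp
    · funext l
      simp only [t1, t2, if_false, lt_irrefl, update_self, update_of_ne (n1 _ _),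
        update_of_ne (n2 _ _), Sum.elim_inl, Sum.elim_inr]
      by_cases h : l = j₀
      · subst h
        simp only [update_self]
        push_cast
        rw [key]
        linear_combination (-(((a i₀ : ZMod Q) * b l)⁻¹ * a i₀ * (b l * v l + S))) * u216 -
          (b l * v l + S) * hRA - v l * uB
      · simp only [update_of_ne (Sum.inr_injective.ne h), update_of_ne (n2 _ _), t2, if_false,
          Sum.elim_inr]

end Crest.Agent.IM
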