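import Crest.Agent.IM.Swap

/-! Auxiliary procedures for `Trans`: digit-by-digit moves and block rotations by exchanges. -/

set_option autoImplicit false

namespace Crest.Agent.IM.TT
open Q4

theorem split2 {a A B : ℕ} (h : a < A * B) : ∃ x < A, ∃ y < B, a = x * B + y := by
  have hB : 0 < B := Nat.pos_of_ne_zero (by rintro rfl; simp at h)
  exact ⟨a / B, (Nat.div_lt_iff_lt_mul hB).2 h, a % B, Nat.mod_lt _ hB,
    (Nat.div_add_mod' _ _).symm⟩

/-- Transposition of two adjacent fields. -/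
def Tr (O A A' I : ℕ) (L L' : List Bool) : Prop :=
  L'.length = O * A * A' * I ∧ ∀ o < O, ∀ a < A, ∀ a' < A', ∀ i < I,
    bit L' (((o * A' + a') * A + a) * I + i) = bit L (((o * A + a) * A' + a') * I + i)

theorem Tr.out {O X Y₁ Y₂ I : ℕ} {L L₁ L₂ : List Bool} (h : Tr O X Y₁ (Y₂ * I) L L₁)
    (h' : Tr (O * Y₁) X Y₂ I L₁ L₂) : Tr O X (Y₁ * Y₂) I L L₂ := by
  refine ⟨by rw [h'.1]; ring, fun o ho a ha a' ha' i hi => ?_⟩
  obtain ⟨y₁, h1, y₂, h2, rfl⟩ := split2 ha'
  have a2 := h'.2 _ (lt_mul ho h1) a ha y₂ h2 i hi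
  have a1 := h.2 o ho a ha y₁ h1 _ (lt_mul h2 hi)
  refine Eq.trans (Eq.trans ?_ a2) (Eq.trans (Eq.trans ?_ a1) ?_) <;> congr 1 <;> ring

theorem Tr.inn {O X₁ X₂ Y I : ℕ} {L L₁ L₂ : List Bool} (h : Tr (O * X₁) X₂ Y I L L₁)
    (h' : Tr O X₁ Y (X₂ * I) L₁ L₂) : Tr O (X₁ * X₂) Y I L L₂ := by
  refine ⟨by rw [h'.1]; ring, fun o ho a ha a' ha' i hi => ?_⟩
  obtain ⟨x₁, h1, x₂, h2, rfl⟩ := split2 ha
  have a2 := h'.2 o ho x₁ h1 a' ha' _ (lt_mul h2 hi)
  have a1 := h.2 _ (lt_mul ho h1) x₂ h2 a' ha' i hi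
  refine Eq.trans (Eq.trans ?_ a2) (Eq.trans (Eq.trans ?_ a1) ?_) <;> congr 1 <;> ring

theorem Tr.one_right {O X I : ℕ} {L : List Bool} (h : L.length = O * X * I) : Tr O X 1 I L L :=
  ⟨by rw [h]; ring, fun o _ a _ a' ha' i _ => by
    obtain rfl : a' = 0 := by omega
    simp⟩

theorem Tr.one_left {O Y I : ℕ} {L : List Bool} (h : L.length = O * Y * I) : Tr O 1 Y I L L :=
  ⟨by rw [h]; ring, fun o _ a ha a' _ i _ => by
    obtain rfl : a = 0 := by omega
    simp⟩

theorem lt_pw {q : ℕ} (hq : 2 ≤ q) (e : ℕ) : e < q ^ e := Nat.lt_pow_self (by omega)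

/-- move the `b` digits of the second field outwards -/
theorem out_ex {q : ℕ} (hq : 2 ≤ q) : ∃ (p : Prog) (C : ℕ), ∀ (B P : ℕ) (r : Prog) (O X b I : ℕ)
    (L : List Bool), 1 ≤ P → 1 ≤ O → 1 ≤ X → 1 ≤ I → O * X * q ^ b * I ≤ B →
    L.length = O * X * q ^ b * I →
    ∃ L', Top B P r p [O, X, b, I] L L' (C * (b + 1) * (O * X * q ^ b * I + P)) ∧
      Tr O X (q ^ b) I L L' := by
  obtain ⟨p, C, hp⟩ := tbw_ex
  refine ⟨.lett 0 (.loop (.var 3) (.call [.var 1 * Ex.pow (.cst q) (.var 0), .cst q, .var 2,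
    Ex.pow (.cst q) (.var 3 - .var 0 - 1) * .var 4] p ;; .set 0 (.var 0 + 1))), C * q + 4,
    fun B P r O X b I L hP hO hX hI hB hL => ?_⟩
  have hq0 : 0 < q := by omega
  have bb : q ^ b ≤ B := le_of_mul (O * X * I) (one_le (by positivity)) hB (by ring)
  obtain ⟨env', L', h1, rfl, h2⟩ := Go.loop (B := B) (P := P) (r := r)
    (p := .call [.var 1 * Ex.pow (.cst q) (.var 0), .cst q, .var 2,
      Ex.pow (.cst q) (.var 3 - .var 0 - 1) * .var 4] p ;; .set 0 (.var 0 + 1))
    (e := .var 3) (env := [0, O, X, b, I]) (L := L) (n := b) rfl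
    (fun i env L' => env = [i, O, X, b, I] ∧ Tr O X (q ^ i) (q ^ (b - i) * I) L L')
    (C * q * (O * X * q ^ b * I + P) + P + P + 1)
    ⟨rfl, Tr.one_right (by rw [hL, Nat.sub_zero]; ring)⟩ (by
      rintro i hi _ L₁ ⟨rfl, h⟩
      obtain ⟨d, rfl⟩ : ∃ d, b = i + 1 + d := ⟨b - i - 1, by omega⟩
      have e1 : i + 1 + d - i - 1 = d := by omega
      have e2 : i + 1 + d - i = d + 1 := by omega
      have e3 : i + 1 + d - (i + 1) = d := by omega
      rw [e2, pow_succ', mul_assoc] at h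
      have b1 : q ^ i ≤ B := le_of_mul (q * q ^ d) (one_le (by positivity)) bb (by ring)
      have b2 : q ^ d ≤ B := le_of_mul (q * q ^ i) (one_le (by positivity)) bb (by ring)
      have b3 : q ≤ B := le_of_mul (q ^ d * q ^ i) (one_le (by positivity)) bb (by ring)
      have b4 : O * q ^ i ≤ B := le_of_mul (X * q * q ^ d * I) (one_le (by positivity)) hB (by ring)
      have b5 : q ^ d * I ≤ B := le_of_mul (O * X * q * q ^ i) (one_le (by positivity)) hB (by ring)
      have b6 : i + 1 ≤ B := by have := lt_pw hq i; omega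
      obtain ⟨L₂, l2, t2, e⟩ := hp B P r (O * q ^ i) q X (q ^ d * I) L₁ hP hq0 hX
        (one_le (by positivity)) b3 (by rw [h.1]; ring)
      have g1 := Go.call (args := [.var 1 * Ex.pow (.cst q) (.var 0), .cst q, .var 2,
        Ex.pow (.cst q) (.var 3 - .var 0 - 1) * .var 4]) (env := [i, O, X, i + 1 + d, I])
        (by simp [Ex.ev_pow, hq, b1, b2, e1]) (by simp [Ok, b3, b4, b5]) t2
      have g2 : Go B P r (.set 0 (.var 0 + 1)) [i, O, X, i + 1 + d, I] L₂ _ L₂ P :=
        Go.set (v := i + 1) rfl (Or.inl b6)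
      refine ⟨_, L₂, (g1.seq g2).mono (le_of_eq ?_), rfl, ?_⟩
      · push_cast; ring
      · rw [e3, pow_succ]
        exact h.out ⟨by rw [l2]; ring, fun o ho a ha δ hδ i hi => e o ho δ hδ a ha i hi⟩)
  refine ⟨L', (Go.lett (v := 0) rfl (Or.inl (Nat.zero_le _)) h1).top.mono ?_, by simpa using h2⟩
  have hP1 : (1 : ℝ) ≤ P := by exact_mod_cast hP
  have hN : (0 : ℝ) ≤ (O : ℝ) * X * q ^ b * I := by positivity
  have hb : (0 : ℝ) ≤ b := by positivity
  have hC : (0 : ℝ) ≤ (C : ℝ) * q * (O * X * q ^ b * I + P) := by positivity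
  push_cast
  nlinarith [mul_nonneg hb hN, mul_nonneg hb (sub_nonneg.2 hP1)]

/-- move the `a` digits of the first field inwards -/
theorem in_ex {q : ℕ} (hq : 2 ≤ q) : ∃ (p : Prog) (C : ℕ), ∀ (B P : ℕ) (r : Prog) (O a Y I : ℕ)
    (L : List Bool), 1 ≤ P → 1 ≤ O → 1 ≤ Y → 1 ≤ I → O * q ^ a * Y * I ≤ B →
    L.length = O * q ^ a * Y * I →
    ∃ L', Top B P r p [O, a, Y, I] L L' (C * (a + 1) * (O * q ^ a * Y * I + P)) ∧
      Tr O (q ^ a) Y I L L' := by
  obtain ⟨p, C, hp⟩ := tfw_ex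
  refine ⟨.lett 0 (.loop (.var 2) (.call [.var 1 * Ex.pow (.cst q) (.var 2 - .var 0 - 1), .cst q,
    .var 3, Ex.pow (.cst q) (.var 0) * .var 4] p ;; .set 0 (.var 0 + 1))), C * q + 4,
    fun B P r O a Y I L hP hO hY hI hB hL => ?_⟩
  have hq0 : 0 < q := by omega
  have bb : q ^ a ≤ B := le_of_mul (O * Y * I) (one_le (by positivity)) hB (by ring)
  obtain ⟨env', L', h1, rfl, h2⟩ := Go.loop (B := B) (P := P) (r := r)
    (p := .call [.var 1 * Ex.pow (.cst q) (.var 2 - .var 0 - 1), .cst q,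
      .var 3, Ex.pow (.cst q) (.var 0) * .var 4] p ;; .set 0 (.var 0 + 1))
    (e := .var 2) (env := [0, O, a, Y, I]) (L := L) (n := a) rfl
    (fun i env L' => env = [i, O, a, Y, I] ∧ Tr (O * q ^ (a - i)) (q ^ i) Y I L L')
    (C * q * (O * q ^ a * Y * I + P) + P + P + 1)
    ⟨rfl, Tr.one_left (by rw [hL, Nat.sub_zero])⟩ (by
      rintro i hi _ L₁ ⟨rfl, h⟩
      obtain ⟨d, rfl⟩ : ∃ d, a = i + 1 + d := ⟨a - i - 1, by omega⟩
      have e1 : i + 1 + d - i - 1 = d := by omega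
      have e2 : i + 1 + d - i = d + 1 := by omega
      have e3 : i + 1 + d - (i + 1) = d := by omega
      rw [e2, pow_succ, ← mul_assoc] at h
      have b1 : q ^ i ≤ B := le_of_mul (q * q ^ d) (one_le (by positivity)) bb (by ring)
      have b2 : q ^ d ≤ B := le_of_mul (q * q ^ i) (one_le (by positivity)) bb (by ring)
      have b3 : q ≤ B := le_of_mul (q ^ d * q ^ i) (one_le (by positivity)) bb (by ring)
      have b4 : O * q ^ d ≤ B := le_of_mul (Y * q * q ^ i * I) (one_le (by positivity)) hB (by ring)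
      have b5 : q ^ i * I ≤ B := le_of_mul (O * Y * q * q ^ d) (one_le (by positivity)) hB (by ring)
      have b6 : i + 1 ≤ B := by have := lt_pw hq i; omega
      obtain ⟨L₂, l2, t2, e⟩ := hp B P r (O * q ^ d) q Y (q ^ i * I) L₁ hP hq0 hY
        (one_le (by positivity)) b3 (by rw [h.1]; ring)
      have g1 := Go.call (args := [.var 1 * Ex.pow (.cst q) (.var 2 - .var 0 - 1), .cst q,
        .var 3, Ex.pow (.cst q) (.var 0) * .var 4]) (env := [i, O, i + 1 + d, Y, I])
        (by simp [Ex.ev_pow, hq, b1, b2, e1]) (by simp [Ok, b3, b4, b5]) t2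
      have g2 : Go B P r (.set 0 (.var 0 + 1)) [i, O, i + 1 + d, Y, I] L₂ _ L₂ P :=
        Go.set (v := i + 1) rfl (Or.inl b6)
      refine ⟨_, L₂, (g1.seq g2).mono (le_of_eq ?_), rfl, ?_⟩
      · push_cast; ring
      · rw [e3, pow_succ']
        exact h.inn ⟨l2, e⟩)
  refine ⟨L', (Go.lett (v := 0) rfl (Or.inl (Nat.zero_le _)) h1).top.mono ?_, by simpa using h2⟩
  have hP1 : (1 : ℝ) ≤ P := by exact_mod_cast hP
  have hN : (0 : ℝ) ≤ (O : ℝ) * q ^ a * Y * I := by positivity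
  have hb : (0 : ℝ) ≤ a := by positivity
  have hC : (0 : ℝ) ≤ (C : ℝ) * q * (O * q ^ a * Y * I + P) := by positivity
  push_cast
  nlinarith [mul_nonneg hb hN, mul_nonneg hb (sub_nonneg.2 hP1)]

/-- Permutation of the `n` digits in base `F` of a field. -/
def Pm (O F n I : ℕ) (π : ℕ → ℕ) (L L' : List Bool) : Prop :=
  L'.length = O * F ^ n * I ∧ ∀ o < O, ∀ x : ℕ → ℕ, (∀ l < n, x l < F) → ∀ i < I,
    bit L' ((o * F ^ n + mr (fun _ => F) 0 n (fun l => x (π l))) * I + i) =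
      bit L ((o * F ^ n + mr (fun _ => F) 0 n x) * I + i)

theorem Pm.comp {O F n I : ℕ} {π π' : ℕ → ℕ} {L L₁ L₂ : List Bool} (h : Pm O F n I π L L₁)
    (h' : Pm O F n I π' L₁ L₂) (hπ : ∀ l < n, π l < n) :
    Pm O F n I (fun l => π (π' l)) L L₂ :=
  ⟨h'.1, fun o ho x hx i hi => (h'.2 o ho (fun l => x (π l)) (fun l hl => hx _ (hπ l hl)) i hi).trans
    (h.2 o ho x hx i hi)⟩

theorem Pm.congr {O F n I : ℕ} {π π' : ℕ → ℕ} {L L' : List Bool} (h : Pm O F n I π L L')
    (hπ : ∀ l < n, π l = π' l) : Pm O F n I π' L L' :=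
  ⟨h.1, fun o ho x hx i hi => by
    rw [← h.2 o ho x hx i hi, mr_congr (ns' := fun _ => F) (y := fun l => x (π l))
      (fun _ _ _ => rfl) (fun l _ hl => by rw [hπ l hl])]⟩

theorem mr_five (F a m c : ℕ) (x : ℕ → ℕ) :
    mr (fun _ => F) 0 (a + 1 + m + 1 + c) x =
      ((((mr (fun _ => F) (a + 1 + m + 1) (a + 1 + m + 1 + c) x * F + x (a + 1 + m)) * F ^ m +
        mr (fun _ => F) (a + 1) (a + 1 + m) x) * F + x a) * F ^ a + mr (fun _ => F) 0 a x) := by
  rw [mr_three (i := a) (Nat.zero_le _) (by omega),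
    mr_three (a := a + 1) (i := a + 1 + m) (by omega) (by omega), pr_const, pr_const]
  simp

/-- exchange of the digits at the places `s < s'` -/
theorem sw_ex {q : ℕ} (hq : 2 ≤ q) (h : SwapStmt q) : ∃ (p : Prog) (C : ℕ), 1 ≤ C ∧
    ∀ (B P : ℕ) (r : Prog) (j F O n s s' I : ℕ) (L : List Bool), 1 ≤ P → 1 ≤ O → F = q ^ mu ^ j →
    WW ^ j ∣ I → P * WW ^ j ≤ I → C * (O * F ^ n * I) ≤ B → s < s' → s' < n →
    L.length = O * F ^ n * I →
    ∃ L', Top B P r p [j, F, O, n, s, s', I] L L' (C * sg ^ j * (O * F ^ n * I) + P) ∧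
      Pm O F n I (fun l => if l = s then s' else if l = s' then s else l) L L' := by
  obtain ⟨p, C, hp⟩ := h
  refine ⟨.call [.var 0, .var 2 * Ex.pow (.var 1) (.var 3 - .var 5 - 1), .var 1,
    Ex.pow (.var 1) (.var 5 - .var 4 - 1), Ex.pow (.var 1) (.var 4) * .var 6] p, C + 1,
    by omega, fun B P r j F O n a s' I L hP hO hF hd hI hB h1 h2 hL => ?_⟩
  obtain ⟨m, rfl⟩ : ∃ m, s' = a + 1 + m := ⟨s' - a - 1, by omega⟩
  obtain ⟨c, rfl⟩ : ∃ c, n = a + 1 + m + 1 + c := ⟨n - (a + 1 + m) - 1, by omega⟩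
  have hmu : 0 < mu ^ j := pow_pos (by have := two_le_mu; omega) _
  have hF2 : 2 ≤ F := hF ▸ hq.trans (Nat.le_self_pow (by omega) q)
  have hF0 : 0 < F := by omega
  have hW : 0 < WW ^ j := pow_pos (by have := two_le_WW; omega) _
  have hI0 : 0 < I := lt_of_lt_of_le (by positivity) hI
  have eN : O * F ^ (a + 1 + m + 1 + c) * I = O * F ^ c * F * F ^ m * F * (F ^ a * I) := by ring
  have hB' : O * F ^ (a + 1 + m + 1 + c) * I ≤ B := le_of_mul (C + 1) (by omega) hB (by ring)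
  rw [eN] at hB'
  have b1 : O * F ^ c ≤ B := le_of_mul (F * F ^ m * F * (F ^ a * I)) (one_le (by positivity)) hB'
    (by ring)
  have b2 : F ^ c ≤ B := le_of_mul O hO b1 (by ring)
  have b3 : F ^ m ≤ B := le_of_mul (O * F ^ c * F * F * (F ^ a * I)) (one_le (by positivity)) hB'
    (by ring)
  have b4 : F ^ a * I ≤ B := le_of_mul (O * F ^ c * F * F * F ^ m) (one_le (by positivity)) hB'
    (by ring)
  have b5 : F ^ a ≤ B := le_of_mul I hI0 b4 rfl
  obtain ⟨L', l1, t1, e⟩ := hp B P r j (O * F ^ c) F (F ^ m) (F ^ a * I) hP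
    (one_le (by positivity)) (one_le (by positivity)) hF (hd.mul_left _)
    (hI.trans (Nat.le_mul_of_pos_left _ (by positivity)))
    (le_trans (by rw [eN]; nlinarith [Nat.zero_le (O * F ^ c * F * F ^ m * F * (F ^ a * I))]) hB)
    L (hL.trans eN)
  have e1 : a + 1 + m + 1 + c - (a + 1 + m) - 1 = c := by omega
  have e2 : a + 1 + m - a - 1 = m := by omega
  have g1 := Go.call (args := [.var 0, .var 2 * Ex.pow (.var 1) (.var 3 - .var 5 - 1), .var 1,
    Ex.pow (.var 1) (.var 5 - .var 4 - 1), Ex.pow (.var 1) (.var 4) * .var 6])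
    (env := [j, F, O, a + 1 + m + 1 + c, a, a + 1 + m, I])
    (by simp [Ex.ev_pow, hF2, b2, b3, b5, e1, e2]) (by simp [Ok, b1, b3, b4]) t1
  refine ⟨L', g1.top.mono ?_, l1.trans eN.symm, fun o ho x hx i hi => ?_⟩
  · have : (0 : ℝ) ≤ sg ^ j * (O * F ^ (a + 1 + m + 1 + c) * I) := by
      have := two_le_sg; positivity
    have eR : (O : ℝ) * F ^ c * F * F ^ m * F * (F ^ a * I) = O * F ^ (a + 1 + m + 1 + c) * I := by
      ring
    push_cast
    rw [eR]
    linarith
  · have k1 : mr (fun _ => F) (a + 1 + m + 1) (a + 1 + m + 1 + c) x < F ^ c := by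
      have := mr_lt (ns := fun _ => F) (a := a + 1 + m + 1) (b := a + 1 + m + 1 + c) (x := x)
        (fun l _ hl => hx l hl)
      rwa [pr_const, Nat.add_sub_cancel_left] at this
    have k2 : mr (fun _ => F) (a + 1) (a + 1 + m) x < F ^ m := by
      have := mr_lt (ns := fun _ => F) (a := a + 1) (b := a + 1 + m) (x := x)
        (fun l _ hl => hx l (by omega))
      rwa [pr_const, Nat.add_sub_cancel_left] at this
    have k3 : mr (fun _ => F) 0 a x < F ^ a := by
      have := mr_lt (ns := fun _ => F) (a := 0) (b := a) (x := x) (fun l _ hl => hx l (by omega))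
      rwa [pr_const] at this
    have a1 := e _ (lt_mul ho k1) _ (hx (a + 1 + m) (by omega)) _ k2 _ (hx a (by omega)) _
      (lt_mul k3 hi)
    have c1 : ∀ u v, (v ≤ a ∨ (a < u ∧ v ≤ a + 1 + m) ∨ a + 1 + m < u) →
        mr (fun _ => F) u v (fun l => x (if l = a then a + 1 + m else if l = a + 1 + m then a
          else l)) = mr (fun _ => F) u v x := fun u v huv =>
      mr_congr (fun _ _ _ => rfl) (fun l h3 h4 => by rw [if_neg (by omega), if_neg (by omega)])
    rw [mr_five, mr_five, c1 _ _ (by omega), c1 _ _ (by omega), c1 _ _ (by omega)]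
    simp only [if_true, show a + 1 + m ≠ a by omega, if_false]
    refine Eq.trans (Eq.trans ?_ a1) ?_ <;> congr 1 <;> ring

/-- reversal of the order of the digits at the places `c, …, c + m - 1` -/
theorem revb_ex {q : ℕ} (hq : 2 ≤ q) (h : SwapStmt q) : ∃ (p : Prog) (C : ℕ), 1 ≤ C ∧
    ∀ (B P : ℕ) (r : Prog) (j F O n c m I : ℕ) (L : List Bool), 1 ≤ P → 1 ≤ O → F = q ^ mu ^ j →
    WW ^ j ∣ I → P * WW ^ j ≤ I → C * (O * F ^ n * I) ≤ B → c + m ≤ n →
    L.length = O * F ^ n * I →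
    ∃ L', Top B P r p [j, F, O, n, c, m, I] L L' (C * (m * sg ^ j + 1) * (O * F ^ n * I)) ∧
      Pm O F n I (fun l => if c ≤ l ∧ l < c + m then 2 * c + m - 1 - l else l) L L' := by
  obtain ⟨p, C, hC, hp⟩ := sw_ex hq h
  refine ⟨.lett 0 (.loop (.var 6 / 2) (.call [.var 1, .var 2, .var 3, .var 4, .var 5 + .var 0,
    .var 5 + .var 6 - 1 - .var 0, .var 7] p ;; .set 0 (.var 0 + 1))), C + 5, by omega,
    fun B P r j F O n c m I L hP hO hF hd hI hB hcm hL => ?_⟩
  have hmu : 0 < mu ^ j := pow_pos (by have := two_le_mu; omega) _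
  have hF2 : 2 ≤ F := hF ▸ hq.trans (Nat.le_self_pow (by omega) q)
  have hF0 : 0 < F := by omega
  have hW : 0 < WW ^ j := pow_pos (by have := two_le_WW; omega) _
  have hI0 : 0 < I := lt_of_lt_of_le (by positivity) hI
  have hB1 : C * (O * F ^ n * I) ≤ B := le_trans (Nat.mul_le_mul_right _ (by omega)) hB
  have b1 : F ^ n ≤ B := le_of_mul (C * O * I) (one_le (by positivity)) hB1 (by ring)
  have b2 : n < B := (lt_pw hF2 n).trans_le b1
  obtain ⟨env', L', h1, rfl, h2⟩ := Go.loop (B := B) (P := P) (r := r)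
    (p := .call [.var 1, .var 2, .var 3, .var 4, .var 5 + .var 0,
      .var 5 + .var 6 - 1 - .var 0, .var 7] p ;; .set 0 (.var 0 + 1))
    (e := .var 6 / 2) (env := [0, j, F, O, n, c, m, I]) (L := L) (n := m / 2) rfl
    (fun i env L' => env = [i, j, F, O, n, c, m, I] ∧ Pm O F n I (fun l =>
      if (c ≤ l ∧ l < c + i) ∨ (c + m - i ≤ l ∧ l < c + m) then 2 * c + m - 1 - l else l) L L')
    (C * sg ^ j * (O * F ^ n * I) + P + P + P + 1)
    ⟨rfl, Pm.congr (π := fun l => l) ⟨hL, fun _ _ _ _ _ _ => rfl⟩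
      (fun l _ => by rw [if_neg (by omega)])⟩ (by
      rintro i hi _ L₁ ⟨rfl, h⟩
      obtain ⟨L₂, t2, e⟩ := hp B P r j F O n (c + i) (c + m - 1 - i) I L₁ hP hO hF hd hI hB1
        (by omega) (by omega) h.1
      have g1 := Go.call (args := [.var 1, .var 2, .var 3, .var 4, .var 5 + .var 0,
        .var 5 + .var 6 - 1 - .var 0, .var 7]) (env := [i, j, F, O, n, c, m, I])
        rfl (by
          have k1 : c + i ≤ B := by omega
          have k2 : c + m - 1 - i ≤ B := by omega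
          simp [Ok, k1, k2]) t2
      have g2 : Go B P r (.set 0 (.var 0 + 1)) [i, j, F, O, n, c, m, I] L₂ _ L₂ P :=
        Go.set (v := i + 1) rfl (Or.inl (by omega))
      refine ⟨_, L₂, g1.seq g2, rfl, (h.comp e (fun l hl => ?_)).congr (fun l hl => ?_)⟩
      · split_ifs <;> omega
      · split_ifs <;> omega)
  refine ⟨L', (Go.lett (v := 0) rfl (Or.inl (Nat.zero_le _)) h1).top.mono ?_,
    h2.congr (fun l hl => by split_ifs <;> omega)⟩
  have hP1 : (1 : ℝ) ≤ P := by exact_mod_cast hP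
  have hPN : (P : ℝ) ≤ O * F ^ n * I := by
    have : P ≤ O * F ^ n * I := ((Nat.le_mul_of_pos_right _ hW).trans hI).trans
      (Nat.le_mul_of_pos_left _ (by positivity))
    exact_mod_cast this
  have hs : (1 : ℝ) ≤ sg ^ j := one_le_pow₀ (by linarith [two_le_sg])
  have hm : ((m / 2 : ℕ) : ℝ) ≤ m := by exact_mod_cast Nat.div_le_self _ _
  have hm0 : (0 : ℝ) ≤ ((m / 2 : ℕ) : ℝ) := by positivity
  have hC0 : (0 : ℝ) ≤ C := by positivity
  generalize (O : ℝ) * F ^ n * I = N at *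
  generalize sg ^ j = s at *
  have k1 : (P : ℝ) ≤ s * N := by nlinarith
  have k2 : C * s * N + P + P + P + 1 + 1 ≤ (C + 5) * (s * N) := by nlinarith
  have k3 := mul_le_mul hm k2 (by have : (0 : ℝ) ≤ C * s * N := by
                                    have : 0 ≤ N := by linarith
                                    positivity
                                  linarith) (by linarith)
  push_cast
  nlinarith [mul_nonneg hC0 (by linarith : 0 ≤ N)]

theorem mr_shift (F a b c : ℕ) (x : ℕ → ℕ) :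
    mr (fun _ => F) a b (fun l => x (l + c)) = mr (fun _ => F) (a + c) (b + c) x := by
  unfold mr
  rw [← Finset.sum_Ico_add' (fun i => x i * pr (fun _ => F) (a + c) i)]
  refine Finset.sum_congr rfl fun i _ => ?_
  rw [pr_const, pr_const, Nat.add_sub_add_right]

/-- transposition of two fields made of blocks -/
theorem blk_ex {q : ℕ} (hq : 2 ≤ q) (h : SwapStmt q) : ∃ (p : Prog) (C : ℕ), 1 ≤ C ∧
    ∀ (B P : ℕ) (r : Prog) (j F O u' u I : ℕ) (L : List Bool), 1 ≤ P → 1 ≤ O → F = q ^ mu ^ j →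
    WW ^ j ∣ I → P * WW ^ j ≤ I → C * (O * F ^ u' * F ^ u * I) ≤ B →
    L.length = O * F ^ u' * F ^ u * I →
    ∃ L', Top B P r p [j, F, O, u', u, I] L L'
        (C * ((u + u') * sg ^ j + 1) * (O * F ^ u' * F ^ u * I)) ∧
      Tr O (F ^ u') (F ^ u) I L L' := by
  obtain ⟨p, C, hC, hp⟩ := revb_ex hq h
  refine ⟨.call [.var 0, .var 1, .var 2, .var 4 + .var 3, .var 4, .var 3, .var 5] p ;;
    .call [.var 0, .var 1, .var 2, .var 4 + .var 3, 0, .var 4, .var 5] p ;;
    .call [.var 0, .var 1, .var 2, .var 4 + .var 3, 0, .var 4 + .var 3, .var 5] p, 3 * C + 5,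
    by omega, fun B P r j F O u' u I L hP hO hF hd hI hB hL => ?_⟩
  have hmu : 0 < mu ^ j := pow_pos (by have := two_le_mu; omega) _
  have hF2 : 2 ≤ F := hF ▸ hq.trans (Nat.le_self_pow (by omega) q)
  have hF0 : 0 < F := by omega
  have hW : 0 < WW ^ j := pow_pos (by have := two_le_WW; omega) _
  have hI0 : 0 < I := lt_of_lt_of_le (by positivity) hI
  have eN : O * F ^ u' * F ^ u * I = O * F ^ (u + u') * I := by ring
  rw [eN] at hB hL
  have hB1 : C * (O * F ^ (u + u') * I) ≤ B := le_trans (Nat.mul_le_mul_right _ (by omega)) hB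
  have b1 : F ^ (u + u') ≤ B := le_of_mul (C * O * I) (one_le (by positivity)) hB1 (by ring)
  have b2 : u + u' ≤ B := (lt_pw hF2 _).le.trans b1
  obtain ⟨L₁, t1, e1⟩ := hp B P r j F O (u + u') u u' I L hP hO hF hd hI hB1 le_rfl hL
  obtain ⟨L₂, t2, e2⟩ := hp B P r j F O (u + u') 0 u I L₁ hP hO hF hd hI hB1 (by omega) e1.1
  obtain ⟨L₃, t3, e3⟩ := hp B P r j F O (u + u') 0 (u + u') I L₂ hP hO hF hd hI hB1 (by omega) e2.1
  have g1 := Go.call (args := [.var 0, .var 1, .var 2, .var 4 + .var 3, .var 4, .var 3, .var 5])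
    (env := [j, F, O, u', u, I]) rfl (by simp [Ok, b2]) t1
  have g2 := Go.call (args := [.var 0, .var 1, .var 2, .var 4 + .var 3, 0, .var 4, .var 5])
    (env := [j, F, O, u', u, I]) rfl (by simp [Ok, b2]) t2
  have g3 := Go.call (args := [.var 0, .var 1, .var 2, .var 4 + .var 3, 0, .var 4 + .var 3, .var 5])
    (env := [j, F, O, u', u, I]) rfl (by simp [Ok, b2]) t3
  have e := ((e1.comp e2 (fun l hl => by split_ifs <;> omega)).comp e3
    (fun l hl => by split_ifs <;> omega)).congr (π' := fun l => if l < u' then l + u else l - u')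
    (fun l hl => by split_ifs <;> omega)
  refine ⟨L₃, (g1.seq (g2.seq g3)).top.mono ?_, e.1.trans eN.symm, fun o ho a ha a' ha' i hi => ?_⟩
  · have hP1 : (1 : ℝ) ≤ P := by exact_mod_cast hP
    have hPN : (P : ℝ) ≤ O * F ^ (u + u') * I := by
      have : P ≤ O * F ^ (u + u') * I := ((Nat.le_mul_of_pos_right _ hW).trans hI).trans
        (Nat.le_mul_of_pos_left _ (by positivity))
      exact_mod_cast this
    have hs : (0 : ℝ) ≤ sg ^ j := by have := two_le_sg; positivity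
    have eN' : (O : ℝ) * F ^ u' * F ^ u * I = O * F ^ (u + u') * I := by ring
    rw [eN']
    generalize (O : ℝ) * F ^ (u + u') * I = N at *
    generalize sg ^ j = s at *
    have k0 : (0 : ℝ) ≤ N := by linarith
    have k1 : (0 : ℝ) ≤ C * (u * s) * N := by positivity
    have k2 : (0 : ℝ) ≤ C * (u' * s) * N := by positivity
    have k3 : (0 : ℝ) ≤ (u + u') * s * N := by positivity
    push_cast
    nlinarith
  · have hx : ∀ l, dig (fun _ => F) 0 (u + u') (a * F ^ u + a') l < F := fun l =>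
      dig_lt (ns := fun _ => F) hF0
    have a1 := e.2 o ho _ (fun l _ => hx l) i hi
    have v0 : mr (fun _ => F) 0 (u + u') (dig (fun _ => F) 0 (u + u') (a * F ^ u + a')) =
        a * F ^ u + a' := by
      rw [mr_dig (Nat.zero_le _), pr_const, Nat.sub_zero, Nat.mod_eq_of_lt]
      rw [add_comm u, pow_add]; exact lt_mul ha ha'
    generalize dig (fun _ => F) 0 (u + u') (a * F ^ u + a') = x at *
    have v1 := mr_div (ns := fun _ => F) (Nat.zero_le u) (Nat.le_add_right u u') (fun l _ _ => hx l)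
    have v2 := mr_mod (ns := fun _ => F) (Nat.zero_le u) (Nat.le_add_right u u') (fun l _ _ => hx l)
    rw [v0, pr_const, Nat.sub_zero, add_comm] at v1 v2
    rw [Nat.add_mul_div_right _ _ (by positivity), Nat.div_eq_of_lt ha', zero_add] at v1
    rw [Nat.add_mul_mod_self_right, Nat.mod_eq_of_lt ha'] at v2
    have v3 : mr (fun _ => F) 0 u' (fun l => x (if l < u' then l + u else l - u')) = a := by
      rw [mr_congr (ns' := fun _ => F) (y := fun l => x (l + u)) (fun _ _ _ => rfl)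
        (fun l _ hl => by rw [if_pos hl]), mr_shift, zero_add, add_comm, v1]
    have v4 : mr (fun _ => F) u' (u + u') (fun l => x (if l < u' then l + u else l - u')) = a' := by
      have := mr_shift F 0 u u' (fun l => x (if l < u' then l + u else l - u'))
      rw [zero_add] at this
      rw [← this, v2]
      exact mr_congr (fun _ _ _ => rfl) (fun l _ _ => by simp)
    rw [v0, mr_split (Nat.zero_le u') (Nat.le_add_left u' u), v3, v4, pr_const, Nat.sub_zero] at a1
    refine Eq.trans (Eq.trans ?_ a1) ?_ <;> congr 1 <;> ring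

end Crest.Agent.IM.TT
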