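import Mathlib

/-!
A small oblivious "vector machine": a control language on natural-number registers (each control
step costs `P`, all register values are bounded by `B`) driving bit operations on six stacks.
-/

set_option autoImplicit false

namespace Crest.Agent.IM

/-! ### expressions -/

/-- Control expressions; environments are lists (missing entries read as `0`). -/
inductive Ex : Type
  | var (i : ℕ)
  | cst (n : ℕ)
  | big
  | unit
  | add (a b : Ex)
  | sub (a b : Ex)
  | mul (a b : Ex)
  | div (a b : Ex)
  | mod (a b : Ex)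
  | ite (c a b : Ex)
  | size (a : Ex)
  | cb (a : Ex) (c : ℕ) (e : Ex)
  | drop (c : ℕ) (e : Ex)
  | fold (n init body : Ex)

/-- Value of an expression. `cb a c e` evaluates `e` in `a :: env.drop c`; `fold n init body` runs
`body` in `acc :: i :: env` for `i < min n (size B)`, truncating the accumulator at `B`. -/
def Ex.ev (B P : ℕ) : Ex → List ℕ → ℕ
  | .var i, env => env.getD i 0
  | .cst n, _ => n
  | .big, _ => B
  | .unit, _ => P
  | .add a b, env => a.ev B P env + b.ev B P env
  | .sub a b, env => a.ev B P env - b.ev B P env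
  | .mul a b, env => a.ev B P env * b.ev B P env
  | .div a b, env => a.ev B P env / b.ev B P env
  | .mod a b, env => a.ev B P env % b.ev B P env
  | .ite c a b, env => if c.ev B P env = 0 then b.ev B P env else a.ev B P env
  | .size a, env => (a.ev B P env).size
  | .cb a c e, env => e.ev B P (a.ev B P env :: env.drop c)
  | .drop c e, env => e.ev B P (env.drop c)
  | .fold n init body, env =>
      (List.range (min (n.ev B P env) B.size)).foldl
        (fun acc i => min (body.ev B P (acc :: i :: env)) B) (min (init.ev B P env) B)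

instance : Add Ex := ⟨Ex.add⟩
instance : Sub Ex := ⟨Ex.sub⟩
instance : Mul Ex := ⟨Ex.mul⟩
instance : Div Ex := ⟨Ex.div⟩
instance : Mod Ex := ⟨Ex.mod⟩
instance (n : ℕ) : OfNat Ex n := ⟨Ex.cst n⟩

namespace Ex
variable {B P : ℕ} {env : List ℕ}

@[simp] theorem ev_var (i : ℕ) : (var i).ev B P env = env.getD i 0 := rfl
@[simp] theorem ev_cst (n : ℕ) : (cst n).ev B P env = n := rfl
@[simp] theorem ev_ofNat (n : ℕ) : (no_index (OfNat.ofNat n : Ex)).ev B P env = n := rfl
@[simp] theorem ev_big : big.ev B P env = B := rfl
@[simp] theorem ev_unit : unit.ev B P env = P := rfl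
@[simp] theorem ev_add (a b : Ex) : (a + b).ev B P env = a.ev B P env + b.ev B P env := rfl
@[simp] theorem ev_sub (a b : Ex) : (a - b).ev B P env = a.ev B P env - b.ev B P env := rfl
@[simp] theorem ev_mul (a b : Ex) : (a * b).ev B P env = a.ev B P env * b.ev B P env := rfl
@[simp] theorem ev_div (a b : Ex) : (a / b).ev B P env = a.ev B P env / b.ev B P env := rfl
@[simp] theorem ev_mod (a b : Ex) : (a % b).ev B P env = a.ev B P env % b.ev B P env := rfl
@[simp] theorem ev_ite (c a b : Ex) : (Ex.ite c a b).ev B P env =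
    if c.ev B P env = 0 then b.ev B P env else a.ev B P env := rfl
@[simp] theorem ev_size (a : Ex) : (size a).ev B P env = (a.ev B P env).size := rfl
@[simp] theorem ev_cb (a : Ex) (c : ℕ) (e : Ex) :
    (cb a c e).ev B P env = e.ev B P (a.ev B P env :: env.drop c) := rfl
@[simp] theorem ev_drop (c : ℕ) (e : Ex) : (drop c e).ev B P env = e.ev B P (env.drop c) := rfl

/-- The rule for `fold`. -/
theorem ev_fold {n init body : Ex} {N : ℕ} (f : ℕ → ℕ) (hn : n.ev B P env = N) (hN : N ≤ B.size)
    (h0 : init.ev B P env = f 0) (hs : ∀ i < N, body.ev B P (f i :: i :: env) = f (i + 1))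
    (hb : ∀ i ≤ N, f i ≤ B) : (fold n init body).ev B P env = f N := by
  show List.foldl _ _ _ = _
  rw [hn, min_eq_left hN, h0, min_eq_left (hb 0 (Nat.zero_le _))]
  have : ∀ M ≤ N, (List.range M).foldl
      (fun acc i => min (body.ev B P (acc :: i :: env)) B) (f 0) = f M := by
    intro M hM
    induction M with
    | zero => rfl
    | succ M ih =>
      rw [List.range_succ, List.foldl_append, ih (by omega)]
      simp only [List.foldl_cons, List.foldl_nil]
      rw [hs M (by omega), min_eq_left (hb _ hM)]
  exact this N le_rfl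

theorem le_size_of_two_pow_le {n : ℕ} (h : 2 ^ n ≤ B) : n ≤ B.size :=
  (Nat.lt_size.2 h).le

/-- `app args body` evaluates `body` with the values of `args` pushed on the environment. -/
def app : List Ex → Ex → Ex
  | [], body => body
  | a :: as, body => app as (cb (drop as.length a) 0 body)

@[simp] theorem ev_app (args : List Ex) (body : Ex) :
    (app args body).ev B P env = body.ev B P (args.map (fun a => a.ev B P env) ++ env) := by
  induction args generalizing body with
  | nil => rfl
  | cons a as ih =>
    rw [app, ih]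
    simp

/-- `ifLt a b x y = if a < b then x else y`. -/
def ifLt (a b x y : Ex) : Ex := Ex.ite (b - a) x y

@[simp] theorem ev_ifLt (a b x y : Ex) : (ifLt a b x y).ev B P env =
    if a.ev B P env < b.ev B P env then x.ev B P env else y.ev B P env := by
  simp only [ifLt, ev_ite, ev_sub]
  split_ifs <;> first | rfl | omega

/-- `ifEq a b x y = if a = b then x else y`. -/
def ifEq (a b x y : Ex) : Ex := Ex.ite (b - a + (a - b)) y x

@[simp] theorem ev_ifEq (a b x y : Ex) : (ifEq a b x y).ev B P env =
    if a.ev B P env = b.ev B P env then x.ev B P env else y.ev B P env := by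
  simp only [ifEq, ev_ite, ev_sub, ev_add]
  split_ifs <;> first | rfl | omega

/-- minimum -/
def emin (a b : Ex) : Ex := a - (a - b)

@[simp] theorem ev_emin (a b : Ex) : (emin a b).ev B P env = min (a.ev B P env) (b.ev B P env) := by
  simp only [emin, ev_sub]; omega

/-- `sum n f = ∑ i < n, f (i :: env)` -/
def sum (n f : Ex) : Ex := fold n 0 (var 0 + drop 1 f)

theorem ev_sum {n f : Ex} (hN : n.ev B P env ≤ B.size)
    (hb : ∑ i ∈ Finset.range (n.ev B P env), f.ev B P (i :: env) ≤ B) :
    (sum n f).ev B P env = ∑ i ∈ Finset.range (n.ev B P env), f.ev B P (i :: env) := by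
  refine ev_fold (fun M => ∑ i ∈ Finset.range M, f.ev B P (i :: env)) rfl hN (by simp)
    (fun i _ => by simp [Finset.sum_range_succ]) (fun i hi => le_trans ?_ hb)
  exact Finset.sum_le_sum_of_subset (Finset.range_mono hi)

/-- `prod n f = ∏ i < n, f (i :: env)` -/
def prod (n f : Ex) : Ex := fold n 1 (var 0 * drop 1 f)

theorem ev_prod {n f : Ex} (hN : n.ev B P env ≤ B.size)
    (hpos : ∀ i < n.ev B P env, 1 ≤ f.ev B P (i :: env))
    (hb : ∏ i ∈ Finset.range (n.ev B P env), f.ev B P (i :: env) ≤ B) :
    (prod n f).ev B P env = ∏ i ∈ Finset.range (n.ev B P env), f.ev B P (i :: env) := by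
  refine ev_fold (fun M => ∏ i ∈ Finset.range M, f.ev B P (i :: env)) rfl hN (by simp)
    (fun i _ => by simp [Finset.prod_range_succ]) (fun i hi => le_trans ?_ hb)
  exact Finset.prod_le_prod_of_subset_of_one_le' (Finset.range_mono hi)
    (fun j hj _ => hpos j (Finset.mem_range.1 hj))

/-- powers -/
def pow (a n : Ex) : Ex := fold n 1 (var 0 * drop 2 a)

theorem ev_pow' {a n : Ex} (ha : 1 ≤ a.ev B P env) (hN : n.ev B P env ≤ B.size)
    (hb : a.ev B P env ^ n.ev B P env ≤ B) :
    (pow a n).ev B P env = a.ev B P env ^ n.ev B P env := by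
  refine ev_fold (fun M => a.ev B P env ^ M) rfl hN (by simp)
    (fun i _ => by simp [pow_succ]) (fun i hi => le_trans ?_ hb)
  exact Nat.pow_le_pow_right ha hi

theorem ev_pow {a n : Ex} (ha : 2 ≤ a.ev B P env) (hb : a.ev B P env ^ n.ev B P env ≤ B) :
    (pow a n).ev B P env = a.ev B P env ^ n.ev B P env :=
  ev_pow' (by omega) (le_size_of_two_pow_le ((Nat.pow_le_pow_left ha _).trans hb)) hb

/-- `powmod a n M = a ^ n % M` (square and multiply, most significant bit first) -/
def powmod (a n M : Ex) : Ex :=
  fold (size n) (1 % M)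
    (var 0 * var 0 * (Ex.ite (drop 2 (n / 1) / pow 2 (drop 2 (size n) - 1 - var 1) % 2)
      (drop 2 a) 1) % drop 2 M)

theorem ev_powmod {a n M : Ex} (hM : 1 ≤ M.ev B P env) (hMB : M.ev B P env ≤ B)
    (hn : n.ev B P env ≤ B) :
    (powmod a n M).ev B P env = a.ev B P env ^ n.ev B P env % M.ev B P env := by
  generalize hA : a.ev B P env = A
  generalize hN : n.ev B P env = N at hn
  generalize hQ : M.ev B P env = Q at hM hMB
  have := ev_fold (B := B) (P := P) (env := env) (n := size n) (init := 1 % M)
    (body := var 0 * var 0 * (Ex.ite (drop 2 (n / 1) / pow 2 (drop 2 (size n) - 1 - var 1) % 2)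
      (drop 2 a) 1) % drop 2 M) (N := N.size) (fun i => A ^ (N / 2 ^ (N.size - i)) % Q)
    (by simp [hN]) (Nat.size_le_size hn)
    (by simp [hQ, Nat.div_eq_of_lt (Nat.lt_size_self N)])
    (fun i hi => by
      have h2 : 2 ^ (N.size - 1 - i) ≤ N := by
        refine le_trans (Nat.pow_le_pow_right (by norm_num) (Nat.sub_le _ i)) ?_
        exact Nat.lt_size.1 (by omega)
      have hp : (pow 2 (drop 2 (size n) - 1 - var 1)).ev B P
          ((A ^ (N / 2 ^ (N.size - i)) % Q) :: i :: env) = 2 ^ (N.size - 1 - i) := by
        rw [ev_pow] <;> simp [hN]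
        omega
      simp only [ev_mod, ev_mul, ev_ite, ev_div, hp]
      simp only [ev_var, ev_drop, List.drop_succ_cons, List.drop_zero, ev_div, hN, hA, hQ,
        ev_ofNat, List.getD_cons_zero, Nat.div_one]
      have e1 : N.size - i = N.size - 1 - i + 1 := by omega
      have e2 : N.size - (i + 1) = N.size - 1 - i := by omega
      rw [e1, e2, pow_succ, ← Nat.div_div_eq_div_mul]
      generalize N / 2 ^ (N.size - 1 - i) = u
      have hm : ∀ x y : ℕ, x % Q * (x % Q) * y % Q = x * x * y % Q := fun x y =>
        ((Nat.mod_modEq x Q).mul (Nat.mod_modEq x Q)).mul_right y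
      rw [hm, ← pow_add]
      split_ifs with h
      · congr 1; rw [mul_one]; congr 1; omega
      · congr 1; rw [← pow_succ]; congr 1; omega)
    (fun i _ => (Nat.mod_lt _ hM).le.trans hMB)
  rw [powmod, this]; simp

end Ex

/-- Forward `n` environment entries starting at position `c`. -/
def fwd (c n : ℕ) : List Ex := (List.range n).map (fun i => Ex.var (c + i))

theorem ev_fwd {B P : ℕ} (l xs : List ℕ) {c n : ℕ} (hc : l.length = c) (hn : xs.length = n) :
    (fwd c n).map (fun e => e.ev B P (l ++ xs)) = xs := by
  subst hc hn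
  apply List.ext_getElem
  · simp [fwd]
  · intro i h1 h2
    simp [fwd, List.getD_eq_getElem?_getD, List.getElem?_append_right, h2]

theorem ev_fwd' {B P : ℕ} (env : List ℕ) {c n : ℕ} (h : env.length = c + n) :
    (fwd c n).map (fun e => e.ev B P env) = env.drop c := by
  conv_lhs => rw [← List.take_append_drop c env]
  exact ev_fwd _ _ (by simp; omega) (by simp; omega)

/-! ### stacks and vector programs -/

/-- The six stacks; `d` is the data stack. -/
inductive K : Type
  | d | a | b | c | e | f
  deriving DecidableEq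

/-- Stack contents (head of the list = top). -/
abbrev St := K → List Bool

/-- Explicit stack contents. -/
def mk6 (d a b c e f : List Bool) : St
  | .d => d | .a => a | .b => b | .c => c | .e => e | .f => f

/-- Only the data stack is non-empty. -/
def only (L : List Bool) : St := mk6 L [] [] [] [] []

section mk6
variable (d a b c e f x : List Bool)
@[simp] theorem mk6_d : mk6 d a b c e f .d = d := rfl
@[simp] theorem mk6_a : mk6 d a b c e f .a = a := rfl
@[simp] theorem mk6_b : mk6 d a b c e f .b = b := rfl
@[simp] theorem mk6_c : mk6 d a b c e f .c = c := rfl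
@[simp] theorem mk6_e : mk6 d a b c e f .e = e := rfl
@[simp] theorem mk6_f : mk6 d a b c e f .f = f := rfl
@[simp] theorem upd_d : Function.update (mk6 d a b c e f) .d x = mk6 x a b c e f := by
  funext k; cases k <;> simp [Function.update]
@[simp] theorem upd_a : Function.update (mk6 d a b c e f) .a x = mk6 d x b c e f := by
  funext k; cases k <;> simp [Function.update]
@[simp] theorem upd_b : Function.update (mk6 d a b c e f) .b x = mk6 d a x c e f := by
  funext k; cases k <;> simp [Function.update]
@[simp] theorem upd_c : Function.update (mk6 d a b c e f) .c x = mk6 d a b x e f := by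
  funext k; cases k <;> simp [Function.update]
@[simp] theorem upd_e : Function.update (mk6 d a b c e f) .e x = mk6 d a b c x f := by
  funext k; cases k <;> simp [Function.update]
@[simp] theorem upd_f : Function.update (mk6 d a b c e f) .f x = mk6 d a b c e x := by
  funext k; cases k <;> simp [Function.update]
end mk6

/-- Vector programs: bit operations in nested counted loops. -/
inductive V : Type
  | skip
  | seq (u v : V)
  | push (k : K) (b : Bool)
  | case (k : K) (t f : V)
  | rep (i : ℕ) (v : V)

/-- Effect of a vector program (`case` pops a bit, an empty stack reads as `false`). -/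
def V.run (cn : ℕ → ℕ) : V → St → St
  | .skip, s => s
  | .seq u v, s => v.run cn (u.run cn s)
  | .push k b, s => Function.update s k (b :: s k)
  | .case k t f, s =>
      if (s k).headD false then t.run cn (Function.update s k (s k).tail)
      else f.run cn (Function.update s k (s k).tail)
  | .rep i v, s => (v.run cn)^[cn i] s

/-- Cost of a vector program. -/
def V.cost (cn : ℕ → ℕ) : V → ℕ
  | .skip => 1
  | .seq u v => u.cost cn + v.cost cn + 1
  | .push _ _ => 1
  | .case _ t f => max (t.cost cn) (f.cost cn) + 1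
  | .rep i v => cn i * (v.cost cn + 1) + 1

/-! ### programs -/

/-- Control programs. -/
inductive Prog : Type
  | skip
  | seq (p q : Prog)
  | set (i : ℕ) (e : Ex)
  | lett (e : Ex) (p : Prog)
  | ite (e : Ex) (p q : Prog)
  | loop (e : Ex) (p : Prog)
  | call (args : List Ex) (p : Prog)
  | self (args : List Ex)
  | fix (p : Prog)
  | vec (cn : List Ex) (v : V)

/-- sequential composition -/
infixr:30 " ;; " => Prog.seq

/-- A value may be stored if it is at most `B` or already present in the environment. -/
def Ok (B : ℕ) (env : List ℕ) (v : ℕ) : Prop := v ≤ B ∨ v ∈ env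

/-- Big-step semantics with cost; the first program is the current recursion body. -/
inductive Exec (B P : ℕ) : Prog → Prog → List ℕ → St → List ℕ → St → ℕ → Prop
  | skip (r env σ) : Exec B P r .skip env σ env σ 1
  | seq {r p q env σ env₁ σ₁ env₂ σ₂ c₁ c₂} : Exec B P r p env σ env₁ σ₁ c₁ →
      Exec B P r q env₁ σ₁ env₂ σ₂ c₂ → Exec B P r (.seq p q) env σ env₂ σ₂ (c₁ + c₂ + 1)
  | set {r i e env σ} : Ok B env (e.ev B P env) →
      Exec B P r (.set i e) env σ (env.set i (e.ev B P env)) σ P
  | lett {r e p env σ env' σ' c} : Ok B env (e.ev B P env) →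
      Exec B P r p (e.ev B P env :: env) σ env' σ' c →
      Exec B P r (.lett e p) env σ env'.tail σ' (c + P)
  | iteT {r e p q env σ env' σ' c} : e.ev B P env ≠ 0 → Exec B P r p env σ env' σ' c →
      Exec B P r (.ite e p q) env σ env' σ' (c + P)
  | iteF {r e p q env σ env' σ' c} : e.ev B P env = 0 → Exec B P r q env σ env' σ' c →
      Exec B P r (.ite e p q) env σ env' σ' (c + P)
  | loop {r e p} (E : ℕ → List ℕ) (S : ℕ → St) (c : ℕ → ℕ) {n} : e.ev B P (E 0) = n →
      (∀ i < n, Exec B P r p (E i) (S i) (E (i + 1)) (S (i + 1)) (c i)) →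
      Exec B P r (.loop e p) (E 0) (S 0) (E n) (S n) (∑ i ∈ Finset.range n, (c i + 1) + P)
  | call {r args p env σ env' σ' c} : (∀ a ∈ args, Ok B env (a.ev B P env)) →
      Exec B P r p (args.map (fun a => a.ev B P env)) σ env' σ' c →
      Exec B P r (.call args p) env σ env σ' (c + P)
  | self {r args env σ env' σ' c} : (∀ a ∈ args, Ok B env (a.ev B P env)) →
      Exec B P r r (args.map (fun a => a.ev B P env)) σ env' σ' c →
      Exec B P r (.self args) env σ env σ' (c + P)
  | fix {r p env σ env' σ' c} : Exec B P p p env σ env' σ' c →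
      Exec B P r (.fix p) env σ env' σ' (c + 1)
  | vec (r cn v env σ) :
      Exec B P r (.vec cn v) env σ env
        (v.run (fun i => (cn.map (fun a => a.ev B P env)).getD i 0) σ)
        (v.cost (fun i => (cn.map (fun a => a.ev B P env)).getD i 0) + P)
  | mono {r p env σ env' σ' c c'} : Exec B P r p env σ env' σ' c → c ≤ c' →
      Exec B P r p env σ env' σ' c'

/-- Invariant rule for loops, with iteration-dependent real cost bounds. -/
theorem Exec.loop_inv {B P : ℕ} {r p : Prog} {e : Ex} {env : List ℕ} {σ : St} {n : ℕ}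
    (hn : e.ev B P env = n) (I : ℕ → List ℕ → St → Prop) (x : ℕ → ℝ) (h0 : I 0 env σ)
    (hs : ∀ i < n, ∀ env σ, I i env σ → ∃ env' σ', ∃ c : ℕ, (c : ℝ) ≤ x i ∧
      Exec B P r p env σ env' σ' c ∧ I (i + 1) env' σ') :
    ∃ env' σ', ∃ c : ℕ, (c : ℝ) ≤ ∑ i ∈ Finset.range n, (x i + 1) + P ∧
      Exec B P r (.loop e p) env σ env' σ' c ∧ I n env' σ' := by
  have key : ∀ m ≤ n, ∃ (E : ℕ → List ℕ) (S : ℕ → St) (c : ℕ → ℕ), E 0 = env ∧ S 0 = σ ∧
      I m (E m) (S m) ∧ ∀ i < m, (c i : ℝ) ≤ x i ∧
        Exec B P r p (E i) (S i) (E (i + 1)) (S (i + 1)) (c i) := by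
    intro m hm
    induction m with
    | zero => exact ⟨fun _ => env, fun _ => σ, fun _ => 0, rfl, rfl, h0, fun i hi => by omega⟩
    | succ m ih =>
      obtain ⟨E, S, c, h1, h2, h3, h4⟩ := ih (by omega)
      obtain ⟨env', σ', c', h5, h6, h7⟩ := hs m (by omega) _ _ h3
      refine ⟨Function.update E (m + 1) env', Function.update S (m + 1) σ',
        Function.update c m c', by simp [h1], by simp [h2], by simpa using h7, fun i hi => ?_⟩
      by_cases him : i = m
      · subst him; simpa using ⟨h5, h6⟩
      · rw [Function.update_of_ne him, Function.update_of_ne (by omega),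
          Function.update_of_ne (by omega), Function.update_of_ne (by omega),
          Function.update_of_ne (by omega)]
        exact h4 i (by omega)
  obtain ⟨E, S, c, h1, h2, h3, h4⟩ := key n le_rfl
  subst h1 h2
  refine ⟨E n, S n, _, ?_, Exec.loop E S c hn (fun i hi => (h4 i hi).2), h3⟩
  push_cast
  gcongr with i hi
  exact (h4 i (Finset.mem_range.1 hi)).1

/-! ### runs on the top of the data stack -/

/-- `p` replaces the top segment `L` of the data stack by `L'` (all other stacks empty before and
after), changing the registers from `env` to `env'`, at cost at most `x`. -/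
def Go (B P : ℕ) (r p : Prog) (env : List ℕ) (L : List Bool) (env' : List ℕ) (L' : List Bool)
    (x : ℝ) : Prop :=
  ∀ rest, ∃ c : ℕ, (c : ℝ) ≤ x ∧ Exec B P r p env (only (L ++ rest)) env' (only (L' ++ rest)) c

/-- Specification format of procedures. -/
def Top (B P : ℕ) (r p : Prog) (args : List ℕ) (L L' : List Bool) (x : ℝ) : Prop :=
  ∃ env', Go B P r p args L env' L' x

namespace Go
variable {B P : ℕ} {r p q : Prog} {env env' env₁ env₂ : List ℕ} {L L' L₁ L₂ : List Bool}
  {x y : ℝ}

theorem mono (h : Go B P r p env L env' L' x) (hx : x ≤ y) : Go B P r p env L env' L' y :=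
  fun rest => let ⟨c, h1, h2⟩ := h rest; ⟨c, h1.trans hx, h2⟩

theorem nonneg (h : Go B P r p env L env' L' x) : 0 ≤ x :=
  let ⟨c, h1, _⟩ := h []; (Nat.cast_nonneg c).trans h1

theorem frame (h : Go B P r p env L env' L' x) (M : List Bool) :
    Go B P r p env (L ++ M) env' (L' ++ M) x := fun rest => by
  simpa only [List.append_assoc] using h (M ++ rest)

theorem skip : Go B P r .skip env L env L 1 := fun _ => ⟨1, by simp, Exec.skip _ _ _⟩

theorem seq (h : Go B P r p env L env₁ L₁ x) (h' : Go B P r q env₁ L₁ env₂ L₂ y) :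
    Go B P r (p ;; q) env L env₂ L₂ (x + y + 1) := fun rest => by
  obtain ⟨c, h1, h2⟩ := h rest
  obtain ⟨c', h3, h4⟩ := h' rest
  exact ⟨_, by push_cast; linarith, h2.seq h4⟩

theorem set {i : ℕ} {e : Ex} {v : ℕ} (hv : e.ev B P env = v) (h : Ok B env v) :
    Go B P r (.set i e) env L (env.set i v) L P := fun _ => by
  subst hv; exact ⟨P, le_rfl, Exec.set h⟩

theorem lett {e : Ex} {v : ℕ} (hv : e.ev B P env = v) (h : Ok B env v)
    (hp : Go B P r p (v :: env) L env' L' x) :
    Go B P r (.lett e p) env L env'.tail L' (x + P) := fun rest => by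
  subst hv
  obtain ⟨c, h1, h2⟩ := hp rest
  exact ⟨_, by push_cast; linarith, Exec.lett h h2⟩

theorem iteT {e : Ex} (he : e.ev B P env ≠ 0) (hp : Go B P r p env L env' L' x) :
    Go B P r (.ite e p q) env L env' L' (x + P) := fun rest => by
  obtain ⟨c, h1, h2⟩ := hp rest
  exact ⟨_, by push_cast; linarith, Exec.iteT he h2⟩

theorem iteF {e : Ex} (he : e.ev B P env = 0) (hq : Go B P r q env L env' L' x) :
    Go B P r (.ite e p q) env L env' L' (x + P) := fun rest => by
  obtain ⟨c, h1, h2⟩ := hq rest
  exact ⟨_, by push_cast; linarith, Exec.iteF he h2⟩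

theorem call {args : List Ex} {vs : List ℕ} (hv : args.map (fun a => a.ev B P env) = vs)
    (hok : ∀ v ∈ vs, Ok B env v) (hp : Top B P r p vs L L' x) :
    Go B P r (.call args p) env L env L' (x + P) := fun rest => by
  subst hv
  obtain ⟨env', hp⟩ := hp
  obtain ⟨c, h1, h2⟩ := hp rest
  exact ⟨_, by push_cast; linarith,
    Exec.call (fun a ha => hok _ (List.mem_map.2 ⟨a, ha, rfl⟩)) h2⟩

theorem self {args : List Ex} {vs : List ℕ} (hv : args.map (fun a => a.ev B P env) = vs)
    (hok : ∀ v ∈ vs, Ok B env v) (hp : Top B P r r vs L L' x) :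
    Go B P r (.self args) env L env L' (x + P) := fun rest => by
  subst hv
  obtain ⟨env', hp⟩ := hp
  obtain ⟨c, h1, h2⟩ := hp rest
  exact ⟨_, by push_cast; linarith,
    Exec.self (fun a ha => hok _ (List.mem_map.2 ⟨a, ha, rfl⟩)) h2⟩

theorem fix (hp : Go B P p p env L env' L' x) : Go B P r (.fix p) env L env' L' (x + 1) :=
  fun rest => by
    obtain ⟨c, h1, h2⟩ := hp rest
    exact ⟨_, by push_cast; linarith, Exec.fix h2⟩

theorem vec {cn : List Ex} {v : V} {vs : List ℕ} (hv : cn.map (fun a => a.ev B P env) = vs)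
    (h : ∀ rest, v.run (fun i => vs.getD i 0) (only (L ++ rest)) = only (L' ++ rest))
    (hx : (v.cost (fun i => vs.getD i 0) : ℝ) ≤ x) :
    Go B P r (.vec cn v) env L env L' (x + P) := fun rest => by
  subst hv
  refine ⟨_, ?_, h rest ▸ Exec.vec r cn v env _⟩
  push_cast; linarith

/-- Invariant rule for loops (iteration-dependent cost). -/
theorem loop_sum {e : Ex} {n : ℕ} (hn : e.ev B P env = n) (I : ℕ → List ℕ → List Bool → Prop)
    (x : ℕ → ℝ) (h0 : I 0 env L)
    (hs : ∀ i < n, ∀ env L, I i env L → ∃ env' L', Go B P r p env L env' L' (x i) ∧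
      I (i + 1) env' L') :
    ∃ env' L', Go B P r (.loop e p) env L env' L' (∑ i ∈ Finset.range n, (x i + 1) + P) ∧
      I n env' L' := by
  have key : ∀ m ≤ n, ∃ (E : ℕ → List ℕ) (S : ℕ → List Bool), E 0 = env ∧ S 0 = L ∧
      I m (E m) (S m) ∧ ∀ i < m, Go B P r p (E i) (S i) (E (i + 1)) (S (i + 1)) (x i) := by
    intro m hm
    induction m with
    | zero => exact ⟨fun _ => env, fun _ => L, rfl, rfl, h0, fun i hi => by omega⟩
    | succ m ih =>
      obtain ⟨E, S, h1, h2, h3, h4⟩ := ih (by omega)
      obtain ⟨env', σ', h6, h7⟩ := hs m (by omega) _ _ h3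
      refine ⟨Function.update E (m + 1) env', Function.update S (m + 1) σ',
        by simp [h1], by simp [h2], by simpa using h7, fun i hi => ?_⟩
      by_cases him : i = m
      · subst him; simpa using h6
      · rw [Function.update_of_ne (by omega), Function.update_of_ne (by omega),
          Function.update_of_ne (by omega), Function.update_of_ne (by omega)]
        exact h4 i (by omega)
  obtain ⟨E, S, h1, h2, h3, h4⟩ := key n le_rfl
  subst h1 h2
  refine ⟨E n, S n, fun rest => ?_, h3⟩
  choose! c hc1 hc2 using fun i (hi : i < n) => h4 i hi rest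
  refine ⟨_, ?_, Exec.loop E (fun i => only (S i ++ rest)) c hn hc2⟩
  push_cast
  gcongr with i hi
  exact hc1 i (Finset.mem_range.1 hi)

/-- Invariant rule for loops (uniform cost). -/
theorem loop {e : Ex} {n : ℕ} (hn : e.ev B P env = n) (I : ℕ → List ℕ → List Bool → Prop)
    (x : ℝ) (h0 : I 0 env L)
    (hs : ∀ i < n, ∀ env L, I i env L → ∃ env' L', Go B P r p env L env' L' x ∧
      I (i + 1) env' L') :
    ∃ env' L', Go B P r (.loop e p) env L env' L' (n * (x + 1) + P) ∧ I n env' L' := by
  have := loop_sum hn I (fun _ => x) h0 hs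
  rwa [Finset.sum_const, Finset.card_range, nsmul_eq_mul] at this

theorem top (h : Go B P r p env L env' L' x) : Top B P r p env L L' x := ⟨_, h⟩

end Go

namespace Top
variable {B P : ℕ} {r p : Prog} {args : List ℕ} {L L' : List Bool} {x y : ℝ}

theorem mono (h : Top B P r p args L L' x) (hx : x ≤ y) : Top B P r p args L L' y :=
  let ⟨e, h⟩ := h; ⟨e, h.mono hx⟩

theorem nonneg (h : Top B P r p args L L' x) : 0 ≤ x := let ⟨_, h⟩ := h; h.nonneg

theorem frame (h : Top B P r p args L L' x) (M : List Bool) :
    Top B P r p args (L ++ M) (L' ++ M) x := let ⟨e, h⟩ := h; ⟨e, h.frame M⟩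

theorem fix (h : Top B P p p args L L' x) : Top B P r (.fix p) args L L' (x + 1) :=
  let ⟨e, h⟩ := h; ⟨e, h.fix⟩

end Top

/-- A straight-line sequence of programs. -/
def seqs : List Prog → Prog
  | [] => .skip
  | p :: l => p ;; seqs l

/-- Invariant rule for a sequence built from a list of instructions. -/
theorem Go.seqs_map {B P : ℕ} {r : Prog} {α : Type} (f : α → Prog) (x : α → ℝ)
    (I : List α → List ℕ → List Bool → Prop) (l : List α)
    (hs : ∀ a l', (a :: l') <:+ l → ∀ env L, I (a :: l') env L →
      ∃ env' L', Go B P r (f a) env L env' L' (x a) ∧ I l' env' L')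
    {env : List ℕ} {L : List Bool} (h0 : I l env L) :
    ∃ env' L', Go B P r (seqs (l.map f)) env L env' L' ((l.map (fun a => x a + 1)).sum + 1) ∧
      I [] env' L' := by
  induction l generalizing env L with
  | nil => exact ⟨env, L, by simpa [seqs] using Go.skip, h0⟩
  | cons a l ih =>
    obtain ⟨env₁, L₁, h1, h2⟩ := hs a l List.suffix_rfl env L h0
    obtain ⟨env₂, L₂, h3, h4⟩ := ih (fun b l' hb => hs b l' (hb.trans (List.suffix_cons _ _))) h2
    refine ⟨env₂, L₂, (h1.seq h3).mono (le_of_eq ?_), h4⟩
    simp only [List.map_cons, List.sum_cons]; ring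

end Crest.Agent.IM
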